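import Vale.Agent.P089.MathlibUsed

set_option linter.all false

section

section

/-!
# P089, assembly layer: descent of equivalences to dense subrings
-/

namespace Vale.Agent.P089.Asm

/-- Inverses of elements near `1` in a closed subring. -/
theorem inv_near_one_mem {A : Type} [NormedRing A] [CompleteSpace A] (S : Subring A)
    (hcl : IsClosed (S : Set A)) (g : A) (hg : g ∈ S) (h : ‖1 - g‖ < 1) :
    ∃ g' ∈ S, g * g' = 1 ∧ g' * g = 1 := by
  have ht : ‖1 - g‖ < 1 := h
  set u : Aˣ := Units.oneSub (1 - g) ht with hu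
  have huv : (u : A) = g := by
    rw [hu, Units.val_oneSub, sub_sub_cancel]
  refine ⟨↑u⁻¹, ?_, by rw [← huv, Units.mul_inv], by rw [← huv, Units.inv_mul]⟩
  have hsum : HasSum (fun n : ℕ => (1 - g) ^ n) (↑u⁻¹ : A) := by
    rw [hu]
    exact (summable_geometric_of_norm_lt_one ht).hasSum
  refine hcl.mem_of_tendsto hsum (Filter.Eventually.of_forall fun s => ?_)
  exact sum_mem fun n _ => S.pow_mem (S.sub_mem S.one_mem hg) n

/-- Equivalence of idempotents descends to a dense union of closed subrings. -/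
theorem mvn_descend {A : Type} [NormedRing A] [CompleteSpace A] (S : ℕ → Subring A)
    (hcl : ∀ k, IsClosed (S k : Set A)) (hmono : Monotone S)
    (hd : ∀ x : A, ∀ ε > 0, ∃ k, ∃ y ∈ S k, ‖x - y‖ < ε) (E F : A) (hE : E * E = E)
    (hF : F * F = F) (k : ℕ) (hEk : E ∈ S k) (hFk : F ∈ S k)
    (h : ∃ x y : A, x * y = E ∧ y * x = F) :
    ∃ k' ≥ k, ∃ x ∈ S k', ∃ y ∈ S k', x * y = E ∧ y * x = F := by
  obtain ⟨x, y, hxy, hyx⟩ := h
  -- the maps (a, b) ↦ E a F b E and F b E a F are continuous
  have hc1 : Continuous fun p : A × A => 1 - (1 - E + E * p.1 * F * (F * p.2 * E)) := by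
    fun_prop
  have hc2 : Continuous fun p : A × A => 1 - (1 - F + F * p.2 * E * (E * p.1 * F)) := by
    fun_prop
  have h1 : (1 : A) - (1 - E + E * x * F * (F * y * E)) = 0 := by
    have : E * x * F * (F * y * E) = E := by
      calc E * x * F * (F * y * E) = E * x * (F * F) * y * E := by noncomm_ring
        _ = E * x * (y * x) * y * E := by rw [hF, hyx]
        _ = E * (x * y) * (x * y) * E := by noncomm_ring
        _ = E := by rw [hxy, hE, hE, hE]
    rw [this]
    abel
  have h2 : (1 : A) - (1 - F + F * y * E * (E * x * F)) = 0 := by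
    have : F * y * E * (E * x * F) = F := by
      calc F * y * E * (E * x * F) = F * y * (E * E) * x * F := by noncomm_ring
        _ = F * y * (x * y) * x * F := by rw [hE, hxy]
        _ = F * (y * x) * (y * x) * F := by noncomm_ring
        _ = F := by rw [hyx, hF, hF, hF]
    rw [this]
    abel
  have ho1 : {p : A × A | ‖1 - (1 - E + E * p.1 * F * (F * p.2 * E))‖ < 1} ∈ nhds (x, y) := by
    refine (isOpen_lt hc1.norm continuous_const).mem_nhds ?_
    show ‖(1 : A) - (1 - E + E * x * F * (F * y * E))‖ < 1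
    rw [h1, norm_zero]
    exact one_pos
  have ho2 : {p : A × A | ‖1 - (1 - F + F * p.2 * E * (E * p.1 * F))‖ < 1} ∈ nhds (x, y) := by
    refine (isOpen_lt hc2.norm continuous_const).mem_nhds ?_
    show ‖(1 : A) - (1 - F + F * y * E * (E * x * F))‖ < 1
    rw [h2, norm_zero]
    exact one_pos
  obtain ⟨ε, hε, hball⟩ := Metric.mem_nhds_iff.1 (Filter.inter_mem ho1 ho2)
  obtain ⟨k₁, a, ha, hxa⟩ := hd x ε hε
  obtain ⟨k₂, b, hb, hyb⟩ := hd y ε hε
  have hab : (a, b) ∈ Metric.ball (x, y) ε := by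
    rw [Metric.mem_ball, Prod.dist_eq, max_lt_iff]
    constructor
    · show dist a x < ε
      rw [dist_comm, dist_eq_norm]
      exact hxa
    · show dist b y < ε
      rw [dist_comm, dist_eq_norm]
      exact hyb
  obtain ⟨hn1, hn2⟩ := hball hab
  set k' : ℕ := max k (max k₁ k₂) with hk'
  have hk1 : k ≤ k' := le_max_left _ _
  have hk2 : k₁ ≤ k' := (le_max_left _ _).trans (le_max_right _ _)
  have hk3 : k₂ ≤ k' := (le_max_right _ _).trans (le_max_right _ _)
  have hE' : E ∈ S k' := hmono hk1 hEk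
  have hF' : F ∈ S k' := hmono hk1 hFk
  set u : A := E * a * F with hu
  set v : A := F * b * E with hv
  have huS : u ∈ S k' := (S k').mul_mem ((S k').mul_mem hE' (hmono hk2 ha)) hF'
  have hvS : v ∈ S k' := (S k').mul_mem ((S k').mul_mem hF' (hmono hk3 hb)) hE'
  have hEu : E * u = u := by rw [hu, ← mul_assoc, ← mul_assoc, hE]
  have huF : u * F = u := by rw [hu, mul_assoc, hF]
  have hFv : F * v = v := by rw [hv, ← mul_assoc, ← mul_assoc, hF]
  have hvE : v * E = v := by rw [hv, mul_assoc, hE]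
  obtain ⟨g', hg'S, hgg, hg'g⟩ := inv_near_one_mem (S k') (hcl k') (1 - E + u * v)
    ((S k').add_mem ((S k').sub_mem (S k').one_mem hE') ((S k').mul_mem huS hvS)) hn1
  obtain ⟨h', hh'S, hhh, hh'h⟩ := inv_near_one_mem (S k') (hcl k') (1 - F + v * u)
    ((S k').add_mem ((S k').sub_mem (S k').one_mem hF') ((S k').mul_mem hvS huS)) hn2
  have e1 : E * (1 - E + u * v) = u * v := by
    rw [mul_add, mul_sub, mul_one, hE, sub_self, zero_add, ← mul_assoc, hEu]
  have e2 : (1 - E + u * v) * u = u * (1 - F + v * u) := by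
    rw [add_mul, sub_mul, one_mul, hEu, sub_self, zero_add, mul_add, mul_sub, mul_one, huF,
      sub_self, zero_add, mul_assoc]
  have e3 : F * (1 - F + v * u) = v * u := by
    rw [mul_add, mul_sub, mul_one, hF, sub_self, zero_add, ← mul_assoc, hFv]
  refine ⟨k', hk1, u, huS, v * g', (S k').mul_mem hvS hg'S, ?_, ?_⟩
  · rw [← mul_assoc, ← e1, mul_assoc, hgg, mul_one]
  · have e4 : g' * u = u * h' := by
      calc g' * u = g' * u * ((1 - F + v * u) * h') := by rw [hhh, mul_one]
        _ = g' * (u * (1 - F + v * u)) * h' := by noncomm_ring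
        _ = g' * ((1 - E + u * v) * u) * h' := by rw [e2]
        _ = (g' * (1 - E + u * v)) * u * h' := by noncomm_ring
        _ = u * h' := by rw [hg'g, one_mul]
    rw [mul_assoc, e4, ← mul_assoc, ← e3, mul_assoc, hhh, mul_one]

end Vale.Agent.P089.Asm
end
end

section

section

namespace Vale.Agent.P212

open Matrix

/-- Murray-von Neumann equivalence of idempotent matrices. -/
def MvN {R : Type} [Ring R] {ι κ : Type} [Fintype ι] [Fintype κ]
    (e : Matrix ι ι R) (f : Matrix κ κ R) : Prop :=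
  ∃ (x : Matrix ι κ R) (y : Matrix κ ι R), x * y = e ∧ y * x = f

/-- An idempotent square matrix over `R`. -/
structure IdemMat (R : Type) [Ring R] where
  size : ℕ
  mat : Matrix (Fin size) (Fin size) R
  idem : mat * mat = mat

/-- The idempotent matrix indexed by a finite type, as an element of `IdemMat`. -/
noncomputable def IdemMat.of {R : Type} [Ring R] {ι : Type} [Fintype ι]
    (e : Matrix ι ι R) (h : e * e = e) : IdemMat R where
  size := Fintype.card ι
  mat := e.submatrix (Fintype.equivFin ι).symm (Fintype.equivFin ι).symm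
  idem := by rw [submatrix_mul_equiv, h]

end Vale.Agent.P212
end
end

section

section

/-!
# P089: basic definitions (words, labelled graphs, coloured families, the group, blocks)
-/

namespace Vale.Agent.P089

/-! ### Words and labelled graphs -/

section LGraph

/-- `w` is reduced: no letter is followed by its inverse. -/
def Red {S : Type} (inv : S → S) (w : List S) : Prop := w.IsChain (fun a b => b ≠ inv a)

/-- A labelled graph: a partial deterministic action of the letters `S` with inverses `inv`. -/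
structure LGraph (S : Type) (inv : S → S) where
  Ω : Type
  E : Ω → S → Ω → Prop
  det : ∀ {x a y z}, E x a y → E x a z → y = z
  symm : ∀ {x a y}, E x a y → E y (inv a) x

variable {S : Type} {inv : S → S}

/-- The word `w` is readable from `x` to `y`. -/
def LGraph.Reads (L : LGraph S inv) : L.Ω → List S → L.Ω → Prop
  | x, [], y => x = y
  | x, a :: w, y => ∃ z, L.E x a z ∧ L.Reads z w y

/-- Small cancellation with girth function `g` and constant `1/K`. -/
structure LGraph.SC (L : LGraph S inv) (g : L.Ω → ℕ) (K : ℕ) : Prop where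
  g_pos : ∀ x, 0 < g x
  loop : ∀ x a, ¬ L.E x a x
  g_const : ∀ {x a y}, L.E x a y → g x = g y
  cyc : ∀ {x w}, w ≠ [] → Red inv w → L.Reads x w x → g x ≤ w.length
  piece : ∀ {x y w x' y'}, x ≠ y → Red inv w → L.Reads x w x' → L.Reads y w y' →
    K * w.length < g x

/-- Relators: `a · inv a` and the labels of closed walks. -/
def LGraph.rels (L : LGraph S inv) : Set (FreeGroup S) :=
  {r | ∃ a, r = FreeGroup.of a * FreeGroup.of (inv a)} ∪
    {r | ∃ x w, L.Reads x w x ∧ r = (w.map FreeGroup.of).prod}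

/-- The group presented by the labelled graph. -/
abbrev LGraph.Grp (L : LGraph S inv) : Type := PresentedGroup L.rels

/-- The element of the group given by a word. -/
def LGraph.val (L : LGraph S inv) (w : List S) : L.Grp :=
  (w.map fun a => (PresentedGroup.of a : L.Grp)).prod

end LGraph

/-- BLOCK A (Greendlinger's lemma, linear form). -/
def GLStatement : Prop :=
  ∀ (S : Type) (inv : S → S), (∀ a, inv (inv a) = a) →
    ∀ (L : LGraph S inv) (g : L.Ω → ℕ) (K : ℕ), 13 ≤ K → L.SC g K →
    ∀ w : List S, w ≠ [] → Red inv w → L.val w = 1 →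
    ∃ u a v x y b, w = u ++ a ++ v ∧ L.Reads x a y ∧ L.Reads y b x ∧
      K * b.length ≤ 3 * (a.length + b.length) ∧ g x ≤ a.length + b.length

/-! ### Edge counts in finite graphs -/

/-- number of ordered pairs of adjacent vertices of `R` (twice the number of edges inside). -/
noncomputable def eIn {V : Type} (X : SimpleGraph V) (R : Finset V) : ℕ :=
  Nat.card {p : V × V // p.1 ∈ R ∧ p.2 ∈ R ∧ X.Adj p.1 p.2}

/-- number of edges leaving `R`. -/
noncomputable def eOut {V : Type} (X : SimpleGraph V) (R : Finset V) : ℕ :=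
  Nat.card {p : V × V // p.1 ∈ R ∧ p.2 ∉ R ∧ X.Adj p.1 p.2}

/-! ### Families of coloured graphs -/

/-- Letters: ordered pairs of colours. The inverse letter is the swapped pair. -/
abbrev Letter (q : ℕ) : Type := Fin q × Fin q

/-- A family of finite coloured graphs `X m` on `Fin (n m)` with girth parameters `g m`. -/
structure Fam (q : ℕ) where
  n : ℕ → ℕ
  X : (m : ℕ) → SimpleGraph (Fin (n m))
  col : (m : ℕ) → Fin (n m) → Fin q
  g : ℕ → ℕ

/-- `F.Reads m x w y`: the word `w` is the sequence of letters (colour pairs) of a walk from `x`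
to `y` in `X m`. -/
def Fam.Reads {q : ℕ} (F : Fam q) (m : ℕ) : Fin (F.n m) → List (Letter q) → Fin (F.n m) → Prop
  | x, [], y => x = y
  | x, a :: w, y => ∃ z, (F.X m).Adj x z ∧ a = (F.col m x, F.col m z) ∧ F.Reads m z w y

/-- The family is well coloured with piece constant `1/K`. -/
structure Fam.Coloured {q : ℕ} (F : Fam q) (K : ℕ) : Prop where
  g_large : ∀ m, K ≤ F.g m
  proper : ∀ m x y, (F.X m).Adj x y → F.col m x ≠ F.col m y
  dist2 : ∀ m x y z, (F.X m).Adj x y → (F.X m).Adj x z → F.col m y = F.col m z → y = z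
  piece : ∀ m x w x' m' y y', Red Prod.swap w → F.Reads m x w x' → F.Reads m' y w y' →
    (⟨m, x⟩ : Σ m, Fin (F.n m)) ≠ ⟨m', y⟩ → K * w.length < F.g m

/-- The graphs of the family are connected, of degree at most `D`, girth at least `g m`, size at
most `2 ^ (c * g m)`, edge expansion at least `6`, and small sets (at most `n / e` vertices) are
sparse. -/
structure Fam.Expander {q : ℕ} (F : Fam q) (D c e : ℕ) : Prop where
  two : ∀ m, 2 ≤ F.n m
  conn : ∀ m, (F.X m).Connected
  deg : ∀ m x, Nat.card {y // (F.X m).Adj x y} ≤ D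
  girth : ∀ m, (F.g m : ℕ∞) ≤ (F.X m).egirth
  g_pos : ∀ m, 0 < F.g m
  size : ∀ m, F.n m ≤ 2 ^ (c * F.g m)
  expand : ∀ m (R : Finset (Fin (F.n m))), 2 * R.card ≤ F.n m → 6 * R.card ≤ eOut (F.X m) R
  sparse : ∀ m (R : Finset (Fin (F.n m))), e * R.card ≤ F.n m → eIn (F.X m) R ≤ 3 * R.card

/-! ### The group -/

/-- A group containing copies of all graphs of the family, with Greendlinger's property. -/
structure Monster {q : ℕ} (F : Fam q) (K : ℕ) where
  G : Type
  [grp : Group G]
  s : Letter q → G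
  s_swap : ∀ a, s a * s a.swap = 1
  gen : ∀ x : G, ∃ w : List (Letter q), (w.map s).prod = x
  pos : (m : ℕ) → Fin (F.n m) → G
  pos_adj : ∀ m x y, (F.X m).Adj x y → pos m y = pos m x * s (F.col m x, F.col m y)
  green : ∀ w : List (Letter q), w ≠ [] → Red Prod.swap w → (w.map s).prod = 1 →
    ∃ u a v m x y b, w = u ++ a ++ v ∧ F.Reads m x a y ∧ F.Reads m y b x ∧
      K * b.length ≤ 3 * (a.length + b.length) ∧ F.g m ≤ a.length + b.length

attribute [instance] Monster.grp

section Blocks

variable {q : ℕ} {F : Fam q} {K : ℕ}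

/-- Blocks: copies `(m, h)` of the graphs `X m` (the vertex `y` sits at `h * pos m y`), and edges
`(x, a)` from `x` to `x * s a`. -/
abbrev Monster.Block (M : Monster F K) : Type := (ℕ × M.G) ⊕ (M.G × Letter q)

/-- the vertex `x` lies in the block. -/
def Monster.Mem (M : Monster F K) : M.Block → M.G → Prop
  | Sum.inl (m, h), x => ∃ y, x = h * M.pos m y
  | Sum.inr (x₀, a), x => x = x₀ ∨ x = x₀ * M.s a

/-- the edge with letter `a` starting at `x` lies in the block. -/
def Monster.Edge (M : Monster F K) : M.Block → M.G → Letter q → Prop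
  | Sum.inl (m, h), x, a => ∃ y z, (F.X m).Adj y z ∧ x = h * M.pos m y ∧
      a = (F.col m y, F.col m z)
  | Sum.inr (x₀, b), x, a => (x = x₀ ∧ a = b) ∨ (x = x₀ * M.s b ∧ a = b.swap)

/-- vertex `y` of the copy `(m, h)` lies in an earlier block. -/
def Monster.Early (M : Monster F K) (lt : M.Block → M.Block → Prop) (m : ℕ) (h : M.G)
    (y : Fin (F.n m)) : Prop :=
  ∃ β, lt β (Sum.inl (m, h)) ∧ M.Mem β (h * M.pos m y)

/-- A good well-order on the blocks, with first block the copy `κ₀`: the early part of every copy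
is connected and of small diameter, and an edge both of whose ends are early is early. -/
structure Monster.GoodOrder (M : Monster F K) (κ₀ : ℕ × M.G) (lt : M.Block → M.Block → Prop) :
    Prop where
  wo : IsWellOrder M.Block lt
  first : ∀ β, β ≠ Sum.inl κ₀ → lt (Sum.inl κ₀) β
  edge : ∀ β x a, M.Edge β x a → (∃ β', lt β' β ∧ M.Mem β' x) →
    (∃ β', lt β' β ∧ M.Mem β' (x * M.s a)) → ∃ β', lt β' β ∧ M.Edge β' x a
  small : ∀ m h y z, M.Early lt m h y → M.Early lt m h z →
    ∃ w : (F.X m).Walk y z, K * w.length ≤ 4 * F.g m ∧ ∀ u ∈ w.support, M.Early lt m h u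

/-- BLOCK B1: injectivity of the copies and of the letters. -/
def InjStatement : Prop :=
  ∀ (q : ℕ) (F : Fam q) (K D c e : ℕ) (M : Monster F K), 20 ≤ K → F.Coloured K →
    F.Expander D c e →
    (∀ m, Function.Injective (M.pos m)) ∧ Function.Injective M.s ∧ (∀ a, M.s a ≠ 1) ∧
    (∀ m h y z m' h' y' z', (m, h) ≠ ((m', h') : ℕ × M.G) →
      h * M.pos m y = h' * M.pos m' y' → h * M.pos m z = h' * M.pos m' z' →
      ∃ w : (F.X m).Walk y z, K * w.length < F.g m ∧
        ∀ u ∈ w.support, ∃ u', h * M.pos m u = h' * M.pos m' u')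

/-- BLOCK B2: existence of good orders. -/
def OrderStatement : Prop :=
  ∀ (q : ℕ) (F : Fam q) (K D c e : ℕ) (M : Monster F K), 20 ≤ K → F.Coloured K →
    F.Expander D c e → ∀ κ₀ : ℕ × M.G, ∃ lt, M.GoodOrder κ₀ lt

/-! ### Declared structure -/

/-- A declaration: a colour and a set of neighbour colours (or nothing). -/
abbrev Decl (q : ℕ) : Type := Option (Fin q × Finset (Fin q))

/-- The edge with letter `a` from `x` is present in `t`. -/
def Monster.Pres (M : Monster F K) (t : M.G → Decl q) (x : M.G) (a : Letter q) : Prop :=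
  (∃ B, t x = some (a.1, B) ∧ a.2 ∈ B) ∧ (∃ B, t (x * M.s a) = some (a.2, B) ∧ a.1 ∈ B)

/-- `x` is bad in `t`. -/
def Monster.Bad (M : Monster F K) (t : M.G → Decl q) (x : M.G) : Prop :=
  ¬ ∃ c B, t x = some (c, B) ∧ 6 ≤ B.card ∧ ∀ c' ∈ B, M.Pres t x (c, c')

open Classical in
/-- the perfect declaration at the vertex `y` of `X m`. -/
noncomputable def Fam.decl (F : Fam q) (m : ℕ) (y : Fin (F.n m)) : Decl q :=
  some (F.col m y, (Finset.univ.filter fun z => (F.X m).Adj y z).image (F.col m))

/-- The copy `(m, h)` is perfect in `t`. -/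
def Monster.Perfect (M : Monster F K) (t : M.G → Decl q) (m : ℕ) (h : M.G) : Prop :=
  ∀ y, t (h * M.pos m y) = F.decl m y

/-- Every copy is perfect or has the right colour at at most `n / e` vertices only. -/
def Monster.Admissible (M : Monster F K) (e : ℕ) (t : M.G → Decl q) : Prop :=
  ∀ m h, M.Perfect t m h ∨ e * Nat.card {y // ∃ B, t (h * M.pos m y) = some (F.col m y, B)} ≤ F.n m

/-- BLOCK G (key lemma): sparsity outside the perfect copies. -/
def KeyStatement : Prop :=
  ∀ (q : ℕ) (F : Fam q) (K D c e : ℕ) (M : Monster F K), 20 ≤ K → F.Coloured K →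
    F.Expander D c e → ∀ t : M.G → Decl q, M.Admissible e t →
    ∀ Z : Finset M.G, (∀ x ∈ Z, ∀ m h y, x = h * M.pos m y → ¬ M.Perfect t m h) →
      Nat.card {p : M.G × Letter q // p.1 ∈ Z ∧ M.Pres t p.1 p.2 ∧ p.1 * M.s p.2 ∈ Z} ≤
        5 * Z.card

end Blocks

/-! ### Existence of graphs and colourings -/

/-- BLOCK E: existence of large girth expanders with sparse small sets. -/
def ExpanderStatement : Prop :=
  ∃ D c e : ℕ, 0 < D ∧ 0 < c ∧ 0 < e ∧ ∀ N : ℕ, ∃ n : ℕ, N ≤ n ∧ ∃ X : SimpleGraph (Fin n),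
    X.Connected ∧ (∀ x, Nat.card {y // X.Adj x y} ≤ D) ∧
    (∃ g : ℕ, N ≤ g ∧ (g : ℕ∞) ≤ X.egirth ∧ n ≤ 2 ^ (c * g)) ∧
    (∀ R : Finset (Fin n), 2 * R.card ≤ n → 6 * R.card ≤ eOut X R) ∧
    (∀ R : Finset (Fin n), e * R.card ≤ n → eIn X R ≤ 3 * R.card)

/-- BLOCK D: existence of colourings with short pieces. -/
def ColourStatement : Prop :=
  ∀ D c K : ℕ, 0 < K → ∃ q g₀ : ℕ, ∀ (n : ℕ → ℕ) (X : (m : ℕ) → SimpleGraph (Fin (n m)))
    (g : ℕ → ℕ), (∀ m x, Nat.card {y // (X m).Adj x y} ≤ D) → (∀ m, (g m : ℕ∞) ≤ (X m).egirth) →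
    (∀ m, n m ≤ 2 ^ (c * g m)) → g₀ ≤ g 0 → StrictMono g →
    ∃ col : (m : ℕ) → Fin (n m) → Fin q, (⟨n, X, col, g⟩ : Fam q).Coloured K

/-! ### Codes -/

/-- The alphabet. -/
abbrev Alph (k q : ℕ) : Type := (Fin k → ZMod 2) × (Fin q → ZMod 2)

/-- restriction to sets of at most `n / d` positions is onto. -/
def CodeOnto {k q n : ℕ} (d : ℕ) (C : Submodule (ZMod 2) (Fin n → Alph k q)) : Prop :=
  ∀ B : Finset (Fin n), d * B.card ≤ n → ∀ f : Fin n → Alph k q, ∃ v ∈ C, ∀ x ∈ B, v x = f x

/-- the colour part of a nonzero codeword vanishes at at most `n / e` positions. -/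
def CodeDist {k q n : ℕ} (e : ℕ) (C : Submodule (ZMod 2) (Fin n → Alph k q)) : Prop :=
  ∀ u ∈ C, u ≠ 0 → e * Nat.card {x // (u x).1 = 0} ≤ n

end Vale.Agent.P089
end
end

section

section

/-!
# P089: existence of linear-rate codes
-/

open Finset

namespace Vale.Agent.P089.Codes

universe u

/-- All fibres of a surjective homomorphism have the same size. -/
theorem card_fiber {G H : Type*} [AddGroup G] [AddGroup H] [Fintype G] [Fintype H]
    [DecidableEq H] (f : G →+ H) (hf : Function.Surjective f) (y : H) :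
    (univ.filter fun g => f g = y).card * Fintype.card H = Fintype.card G := by
  have h1 : ∀ z : H, (univ.filter fun g => f g = z).card = (univ.filter fun g => f g = y).card :=
    fun z => AddMonoidHom.card_fiber_eq_of_mem_range f (hf z) (hf y)
  have h2 : Fintype.card G = ∑ z : H, (univ.filter fun g => f g = z).card := by
    rw [← Finset.card_univ (α := G)]
    exact Finset.card_eq_sum_card_fiberwise (f := f) (t := univ) (by simp only [coe_univ, Set.mapsTo_univ])
  rw [h2, Finset.sum_congr rfl fun z _ => h1 z, Finset.sum_const, Finset.card_univ, smul_eq_mul,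
    mul_comm]

theorem union_bound {Ω ι : Type*} [DecidableEq Ω] (s : Finset ι) (E : ι → Finset Ω)
    {M m q N : ℕ} (hE : ∀ i ∈ s, (E i).card * M ≤ N) (hs : s.card ≤ m) (hm : q * m ≤ M)
    (hM : 0 < M) : q * (s.biUnion E).card ≤ N := by
  have h1 : (s.biUnion E).card ≤ ∑ i ∈ s, (E i).card := card_biUnion_le
  have h2 : (∑ i ∈ s, (E i).card) * M ≤ s.card * N := by
    rw [sum_mul]
    exact (sum_le_card_nsmul _ _ _ hE).trans_eq (by simp)
  have h3 : (q * ∑ i ∈ s, (E i).card) * M ≤ N * M := by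
    calc (q * ∑ i ∈ s, (E i).card) * M = q * ((∑ i ∈ s, (E i).card) * M) := by ring
      _ ≤ q * (s.card * N) := Nat.mul_le_mul_left _ h2
      _ ≤ q * (m * N) := Nat.mul_le_mul_left _ (Nat.mul_le_mul_right _ hs)
      _ = (q * m) * N := by ring
      _ ≤ M * N := Nat.mul_le_mul_right _ hm
      _ = N * M := mul_comm _ _
  exact (Nat.mul_le_mul_left _ h1).trans (Nat.le_of_mul_le_mul_right h3 hM)

/-- the symbol space -/
abbrev Sym (k0 k1 : ℕ) : Type := Alph k0 k1

variable {X : Type u} [Fintype X] [DecidableEq X] {k0 k1 : ℕ}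

omit [Fintype X] in
theorem card_sym_fun (B : Finset X) :
    Fintype.card (B → Sym k0 k1) = 2 ^ ((k0 + k1) * B.card) := by
  simp only [Fintype.card_fun, Fintype.card_prod, ZMod.card, Fintype.card_coe, Fintype.card_fin]
  rw [← pow_add, ← pow_mul]

/-- restriction to a finite set -/
def res (k0 k1 : ℕ) (B : Finset X) : (X → Sym k0 k1) →ₗ[ZMod 2] (B → Sym k0 k1) where
  toFun v := fun x => v x.1
  map_add' _ _ := rfl
  map_smul' _ _ := rfl

omit [Fintype X] in
theorem res_surjective (B : Finset X) : Function.Surjective (res k0 k1 B) := by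
  intro w
  refine ⟨fun x => if h : x ∈ B then w ⟨x, h⟩ else 0, ?_⟩
  funext x
  change (if h : x.1 ∈ B then w ⟨x.1, h⟩ else 0) = w x
  rw [dif_pos x.2]

theorem zmod2_eq_one {c : ZMod 2} (h : c ≠ 0) : c = 1 := by
  revert h c
  decide

/-- first bad event -/
theorem bad1 (m : ℕ) (B : Finset X) (h : Module.Dual (ZMod 2) (B → Sym k0 k1)) (hh : h ≠ 0) :
    (univ.filter fun r : Option (Fin m) → X → Sym k0 k1 =>
      ∀ j, h (res k0 k1 B (r (some j))) = 0).card * 2 ^ m =
      Fintype.card (Option (Fin m) → X → Sym k0 k1) := by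
  let Φ : (Option (Fin m) → X → Sym k0 k1) →+ (Fin m → ZMod 2) :=
    { toFun := fun r j => h (res k0 k1 B (r (some j)))
      map_zero' := by funext j; simp
      map_add' := fun r r' => by funext j; simp only [Pi.add_apply, map_add] }
  have hw : ∃ w, h w = 1 := by
    by_contra hne
    push Not at hne
    apply hh
    refine LinearMap.ext fun w => ?_
    by_contra h0
    exact hne w (zmod2_eq_one h0)
  obtain ⟨w, hw⟩ := hw
  obtain ⟨w', rfl⟩ := res_surjective (k0 := k0) (k1 := k1) B w
  have hΦ : Function.Surjective Φ := by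
    intro y
    refine ⟨fun o => o.elim 0 fun j => y j • w', ?_⟩
    funext j
    change h (res k0 k1 B (y j • w')) = y j
    rw [map_smul, map_smul, hw, smul_eq_mul, mul_one]
  have h1 := card_fiber Φ hΦ 0
  rw [Fintype.card_fun, ZMod.card, Fintype.card_fin] at h1
  rw [← h1]
  congr 2
  ext r
  simp only [mem_filter, mem_univ, true_and]
  exact ⟨fun h => funext h, fun h j => congrFun h j⟩

/-- second bad event -/
theorem bad2 (m : ℕ) (a : X → Sym k0 k1) (t : ZMod 2) (s : Option (Fin m) → ZMod 2) (hs : s ≠ 0)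
    (Z : Finset X) :
    (univ.filter fun r : Option (Fin m) → X → Sym k0 k1 =>
      ∀ x ∈ Z, ((t • a + ∑ i, s i • r i) x).1 = 0).card * 2 ^ (k0 * Z.card) =
      Fintype.card (Option (Fin m) → X → Sym k0 k1) := by
  let Φ : (Option (Fin m) → X → Sym k0 k1) →+ (Z → Fin k0 → ZMod 2) :=
    { toFun := fun r x => ((∑ i, s i • r i) x.1).1
      map_zero' := by funext x; simp only [Pi.zero_apply, smul_zero, Finset.sum_apply, sum_const_zero, Prod.fst_zero]
      map_add' := fun r r' => by
        funext x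
        simp only [Pi.add_apply, smul_add, Finset.sum_add_distrib, Prod.fst_add] }
  obtain ⟨i0, hi0⟩ : ∃ i, s i ≠ 0 := by
    by_contra h
    push Not at h
    exact hs (funext h)
  have hi1 := zmod2_eq_one hi0
  have hΦ : Function.Surjective Φ := by
    intro y
    let v : X → Sym k0 k1 := fun x => if h : x ∈ Z then (y ⟨x, h⟩, 0) else 0
    refine ⟨fun i => if i = i0 then v else 0, ?_⟩
    funext x
    change ((∑ i, s i • (if i = i0 then v else 0)) x.1).1 = y x
    rw [Finset.sum_eq_single i0]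
    · rw [if_pos rfl, hi1, one_smul]
      change (if h : x.1 ∈ Z then ((y ⟨x.1, h⟩, 0) : Sym k0 k1) else 0).1 = y x
      rw [dif_pos x.2]
    · intro i _ hi
      rw [if_neg hi, smul_zero]
    · intro h
      exact absurd (mem_univ _) h
  have h1 := card_fiber Φ hΦ (fun x => -((t • a) x.1).1)
  rw [Fintype.card_fun, Fintype.card_fun, ZMod.card, Fintype.card_fin, Fintype.card_coe,
    ← pow_mul] at h1
  rw [← h1]
  congr 2
  ext r
  simp only [mem_filter, mem_univ, true_and]
  constructor
  · intro h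
    funext x
    have h2 := h x.1 x.2
    rw [Pi.add_apply, Prod.fst_add] at h2
    exact eq_neg_of_add_eq_zero_right h2
  · intro h x hx
    have h2 := congrFun h ⟨x, hx⟩
    rw [Pi.add_apply, Prod.fst_add]
    change ((∑ i, s i • r i) x).1 = -((t • a) x).1 at h2
    rw [h2, add_neg_cancel]

/-- Existence of a good tuple of vectors. -/
theorem exists_good (a : X → Sym k0 k1) (e : ℝ) {n m : ℕ} (hndef : Fintype.card X = n)
    (hm : m = 2 * n + 2) (hk : 4 ≤ k0 * e) (hn : 5 ≤ n) :
    ∃ r : Option (Fin m) → X → Sym k0 k1,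
      (∀ B : Finset X, (k0 + k1) * B.card ≤ n →
        ∀ h : Module.Dual (ZMod 2) (B → Sym k0 k1), h ≠ 0 →
          ∃ j, h (res k0 k1 B (r (some j))) ≠ 0) ∧
      (∀ (t : ZMod 2) (s : Option (Fin m) → ZMod 2), s ≠ 0 →
        ((univ.filter fun x => ((t • a + ∑ i, s i • r i) x).1 = 0).card : ℝ) ≤ e * n) := by
  classical
  have hfin : ∀ B : Finset X, Finite (Module.Dual (ZMod 2) (B → Sym k0 k1)) := fun B =>
    Finite.of_injective (fun h : Module.Dual (ZMod 2) (B → Sym k0 k1) => (h : _ → ZMod 2))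
      DFunLike.coe_injective
  let ft : ∀ B : Finset X, Fintype (Module.Dual (ZMod 2) (B → Sym k0 k1)) := fun B =>
    Fintype.ofFinite _
  have hcard : ∀ B : Finset X, Fintype.card (Module.Dual (ZMod 2) (B → Sym k0 k1)) =
      2 ^ ((k0 + k1) * B.card) := by
    intro B
    rw [← card_sym_fun (k0 := k0) (k1 := k1) B]
    exact (Fintype.card_congr
      (Module.Free.chooseBasis (ZMod 2) (B → Sym k0 k1)).toDualEquiv.toEquiv).symm
  by_contra hcon
  push Not at hcon
  let N := Fintype.card (Option (Fin m) → X → Sym k0 k1)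
  -- first family
  let s1 : Finset (Σ B : Finset X, Module.Dual (ZMod 2) (B → Sym k0 k1)) :=
    ((univ : Finset (Finset X)).filter fun B => (k0 + k1) * B.card ≤ n).sigma
      fun B => univ.filter fun h => h ≠ 0
  let E1 : (Σ B : Finset X, Module.Dual (ZMod 2) (B → Sym k0 k1)) →
      Finset (Option (Fin m) → X → Sym k0 k1) := fun i =>
    univ.filter fun r => ∀ j, i.2 (res k0 k1 i.1 (r (some j))) = 0
  have hs1 : s1.card ≤ 2 ^ n * 2 ^ n := by
    rw [Finset.card_sigma]
    calc ∑ B ∈ (univ : Finset (Finset X)).filter fun B => (k0 + k1) * B.card ≤ n,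
          (univ.filter fun h : Module.Dual (ZMod 2) (B → Sym k0 k1) => h ≠ 0).card
        ≤ ∑ _B ∈ (univ : Finset (Finset X)).filter fun B => (k0 + k1) * B.card ≤ n, 2 ^ n := by
          refine Finset.sum_le_sum fun B hB => ?_
          refine (Finset.card_filter_le _ _).trans ?_
          rw [Finset.card_univ, hcard]
          exact Nat.pow_le_pow_right (by norm_num) (mem_filter.1 hB).2
      _ ≤ 2 ^ n * 2 ^ n := by
          rw [Finset.sum_const, smul_eq_mul]
          refine Nat.mul_le_mul_right _ ((Finset.card_filter_le _ _).trans ?_)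
          rw [Finset.card_univ, Fintype.card_finset, hndef]
  have hb1 : 4 * (s1.biUnion E1).card ≤ N := by
    refine union_bound s1 E1 (M := 2 ^ m) (m := 2 ^ n * 2 ^ n) (fun i hi => ?_) hs1 ?_
      (by positivity)
    · have hi2 : i.2 ≠ 0 := (mem_filter.1 (mem_sigma.1 hi).2).2
      exact (bad1 m i.1 i.2 hi2).le
    · rw [hm, show 2 ^ (2 * n + 2) = 4 * (2 ^ n * 2 ^ n) by ring]
  -- second family
  let s2 : Finset (ZMod 2 × (Option (Fin m) → ZMod 2) × Finset X) :=
    univ.filter fun i => i.2.1 ≠ 0 ∧ e * n < i.2.2.card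
  let E2 : (ZMod 2 × (Option (Fin m) → ZMod 2) × Finset X) →
      Finset (Option (Fin m) → X → Sym k0 k1) := fun i =>
    univ.filter fun r => ∀ x ∈ i.2.2, ((i.1 • a + ∑ j, i.2.1 j • r j) x).1 = 0
  have hs2 : s2.card ≤ 2 ^ (3 * n + 4) := by
    refine (Finset.card_filter_le _ _).trans ?_
    rw [Finset.card_univ, Fintype.card_prod, Fintype.card_prod, Fintype.card_fun, ZMod.card,
      Fintype.card_option, Fintype.card_fin, Fintype.card_finset, hndef]
    refine le_of_eq ?_
    rw [hm]
    ring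
  have hb2 : 2 * (s2.biUnion E2).card ≤ N := by
    refine union_bound s2 E2 (M := 2 ^ (4 * n)) (m := 2 ^ (3 * n + 4)) (fun i hi => ?_) hs2 ?_
      (by positivity)
    · obtain ⟨hi1, hi2⟩ := (mem_filter.1 hi).2
      have h1 := bad2 m a i.1 i.2.1 hi1 i.2.2
      refine (Nat.mul_le_mul_left _ (Nat.pow_le_pow_right (by norm_num) ?_)).trans h1.le
      have h2 : (4 * n : ℝ) ≤ k0 * i.2.2.card := by
        calc (4 * n : ℝ) ≤ (k0 * e) * n := by
              exact mul_le_mul_of_nonneg_right hk (Nat.cast_nonneg _)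
          _ = k0 * (e * n) := by ring
          _ ≤ k0 * i.2.2.card := mul_le_mul_of_nonneg_left hi2.le (Nat.cast_nonneg _)
      exact_mod_cast h2
    · rw [show (2 : ℕ) * 2 ^ (3 * n + 4) = 2 ^ (3 * n + 5) by ring]
      exact Nat.pow_le_pow_right (by norm_num) (by omega)
  -- every tuple is bad
  have hall : (univ : Finset (Option (Fin m) → X → Sym k0 k1)) ⊆
      s1.biUnion E1 ∪ s2.biUnion E2 := by
    intro r _
    rw [mem_union]
    by_cases h1 : r ∈ s1.biUnion E1
    · exact Or.inl h1
    right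
    have hG1 : ∀ B : Finset X, (k0 + k1) * B.card ≤ n →
        ∀ h : Module.Dual (ZMod 2) (B → Sym k0 k1), h ≠ 0 →
          ∃ j, h (res k0 k1 B (r (some j))) ≠ 0 := by
      intro B hB h hh
      by_contra hne
      push Not at hne
      apply h1
      rw [mem_biUnion]
      exact ⟨⟨B, h⟩, mem_sigma.2 ⟨mem_filter.2 ⟨mem_univ _, hB⟩, mem_filter.2 ⟨mem_univ _, hh⟩⟩,
        mem_filter.2 ⟨mem_univ _, hne⟩⟩
    obtain ⟨t, s, hs, hlt⟩ := hcon r hG1
    rw [mem_biUnion]
    refine ⟨⟨t, s, univ.filter fun x => ((t • a + ∑ i, s i • r i) x).1 = 0⟩,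
      mem_filter.2 ⟨mem_univ _, hs, hlt⟩, mem_filter.2 ⟨mem_univ _, fun x hx => ?_⟩⟩
    exact (mem_filter.1 hx).2
  have h1 := Finset.card_le_card hall
  have h2 := Finset.card_union_le (s1.biUnion E1) (s2.biUnion E2)
  rw [Finset.card_univ] at h1
  have h3 : 0 < N := Fintype.card_pos
  change N ≤ _ at h1
  omega

/-- Existence of codes, with explicit parameters. -/
theorem exists_codes {e k q n : ℕ} (he : 0 < e) (hk : 4 * (e + 1) ≤ k) (hn : 5 ≤ n)
    (a : Fin n → Alph k q) (ha : ∀ x, (a x).1 ≠ 0) :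
    ∃ C' C : Submodule (ZMod 2) (Fin n → Alph k q), C' ≤ C ∧ a ∈ C' ∧
      Module.finrank (ZMod 2) C = 2 * n + 4 ∧ Module.finrank (ZMod 2) C' = 2 * n + 3 ∧
      CodeOnto (k + q) C' ∧ CodeDist e C := by
  classical
  have hE : (4 : ℝ) ≤ k * (1 / (e + 1)) := by
    rw [mul_one_div, le_div_iff₀ (by positivity)]
    exact_mod_cast hk
  obtain ⟨m, hmdef⟩ : ∃ m, m = 2 * n + 2 := ⟨_, rfl⟩
  obtain ⟨r, hr1, hr2⟩ := exists_good (X := Fin n) (k0 := k) (k1 := q) a (1 / (e + 1))
    (Fintype.card_fin n) hmdef hE hn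
  -- second property in natural numbers
  have hr3 : ∀ (t : ZMod 2) (s : Option (Fin m) → ZMod 2), s ≠ 0 →
      (e + 1) * (univ.filter fun x => ((t • a + ∑ i, s i • r i) x).1 = 0).card ≤ n := by
    intro t s hs
    have h1 := hr2 t s hs
    rw [one_div_mul_eq_div, le_div_iff₀ (by positivity)] at h1
    have h2 : (((e + 1) * (univ.filter fun x =>
        ((t • a + ∑ i, s i • r i) x).1 = 0).card : ℕ) : ℝ) ≤ n := by
      push_cast
      linarith only [h1]
    exact_mod_cast h2
  have hn0 : 0 < n := by omega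
  let v : Option (Option (Fin m)) → Fin n → Alph k q := fun o => o.elim a r
  let ι : Option (Fin m) → Option (Option (Fin m)) := fun o => o.elim none fun j => some (some j)
  have hι : Function.Injective ι := by
    rintro (_ | x) (_ | y) h
    · rfl
    · cases h
    · cases h
    · simpa [ι] using h
  have hv : LinearIndependent (ZMod 2) v := by
    rw [Fintype.linearIndependent_iff]
    intro g hg
    rw [Fintype.sum_option] at hg
    change g none • a + ∑ i, g (some i) • r i = 0 at hg
    have h1 : (fun i => g (some i)) = 0 := by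
      by_contra hs
      have h2 := hr3 (g none) (fun i => g (some i)) hs
      rw [hg] at h2
      simp only [Pi.zero_apply, Prod.fst_zero, filter_true, card_univ, Fintype.card_fin] at h2
      nlinarith only [he, h2, hn]
    have h3 : g none = 0 := by
      by_contra hne
      have h4 := congrFun h1
      simp only [Pi.zero_apply] at h4
      rw [zmod2_eq_one hne] at hg
      simp only [h4, zero_smul, sum_const_zero, add_zero, one_smul] at hg
      apply ha ⟨0, hn0⟩
      rw [hg]
      rfl
    rintro (_ | i)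
    · exact h3
    · exact congrFun h1 i
  have ha0 : v none = a := rfl
  refine ⟨Submodule.span (ZMod 2) (Set.range (v ∘ ι)), Submodule.span (ZMod 2) (Set.range v),
    Submodule.span_mono (Set.range_comp_subset_range _ _), Submodule.subset_span ⟨none, rfl⟩,
    ?_, ?_, ?_, ?_⟩
  · rw [finrank_span_eq_card hv, Fintype.card_option, Fintype.card_option, Fintype.card_fin,
      hmdef]
  · rw [finrank_span_eq_card (hv.comp ι hι), Fintype.card_option, Fintype.card_fin, hmdef]
  · intro B hB f
    have htop : (Submodule.span (ZMod 2) (Set.range (v ∘ ι))).map (res k q B) = ⊤ := by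
      by_contra hne
      obtain ⟨h, hh, hle⟩ := Submodule.exists_le_ker_of_lt_top _ (lt_top_iff_ne_top.2 hne)
      obtain ⟨j, hj⟩ := hr1 B hB h hh
      apply hj
      have h1 : r (some j) ∈ Submodule.span (ZMod 2) (Set.range (v ∘ ι)) :=
        Submodule.subset_span ⟨some j, rfl⟩
      exact hle (Submodule.mem_map_of_mem h1)
    have h2 : res k q B f ∈ (Submodule.span (ZMod 2) (Set.range (v ∘ ι))).map (res k q B) := by
      rw [htop]
      exact Submodule.mem_top
    obtain ⟨u, hu, hu2⟩ := h2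
    exact ⟨u, hu, fun x hx => congrFun hu2 ⟨x, hx⟩⟩
  · intro u hu hu0
    rw [Nat.card_eq_fintype_card, Fintype.card_subtype]
    obtain ⟨c, hc⟩ := (Submodule.mem_span_range_iff_exists_fun (ZMod 2)).1 hu
    rw [Fintype.sum_option] at hc
    change c none • a + ∑ i, c (some i) • r i = u at hc
    by_cases hs : (fun i => c (some i)) = 0
    · have h4 := congrFun hs
      simp only [Pi.zero_apply] at h4
      simp only [h4, zero_smul, sum_const_zero, add_zero] at hc
      have h5 : c none ≠ 0 := by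
        intro h0
        apply hu0
        rw [← hc, h0, zero_smul]
      rw [zmod2_eq_one h5, one_smul] at hc
      rw [← hc, Finset.filter_false_of_mem fun x _ => ha x]
      simp
    · have h1 := hr3 (c none) (fun i => c (some i)) hs
      rw [hc] at h1
      exact (Nat.mul_le_mul_right _ (Nat.le_succ e)).trans h1

end Vale.Agent.P089.Codes

namespace Vale.Agent.P089

/-- BLOCK C, with a linear upper bound for the dimension. -/
theorem codeStatement' : ∀ e q : ℕ, 0 < e → ∃ k₀ : ℕ, ∀ k, k₀ ≤ k → ∃ d N : ℕ, 0 < d ∧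
    ∀ n, N ≤ n → ∀ a : Fin n → Alph k q, (∀ x, (a x).1 ≠ 0) →
    ∃ C' C : Submodule (ZMod 2) (Fin n → Alph k q), C' ≤ C ∧ a ∈ C' ∧
      Module.finrank (ZMod 2) C = Module.finrank (ZMod 2) C' + 1 ∧
      CodeOnto d C' ∧ CodeDist e C ∧ Module.finrank (ZMod 2) C ≤ 3 * n ∧
      2 * n ≤ Module.finrank (ZMod 2) C' := by
  intro e q he
  refine ⟨4 * (e + 1), fun k hk => ⟨k + q, 5, by omega, fun n hn a ha => ?_⟩⟩
  obtain ⟨C', C, h1, h2, h3, h4, h5, h6⟩ := Codes.exists_codes he hk hn a ha
  exact ⟨C', C, h1, h2, by omega, h5, h6, by omega, by omega⟩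

end Vale.Agent.P089
end
end

section

section

/-!
# P089: further block statements (monster, small sets, configurations, gap)
-/

namespace Vale.Agent.P089

/-- BLOCK M: existence of the group. -/
def MonsterStatement : Prop :=
  ∀ (q : ℕ) (F : Fam q) (K D c e : ℕ), 13 ≤ K → F.Coloured K → F.Expander D c e →
    Nonempty (Monster F K)

/-- sets of vertices of small diameter are small. -/
def Fam.SmallSets {q : ℕ} (F : Fam q) (K d : ℕ) : Prop :=
  ∀ m (P : Finset (Fin (F.n m))),
    (∀ y ∈ P, ∀ z ∈ P, ∃ w : (F.X m).Walk y z, K * w.length ≤ 4 * F.g m) → d * P.card ≤ F.n m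

/-- BLOCK S: sets of small diameter are small (ball growth at most `D`, Moore bound). -/
def SmallStatement : Prop :=
  ∀ D : ℕ, ∃ K₀ : ℕ, ∀ K, K₀ ≤ K → ∀ d : ℕ, ∃ g₀ : ℕ, ∀ (q : ℕ) (F : Fam q) (c e : ℕ),
    F.Expander D c e → (∀ m, g₀ ≤ F.g m) → F.SmallSets K d

/-! ### Configurations -/

section Conf

variable {q : ℕ} {F : Fam q} {K : ℕ} {k : ℕ}

/-- the pairing on the alphabet. -/
def dotA (a b : Alph k q) : ZMod 2 := ∑ i, a.1 i * b.1 i + ∑ i, a.2 i * b.2 i

/-- the pairing of finitely supported functions with configurations. -/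
noncomputable def pairG {G : Type} (φ : G →₀ Alph k q) (v : G → Alph k q) : ZMod 2 :=
  φ.sum fun x a => dotA a (v x)

/-- The function `ψ` placed on the copy `(m, h)`. -/
noncomputable def Monster.place (M : Monster F K) (m : ℕ) (h : M.G)
    (ψ : Fin (F.n m) → Alph k q) : M.G →₀ Alph k q :=
  ∑ y, Finsupp.single (h * M.pos m y) (ψ y)

/-- A family of codes. -/
abbrev Codes (k : ℕ) {q : ℕ} (F : Fam q) : Type :=
  (m : ℕ) → Submodule (ZMod 2) (Fin (F.n m) → Alph k q)

/-- Relations: span of the placed dual codewords. -/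
noncomputable def Monster.Rel (M : Monster F K) (C : Codes k F) : Submodule (ZMod 2) (M.G →₀ Alph k q) :=
  Submodule.span (ZMod 2) {φ | ∃ (m : ℕ) (h : M.G) (ψ : Fin (F.n m) → Alph k q),
    (∀ v ∈ C m, ∑ y, dotA (ψ y) (v y) = 0) ∧ φ = M.place m h ψ}

/-- Configurations: annihilated by all relations. -/
def Monster.Conf (M : Monster F K) (C : Codes k F) : Set (M.G → Alph k q) :=
  {v | ∀ φ ∈ M.Rel C, pairG φ v = 0}

/-- BLOCK V1: configurations restrict onto the code on every copy. -/
def RestrictStatement : Prop :=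
  ∀ (q : ℕ) (F : Fam q) (K : ℕ) (M : Monster F K) (k d : ℕ) (C : Codes k F), 0 < d →
    (∀ m, Function.Injective (M.pos m)) → (∀ κ₀ : ℕ × M.G, ∃ lt, M.GoodOrder κ₀ lt) →
    F.SmallSets K (8 * d) → (∀ m, 0 < F.n m) → (∀ m, CodeOnto d (C m)) →
    (∀ v ∈ M.Conf C, ∀ m h, (fun y => v (h * M.pos m y)) ∈ C m) ∧
    (∀ m h, ∀ u ∈ C m, ∃ v ∈ M.Conf C, ∀ y, v (h * M.pos m y) = u y)

/-- BLOCK V2: new relations have large support. -/
def SupportStatement : Prop :=
  ∀ (q : ℕ) (F : Fam q) (K : ℕ) (M : Monster F K) (k d : ℕ) (C' C : Codes k F) (m₁ : ℕ), 0 < d →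
    (∀ m, Function.Injective (M.pos m)) → (∀ κ₀ : ℕ × M.G, ∃ lt, M.GoodOrder κ₀ lt) →
    F.SmallSets K (8 * d) → (∀ m, 0 < F.n m) → (∀ m, CodeOnto d (C' m)) →
    (∀ m, C' m ≤ C m) → (∀ m, m ≠ m₁ → C' m = C m) →
    ∀ φ ∈ M.Rel C', φ ∉ M.Rel C → F.n m₁ ≤ 2 * d * φ.support.card

/-- the colour vectors. -/
def colVec (k : ℕ) {q : ℕ} (c : Fin q) : Fin k → ZMod 2 := fun i => if i.val = c.val then 1 else 0

open Classical in
/-- decoding of the alphabet. -/
noncomputable def decode (a : Alph k q) : Decl q :=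
  if h : ∃ c : Fin q, colVec k c = a.1 then
    some (h.choose, Finset.univ.filter fun i => a.2 i = 1)
  else none

open Classical in
/-- the perfect pattern. -/
noncomputable def Fam.pat (F : Fam q) (k : ℕ) (m : ℕ) (y : Fin (F.n m)) : Alph k q :=
  (colVec k (F.col m y), fun i => if ∃ z, (F.X m).Adj y z ∧ F.col m z = i then 1 else 0)

/-- BLOCK V3: decoded configurations are admissible. -/
def AdmissibleStatement : Prop :=
  ∀ (q : ℕ) (F : Fam q) (K : ℕ) (M : Monster F K) (k e : ℕ) (C : Codes k F), q ≤ k →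
    (∀ m, CodeDist e (C m)) → (∀ m, F.pat k m ∈ C m) →
    ∀ v : M.G → Alph k q, (∀ m h, (fun y => v (h * M.pos m y)) ∈ C m) →
      M.Admissible e (fun x => decode (v x)) ∧
      ∀ m h, M.Perfect (fun x => decode (v x)) m h ↔ ∀ y, v (h * M.pos m y) = F.pat k m y

end Conf

/-! ### The operators `T_t` on `ℓ²(G)` -/

section Gap

variable {q : ℕ} {F : Fam q} {K : ℕ}

open Classical in
/-- Laplacian of the present edges plus penalty at the bad vertices. -/
noncomputable def Monster.Tfun (M : Monster F K) (t : M.G → Decl q) (f : M.G → ℂ) (x : M.G) : ℂ :=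
  (∑ a : Letter q, if M.Pres t x a then f x - f (x * M.s a) else 0) +
    (if M.Bad t x then f x else 0)

open Classical in
/-- BLOCK H: uniform gap. -/
def GapStatement : Prop :=
  ∀ q D e : ℕ, 0 < e → ∃ ε B : ℝ, 0 < ε ∧ ε ≤ 1 ∧ 0 < B ∧
    ∀ (F : Fam q) (K c : ℕ) (M : Monster F K), 20 ≤ K → F.Coloured K → F.Expander D c e →
    (∀ m, Function.Injective (M.pos m)) → Function.Injective M.s → (∀ a, M.s a ≠ 1) →
    ∀ t : M.G → Decl q, M.Admissible e t →
    (∀ Z : Finset M.G, (∀ x ∈ Z, ∀ m h y, x = h * M.pos m y → ¬ M.Perfect t m h) →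
      Nat.card {p : M.G × Letter q // p.1 ∈ Z ∧ M.Pres t p.1 p.2 ∧ p.1 * M.s p.2 ∈ Z} ≤
        5 * Z.card) →
    ∃ T P : lp (fun _ : M.G => ℂ) 2 →L[ℂ] lp (fun _ : M.G => ℂ) 2,
      (∀ (f : lp (fun _ : M.G => ℂ) 2) x, T f x = M.Tfun t f x) ∧
      IsSelfAdjoint T ∧ IsSelfAdjoint P ∧ P * P = P ∧
      (∀ j : ℕ, ‖(1 - (B : ℂ)⁻¹ • T) ^ j - P‖ ≤ (1 - ε) ^ j) ∧
      (∀ m h y, (1 : M.G) = h * M.pos m y → M.Perfect t m h →
        P (lp.single 2 (1 : M.G) (1 : ℂ)) 1 = 1 / (F.n m : ℂ)) ∧
      ((∀ m h y, (1 : M.G) = h * M.pos m y → ¬ M.Perfect t m h) →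
        P (lp.single 2 (1 : M.G) (1 : ℂ)) 1 = 0)

end Gap

end Vale.Agent.P089
end
end

section

section

/-!
# P089: the family statement
-/

namespace Vale.Agent.P089

/-- BLOCK F: the family of coloured graphs together with the codes, all constants fixed. -/
def FamilyStatement : Prop :=
  ∃ (q k D c e d K : ℕ) (F : Fam q) (C' C : Codes k F),
    20 ≤ K ∧ q ≤ k ∧ 0 < e ∧ 0 < d ∧ F.Coloured K ∧ F.Expander D c e ∧ F.SmallSets K (8 * d) ∧
    (∀ m, C' m ≤ C m) ∧ (∀ m, F.pat k m ∈ C' m) ∧
    (∀ m, Module.finrank (ZMod 2) (C m) = Module.finrank (ZMod 2) (C' m) + 1) ∧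
    (∀ m, CodeOnto d (C' m)) ∧ (∀ m, CodeDist e (C m)) ∧
    (∀ m, Module.finrank (ZMod 2) (C m) ≤ 3 * F.n m) ∧
    (∀ m, 2 * F.n m ≤ Module.finrank (ZMod 2) (C' m)) ∧
    (∀ m, m + 4 * F.n m ≤ F.n (m + 1))

end Vale.Agent.P089
end
end

section

section

/-!
# P089: sets of small diameter are small (BLOCK S)
-/

open Finset
open scoped Classical

namespace Vale.Agent.P089

namespace Small

section Graph

variable {V : Type} [Fintype V] (X : SimpleGraph V)

/-- neighbours -/
noncomputable def nb (x : V) : Finset V := univ.filter fun y => X.Adj x y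

/-- balls -/
noncomputable def sball : ℕ → V → Finset V
  | 0, y => {y}
  | i + 1, y => insert y ((nb X y).biUnion (sball i))

theorem mem_sball : ∀ (i : ℕ) {y z : V} (w : X.Walk y z), w.length ≤ i → z ∈ sball X i y
  | 0, y, z, w, h => by
    have := SimpleGraph.Walk.eq_of_length_eq_zero (Nat.le_zero.1 h)
    rw [this]
    exact mem_singleton_self _
  | i + 1, y, _, .nil, _ => mem_insert_self _ _
  | i + 1, y, z, .cons (v := v) hadj w, h => by
    refine mem_insert_of_mem (mem_biUnion.2 ⟨v, mem_filter.2 ⟨mem_univ _, hadj⟩, ?_⟩)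
    refine mem_sball i w ?_
    rw [SimpleGraph.Walk.length_cons] at h
    omega

theorem card_sball {D : ℕ} (hD : ∀ x, (nb X x).card ≤ D) :
    ∀ (i : ℕ) (y : V), (sball X i y).card ≤ (D + 1) ^ i
  | 0, y => by simp only [sball, card_singleton, pow_zero, Std.le_refl]
  | i + 1, y => by
    have h1 : ((nb X y).biUnion (sball X i)).card ≤ D * (D + 1) ^ i := by
      refine (card_biUnion_le_card_mul _ _ _ fun z _ => card_sball hD i z).trans ?_
      exact Nat.mul_le_mul_right _ (hD y)
    have h2 : 1 ≤ (D + 1) ^ i := Nat.one_le_pow _ _ (Nat.succ_pos _)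
    calc (sball X (i + 1) y).card ≤ ((nb X y).biUnion (sball X i)).card + 1 := card_insert_le _ _
      _ ≤ D * (D + 1) ^ i + (D + 1) ^ i := Nat.add_le_add h1 h2
      _ = (D + 1) ^ (i + 1) := by ring

variable {X}

omit [Fintype V] in
/-- Short paths in a graph of large girth are unique. -/
theorem path_unique {x y : V} {p q : X.Walk x y} (hp : p.IsPath) (hq : q.IsPath)
    (h : ((p.length + q.length : ℕ) : ℕ∞) < X.egirth) : p = q := by
  let H : SimpleGraph V := SimpleGraph.fromEdgeSet {e | e ∈ p.edges ∨ e ∈ q.edges}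
  have hmem : ∀ e, (e ∈ p.edges ∨ e ∈ q.edges) → e ∈ H.edgeSet := by
    intro e he
    rw [SimpleGraph.edgeSet_fromEdgeSet]
    refine ⟨he, fun hd => ?_⟩
    have h1 : e ∈ X.edgeSet := by
      rcases he with he | he
      · exact p.edges_subset_edgeSet he
      · exact q.edges_subset_edgeSet he
    exact X.not_isDiag_of_mem_edgeSet h1 hd
  have hsub : ∀ e ∈ H.edgeSet, e ∈ p.edges ∨ e ∈ q.edges := by
    intro e he
    rw [SimpleGraph.edgeSet_fromEdgeSet] at he
    exact he.1
  have hac : H.IsAcyclic := by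
    intro v c hc
    have h1 : ∀ e ∈ c.edges, e ∈ X.edgeSet := by
      intro e he
      rcases hsub e (c.edges_subset_edgeSet he) with h2 | h2
      · exact p.edges_subset_edgeSet h2
      · exact q.edges_subset_edgeSet h2
    have h2 := SimpleGraph.egirth_le_length (hc.transfer h1)
    rw [SimpleGraph.Walk.length_transfer] at h2
    have h3 : c.length ≤ p.length + q.length := by
      rw [← SimpleGraph.Walk.length_edges, ← List.toFinset_card_of_nodup hc.edges_nodup]
      have h4 : c.edges.toFinset ⊆ (p.edges ++ q.edges).toFinset := by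
        intro e he
        rw [List.mem_toFinset] at he ⊢
        rw [List.mem_append]
        exact hsub e (c.edges_subset_edgeSet he)
      refine (card_le_card h4).trans ((List.toFinset_card_le _).trans ?_)
      rw [List.length_append, SimpleGraph.Walk.length_edges, SimpleGraph.Walk.length_edges]
    have h5 : (c.length : ℕ∞) ≤ ((p.length + q.length : ℕ) : ℕ∞) := by exact_mod_cast h3
    exact absurd (h2.trans h5) (not_le.2 h)
  have hp' : (p.transfer H fun e he => hmem e (Or.inl he)).IsPath := hp.transfer _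
  have hq' : (q.transfer H fun e he => hmem e (Or.inr he)).IsPath := hq.transfer _
  have h1 := congrArg Subtype.val ((hac.subsingleton_path x y).elim ⟨_, hp'⟩ ⟨_, hq'⟩)
  have h2 := congrArg SimpleGraph.Walk.support h1
  rw [SimpleGraph.Walk.support_transfer, SimpleGraph.Walk.support_transfer] at h2
  exact SimpleGraph.Walk.ext_support h2

omit [Fintype V] in
/-- Claim A: at most one neighbour is not farther away. -/
theorem claimA (hconn : X.Connected) {x y w w' : V} (hw : X.Adj w y) (hw' : X.Adj w' y)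
    (h1 : X.dist x w ≤ X.dist x y) (h2 : X.dist x w' ≤ X.dist x y)
    (hg : ((2 * X.dist x y + 2 : ℕ) : ℕ∞) < X.egirth) : w = w' := by
  have key : ∀ {v : V}, X.Adj v y → X.dist x v ≤ X.dist x y →
      ∃ p : X.Walk x v, (∀ h : X.Adj v y, (p.concat h).IsPath) ∧ p.length ≤ X.dist x y := by
    intro v hv hle
    obtain ⟨p, hp, hpl⟩ := (hconn x v).exists_path_of_dist
    refine ⟨p, fun h => ?_, hpl.le.trans hle⟩
    rw [SimpleGraph.Walk.concat_isPath_iff]
    refine ⟨hp, fun hy => ?_⟩
    have h3 := SimpleGraph.dist_le (p.takeUntil y hy)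
    have h4 : (p.takeUntil y hy).length < p.length :=
      SimpleGraph.Walk.length_takeUntil_lt_length hy h.ne'
    omega
  obtain ⟨p, hp, hpl⟩ := key hw h1
  obtain ⟨p', hp', hpl'⟩ := key hw' h2
  have h3 : p.concat hw = p'.concat hw' := by
    refine path_unique (hp hw) (hp' hw') (lt_of_le_of_lt ?_ hg)
    rw [SimpleGraph.Walk.length_concat, SimpleGraph.Walk.length_concat]
    exact_mod_cast (by omega)
  have h4 := congrArg SimpleGraph.Walk.penultimate h3
  rwa [SimpleGraph.Walk.penultimate_concat, SimpleGraph.Walk.penultimate_concat] at h4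

/-- The layers grow. -/
theorem layer_card (hconn : X.Connected) (hdeg : ∀ x, 5 ≤ (nb X x).card) (x : V) :
    ∀ i : ℕ, ((2 * i + 2 : ℕ) : ℕ∞) < X.egirth →
      4 ^ i ≤ (univ.filter fun z => X.dist x z = i).card
  | 0, _ => by
    rw [pow_zero]
    refine card_pos.2 ⟨x, mem_filter.2 ⟨mem_univ _, ?_⟩⟩
    exact SimpleGraph.dist_self
  | i + 1, hg => by
    have hg' : ((2 * i + 2 : ℕ) : ℕ∞) < X.egirth :=
      lt_of_le_of_lt (by exact_mod_cast (by omega)) hg
    have ih := layer_card hconn hdeg x i hg'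
    set L := univ.filter fun z => X.dist x z = i with hL
    set L' := univ.filter fun z => X.dist x z = i + 1 with hL'
    have h1 : ∀ y ∈ L, 4 ≤ ((nb X y).filter fun z => X.dist x z = i + 1).card := by
      intro y hy
      have hyi : X.dist x y = i := (mem_filter.1 hy).2
      have h2 := Finset.card_filter_add_card_filter_not (s := nb X y)
        (fun z => X.dist x z = i + 1)
      have h3 : ((nb X y).filter fun z => ¬ X.dist x z = i + 1).card ≤ 1 := by
        rw [card_le_one]
        intro a ha b hb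
        have ha1 : X.Adj y a := (mem_filter.1 (mem_filter.1 ha).1).2
        have hb1 : X.Adj y b := (mem_filter.1 (mem_filter.1 hb).1).2
        have ha2 := (mem_filter.1 ha).2
        have hb2 := (mem_filter.1 hb).2
        have ha3 : X.dist x a ≤ X.dist x y + 1 := by
          have := hconn.dist_triangle (u := x) (v := y) (w := a)
          rwa [SimpleGraph.dist_eq_one_iff_adj.2 ha1] at this
        have hb3 : X.dist x b ≤ X.dist x y + 1 := by
          have := hconn.dist_triangle (u := x) (v := y) (w := b)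
          rwa [SimpleGraph.dist_eq_one_iff_adj.2 hb1] at this
        refine claimA hconn ha1.symm hb1.symm (x := x) (by omega) (by omega) ?_
        rw [hyi]
        exact hg'
      have h4 := hdeg y
      omega
    have h2 : (L.biUnion fun y => (nb X y).filter fun z => X.dist x z = i + 1) ⊆ L' := by
      intro z hz
      obtain ⟨y, _, hy⟩ := mem_biUnion.1 hz
      exact mem_filter.2 ⟨mem_univ _, (mem_filter.1 hy).2⟩
    have h3 : (L.biUnion fun y => (nb X y).filter fun z => X.dist x z = i + 1).card =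
        ∑ y ∈ L, ((nb X y).filter fun z => X.dist x z = i + 1).card := by
      refine card_biUnion fun a ha b hb hab => ?_
      change Disjoint _ _
      rw [Finset.disjoint_left]
      intro z hza hzb
      apply hab
      have ha1 : X.Adj a z := (mem_filter.1 (mem_filter.1 hza).1).2
      have hb1 : X.Adj b z := (mem_filter.1 (mem_filter.1 hzb).1).2
      have hz : X.dist x z = i + 1 := (mem_filter.1 hza).2
      have hai : X.dist x a = i := (mem_filter.1 ha).2
      have hbi : X.dist x b = i := (mem_filter.1 hb).2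
      refine claimA hconn ha1 hb1 (x := x) (by omega) (by omega) ?_
      rw [hz]
      exact hg
    calc 4 ^ (i + 1) = 4 ^ i * 4 := pow_succ _ _
      _ ≤ L.card * 4 := Nat.mul_le_mul_right _ ih
      _ ≤ ∑ y ∈ L, ((nb X y).filter fun z => X.dist x z = i + 1).card := by
          rw [← smul_eq_mul, ← Finset.sum_const]
          exact Finset.sum_le_sum h1
      _ = _ := h3.symm
      _ ≤ L'.card := card_le_card h2

end Graph

theorem six_le_nb {V : Type} [Fintype V] {X : SimpleGraph V} {x : V}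
    (h : 6 ≤ eOut X {x}) : 6 ≤ (nb X x).card := by
  refine h.trans ?_
  unfold eOut
  have h1 : Nat.card (nb X x) = (nb X x).card := by
    rw [Nat.card_eq_fintype_card, Fintype.card_coe]
  rw [← h1]
  refine Nat.card_le_card_of_injective
    (fun p : {p : V × V // p.1 ∈ ({x} : Finset V) ∧ p.2 ∉ ({x} : Finset V) ∧ X.Adj p.1 p.2} =>
      (⟨p.1.2, mem_filter.2 ⟨mem_univ _, by
        have h2 := p.2.2.2
        rwa [mem_singleton.1 p.2.1] at h2⟩⟩ : nb X x)) ?_
  rintro ⟨⟨a, b⟩, h1, h2⟩ ⟨⟨a', b'⟩, h1', h2'⟩ h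
  have h3 : b = b' := congrArg Subtype.val h
  have h4 : a = a' := (mem_singleton.1 h1).trans (mem_singleton.1 h1').symm
  subst h3
  subst h4
  rfl

end Small

/-- BLOCK S. -/
theorem smallStatement : SmallStatement := by
  intro D
  refine ⟨8 * (D + 1), fun K hK d => ⟨2 * d + 12, fun q F c e hF hg m P hP => ?_⟩⟩
  have hn := hF.two
  rcases P.eq_empty_or_nonempty with rfl | ⟨y, hy⟩
  · simp
  have hgm := hg m
  have hKpos : 0 < K := by omega
  have hdeg : ∀ x, (Small.nb (F.X m) x).card ≤ D := by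
    intro x
    refine le_of_eq_of_le ?_ (hF.deg m x)
    rw [Nat.card_eq_fintype_card, Fintype.card_subtype]
    rfl
  -- upper bound
  set R := 4 * F.g m / K with hR
  have h1 : P.card ≤ 2 ^ (D * R) := by
    have h2 : P ⊆ Small.sball (F.X m) R y := by
      intro z hz
      obtain ⟨w, hw⟩ := hP y hy z hz
      refine Small.mem_sball _ R w ?_
      rw [hR, Nat.le_div_iff_mul_le hKpos, mul_comm]
      exact hw
    refine (card_le_card h2).trans ((Small.card_sball _ hdeg R y).trans ?_)
    rw [pow_mul]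
    exact Nat.pow_le_pow_left Nat.lt_two_pow_self R
  have h2 : 2 * (D * R) ≤ F.g m := by
    have h3 : K * R ≤ 4 * F.g m := Nat.mul_div_le _ _
    have h4 : 8 * (D + 1) * R ≤ K * R := Nat.mul_le_mul_right _ hK
    linarith
  -- lower bound
  have hdeg5 : ∀ x, 5 ≤ (Small.nb (F.X m) x).card := by
    intro x
    have h3 := hF.expand m {x} (by rw [card_singleton]; exact hn m)
    rw [card_singleton, mul_one] at h3
    exact (by norm_num : 5 ≤ 6).trans (Small.six_le_nb h3)
  have h3 := Small.layer_card (hF.conn m) hdeg5 y ((F.g m - 3) / 2) (by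
    refine lt_of_lt_of_le ?_ (hF.girth m)
    exact_mod_cast (by omega))
  have h4 : 4 ^ ((F.g m - 3) / 2) ≤ F.n m := by
    refine h3.trans ((card_filter_le _ _).trans ?_)
    rw [card_univ, Fintype.card_fin]
  refine le_trans ?_ h4
  calc d * P.card ≤ 2 ^ d * 2 ^ (D * R) := Nat.mul_le_mul Nat.lt_two_pow_self.le h1
    _ = 2 ^ (d + D * R) := (pow_add _ _ _).symm
    _ ≤ 2 ^ (2 * ((F.g m - 3) / 2)) := Nat.pow_le_pow_right (by norm_num) (by omega)
    _ = 4 ^ ((F.g m - 3) / 2) := by rw [pow_mul]; norm_num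

end Vale.Agent.P089
end
end

section

section

/-!
# P089: the family of graphs, colourings and codes (BLOCK F)
-/

namespace Vale.Agent.P089

/-- A graph on `Fin n` with a girth parameter. -/
structure Family.Gr where
  n : ℕ
  X : SimpleGraph (Fin n)
  g : ℕ

/-- The properties of a graph of the family. -/
structure Family.Gr.Good (G : Family.Gr) (D c e N : ℕ) : Prop where
  n_le : N ≤ G.n
  g_le : N ≤ G.g
  conn : G.X.Connected
  deg : ∀ x, Nat.card {y // G.X.Adj x y} ≤ D
  girth : (G.g : ℕ∞) ≤ G.X.egirth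
  size : G.n ≤ 2 ^ (c * G.g)
  expand : ∀ R : Finset (Fin G.n), 2 * R.card ≤ G.n → 6 * R.card ≤ eOut G.X R
  sparse : ∀ R : Finset (Fin G.n), e * R.card ≤ G.n → eIn G.X R ≤ 3 * R.card

theorem colVec_ne_zero {q k : ℕ} (h : q ≤ k) (c : Fin q) : colVec k c ≠ 0 := by
  intro hc
  have h1 := congrFun hc ⟨c.val, lt_of_lt_of_le c.isLt h⟩
  unfold colVec at h1
  rw [if_pos rfl] at h1
  exact one_ne_zero h1

/-- BLOCK F. -/
theorem family (hE : ExpanderStatement) (hC : ColourStatement) : FamilyStatement := by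
  obtain ⟨D, c, e, hD, hc, he, hN⟩ := hE
  obtain ⟨K₀, hK₀⟩ := smallStatement D
  obtain ⟨q, g₀, hcol⟩ := hC D c (max K₀ 20) (by positivity)
  obtain ⟨k₀, hk₀⟩ := codeStatement' e q he
  obtain ⟨d, N, hd, hcode⟩ := hk₀ (max k₀ q) (le_max_left _ _)
  obtain ⟨g₁, hg₁⟩ := hK₀ (max K₀ 20) (le_max_left _ _) (8 * d)
  have hex : ∀ N, ∃ G : Family.Gr, G.Good D c e N := by
    intro N
    obtain ⟨n, h1, X, h2, h3, ⟨g, h4, h5, h6⟩, h7, h8⟩ := hN N
    exact ⟨⟨n, X, g⟩, ⟨h1, h4, h2, h3, h5, h6, h7, h8⟩⟩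
  choose f hf using hex
  set N₀ := max (max g₀ g₁) (max N 2) with hN₀
  let s : ℕ → Family.Gr := fun m => Nat.rec (f N₀)
    (fun m G => f (max N₀ (max (G.g + 1) (m + 4 * G.n)))) m
  have hs0 : s 0 = f N₀ := rfl
  have hs1 : ∀ m, s (m + 1) = f (max N₀ (max ((s m).g + 1) (m + 4 * (s m).n))) := fun _ => rfl
  have hgood : ∀ m, (s m).Good D c e N₀ := by
    rintro (_ | m)
    · rw [hs0]
      exact hf N₀
    · rw [hs1]
      have h := hf (max N₀ (max ((s m).g + 1) (m + 4 * (s m).n)))
      exact ⟨(le_max_left _ _).trans h.n_le, (le_max_left _ _).trans h.g_le, h.conn, h.deg,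
        h.girth, h.size, h.expand, h.sparse⟩
  have hgstep : ∀ m, (s m).g < (s (m + 1)).g := by
    intro m
    rw [hs1]
    exact lt_of_lt_of_le (Nat.lt_succ_self _) (((le_max_left _ _).trans (le_max_right _ _)).trans
      (hf (max N₀ (max ((s m).g + 1) (m + 4 * (s m).n)))).g_le)
  have hnstep : ∀ m, m + 4 * (s m).n ≤ (s (m + 1)).n := by
    intro m
    rw [hs1]
    exact ((le_max_right _ _).trans (le_max_right _ _)).trans
      (hf (max N₀ (max ((s m).g + 1) (m + 4 * (s m).n)))).n_le
  have hN1 : g₀ ≤ N₀ := (le_max_left _ _).trans (le_max_left _ _)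
  have hN2 : g₁ ≤ N₀ := (le_max_right _ _).trans (le_max_left _ _)
  have hN3 : N ≤ N₀ := (le_max_left _ _).trans (le_max_right _ _)
  have hN4 : 2 ≤ N₀ := (le_max_right _ _).trans (le_max_right _ _)
  obtain ⟨col, hcolK⟩ := hcol (fun m => (s m).n) (fun m => (s m).X) (fun m => (s m).g)
    (fun m => (hgood m).deg) (fun m => (hgood m).girth) (fun m => (hgood m).size)
    (hN1.trans (hgood 0).g_le) (strictMono_nat_of_lt_succ hgstep)
  set F : Fam q := ⟨fun m => (s m).n, fun m => (s m).X, col, fun m => (s m).g⟩ with hF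
  have hexp : F.Expander D c e :=
    ⟨fun m => hN4.trans (hgood m).n_le, fun m => (hgood m).conn, fun m => (hgood m).deg, fun m => (hgood m).girth,
      fun m => (by norm_num : 0 < 2).trans_le (hN4.trans (hgood m).g_le), fun m => (hgood m).size, fun m => (hgood m).expand,
      fun m => (hgood m).sparse⟩
  have hcodes : ∀ m, ∃ C' C : Submodule (ZMod 2) (Fin (F.n m) → Alph (max k₀ q) q), C' ≤ C ∧
      F.pat (max k₀ q) m ∈ C' ∧
      Module.finrank (ZMod 2) C = Module.finrank (ZMod 2) C' + 1 ∧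
      CodeOnto d C' ∧ CodeDist e C ∧ Module.finrank (ZMod 2) C ≤ 3 * F.n m ∧
      2 * F.n m ≤ Module.finrank (ZMod 2) C' := fun m =>
    hcode (F.n m) (hN3.trans (hgood m).n_le) (F.pat (max k₀ q) m)
      fun x => colVec_ne_zero (le_max_right _ _) _
  choose C' C h1 h2 h3 h4 h5 h6 h7 using hcodes
  exact ⟨q, max k₀ q, D, c, e, d, max K₀ 20, F, C', C, le_max_right _ _, le_max_right _ _, he, hd,
    hcolK, hexp, hg₁ q F c e hexp fun m => hN2.trans (hgood m).g_le, h1, h2, h3, h4, h5, h6, h7,
    hnstep⟩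

end Vale.Agent.P089
end
end

section

section

/-!
# P089: existence of the group (BLOCK M), from Greendlinger's lemma
-/

namespace Vale.Agent.P089

/-- A closed walk without immediate backtracking is at least as long as the girth. -/
theorem egirth_le_of_isChain {V : Type} {X : SimpleGraph V} {x : V} (p : X.Walk x x)
    (hp : 0 < p.length) (hc : p.edges.IsChain (· ≠ ·)) : X.egirth ≤ p.length := by
  classical
  by_contra hlt
  rw [not_le] at hlt
  let H : SimpleGraph V := SimpleGraph.fromEdgeSet {e | e ∈ p.edges}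
  have hmem : ∀ e, e ∈ p.edges → e ∈ H.edgeSet := by
    intro e he
    rw [SimpleGraph.edgeSet_fromEdgeSet]
    exact ⟨he, X.not_isDiag_of_mem_edgeSet (p.edges_subset_edgeSet he)⟩
  have hsub : ∀ e ∈ H.edgeSet, e ∈ p.edges := by
    intro e he
    rw [SimpleGraph.edgeSet_fromEdgeSet] at he
    exact he.1
  have hac : H.IsAcyclic := by
    intro v c hc
    have h1 : ∀ e ∈ c.edges, e ∈ X.edgeSet := fun e he =>
      p.edges_subset_edgeSet (hsub e (c.edges_subset_edgeSet he))
    have h2 := SimpleGraph.egirth_le_length (hc.transfer h1)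
    rw [SimpleGraph.Walk.length_transfer] at h2
    have h3 : c.length ≤ p.length := by
      rw [← SimpleGraph.Walk.length_edges, ← List.toFinset_card_of_nodup hc.edges_nodup]
      have h4 : c.edges.toFinset ⊆ p.edges.toFinset := by
        intro e he
        rw [List.mem_toFinset] at he ⊢
        exact hsub e (c.edges_subset_edgeSet he)
      refine (Finset.card_le_card h4).trans ((List.toFinset_card_le _).trans ?_)
      rw [SimpleGraph.Walk.length_edges]
    have h5 : (c.length : ℕ∞) ≤ (p.length : ℕ∞) := by exact_mod_cast h3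
    exact absurd (h2.trans h5) (not_le.2 hlt)
  have h1 : (p.transfer H hmem).IsPath := by
    rw [hac.isPath_iff_isChain, SimpleGraph.Walk.edges_transfer]
    exact hc
  have h2 := SimpleGraph.Walk.isPath_iff_nil.1 h1
  have h3 := SimpleGraph.Walk.length_eq_zero_iff.2 h2
  rw [SimpleGraph.Walk.length_transfer] at h3
  omega

section Lab

variable {q : ℕ} (F : Fam q)

/-- the labels of a walk -/
def Fam.lab (m : ℕ) : {x y : Fin (F.n m)} → (F.X m).Walk x y → List (Letter q)
  | _, _, .nil => []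
  | x, _, .cons (v := z) _ p => (F.col m x, F.col m z) :: Fam.lab m p

variable {F}

theorem Fam.lab_length {m : ℕ} {x y : Fin (F.n m)} (p : (F.X m).Walk x y) :
    (F.lab m p).length = p.length := by
  induction p with
  | nil => rfl
  | cons h p ih => simp only [lab, List.length_cons, ih, SimpleGraph.Walk.length_cons, Nat.add_left_cancel_iff]

theorem Fam.lab_append {m : ℕ} {x y z : Fin (F.n m)} (p : (F.X m).Walk x y)
    (p' : (F.X m).Walk y z) : F.lab m (p.append p') = F.lab m p ++ F.lab m p' := by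
  induction p with
  | nil => rfl
  | cons h p ih => simp only [SimpleGraph.Walk.cons_append, lab, ih, List.cons_append]

theorem Fam.reads_lab {m : ℕ} {x y : Fin (F.n m)} (p : (F.X m).Walk x y) :
    F.Reads m x (F.lab m p) y := by
  induction p with
  | nil => rfl
  | cons h p ih => exact ⟨_, h, rfl, ih⟩

theorem Fam.exists_walk_of_reads {m : ℕ} : ∀ (w : List (Letter q)) (x y : Fin (F.n m)),
    F.Reads m x w y → ∃ p : (F.X m).Walk x y, F.lab m p = w
  | [], x, y, h => by
    obtain rfl : x = y := h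
    exact ⟨.nil, rfl⟩
  | a :: w, x, y, ⟨z, h1, h2, h3⟩ => by
    obtain ⟨p, hp⟩ := Fam.exists_walk_of_reads w z y h3
    refine ⟨.cons h1 p, ?_⟩
    rw [h2, ← hp]
    rfl

theorem Fam.isChain_edges {m : ℕ} {x y : Fin (F.n m)} (p : (F.X m).Walk x y)
    (h : Red Prod.swap (F.lab m p)) : p.edges.IsChain (· ≠ ·) := by
  unfold Red at h
  induction p with
  | nil => exact List.IsChain.nil
  | @cons x z y h1 p ih =>
    cases p with
    | nil => exact List.IsChain.singleton _
    | @cons _ t _ h2 p =>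
      change List.IsChain (fun a b => b ≠ Prod.swap a)
        ((F.col m x, F.col m z) :: (F.col m z, F.col m t) :: F.lab m p) at h
      rw [List.isChain_cons_cons] at h
      rw [SimpleGraph.Walk.edges_cons, SimpleGraph.Walk.edges_cons, List.isChain_cons_cons]
      refine ⟨fun heq => h.1 ?_, ?_⟩
      · have h3 : x = t := by
          rw [Sym2.eq_iff] at heq
          rcases heq with ⟨h4, _⟩ | ⟨h4, _⟩
          · exact absurd h4 h1.ne
          · exact h4
        rw [h3]
        rfl
      · have h5 := ih h.2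
        rwa [SimpleGraph.Walk.edges_cons] at h5

/-- The labelled graph of a family. -/
def Fam.lgraph (F : Fam q) (hdist : ∀ m x y z, (F.X m).Adj x y → (F.X m).Adj x z →
    F.col m y = F.col m z → y = z) : LGraph (Letter q) Prod.swap where
  Ω := Σ m, Fin (F.n m)
  E p a r := ∃ m x y, p = ⟨m, x⟩ ∧ r = ⟨m, y⟩ ∧ (F.X m).Adj x y ∧ a = (F.col m x, F.col m y)
  det := by
    rintro p a r r' ⟨m, x, y, rfl, rfl, h1, rfl⟩ ⟨m', x', z, h2, rfl, h3, h4⟩
    obtain ⟨rfl, h5⟩ := Sigma.mk.inj h2
    obtain rfl := eq_of_heq h5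
    rw [hdist m x y z h1 h3 (congrArg Prod.snd h4)]
  symm := by
    rintro p a r ⟨m, x, y, rfl, rfl, h1, rfl⟩
    exact ⟨m, y, x, rfl, rfl, h1.symm, rfl⟩

variable {hdist : ∀ m x y z, (F.X m).Adj x y → (F.X m).Adj x z → F.col m y = F.col m z → y = z}

theorem Fam.lreads_iff {m : ℕ} : ∀ (w : List (Letter q)) (x : Fin (F.n m))
    (r : Σ m, Fin (F.n m)),
    (F.lgraph hdist).Reads ⟨m, x⟩ w r ↔ ∃ y, r = ⟨m, y⟩ ∧ F.Reads m x w y
  | [], x, r => by
    constructor
    · intro h
      exact ⟨x, h.symm, rfl⟩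
    · rintro ⟨y, rfl, h⟩
      obtain rfl : x = y := h
      rfl
  | a :: w, x, r => by
    constructor
    · rintro ⟨z, ⟨m', x', y', h1, rfl, h2, h3⟩, h4⟩
      obtain ⟨rfl, h5⟩ := Sigma.mk.inj h1
      obtain rfl := eq_of_heq h5
      obtain ⟨y, h6, h7⟩ := (Fam.lreads_iff w y' r).1 h4
      exact ⟨y, h6, y', h2, h3, h7⟩
    · rintro ⟨y, rfl, z, h1, h2, h3⟩
      exact ⟨⟨m, z⟩, ⟨m, x, z, rfl, rfl, h1, h2⟩, (Fam.lreads_iff w z ⟨m, y⟩).2 ⟨y, rfl, h3⟩⟩

theorem Fam.sc {K D c e : ℕ} (hC : F.Coloured K) (hX : F.Expander D c e) :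
    (F.lgraph hC.dist2).SC (fun p => F.g p.1) K where
  g_pos p := hX.g_pos p.1
  loop := by
    rintro _ _ ⟨m, x, y, rfl, h1, h2, _⟩
    rw [eq_of_heq (Sigma.mk.inj h1).2] at h2
    exact (F.X m).irrefl h2
  g_const := by
    rintro _ _ _ ⟨m, x, y, rfl, rfl, _, _⟩
    rfl
  cyc := by
    rintro ⟨m, x⟩ w hw hr h
    obtain ⟨y, h1, h2⟩ := (Fam.lreads_iff w x ⟨m, x⟩).1 h
    obtain rfl : x = y := eq_of_heq (Sigma.mk.inj h1).2
    obtain ⟨p, rfl⟩ := Fam.exists_walk_of_reads w x x h2
    have h3 : 0 < p.length := by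
      rw [← Fam.lab_length]
      exact List.length_pos_of_ne_nil hw
    have h4 := (hX.girth m).trans (egirth_le_of_isChain p h3 (Fam.isChain_edges p hr))
    rw [Fam.lab_length]
    exact_mod_cast h4
  piece := by
    rintro ⟨m, x⟩ ⟨m', y⟩ w x' y' hne hr h1 h2
    obtain ⟨x'', _, h3⟩ := (Fam.lreads_iff w x x').1 h1
    obtain ⟨y'', _, h4⟩ := (Fam.lreads_iff w y y').1 h2
    exact hC.piece m x w x'' m' y y'' hr h3 h4 hne

end Lab

section Val

variable {S : Type} {inv : S → S} (L : LGraph S inv)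

theorem LGraph.val_append (w w' : List S) : L.val (w ++ w') = L.val w * L.val w' := by
  unfold LGraph.val
  rw [List.map_append, List.prod_append]

theorem LGraph.val_mk (w : List S) :
    L.val w = PresentedGroup.mk L.rels (w.map FreeGroup.of).prod := by
  unfold LGraph.val
  rw [map_list_prod, List.map_map]
  rfl

theorem LGraph.val_closed {x : L.Ω} {w : List S} (h : L.Reads x w x) : L.val w = 1 := by
  rw [L.val_mk]
  exact PresentedGroup.one_of_mem (Or.inr ⟨x, w, h, rfl⟩)

theorem LGraph.of_mul_of (a : S) :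
    (PresentedGroup.of a : L.Grp) * PresentedGroup.of (inv a) = 1 := by
  have h : PresentedGroup.mk L.rels (FreeGroup.of a * FreeGroup.of (inv a)) = 1 :=
    PresentedGroup.one_of_mem (Or.inl ⟨a, rfl⟩)
  rw [map_mul] at h
  exact h

theorem LGraph.val_inv (w : List S) : L.val (w.map inv).reverse = (L.val w)⁻¹ := by
  induction w with
  | nil => simp [LGraph.val]
  | cons a w ih =>
    rw [List.map_cons, List.reverse_cons, L.val_append, ih]
    have h1 : L.val (a :: w) = PresentedGroup.of a * L.val w := by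
      simp [LGraph.val]
    have h2 : L.val [inv a] = (PresentedGroup.of a : L.Grp)⁻¹ := by
      have h3 : L.val [inv a] = PresentedGroup.of (inv a) := by simp [LGraph.val]
      rw [h3]
      exact eq_inv_of_mul_eq_one_right (L.of_mul_of a)
    rw [h1, h2, mul_inv_rev]

theorem LGraph.exists_word (x : L.Grp) :
    ∃ w : List S, L.val w = x := by
  have hx : x ∈ Subgroup.closure (Set.range (PresentedGroup.of : S → L.Grp)) := by
    rw [PresentedGroup.closure_range_of]
    exact Subgroup.mem_top x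
  induction hx using Subgroup.closure_induction with
  | mem x hx =>
    obtain ⟨a, rfl⟩ := hx
    exact ⟨[a], by simp [LGraph.val]⟩
  | one => exact ⟨[], rfl⟩
  | mul x y _ _ hx hy =>
    obtain ⟨w, rfl⟩ := hx
    obtain ⟨w', rfl⟩ := hy
    exact ⟨w ++ w', L.val_append w w'⟩
  | inv x _ hx =>
    obtain ⟨w, rfl⟩ := hx
    exact ⟨(w.map inv).reverse, L.val_inv w⟩

end Val

/-- BLOCK M. -/
theorem monster (hGL : GLStatement) : MonsterStatement := by
  intro q F K D c e hK hC hX
  let L := F.lgraph hC.dist2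
  have hval : ∀ m (x y : Fin (F.n m)) (p p' : (F.X m).Walk x y),
      L.val (F.lab m p) = L.val (F.lab m p') := by
    intro m x y p p'
    have key : ∀ p p' : (F.X m).Walk x y, L.val (F.lab m p) * L.val (F.lab m p'.reverse) = 1 := by
      intro p p'
      rw [← L.val_append, ← Fam.lab_append]
      exact L.val_closed (x := ⟨m, x⟩)
        ((Fam.lreads_iff _ _ _).2 ⟨x, rfl, Fam.reads_lab (p.append p'.reverse)⟩)
    exact mul_right_cancel ((key p p').trans (key p' p').symm)
  let π : ∀ (m : ℕ) (y : Fin (F.n m)), (F.X m).Walk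
      ⟨0, (by norm_num : 0 < 2).trans_le (hX.two m)⟩ y := fun m y =>
    ((hX.conn m).preconnected _ y).some
  refine ⟨{
    G := L.Grp
    s := fun a => PresentedGroup.of a
    s_swap := fun a => L.of_mul_of a
    gen := fun x => L.exists_word x
    pos := fun m y => L.val (F.lab m (π m y))
    pos_adj := fun m x y h => ?_
    green := fun w hw hr h1 => ?_ }⟩
  · rw [hval m _ y (π m y) ((π m x).append (.cons h .nil)), Fam.lab_append, L.val_append]
    simp only [LGraph.val, Fam.lab, List.map_cons, List.map_nil, List.prod_cons, List.prod_nil, mul_one]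
  · obtain ⟨u, a, v, ⟨m, x⟩, y, b, h2, h3, h4, h5, h6⟩ :=
      hGL (Letter q) Prod.swap Prod.swap_swap L (fun p => F.g p.1) K hK (Fam.sc hC hX) w hw hr h1
    obtain ⟨y', rfl, h7⟩ := (Fam.lreads_iff a x y).1 h3
    obtain ⟨x', h8, h9⟩ := (Fam.lreads_iff b y' ⟨m, x⟩).1 h4
    obtain rfl : x = x' := eq_of_heq (Sigma.mk.inj h8).2
    exact ⟨u, a, v, m, x, y', b, h2, h7, h9, h5, h6⟩

end Vale.Agent.P089
end
end

section

section

/-!
# P089, block 2 (part A): path calculus, injectivity, closed chain lemma (helper482)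
-/

namespace Vale.Agent.P089

variable {q : ℕ} {F : Fam q} {K : ℕ}

/-! ### Definitions -/

/-- value of a word in the group. -/
def Monster.val (M : Monster F K) (w : List (Letter q)) : M.G := (w.map M.s).prod

/-- the edges traversed by the path which starts at `x` and reads `w`. -/
def Monster.edges (M : Monster F K) : M.G → List (Letter q) → List (M.G × Letter q)
  | _, [] => []
  | x, a :: w => (x, a) :: Monster.edges M (x * M.s a) w

/-- the inverse edge. -/
def Monster.einv (M : Monster F K) (e : M.G × Letter q) : M.G × Letter q :=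
  (e.1 * M.s e.2, e.2.swap)

/-- the path from `x` with word `w` is a geodesic of the block `β` (certified by a potential). -/
def Monster.Geo (M : Monster F K) (β : M.Block) (x : M.G) (w : List (Letter q)) : Prop :=
  (∀ e ∈ M.edges x w, M.Edge β e.1 e.2) ∧
    ∃ f : M.G → ℤ, (∀ y a, M.Edge β y a → f (y * M.s a) ≤ f y + 1) ∧
      ∀ e ∈ M.edges x w, f (e.1 * M.s e.2) = f e.1 + 1

/-- chains of geodesic segments in blocks from `x` to `y`. -/
def Monster.SPath (M : Monster F K) : M.G → List (M.Block × List (Letter q)) → M.G → Prop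
  | x, [], y => x = y
  | x, σ :: L, y => M.Geo σ.1 x σ.2 ∧ Monster.SPath M (x * M.val σ.2) L y

/-- the block `β` has an edge in common with the copy `(m, h)`. -/
def Monster.Touch (M : Monster F K) (m : ℕ) (h : M.G) (β : M.Block) : Prop :=
  ∃ x a, M.Edge β x a ∧ M.Edge (Sum.inl (m, h)) x a

/-! ### Words and walks in the family -/

theorem Fam.reads_append {m : ℕ} {x y : Fin (F.n m)} {u v : List (Letter q)} :
    F.Reads m x (u ++ v) y ↔ ∃ z, F.Reads m x u z ∧ F.Reads m z v y := by
  induction u generalizing x with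
  | nil => simp only [List.nil_append, Reads, exists_eq_left']
  | cons a u ih =>
    simp only [List.cons_append, Reads, ih]
    constructor
    · rintro ⟨z, h1, h2, t, h3, h4⟩
      exact ⟨t, ⟨z, h1, h2, h3⟩, h4⟩
    · rintro ⟨t, ⟨z, h1, h2, h3⟩, h4⟩
      exact ⟨z, h1, h2, t, h3, h4⟩

theorem Fam.reads_det (hc : F.Coloured K) {m : ℕ} {x y z : Fin (F.n m)} {w : List (Letter q)}
    (h1 : F.Reads m x w y) (h2 : F.Reads m x w z) : y = z := by
  induction w generalizing x with
  | nil => exact h1.symm.trans h2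
  | cons a w ih =>
    obtain ⟨t, ht, hat, h3⟩ := h1
    obtain ⟨t', ht', hat', h4⟩ := h2
    have : F.col m t = F.col m t' := by
      have := hat.symm.trans hat'
      exact (Prod.ext_iff.1 this).2
    have htt : t = t' := hc.dist2 m x t t' ht ht' this
    subst htt
    exact ih h3 h4

/-- a readable word comes from a walk. -/
theorem Fam.exists_walk {m : ℕ} {x y : Fin (F.n m)} {w : List (Letter q)}
    (h : F.Reads m x w y) : ∃ p : (F.X m).Walk x y, p.length = w.length ∧
      ∀ u ∈ p.support, ∃ w₁ w₂, w = w₁ ++ w₂ ∧ F.Reads m x w₁ u := by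
  induction w generalizing x with
  | nil =>
    subst h
    refine ⟨SimpleGraph.Walk.nil, rfl, ?_⟩
    intro u hu
    rw [SimpleGraph.Walk.support_nil, List.mem_singleton] at hu
    subst hu
    exact ⟨[], [], rfl, rfl⟩
  | cons a w ih =>
    obtain ⟨t, ht, hat, h3⟩ := h
    obtain ⟨p, hp, hp2⟩ := ih h3
    refine ⟨SimpleGraph.Walk.cons ht p, by rw [SimpleGraph.Walk.length_cons, hp, List.length_cons],
      ?_⟩
    intro u hu
    rw [SimpleGraph.Walk.support_cons, List.mem_cons] at hu
    rcases hu with rfl | hu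
    · exact ⟨[], a :: w, rfl, rfl⟩
    · obtain ⟨w₁, w₂, hw, hr⟩ := hp2 u hu
      exact ⟨a :: w₁, w₂, by rw [hw]; rfl, t, ht, hat, hr⟩

/-- the word of a walk. -/
theorem Fam.exists_word {m : ℕ} {x y : Fin (F.n m)} (p : (F.X m).Walk x y) :
    ∃ w, w.length = p.length ∧ F.Reads m x w y := by
  induction p with
  | nil => exact ⟨[], rfl, rfl⟩
  | cons h p ih =>
    obtain ⟨w, hw, hr⟩ := ih
    exact ⟨_ :: w, by rw [List.length_cons, hw, SimpleGraph.Walk.length_cons], _, h, rfl, hr⟩

theorem Fam.dist_le_of_reads {m : ℕ} {x y : Fin (F.n m)} {w : List (Letter q)}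
    (h : F.Reads m x w y) : (F.X m).dist x y ≤ w.length := by
  obtain ⟨p, hp, -⟩ := Fam.exists_walk h
  rw [← hp]
  exact SimpleGraph.dist_le p

/-- a geodesic word: existence. -/
theorem Fam.exists_geodesic {m : ℕ} (hconn : (F.X m).Connected) (x y : Fin (F.n m)) :
    ∃ w, F.Reads m x w y ∧ w.length = (F.X m).dist x y := by
  obtain ⟨p, hp⟩ := hconn.exists_walk_length_eq_dist x y
  obtain ⟨w, hw, hr⟩ := Fam.exists_word p
  exact ⟨w, hr, hw.trans hp⟩

/-- factors of geodesics are geodesics. -/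
theorem Fam.dist_factor {m : ℕ} (hconn : (F.X m).Connected) {x y z t : Fin (F.n m)}
    {u a v : List (Letter q)} (hu : F.Reads m x u y) (ha : F.Reads m y a z)
    (hv : F.Reads m z v t) (hg : (u ++ a ++ v).length = (F.X m).dist x t) :
    (F.X m).dist y z = a.length := by
  have h1 := Fam.dist_le_of_reads hu
  have h2 := Fam.dist_le_of_reads ha
  have h3 := Fam.dist_le_of_reads hv
  have h4 := hconn.dist_triangle (u := x) (v := y) (w := t)
  have h5 := hconn.dist_triangle (u := y) (v := z) (w := t)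
  simp only [List.length_append] at hg
  omega

/-- geodesic words are reduced. -/
theorem Fam.red_of_geodesic (hc : F.Coloured K) {m : ℕ} (hconn : (F.X m).Connected)
    {x y : Fin (F.n m)} {w : List (Letter q)} (hr : F.Reads m x w y)
    (hg : w.length = (F.X m).dist x y) : Red Prod.swap w := by
  induction w generalizing x with
  | nil => exact List.isChain_nil
  | cons a w ih =>
    obtain ⟨t, ht, hat, h3⟩ := hr
    have hra : F.Reads m x [a] t := ⟨t, ht, hat, rfl⟩
    have hdw : w.length = (F.X m).dist t y := by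
      have := Fam.dist_factor hconn (u := [a]) (a := w) (v := []) hra h3 (rfl : F.Reads m y [] y)
        (by rw [← hg]; simp)
      exact this.symm
    have ihw := ih h3 hdw
    cases w with
    | nil => exact List.isChain_singleton _
    | cons b w =>
      have goal2 : b ≠ a.swap := by
        intro hba
        obtain ⟨r, hr1, hbr, h4⟩ := h3
        have hcol : F.col m r = F.col m x := by
          have h5 : b.2 = a.1 := by rw [hba]; rfl
          rw [hat, hbr] at h5
          exact h5
        have hrx : r = x := hc.dist2 m t r x hr1 ht.symm hcol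
        rw [hrx] at h4
        have h6 := Fam.dist_le_of_reads h4
        simp only [List.length_cons] at hg
        omega
      exact List.isChain_cons_cons.2 ⟨goal2, ihw⟩

theorem Red.append_left {S : Type} {inv : S → S} {u v : List S} (h : Red inv (u ++ v)) :
    Red inv u := (List.isChain_append.1 h).1

theorem Red.append_right {S : Type} {inv : S → S} {u v : List S} (h : Red inv (u ++ v)) :
    Red inv v := (List.isChain_append.1 h).2.1

/-! ### Basic facts on the group -/

section Basic

variable (M : Monster F K)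

theorem Monster.val_nil : M.val [] = 1 := rfl

theorem Monster.val_cons (a : Letter q) (w : List (Letter q)) :
    M.val (a :: w) = M.s a * M.val w := by
  simp [Monster.val]

theorem Monster.val_append (u v : List (Letter q)) : M.val (u ++ v) = M.val u * M.val v := by
  simp only [val, List.map_append, List.prod_append]

theorem Monster.s_swap_eq (a : Letter q) : M.s a.swap = (M.s a)⁻¹ :=
  eq_inv_of_mul_eq_one_right (M.s_swap a)

theorem Monster.edges_append (x : M.G) (u v : List (Letter q)) :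
    M.edges x (u ++ v) = M.edges x u ++ M.edges (x * M.val u) v := by
  induction u generalizing x with
  | nil => simp only [List.nil_append, edges, val, List.map_nil, List.prod_nil, mul_one]
  | cons a u ih =>
    simp only [List.cons_append, edges, ih, mul_assoc, M.val_cons]

theorem Monster.edges_length (x : M.G) (w : List (Letter q)) :
    (M.edges x w).length = w.length := by
  induction w generalizing x with
  | nil => rfl
  | cons a w ih => simp only [edges, List.length_cons, ih, Nat.add_left_cancel_iff]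

theorem Monster.reads_val {m : ℕ} {y z : Fin (F.n m)} {w : List (Letter q)}
    (h : F.Reads m y w z) : M.pos m z = M.pos m y * M.val w := by
  induction w generalizing y with
  | nil =>
    have hyz : y = z := h
    rw [hyz, M.val_nil, mul_one]
  | cons a w ih =>
    obtain ⟨t, ht, hat, h3⟩ := h
    rw [ih h3, M.pos_adj m y t ht, M.val_cons, mul_assoc, hat]

/-- a nonempty reduced word with value one is long. -/
theorem Monster.long_of_green (hK : 20 ≤ K) (hc : F.Coloured K) {w : List (Letter q)}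
    (hw : w ≠ []) (hr : Red Prod.swap w) (h1 : M.val w = 1) : 3 ≤ w.length := by
  obtain ⟨u, a, v, m, x, y, b, hwuv, ha, hb, hKb, hg⟩ := M.green w hw hr h1
  have h2 := hc.g_large m
  have h3 : a.length ≤ w.length := by
    rw [hwuv]; simp only [List.length_append]; omega
  by_contra hlt
  have h4 : a.length ≤ 2 := by omega
  have h5 : 20 * b.length ≤ K * b.length := Nat.mul_le_mul_right _ hK
  omega

theorem Monster.s_ne_one (hK : 20 ≤ K) (hc : F.Coloured K) (a : Letter q) : M.s a ≠ 1 := by
  intro h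
  have := M.long_of_green hK hc (w := [a]) (by simp) (List.isChain_singleton _)
    (by rw [M.val_cons, M.val_nil, h, mul_one])
  simp only [List.length_cons, List.length_nil, zero_add, Nat.not_ofNat_le_one] at this

theorem Monster.s_inj (hK : 20 ≤ K) (hc : F.Coloured K) : Function.Injective M.s := by
  intro a b h
  by_contra hab
  have hne : b.swap ≠ a.swap := fun h' => hab (Prod.swap_injective h').symm
  have := M.long_of_green hK hc (w := [a, b.swap]) (by simp)
    (List.isChain_cons_cons.2 ⟨hne, List.isChain_singleton _⟩)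
    (by rw [M.val_cons, M.val_cons, M.val_nil, mul_one, M.s_swap_eq, h, mul_inv_cancel])
  simp at this

theorem Monster.pos_inj (hK : 20 ≤ K) (hc : F.Coloured K) {D c e : ℕ} (he : F.Expander D c e)
    (m : ℕ) : Function.Injective (M.pos m) := by
  intro y z hyz
  by_contra hne
  have hconn := he.conn m
  obtain ⟨w, hwr, hwl⟩ := Fam.exists_geodesic hconn y z
  have hw0 : w ≠ [] := by
    rintro rfl
    exact hne hwr
  have hred := Fam.red_of_geodesic hc hconn hwr hwl
  have hval : M.val w = 1 := by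
    have := M.reads_val hwr
    rw [hyz] at this
    exact (mul_eq_left.1 this.symm)
  obtain ⟨u, a, v, m', x, x', b, hwuv, ha, hb, hKb, hg⟩ := M.green w hw0 hred hval
  have hgl := hc.g_large m'
  rw [hwuv, Fam.reads_append] at hwr
  obtain ⟨y2, hwr1, hv⟩ := hwr
  rw [Fam.reads_append] at hwr1
  obtain ⟨y1, hu, ha'⟩ := hwr1
  have hreda : Red Prod.swap a := by
    rw [hwuv] at hred
    exact hred.append_left.append_right
  have h20b : 20 * b.length ≤ K * b.length := Nat.mul_le_mul_right _ hK
  by_cases hsame : (⟨m', x⟩ : Σ m, Fin (F.n m)) = ⟨m, y1⟩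
  · obtain ⟨rfl, hxy⟩ := Sigma.mk.inj_iff.1 hsame
    have hxy' := eq_of_heq hxy
    subst hxy'
    have hx' : x' = y2 := Fam.reads_det hc ha ha'
    subst hx'
    have hd : (F.X m').dist x x' = a.length :=
      Fam.dist_factor hconn hu ha' hv (by rw [← hwuv]; exact hwl)
    have hdb := Fam.dist_le_of_reads hb
    rw [SimpleGraph.dist_comm, hd] at hdb
    omega
  · have hp := hc.piece m' x a x' m y1 y2 hreda ha ha' hsame
    have h20a : 20 * a.length ≤ K * a.length := Nat.mul_le_mul_right _ hK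
    omega

theorem Monster.edge_einv {β : M.Block} {x : M.G} {a : Letter q} (h : M.Edge β x a) :
    M.Edge β (x * M.s a) a.swap := by
  rcases β with ⟨m, h0⟩ | ⟨x₀, b⟩
  · obtain ⟨y, z, hyz, hx, ha⟩ := h
    refine ⟨z, y, hyz.symm, ?_, ?_⟩
    · rw [hx, ha, mul_assoc, ← M.pos_adj m y z hyz]
    · rw [ha]; rfl
  · rcases h with ⟨rfl, rfl⟩ | ⟨rfl, rfl⟩
    · exact Or.inr ⟨rfl, rfl⟩
    · left
      refine ⟨?_, Prod.swap_swap b⟩
      rw [mul_assoc, M.s_swap, mul_one]

theorem Monster.edge_mem {β : M.Block} {x : M.G} {a : Letter q} (h : M.Edge β x a) :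
    M.Mem β x ∧ M.Mem β (x * M.s a) := by
  rcases β with ⟨m, h0⟩ | ⟨x₀, b⟩
  · obtain ⟨y, z, hyz, hx, ha⟩ := h
    refine ⟨⟨y, hx⟩, z, ?_⟩
    rw [hx, ha, mul_assoc, ← M.pos_adj m y z hyz]
  · rcases h with ⟨rfl, rfl⟩ | ⟨rfl, rfl⟩
    · exact ⟨Or.inl rfl, Or.inr rfl⟩
    · refine ⟨Or.inr rfl, Or.inl ?_⟩
      rw [mul_assoc, M.s_swap, mul_one]

/-- words readable in a copy. -/
theorem Monster.edges_of_reads {m : ℕ} {y z : Fin (F.n m)} {w : List (Letter q)}
    (hr : F.Reads m y w z) (h : M.G) :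
    ∀ e ∈ M.edges (h * M.pos m y) w, M.Edge (Sum.inl (m, h)) e.1 e.2 := by
  induction w generalizing y with
  | nil => intro e he; simp [Monster.edges] at he
  | cons a w ih =>
    obtain ⟨t, ht, hat, h3⟩ := hr
    intro e he
    simp only [Monster.edges, List.mem_cons] at he
    rcases he with rfl | he
    · exact ⟨y, t, ht, rfl, hat⟩
    · have : h * M.pos m y * M.s a = h * M.pos m t := by
        rw [M.pos_adj m y t ht, hat, mul_assoc]
      rw [this] at he
      exact ih h3 e he

theorem Monster.reads_of_edges {m : ℕ} (hinj : Function.Injective (M.pos m)) {h : M.G}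
    {y : Fin (F.n m)} {w : List (Letter q)}
    (he : ∀ e ∈ M.edges (h * M.pos m y) w, M.Edge (Sum.inl (m, h)) e.1 e.2) :
    ∃ z, F.Reads m y w z ∧ h * M.pos m z = h * M.pos m y * M.val w := by
  induction w generalizing y with
  | nil => exact ⟨y, rfl, by rw [M.val_nil, mul_one]⟩
  | cons a w ih =>
    obtain ⟨y', t, hyt, hy', ha⟩ := he (h * M.pos m y, a) (by simp [Monster.edges])
    have hyy : y = y' := hinj (mul_left_cancel hy')
    subst hyy
    have ha' : a = (F.col m y, F.col m t) := ha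
    have hstep : h * M.pos m y * M.s a = h * M.pos m t := by
      rw [M.pos_adj m y t hyt, ha', mul_assoc]
    obtain ⟨z, hz1, hz2⟩ := ih (y := t) (fun e he' => he e (by
      simp only [Monster.edges, List.mem_cons]
      right
      rw [hstep]; exact he'))
    refine ⟨z, ⟨t, hyt, ha', hz1⟩, ?_⟩
    rw [hz2, ← hstep, M.val_cons, mul_assoc (h * M.pos m y)]

/-- start of a path with an edge in a copy -/
theorem Monster.start_of_edges {m : ℕ} {h : M.G} {x : M.G} {w : List (Letter q)} (hw : w ≠ [])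
    (he : ∀ e ∈ M.edges x w, M.Edge (Sum.inl (m, h)) e.1 e.2) : ∃ y, x = h * M.pos m y := by
  cases w with
  | nil => exact absurd rfl hw
  | cons a w =>
    obtain ⟨y, t, -, hy, -⟩ := he (x, a) (by simp [Monster.edges])
    exact ⟨y, hy⟩

/-- pieces between two different blocks, the first of which is a copy. -/
theorem Monster.piece_le (hK : 20 ≤ K) (hc : F.Coloured K) {D c e : ℕ} (he : F.Expander D c e)
    {m : ℕ} {h : M.G} {β : M.Block} (hβ : β ≠ Sum.inl (m, h)) {x : M.G} {w : List (Letter q)}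
    (hr : Red Prod.swap w) (h1 : ∀ e ∈ M.edges x w, M.Edge (Sum.inl (m, h)) e.1 e.2)
    (h2 : ∀ e ∈ M.edges x w, M.Edge β e.1 e.2) : K * w.length ≤ F.g m := by
  by_cases hw : w = []
  · subst hw; simp
  rcases β with ⟨m', h'⟩ | ⟨x₀, b⟩
  · obtain ⟨y, rfl⟩ := M.start_of_edges hw h1
    obtain ⟨y', hy'⟩ := M.start_of_edges hw h2
    obtain ⟨z, hz, -⟩ := M.reads_of_edges (M.pos_inj hK hc he m) h1
    rw [hy'] at h2
    obtain ⟨z', hz', -⟩ := M.reads_of_edges (M.pos_inj hK hc he m') h2
    refine (hc.piece m y w z m' y' z' hr hz hz' ?_).le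
    intro heq
    obtain ⟨rfl, hyy⟩ := Sigma.mk.inj_iff.1 heq
    have := eq_of_heq hyy
    subst this
    apply hβ
    rw [mul_right_cancel hy']
  · have hlen : w.length ≤ 1 := by
      match w, hr, h2 with
      | [], _, _ => simp only [List.length_nil, zero_le]
      | [a], _, _ => simp
      | a :: a' :: w, hr, h2 =>
        exfalso
        have hne : a' ≠ a.swap := (List.isChain_cons_cons.1 hr).1
        have e1 := h2 (x, a) (by simp only [edges, List.mem_cons, Prod.mk.injEq, left_eq_mul, true_or])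
        have e2 := h2 (x * M.s a, a') (by simp [Monster.edges])
        have hb1 := M.s_ne_one hK hc b
        rcases e1 with ⟨hx, ha⟩ | ⟨hx, ha⟩
        · have hx' : x = x₀ := hx
          have ha' : a = b := ha
          rcases e2 with ⟨hx2, ha2⟩ | ⟨hx2, ha2⟩
          · have hx2' : x * M.s a = x₀ := hx2
            rw [hx', ha'] at hx2'
            exact hb1 (mul_eq_left.1 hx2')
          · have ha2' : a' = b.swap := ha2
            exact hne (by rw [ha2', ha'])
        · have hx' : x = x₀ * M.s b := hx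
          have ha' : a = b.swap := ha
          rcases e2 with ⟨hx2, ha2⟩ | ⟨hx2, ha2⟩
          · have ha2' : a' = b := ha2
            exact hne (by rw [ha2', ha', Prod.swap_swap])
          · have hx2' : x * M.s a = x₀ * M.s b := hx2
            rw [hx', ha', mul_assoc, M.s_swap, mul_one] at hx2'
            exact hb1 (mul_eq_left.1 hx2'.symm)
    have := hc.g_large m
    calc K * w.length ≤ K * 1 := Nat.mul_le_mul_left _ hlen
      _ ≤ F.g m := by omega

/-! ### Potentials and geodesics in blocks -/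

theorem Monster.pot_le {β : M.Block} {f : M.G → ℤ}
    (hf : ∀ y a, M.Edge β y a → f (y * M.s a) ≤ f y + 1) {x : M.G} {w : List (Letter q)}
    (h : ∀ e ∈ M.edges x w, M.Edge β e.1 e.2) :
    f (x * M.val w) ≤ f x + w.length ∧ f x ≤ f (x * M.val w) + w.length := by
  induction w generalizing x with
  | nil => simp [M.val_nil]
  | cons a w ih =>
    have h1 : M.Edge β x a := h (x, a) (by simp [Monster.edges])
    have h2 := hf x a h1
    have h3 := hf (x * M.s a) a.swap (M.edge_einv h1)
    rw [mul_assoc, M.s_swap, mul_one] at h3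
    obtain ⟨h4, h5⟩ := ih (x := x * M.s a) (fun e he => h e (by
      simp only [Monster.edges, List.mem_cons]; exact Or.inr he))
    rw [M.val_cons, ← mul_assoc, List.length_cons]
    push_cast
    constructor <;> linarith only [h2, h4, h3, h5]

theorem Monster.pot_eq {f : M.G → ℤ} {x : M.G} {w : List (Letter q)}
    (h : ∀ e ∈ M.edges x w, f (e.1 * M.s e.2) = f e.1 + 1) :
    f (x * M.val w) = f x + w.length := by
  induction w generalizing x with
  | nil => simp [M.val_nil]
  | cons a w ih =>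
    have h1 : f (x * M.s a) = f x + 1 := h (x, a) (by simp [Monster.edges])
    have h4 := ih (x := x * M.s a) (fun e he => h e (by
      simp only [Monster.edges, List.mem_cons]; exact Or.inr he))
    rw [M.val_cons, ← mul_assoc, List.length_cons, h4, h1]
    push_cast
    ring

theorem Monster.pot_tight {f : M.G → ℤ} {x : M.G} {w : List (Letter q)}
    (h : ∀ e ∈ M.edges x w, f (e.1 * M.s e.2) ≤ f e.1 + 1)
    (ht : f x + w.length ≤ f (x * M.val w)) :
    ∀ e ∈ M.edges x w, f (e.1 * M.s e.2) = f e.1 + 1 := by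
  have hle : ∀ (w : List (Letter q)) (x : M.G), (∀ e ∈ M.edges x w,
      f (e.1 * M.s e.2) ≤ f e.1 + 1) → f (x * M.val w) ≤ f x + w.length := by
    intro w
    induction w with
    | nil => intro x _; simp [M.val_nil]
    | cons a w ih =>
      intro x hx
      have h1 : f (x * M.s a) ≤ f x + 1 := hx (x, a) (by simp [Monster.edges])
      have h4 := ih (x * M.s a) (fun e he => hx e (by
        simp only [Monster.edges, List.mem_cons]; exact Or.inr he))
      rw [M.val_cons, ← mul_assoc, List.length_cons]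
      push_cast
      linarith
  induction w generalizing x with
  | nil => intro e he; simp [Monster.edges] at he
  | cons a w ih =>
    have h1 : f (x * M.s a) ≤ f x + 1 := h (x, a) (by simp [Monster.edges])
    have hrest : ∀ e ∈ M.edges (x * M.s a) w, f (e.1 * M.s e.2) ≤ f e.1 + 1 := fun e he =>
      h e (by simp only [Monster.edges, List.mem_cons]; exact Or.inr he)
    have h4 := hle w (x * M.s a) hrest
    rw [M.val_cons, ← mul_assoc, List.length_cons] at ht
    push_cast at ht
    intro e he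
    simp only [Monster.edges, List.mem_cons] at he
    rcases he with rfl | he
    · show f (x * M.s a) = f x + 1
      linarith
    · exact ih hrest (by linarith) e he

/-- (A1) geodesics in blocks. -/
theorem Monster.exists_geo (hK : 20 ≤ K) (hc : F.Coloured K) {D c e : ℕ}
    (he : F.Expander D c e) {β : M.Block} {y z : M.G} (hy : M.Mem β y) (hz : M.Mem β z) :
    ∃ w, M.Geo β y w ∧ y * M.val w = z := by
  classical
  rcases β with ⟨m, h⟩ | ⟨x₀, b⟩
  · obtain ⟨y₀, rfl⟩ := hy
    obtain ⟨z₀, rfl⟩ := hz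
    have hinj := M.pos_inj hK hc he m
    have hconn := he.conn m
    obtain ⟨w, hwr, hwl⟩ := Fam.exists_geodesic hconn y₀ z₀
    have hedges := M.edges_of_reads hwr h
    have hval : h * M.pos m y₀ * M.val w = h * M.pos m z₀ := by
      rw [M.reads_val hwr, mul_assoc]
    let f : M.G → ℤ := fun g =>
      if hg : ∃ v, g = h * M.pos m v then ((F.X m).dist y₀ hg.choose : ℤ) else 0
    have hf : ∀ v, f (h * M.pos m v) = ((F.X m).dist y₀ v : ℤ) := by
      intro v
      have hg : ∃ v', h * M.pos m v = h * M.pos m v' := ⟨v, rfl⟩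
      have h1 : f (h * M.pos m v) = ((F.X m).dist y₀ hg.choose : ℤ) := dif_pos hg
      have h2 : hg.choose = v := (hinj (mul_left_cancel hg.choose_spec)).symm
      rw [h1, h2]
    have hlip : ∀ y a, M.Edge (Sum.inl (m, h)) y a → f (y * M.s a) ≤ f y + 1 := by
      rintro y a ⟨u, v, huv, rfl, ha⟩
      have h1 : h * M.pos m u * M.s a = h * M.pos m v := by
        rw [M.pos_adj m u v huv, mul_assoc, ha]
      rw [h1, hf, hf]
      have h2 := hconn.dist_triangle (u := y₀) (v := u) (w := v)
      have h3 : (F.X m).dist u v = 1 := SimpleGraph.dist_eq_one_iff_adj.2 huv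
      rw [h3] at h2
      exact_mod_cast h2
    refine ⟨w, ⟨hedges, f, hlip, ?_⟩, hval⟩
    apply M.pot_tight (fun e he' => hlip _ _ (hedges e he'))
    rw [hval, hf, hf, hwl, SimpleGraph.dist_self]
    simp
  · have hb := M.s_ne_one hK hc b
    have hne : x₀ * M.s b ≠ x₀ := fun h' => hb (mul_eq_left.1 h')
    rcases hy with rfl | rfl
    · rcases hz with rfl | rfl
      · refine ⟨[], ⟨by simp [Monster.edges], fun _ => 0, ?_, by simp [Monster.edges]⟩, ?_⟩
        · intro y a _; simp only [zero_add, zero_le_one]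
        · rw [M.val_nil, mul_one]
      · refine ⟨[b], ⟨?_, fun g => if g = y then 0 else 1, ?_, ?_⟩, ?_⟩
        · intro e he'
          simp only [Monster.edges, List.mem_singleton] at he'
          subst he'
          exact Or.inl ⟨rfl, rfl⟩
        · intro y' a _
          dsimp only
          split_ifs <;> simp
        · intro e he'
          simp only [Monster.edges, List.mem_singleton] at he'
          subst he'
          simp [hne]
        · rw [M.val_cons, M.val_nil, mul_one]
    · rcases hz with rfl | rfl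
      · refine ⟨[b.swap], ⟨?_, fun g => if g = z then 1 else 0, ?_, ?_⟩, ?_⟩
        · intro e he'
          simp only [Monster.edges, List.mem_singleton] at he'
          subst he'
          exact Or.inr ⟨rfl, rfl⟩
        · intro y' a _
          dsimp only
          split_ifs <;> simp
        · intro e he'
          simp only [Monster.edges, List.mem_singleton] at he'
          subst he'
          have : z * M.s b * M.s b.swap = z := by rw [mul_assoc, M.s_swap, mul_one]
          simp only [this, if_true]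
          rw [if_neg hne]
          simp
        · rw [M.val_cons, M.val_nil, mul_one, mul_assoc, M.s_swap, mul_one]
      · refine ⟨[], ⟨by simp [Monster.edges], fun _ => 0, ?_, by simp [Monster.edges]⟩, ?_⟩
        · intro y a _; simp
        · rw [M.val_nil, mul_one]

/-! ### Free reduction -/

theorem not_isChain_split {S : Type} {R : S → S → Prop} {c : List S} (h : ¬ c.IsChain R) :
    ∃ u a b v, c = u ++ a :: b :: v ∧ ¬ R a b := by
  induction c with
  | nil => exact absurd List.isChain_nil h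
  | cons a c ih =>
    cases c with
    | nil => exact absurd (List.isChain_singleton a) h
    | cons b c =>
      by_cases hab : R a b
      · have h2 : ¬ (b :: c).IsChain R := fun h' => h (List.isChain_cons_cons.2 ⟨hab, h'⟩)
        obtain ⟨u, a', b', v, h3, h4⟩ := ih h2
        exact ⟨a :: u, a', b', v, by rw [h3]; rfl, h4⟩
      · exact ⟨[], a, b, c, rfl, hab⟩

/-- free reduction keeps the edges as a sublist. -/
theorem Monster.exists_red (x : M.G) (c : List (Letter q)) :
    ∃ w, Red Prod.swap w ∧ M.val w = M.val c ∧ (M.edges x w).Sublist (M.edges x c) ∧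
      ∀ e ∈ M.edges x c, e ∈ M.edges x w ∨ M.einv e ∈ M.edges x c := by
  induction hn : c.length using Nat.strong_induction_on generalizing c with
  | _ n ih =>
    by_cases hred : Red Prod.swap c
    · exact ⟨c, hred, rfl, List.Sublist.refl _, fun e he => Or.inl he⟩
    · obtain ⟨u, a, b, v, hc, hab⟩ := not_isChain_split hred
      have hab' : b = a.swap := not_not.1 hab
      subst hab'
      have hval : M.val c = M.val (u ++ v) := by
        rw [hc, M.val_append, M.val_append, M.val_cons, M.val_cons, ← mul_assoc (M.s a),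
          M.s_swap, one_mul]
      have hE : M.edges x c = M.edges x u ++ ((x * M.val u, a) ::
          (x * M.val u * M.s a, a.swap) :: M.edges (x * M.val u) v) := by
        rw [hc, M.edges_append]
        simp only [Monster.edges]
        rw [mul_assoc (x * M.val u), M.s_swap, mul_one]
      have hE' : M.edges x (u ++ v) = M.edges x u ++ M.edges (x * M.val u) v :=
        M.edges_append x u v
      have hsub : (M.edges x (u ++ v)).Sublist (M.edges x c) := by
        rw [hE, hE']
        exact List.Sublist.append (List.Sublist.refl _)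
          ((List.sublist_cons_self _ _).trans (List.sublist_cons_self _ _))
      have hlen : (u ++ v).length < n := by
        rw [← hn, hc]
        simp only [List.length_append, List.length_cons]
        omega
      obtain ⟨w, h1, h2, h3, h4⟩ := ih _ hlen (u ++ v) rfl
      refine ⟨w, h1, by rw [h2, hval], h3.trans hsub, ?_⟩
      intro e he
      rw [hE, List.mem_append, List.mem_cons, List.mem_cons] at he
      have hcase : e ∈ M.edges x (u ++ v) → e ∈ M.edges x w ∨ M.einv e ∈ M.edges x c := by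
        intro he'
        rcases h4 e he' with h5 | h5
        · exact Or.inl h5
        · exact Or.inr (hsub.subset h5)
      rcases he with he | rfl | rfl | he
      · exact hcase (by rw [hE']; exact List.mem_append_left _ he)
      · right
        rw [hE]
        refine List.mem_append_right _ (List.mem_cons_of_mem _ ?_)
        exact List.mem_cons_self
      · right
        rw [hE]
        refine List.mem_append_right _ ?_
        have : M.einv (x * M.val u * M.s a, a.swap) = (x * M.val u, a) := by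
          unfold Monster.einv
          rw [mul_assoc (x * M.val u), M.s_swap, mul_one, Prod.swap_swap]
        rw [this]
        exact List.mem_cons_self
      · exact hcase (by rw [hE']; exact List.mem_append_right _ he)

/-- splitting a path whose edges are a sublist of a concatenation. -/
theorem Monster.split_sublist {x : M.G} {a : List (Letter q)} {l₁ l₂ : List (M.G × Letter q)}
    (h : (M.edges x a).Sublist (l₁ ++ l₂)) :
    ∃ a₁ a₂, a = a₁ ++ a₂ ∧ (M.edges x a₁).Sublist l₁ ∧
      (M.edges (x * M.val a₁) a₂).Sublist l₂ := by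
  rw [List.sublist_append_iff] at h
  obtain ⟨k₁, k₂, h1, h2, h3⟩ := h
  refine ⟨a.take k₁.length, a.drop k₁.length, (List.take_append_drop _ _).symm, ?_⟩
  have hlen : k₁.length ≤ a.length := by
    rw [← M.edges_length x a, h1, List.length_append]; omega
  have h4 : M.edges x (a.take k₁.length) ++
      M.edges (x * M.val (a.take k₁.length)) (a.drop k₁.length) = k₁ ++ k₂ := by
    rw [← M.edges_append, List.take_append_drop, h1]
  have h5 := List.append_inj h4 (by rw [M.edges_length, List.length_take]; omega)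
  rw [h5.1, h5.2]
  exact ⟨h2, h3⟩

/-! ### Chains of segments -/

/-- the word of a chain of segments. -/
def Monster.word (L : List (M.Block × List (Letter q))) : List (Letter q) :=
  (L.map Prod.snd).flatten

theorem Monster.word_cons (σ : M.Block × List (Letter q)) (L : List (M.Block × List (Letter q))) :
    M.word (σ :: L) = σ.2 ++ M.word L := by
  simp [Monster.word]

theorem Monster.word_append (L₁ L₂ : List (M.Block × List (Letter q))) :
    M.word (L₁ ++ L₂) = M.word L₁ ++ M.word L₂ := by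
  simp [Monster.word]

theorem Monster.spath_end {x y : M.G} {L : List (M.Block × List (Letter q))}
    (h : M.SPath x L y) : x * M.val (M.word L) = y := by
  induction L generalizing x with
  | nil =>
    have hxy : x = y := h
    rw [← hxy]
    simp [Monster.word, Monster.val]
  | cons σ L ih =>
    rw [M.word_cons, M.val_append, ← mul_assoc]
    exact ih h.2

theorem Monster.spath_append {x y : M.G} {L₁ L₂ : List (M.Block × List (Letter q))} :
    M.SPath x (L₁ ++ L₂) y ↔ ∃ z, M.SPath x L₁ z ∧ M.SPath z L₂ y := by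
  induction L₁ generalizing x with
  | nil =>
    constructor
    · intro h; exact ⟨x, rfl, h⟩
    · rintro ⟨z, h1, h2⟩
      have : x = z := h1
      rw [this]; exact h2
  | cons σ L₁ ih =>
    rw [List.cons_append]
    constructor
    · rintro ⟨h1, h2⟩
      obtain ⟨z, h3, h4⟩ := ih.1 h2
      exact ⟨z, ⟨h1, h3⟩, h4⟩
    · rintro ⟨z, ⟨h1, h3⟩, h4⟩
      exact ⟨h1, ih.2 ⟨z, h3, h4⟩⟩

theorem Monster.spath_edge {x y : M.G} {L : List (M.Block × List (Letter q))}
    (h : M.SPath x L y) {e : M.G × Letter q} (he : e ∈ M.edges x (M.word L)) :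
    ∃ σ ∈ L, M.Edge σ.1 e.1 e.2 := by
  induction L generalizing x with
  | nil => simp [Monster.word, Monster.edges] at he
  | cons σ L ih =>
    rw [M.word_cons, M.edges_append, List.mem_append] at he
    rcases he with he | he
    · exact ⟨σ, List.mem_cons_self, h.1.1 e he⟩
    · obtain ⟨τ, h1, h2⟩ := ih h.2 he
      exact ⟨τ, List.mem_cons_of_mem _ h1, h2⟩

open Classical in
/-- number of segments whose block has a common edge with the copy `(m, h)`. -/
noncomputable def Monster.ntouch (m : ℕ) (h : M.G) (L : List (M.Block × List (Letter q))) : ℕ :=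
  (L.filter fun σ => M.Touch m h σ.1).length

theorem Monster.ntouch_cons (m : ℕ) (h : M.G) (σ : M.Block × List (Letter q))
    (L : List (M.Block × List (Letter q))) :
    M.ntouch m h L ≤ M.ntouch m h (σ :: L) ∧
      (M.Touch m h σ.1 → M.ntouch m h (σ :: L) = M.ntouch m h L + 1) := by
  classical
  unfold Monster.ntouch
  constructor
  · by_cases ht : M.Touch m h σ.1
    · rw [List.filter_cons_of_pos (by simpa using ht), List.length_cons]
      omega
    · rw [List.filter_cons_of_neg (by simpa using ht)]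
  · intro ht
    rw [List.filter_cons_of_pos (by simpa using ht), List.length_cons]

theorem Monster.ntouch_append (m : ℕ) (h : M.G) (L₁ L₂ : List (M.Block × List (Letter q))) :
    M.ntouch m h (L₁ ++ L₂) = M.ntouch m h L₁ + M.ntouch m h L₂ := by
  classical
  unfold Monster.ntouch
  rw [List.filter_append, List.length_append]

/-- path inside a copy, all segments in other blocks. -/
theorem Monster.est_other (hK : 20 ≤ K) (hc : F.Coloured K) {D c e : ℕ} (he : F.Expander D c e)
    {m : ℕ} {h : M.G} {x y : M.G} {L : List (M.Block × List (Letter q))} (hL : M.SPath x L y)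
    (hne : ∀ σ ∈ L, σ.1 ≠ Sum.inl (m, h)) {p : M.G} {a : List (Letter q)}
    (hr : Red Prod.swap a) (ha : ∀ e ∈ M.edges p a, M.Edge (Sum.inl (m, h)) e.1 e.2)
    (hs : (M.edges p a).Sublist (M.edges x (M.word L))) :
    K * a.length ≤ M.ntouch m h L * F.g m := by
  induction L generalizing x p a with
  | nil =>
    have h1 : M.edges p a = [] := by
      simpa [Monster.word, Monster.edges] using hs
    have h2 : a = [] := by
      have := M.edges_length p a
      rw [h1] at this
      exact List.length_eq_zero_iff.1 this.symm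
    subst h2
    simp
  | cons σ L ih =>
    rw [M.word_cons, M.edges_append] at hs
    obtain ⟨a₁, a₂, rfl, hs1, hs2⟩ := M.split_sublist hs
    rw [M.edges_append] at ha
    have ha1 : ∀ e ∈ M.edges p a₁, M.Edge (Sum.inl (m, h)) e.1 e.2 :=
      fun e he => ha e (List.mem_append_left _ he)
    have ha2 : ∀ e ∈ M.edges (p * M.val a₁) a₂, M.Edge (Sum.inl (m, h)) e.1 e.2 :=
      fun e he => ha e (List.mem_append_right _ he)
    have h2 := ih hL.2 (fun τ hτ => hne τ (List.mem_cons_of_mem _ hτ)) hr.append_right ha2 hs2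
    obtain ⟨hn1, hn2⟩ := M.ntouch_cons m h σ L
    by_cases h0 : a₁ = []
    · subst h0
      rw [List.nil_append]
      exact h2.trans (Nat.mul_le_mul_right _ hn1)
    · have hb1 : ∀ e ∈ M.edges p a₁, M.Edge σ.1 e.1 e.2 := fun e he => hL.1.1 e (hs1.subset he)
      have h3 := M.piece_le hK hc he (hne σ List.mem_cons_self) hr.append_left ha1 hb1
      have ht : M.Touch m h σ.1 := by
        obtain ⟨b, t, rfl⟩ := List.exists_cons_of_ne_nil h0
        exact ⟨p, b, hb1 (p, b) (by simp [Monster.edges]), ha1 (p, b) (by simp [Monster.edges])⟩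
      rw [hn2 ht, List.length_append, Nat.mul_add, Nat.add_mul, one_mul]
      omega

/-- path inside a copy, general estimate. -/
theorem Monster.est_all (hK : 20 ≤ K) (hc : F.Coloured K) {D c e : ℕ} (he : F.Expander D c e)
    {m : ℕ} {h : M.G} {x y : M.G} {L : List (M.Block × List (Letter q))} (hL : M.SPath x L y)
    (hnd : (L.map Prod.fst).Nodup) {p : M.G} {a b : List (Letter q)}
    (hr : Red Prod.swap a) (ha : ∀ e ∈ M.edges p a, M.Edge (Sum.inl (m, h)) e.1 e.2)
    (hb : ∀ e ∈ M.edges (p * M.val a) b, M.Edge (Sum.inl (m, h)) e.1 e.2)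
    (hclosed : p * M.val a * M.val b = p)
    (hs : (M.edges p a).Sublist (M.edges x (M.word L))) :
    K * a.length ≤ 2 * (M.ntouch m h L * F.g m) + K * b.length := by
  by_cases hne : ∀ σ ∈ L, σ.1 ≠ Sum.inl (m, h)
  · have := M.est_other hK hc he hL hne hr ha hs
    omega
  · push Not at hne
    obtain ⟨σ, hσ, hσ1⟩ := hne
    obtain ⟨L₁, L₂, rfl⟩ := List.append_of_mem hσ
    obtain ⟨z, hz1, hz2⟩ := M.spath_append.1 hL
    have hend := M.spath_end hz1
    rw [M.word_append, M.edges_append, M.word_cons, M.edges_append, hend] at hs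
    obtain ⟨a₁, a', rfl, hs1, hs'⟩ := M.split_sublist hs
    obtain ⟨a₂, a₃, rfl, hs2, hs3⟩ := M.split_sublist hs'
    have hnd' := hnd
    rw [List.map_append, List.map_cons, List.nodup_append] at hnd
    obtain ⟨-, hnd2, hnd3⟩ := hnd
    rw [List.nodup_cons] at hnd2
    have hne1 : ∀ τ ∈ L₁, τ.1 ≠ Sum.inl (m, h) := by
      intro τ hτ hτ1
      exact hnd3 τ.1 (List.mem_map_of_mem hτ) σ.1 List.mem_cons_self (hτ1.trans hσ1.symm)
    have hne2 : ∀ τ ∈ L₂, τ.1 ≠ Sum.inl (m, h) := by
      intro τ hτ hτ1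
      exact hnd2.1 (List.mem_map.2 ⟨τ, hτ, hτ1.trans hσ1.symm⟩)
    rw [M.edges_append, M.edges_append] at ha
    have ha1 : ∀ e ∈ M.edges p a₁, M.Edge (Sum.inl (m, h)) e.1 e.2 :=
      fun e he => ha e (List.mem_append_left _ he)
    have ha3 : ∀ e ∈ M.edges (p * M.val a₁ * M.val a₂) a₃, M.Edge (Sum.inl (m, h)) e.1 e.2 :=
      fun e he => ha e (List.mem_append_right _ (List.mem_append_right _ he))
    have h1 := M.est_other hK hc he hz1 hne1 hr.append_left ha1 hs1
    have h3 := M.est_other hK hc he hz2.2 hne2 hr.append_right.append_right ha3 hs3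
    -- the potential
    obtain ⟨hgeo, f, hf1, hf2⟩ := hz2.1
    rw [hσ1] at hf1
    have hp1 := M.pot_le hf1 ha1
    have hp2 := M.pot_eq (f := f) (x := p * M.val a₁) (w := a₂)
      (fun e he => hf2 e (hs2.subset he))
    have hp3 := M.pot_le hf1 ha3
    have hp4 := M.pot_le hf1 hb
    rw [hclosed] at hp4
    rw [M.val_append, M.val_append, ← mul_assoc, ← mul_assoc] at hp4
    have hlen : (a₂.length : ℤ) ≤ a₁.length + a₃.length + b.length := by
      linarith only [hp1, hp3, hp4, hp2]
    have hlen' : a₂.length ≤ a₁.length + a₃.length + b.length := by exact_mod_cast hlen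
    have hlenK := Nat.mul_le_mul_left K hlen'
    have hn : M.ntouch m h L₁ + M.ntouch m h L₂ ≤ M.ntouch m h (L₁ ++ σ :: L₂) := by
      rw [M.ntouch_append]
      have := (M.ntouch_cons m h σ L₂).1
      omega
    have hn' := Nat.mul_le_mul_right (F.g m) hn
    rw [Nat.add_mul] at hn'
    simp only [List.length_append, Nat.mul_add] at hlenK ⊢
    (clear * - h1 h3 hn' hlenK; omega)

/-- CLOSED CHAIN LEMMA. -/
theorem Monster.closed_chain (hK : 20 ≤ K) (hc : F.Coloured K) {D c e : ℕ}
    (he : F.Expander D c e) {x : M.G} {β : M.Block} {w : List (Letter q)}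
    {L : List (M.Block × List (Letter q))} (hP : M.SPath x ((β, w) :: L) x)
    (hnd : (((β, w) :: L).map Prod.fst).Nodup)
    (hcount : ∀ m h, M.ntouch m h ((β, w) :: L) ≤ 6) :
    ∀ e ∈ M.edges x w, ∃ β' ∈ L.map Prod.fst, M.Edge β' e.1 e.2 := by
  have hval : M.val (M.word ((β, w) :: L)) = 1 := mul_eq_left.1 (M.spath_end hP)
  obtain ⟨w', hred, hval', hsub, hcancel⟩ := M.exists_red x (M.word ((β, w) :: L))
  have hw' : w' = [] := by
    by_contra hne
    obtain ⟨u, a, v, m, y, y', b, hwuv, ha, hb, hKb, hg⟩ := M.green w' hne hred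
      (hval'.trans hval)
    obtain ⟨p, hp⟩ : ∃ p, p = x * M.val u := ⟨_, rfl⟩
    obtain ⟨h, hh⟩ : ∃ h, h = p * (M.pos m y)⁻¹ := ⟨_, rfl⟩
    have hpy : h * M.pos m y = p := by rw [hh, inv_mul_cancel_right]
    have hpa : p * M.val a = h * M.pos m y' := by
      rw [M.reads_val ha, ← mul_assoc, hpy]
    have hea := M.edges_of_reads ha h
    rw [hpy] at hea
    have heb := M.edges_of_reads hb h
    rw [← hpa] at heb
    have hclosed : p * M.val a * M.val b = p := by
      rw [hpa, mul_assoc, ← M.reads_val hb, hpy]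
    have hreda : Red Prod.swap a := by
      rw [hwuv] at hred
      exact hred.append_left.append_right
    have hsuba : (M.edges p a).Sublist (M.edges x (M.word ((β, w) :: L))) := by
      refine List.Sublist.trans ?_ hsub
      rw [hwuv, M.edges_append, M.edges_append, ← hp]
      exact (List.sublist_append_right _ _).trans (List.sublist_append_left _ _)
    have hest := M.est_all hK hc he hP hnd hreda hea heb hclosed hsuba
    have hcnt := Nat.mul_le_mul_right (F.g m) (hcount m h)
    have hgl := hc.g_large m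
    have h20a : 20 * (a.length + b.length) ≤ K * a.length + K * b.length := by
      rw [← Nat.mul_add]
      exact Nat.mul_le_mul_right _ hK
    omega
  intro e hee
  subst hw'
  have hmem : e ∈ M.edges x (M.word ((β, w) :: L)) := by
    rw [M.word_cons, M.edges_append]
    exact List.mem_append_left _ hee
  rcases hcancel e hmem with h1 | h1
  · simp [Monster.edges] at h1
  · rw [M.word_cons, M.edges_append, List.mem_append] at h1
    rcases h1 with h1 | h1
    · exfalso
      obtain ⟨-, f, hf1, hf2⟩ := hP.1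
      have h2 := hf2 e hee
      have h3 := hf2 _ h1
      have h4 : (M.einv e).1 * M.s (M.einv e).2 = e.1 := by
        show e.1 * M.s e.2 * M.s e.2.swap = e.1
        rw [mul_assoc, M.s_swap, mul_one]
      have h5 : (M.einv e).1 = e.1 * M.s e.2 := rfl
      rw [h4, h5] at h3
      linarith only [h2, h3]
    · obtain ⟨σ, hσ, hσe⟩ := M.spath_edge hP.2 h1
      refine ⟨σ.1, List.mem_map_of_mem hσ, ?_⟩
      have h2 := M.edge_einv hσe
      have h3 : (M.einv e).1 * M.s (M.einv e).2 = e.1 := by
        show e.1 * M.s e.2 * M.s e.2.swap = e.1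
        rw [mul_assoc, M.s_swap, mul_one]
      have h4 : (M.einv e).2.swap = e.2 := Prod.swap_swap _
      rw [h3, h4] at h2
      exact h2

/-- (A5) a path in a copy gives a walk. -/
theorem Monster.exists_walk_of_edges (hK : 20 ≤ K) (hc : F.Coloured K) {D c e : ℕ}
    (he : F.Expander D c e) {m : ℕ} {h : M.G} {y z : Fin (F.n m)} {w : List (Letter q)}
    (hw : ∀ e ∈ M.edges (h * M.pos m y) w, M.Edge (Sum.inl (m, h)) e.1 e.2)
    (hz : h * M.pos m y * M.val w = h * M.pos m z) :
    ∃ p : (F.X m).Walk y z, p.length = w.length ∧ ∀ u ∈ p.support, ∃ w₁ w₂, w = w₁ ++ w₂ ∧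
      h * M.pos m u = h * M.pos m y * M.val w₁ := by
  obtain ⟨z', h1, h2⟩ := M.reads_of_edges (M.pos_inj hK hc he m) hw
  have hzz : z' = z := M.pos_inj hK hc he m (mul_left_cancel (h2.trans hz))
  subst hzz
  obtain ⟨p, hp, hp2⟩ := Fam.exists_walk h1
  refine ⟨p, hp, fun u hu => ?_⟩
  obtain ⟨w₁, w₂, h3, h4⟩ := hp2 u hu
  refine ⟨w₁, w₂, h3, ?_⟩
  rw [M.reads_val h4, mul_assoc]

end Basic

end Vale.Agent.P089
end
end

section

section

/-!
# P089, block 2 (part A): InjStatement, closed chains, intersections of blocks (helper482)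
-/

namespace Vale.Agent.P089

variable {q : ℕ} {F : Fam q} {K : ℕ}

section Inj

variable (M : Monster F K)

theorem Monster.mem_end {β : M.Block} {x : M.G} {w : List (Letter q)} (hx : M.Mem β x)
    (h : ∀ e ∈ M.edges x w, M.Edge β e.1 e.2) : M.Mem β (x * M.val w) := by
  induction w generalizing x with
  | nil => rwa [M.val_nil, mul_one]
  | cons a w ih =>
    rw [M.val_cons, ← mul_assoc]
    have h1 : M.Edge β x a := h (x, a) (by simp [Monster.edges])
    exact ih (M.edge_mem h1).2 (fun e he => h e (by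
      simp only [Monster.edges, List.mem_cons]; exact Or.inr he))

theorem Monster.Geo.red {M : Monster F K} {β : M.Block} {x : M.G} {w : List (Letter q)}
    (h : M.Geo β x w) : Red Prod.swap w := by
  obtain ⟨-, f, -, hf⟩ := h
  by_contra hred
  obtain ⟨u, a, b, v, hw, hab⟩ := not_isChain_split hred
  have hab' : b = a.swap := not_not.1 hab
  subst hab'
  subst hw
  rw [M.edges_append] at hf
  have h1 := hf (x * M.val u, a) (List.mem_append_right _ (by simp only [edges, List.mem_cons, Prod.mk.injEq, left_eq_mul, true_or]))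
  have h2 := hf (x * M.val u * M.s a, a.swap) (List.mem_append_right _ (by simp [Monster.edges]))
  simp only at h1 h2
  rw [mul_assoc (x * M.val u), M.s_swap, mul_one] at h2
  linarith only [h1, h2]

/-- two distinct blocks: geodesics between common vertices are common. -/
theorem Monster.two_blocks (hK : 20 ≤ K) (hc : F.Coloured K) {D c e : ℕ}
    (he : F.Expander D c e) {β β' : M.Block} (hne : β ≠ β') {x y : M.G} (hx' : M.Mem β' x)
    (hy' : M.Mem β' y) {w : List (Letter q)} (hg : M.Geo β x w) (hw : x * M.val w = y) :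
    ∀ e ∈ M.edges x w, M.Edge β' e.1 e.2 := by
  obtain ⟨w', hg', hw'⟩ := M.exists_geo hK hc he hy' hx'
  have hP : M.SPath x [(β, w), (β', w')] x := by
    refine ⟨hg, ?_, ?_⟩
    · show M.Geo β' (x * M.val w) w'
      rw [hw]; exact hg'
    · show x * M.val w * M.val w' = x
      rw [hw]; exact hw'
  intro e hee
  obtain ⟨β'', h1, h2⟩ := M.closed_chain hK hc he hP (by simpa using hne)
    (fun m h => by
      unfold Monster.ntouch
      refine (List.length_filter_le _ _).trans ?_
      simp) e hee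
  simp only [List.map_cons, List.map_nil, List.mem_singleton] at h1
  rw [← h1]
  exact h2

/-- (H1) intersections of a copy with another block are connected and small. -/
theorem Monster.inter (hK : 20 ≤ K) (hc : F.Coloured K) {D c e : ℕ}
    (he : F.Expander D c e) :
    ∀ (m : ℕ) (h : M.G) (β : M.Block), β ≠ Sum.inl (m, h) → ∀ y z, M.Mem β (h * M.pos m y) →
      M.Mem β (h * M.pos m z) → ∃ w : (F.X m).Walk y z, K * w.length ≤ F.g m ∧
        ∀ u ∈ w.support, M.Mem β (h * M.pos m u) := by
  intro m h β hβ y z hy hz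
  obtain ⟨w, hg, hw⟩ := M.exists_geo hK hc he (β := Sum.inl (m, h)) ⟨y, rfl⟩ ⟨z, rfl⟩
  have h1 := M.two_blocks hK hc he hβ.symm hy hz hg hw
  obtain ⟨p, hp, hp2⟩ := M.exists_walk_of_edges hK hc he hg.1 hw
  refine ⟨p, ?_, ?_⟩
  · rw [hp]
    exact M.piece_le hK hc he hβ hg.red hg.1 h1
  · intro u hu
    obtain ⟨w₁, w₂, hw12, hu2⟩ := hp2 u hu
    rw [hu2]
    refine M.mem_end hy fun e he' => h1 e ?_
    rw [hw12, M.edges_append]
    exact List.mem_append_left _ he'

/-- (H5) an edge with both ends in a block is an edge of the block. -/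
theorem Monster.full (hK : 20 ≤ K) (hc : F.Coloured K) {D c e : ℕ}
    (he : F.Expander D c e) :
    ∀ (β : M.Block) (x : M.G) (a : Letter q), M.Mem β x → M.Mem β (x * M.s a) →
      M.Edge β x a := by
  intro β x a hx hxa
  by_cases hβ : (Sum.inr (x, a) : M.Block) = β
  · rw [← hβ]
    exact Or.inl ⟨rfl, rfl⟩
  · have hne : x * M.s a ≠ x := fun h' => M.s_ne_one hK hc a (mul_eq_left.1 h')
    obtain ⟨w, hg, hw⟩ := M.exists_geo hK hc he (β := Sum.inr (x, a)) (Or.inl rfl) (Or.inr rfl)
    have h1 := M.two_blocks hK hc he hβ hx hxa hg hw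
    cases w with
    | nil =>
      exfalso
      rw [M.val_nil, mul_one] at hw
      exact hne hw.symm
    | cons b w =>
      rcases hg.1 (x, b) (by simp [Monster.edges]) with ⟨-, h2⟩ | ⟨h2, -⟩
      · have h3 := h1 (x, b) (by simp [Monster.edges])
        have h2' : b = a := h2
        rw [h2'] at h3
        exact h3
      · exact absurd h2.symm hne

theorem Monster.piece_lt (hc : F.Coloured K) {m : ℕ} {h : M.G} {m' : ℕ} {h' : M.G}
    (hK : 20 ≤ K) {D c e : ℕ} (he : F.Expander D c e)
    (hβ : ((m, h) : ℕ × M.G) ≠ (m', h')) {x : M.G} {w : List (Letter q)}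
    (hr : Red Prod.swap w) (h1 : ∀ e ∈ M.edges x w, M.Edge (Sum.inl (m, h)) e.1 e.2)
    (h2 : ∀ e ∈ M.edges x w, M.Edge (Sum.inl (m', h')) e.1 e.2) : K * w.length < F.g m := by
  by_cases hw : w = []
  · subst hw
    have := hc.g_large m
    simp
    omega
  · obtain ⟨y, rfl⟩ := M.start_of_edges hw h1
    obtain ⟨y', hy'⟩ := M.start_of_edges hw h2
    obtain ⟨z, hz, -⟩ := M.reads_of_edges (M.pos_inj hK hc he m) h1
    rw [hy'] at h2
    obtain ⟨z', hz', -⟩ := M.reads_of_edges (M.pos_inj hK hc he m') h2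
    refine hc.piece m y w z m' y' z' hr hz hz' ?_
    intro heq
    obtain ⟨rfl, hyy⟩ := Sigma.mk.inj_iff.1 heq
    have := eq_of_heq hyy
    subst this
    apply hβ
    rw [mul_right_cancel hy']

end Inj

theorem injStatement : InjStatement := by
  intro q F K D c e M hK hc he
  refine ⟨fun m => M.pos_inj hK hc he m, M.s_inj hK hc, M.s_ne_one hK hc, ?_⟩
  intro m h y z m' h' y' z' hne hy hz
  have hβ : (Sum.inl (m, h) : M.Block) ≠ Sum.inl (m', h') := fun h => hne (Sum.inl_injective h)
  obtain ⟨w, hg, hw⟩ := M.exists_geo hK hc he (β := Sum.inl (m, h)) ⟨y, rfl⟩ ⟨z, rfl⟩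
  have h1 := M.two_blocks hK hc he hβ (y := h * M.pos m z) ⟨y', hy⟩ ⟨z', hz⟩ hg hw
  obtain ⟨p, hp, hp2⟩ := M.exists_walk_of_edges hK hc he hg.1 hw
  refine ⟨p, ?_, ?_⟩
  · rw [hp]
    exact M.piece_lt hc hK he hne hg.red hg.1 h1
  · intro u hu
    obtain ⟨w₁, w₂, hw12, hu2⟩ := hp2 u hu
    have h3 : M.Mem (Sum.inl (m', h')) (h * M.pos m u) := by
      rw [hu2]
      refine M.mem_end ⟨y', hy⟩ fun e he' => h1 e ?_
      rw [hw12, M.edges_append]
      exact List.mem_append_left _ he'
    exact h3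

end Vale.Agent.P089
end
end

section

section

/-!
# P089, block 2 (part B): generations, levels, interface statements
-/

namespace Vale.Agent.P089

variable {q : ℕ} {F : Fam q} {K : ℕ}

/-- `x` is reached from `o` by a chain of `k` blocks. -/
def Monster.Reach (M : Monster F K) (o : M.G) : ℕ → M.G → Prop
  | 0, x => x = o
  | k + 1, x => ∃ (β : M.Block) (y : M.G), M.Mem β y ∧ Monster.Reach M o k y ∧ M.Mem β x

/-- generation of a vertex. -/
noncomputable def Monster.gn (M : Monster F K) (o x : M.G) : ℕ := sInf {k | M.Reach o k x}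

/-- level of a block. -/
noncomputable def Monster.level (M : Monster F K) (o : M.G) (β : M.Block) : ℕ :=
  sInf {k | ∃ x, M.Mem β x ∧ M.gn o x = k}

/-- (A4) closed chain lemma. -/
def Monster.ClosedChain (M : Monster F K) : Prop :=
  ∀ (x : M.G) (β : M.Block) (w : List (Letter q)) (L : List (M.Block × List (Letter q))),
    M.SPath x ((β, w) :: L) x → (((β, w) :: L).map Prod.fst).Nodup →
    (∀ (m : ℕ) (h : M.G) (T : Finset M.Block),
      (∀ β' ∈ T, β' ∈ ((β, w) :: L).map Prod.fst ∧ M.Touch m h β') → T.card ≤ 6) →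
    ∀ e ∈ M.edges x w, ∃ β' ∈ L.map Prod.fst, M.Edge β' e.1 e.2

/-- (H1) intersections of a copy with another block are connected and small. -/
def Monster.Inter (M : Monster F K) : Prop :=
  ∀ (m : ℕ) (h : M.G) (β : M.Block), β ≠ Sum.inl (m, h) → ∀ y z, M.Mem β (h * M.pos m y) →
    M.Mem β (h * M.pos m z) → ∃ w : (F.X m).Walk y z, K * w.length ≤ F.g m ∧
      ∀ u ∈ w.support, M.Mem β (h * M.pos m u)

/-- (H2) the vertices of a copy of the lowest generation. -/
def Monster.LowCopy (M : Monster F K) (o : M.G) : Prop :=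
  ∀ (m : ℕ) (h : M.G) (y z : Fin (F.n m)),
    M.gn o (h * M.pos m y) = M.level o (Sum.inl (m, h)) →
    M.gn o (h * M.pos m z) = M.level o (Sum.inl (m, h)) →
    ∃ w : (F.X m).Walk y z, K * w.length ≤ 2 * F.g m ∧
      ∀ u ∈ w.support, M.gn o (h * M.pos m u) = M.level o (Sum.inl (m, h))

/-- (H3) edges of the lowest generation lie in blocks of smaller level. -/
def Monster.LowEdge (M : Monster F K) (o : M.G) : Prop :=
  ∀ (β : M.Block) (x : M.G) (a : Letter q), M.Edge β x a → M.gn o x = M.level o β →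
    M.gn o (x * M.s a) = M.level o β → ∃ β', M.level o β' < M.level o β ∧ M.Edge β' x a

/-- (H4) two blocks of the same level with a common vertex of higher generation. -/
def Monster.Meet (M : Monster F K) (o : M.G) : Prop :=
  ∀ (β β' : M.Block) (x : M.G), β ≠ β' → M.level o β = M.level o β' → M.Mem β x → M.Mem β' x →
    M.gn o x = M.level o β + 1 → ∃ z, M.Mem β z ∧ M.Mem β' z ∧ M.gn o z = M.level o β

/-- (H5) an edge with both ends in a block is an edge of the block. -/
def Monster.Full (M : Monster F K) : Prop :=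
  ∀ (β : M.Block) (x : M.G) (a : Letter q), M.Mem β x → M.Mem β (x * M.s a) → M.Edge β x a

end Vale.Agent.P089
end
end

section

section

/-!
# P089, block 2, part B1: generations, levels, ladder (helper774)
-/

namespace Vale.Agent.P089

variable {q : ℕ} {F : Fam q} {K : ℕ} {M : Monster F K} {o : M.G}

/-! ### Statements -/

/-- A1: geodesics exist. -/
def Monster.A1 (M : Monster F K) : Prop :=
  ∀ (β : M.Block) (y z : M.G), M.Mem β y → M.Mem β z → ∃ w, M.Geo β y w ∧ y * M.val w = z

/-- Basic facts about generations and levels. -/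
structure Monster.GenFacts (M : Monster F K) (o : M.G) : Prop where
  gen_self : M.gn o o = 0
  gen_zero : ∀ x, M.gn o x = 0 → x = o
  gen_le : ∀ β x y, M.Mem β x → M.Mem β y → M.gn o y ≤ M.gn o x + 1
  pred : ∀ x n, M.gn o x = n + 1 → ∃ β y, M.gn o y = n ∧ M.Mem β y ∧ M.Mem β x
  level_le : ∀ β x, M.Mem β x → M.level o β ≤ M.gn o x
  le_level : ∀ β x, M.Mem β x → M.gn o x ≤ M.level o β + 1
  exists_level : ∀ β, ∃ x, M.Mem β x ∧ M.gn o x = M.level o β

/-- the ladder lemma: two vertices of the same generation `i` are joined by a chain of geodesics in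
distinct blocks of level `< i`, each level occurring at most twice; only the first and the last
block have level `i - 1`. -/
def Monster.Ladder (M : Monster F K) (o : M.G) : Prop :=
  ∀ i x y, M.gn o x = i → M.gn o y = i →
    ∃ L : List (M.Block × List (Letter q)), M.SPath x L y ∧ (L.map Prod.fst).Nodup ∧
      (∀ β ∈ L.map Prod.fst, M.level o β < i) ∧
      (∀ l, ((L.map Prod.fst).filter (fun β => decide (M.level o β = l))).length ≤ 2) ∧
      (0 < i → ∃ α α', M.Mem α x ∧ M.Mem α' y ∧ M.level o α < i ∧ M.level o α' < i ∧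
        ∀ β ∈ L.map Prod.fst, β = α ∨ β = α' ∨ M.level o β + 1 < i)

/-- both ends of an edge of a block lie in the block. -/
theorem Monster.mem_of_edge (M : Monster F K) {β : M.Block} {x : M.G} {a : Letter q}
    (h : M.Edge β x a) : M.Mem β x ∧ M.Mem β (x * M.s a) := by
  rcases β with ⟨m, g⟩ | ⟨x₀, b⟩
  · obtain ⟨y, z, hyz, rfl, rfl⟩ := h
    refine ⟨⟨y, rfl⟩, ⟨z, ?_⟩⟩
    rw [M.pos_adj m y z hyz, mul_assoc]
  · rcases h with ⟨rfl, rfl⟩ | ⟨rfl, rfl⟩
    · exact ⟨Or.inl rfl, Or.inr rfl⟩
    · refine ⟨Or.inr rfl, Or.inl ?_⟩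
      rw [mul_assoc, M.s_swap, mul_one]

/-! ### Generations -/

theorem Monster.exists_reach (M : Monster F K) (o x : M.G) : ∃ n, M.Reach o n x := by
  have key : ∀ (w : List (Letter q)) (n : ℕ) (y : M.G), M.Reach o n y →
      ∃ n', M.Reach o n' (y * M.val w) := by
    intro w
    induction w with
    | nil => intro n y h; exact ⟨n, by rwa [M.val_nil, mul_one]⟩
    | cons a w ih =>
      intro n y h
      obtain ⟨n', h'⟩ := ih (n + 1) (y * M.s a) ⟨Sum.inr (y, a), y, Or.inl rfl, h, Or.inr rfl⟩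
      exact ⟨n', by rwa [M.val_cons, ← mul_assoc]⟩
  obtain ⟨w, hw⟩ := M.gen (o⁻¹ * x)
  obtain ⟨n, hn⟩ := key w 0 o rfl
  refine ⟨n, ?_⟩
  have : o * M.val w = x := by
    show o * (w.map M.s).prod = x
    rw [hw, mul_inv_cancel_left]
  rwa [this] at hn

theorem Monster.reach_gen (M : Monster F K) (o x : M.G) : M.Reach o (M.gn o x) x :=
  Nat.sInf_mem (M.exists_reach o x)

theorem Monster.gen_le_of_reach {n : ℕ} {x : M.G} (h : M.Reach o n x) : M.gn o x ≤ n :=
  Nat.sInf_le h

theorem Monster.genFacts (M : Monster F K) (hne : ∀ m, Nonempty (Fin (F.n m))) (o : M.G) :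
    M.GenFacts o := by
  have hgle : ∀ β x y, M.Mem β x → M.Mem β y → M.gn o y ≤ M.gn o x + 1 := by
    intro β x y hx hy
    exact Monster.gen_le_of_reach ⟨β, x, hx, M.reach_gen o x, hy⟩
  have hblock : ∀ β : M.Block, ∃ x, M.Mem β x := by
    rintro (⟨m, g⟩ | ⟨x₀, b⟩)
    · obtain ⟨y⟩ := hne m
      exact ⟨_, y, rfl⟩
    · exact ⟨x₀, Or.inl rfl⟩
  have hex : ∀ β, ∃ x, M.Mem β x ∧ M.gn o x = M.level o β := by
    intro β
    obtain ⟨x, hx⟩ := hblock β
    have : M.level o β ∈ {n | ∃ x, M.Mem β x ∧ M.gn o x = n} := Nat.sInf_mem ⟨_, x, hx, rfl⟩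
    exact this
  refine ⟨?_, ?_, hgle, ?_, ?_, ?_, hex⟩
  · exact Nat.le_zero.1 (Monster.gen_le_of_reach (n := 0) rfl)
  · intro x hx
    have := M.reach_gen o x
    rw [hx] at this
    exact this
  · intro x n hx
    have h := M.reach_gen o x
    rw [hx] at h
    obtain ⟨β, y, h2, h1, h3⟩ := h
    refine ⟨β, y, ?_, h2, h3⟩
    have h4 := Monster.gen_le_of_reach h1
    have h5 := hgle β y x h2 h3
    omega
  · intro β x hx
    exact Nat.sInf_le ⟨x, hx, rfl⟩
  · intro β x hx
    obtain ⟨y, hy, he⟩ := hex β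
    rw [← he]
    exact hgle β y x hy hx

/-! ### Counting the blocks of a list which touch a copy -/

theorem filter_length_three {α : Type} (P : α → Bool) (P1 P2 P3 : α → Bool) (L : List α)
    (h : ∀ a ∈ L, P a = true → P1 a = true ∨ P2 a = true ∨ P3 a = true) :
    (L.filter P).length ≤ (L.filter P1).length + (L.filter P2).length + (L.filter P3).length := by
  induction L with
  | nil => simp
  | cons a L ih =>
    have ih' := ih (fun b hb => h b (List.mem_cons_of_mem a hb))
    have ha := h a List.mem_cons_self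
    have e : ∀ Q : α → Bool, ((a :: L).filter Q).length =
        (if Q a = true then 1 else 0) + (L.filter Q).length := by
      intro Q
      by_cases hQ : Q a = true
      · rw [List.filter_cons_of_pos hQ, if_pos hQ, List.length_cons, add_comm]
      · rw [List.filter_cons_of_neg hQ, if_neg hQ, zero_add]
    rw [e P, e P1, e P2, e P3]
    by_cases hP : P a = true
    · rw [if_pos hP]
      rcases ha hP with h1 | h1 | h1
      · rw [if_pos h1]; omega
      · rw [if_pos h1]; omega
      · rw [if_pos h1]; omega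
    · rw [if_neg hP]; omega

open Classical in
theorem Monster.touch_count (hg : M.GenFacts o) (Ls : List M.Block)
    (h2 : ∀ l, (Ls.filter (fun b => decide (M.level o b = l))).length ≤ 2) (m : ℕ) (h : M.G) :
    (Ls.filter (fun b => decide (M.Touch m h b))).length ≤ 6 := by
  set j := M.level o (Sum.inl (m, h)) with hj
  have h3 := filter_length_three (fun b => decide (M.Touch m h b))
    (fun b => decide (M.level o b = j - 1)) (fun b => decide (M.level o b = j))
    (fun b => decide (M.level o b = j + 1)) Ls (by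
      intro b _ hb
      have hb' : M.Touch m h b := by simpa using hb
      obtain ⟨x, a, h1, h2⟩ := hb'
      have m1 := (M.mem_of_edge h1).1
      have m2 := (M.mem_of_edge h2).1
      have l1 := hg.level_le b x m1
      have l2 := hg.le_level b x m1
      have l3 := hg.level_le _ x m2
      have l4 := hg.le_level _ x m2
      simp only [decide_eq_true_eq]
      omega)
  have a1 := h2 (j - 1)
  have a2 := h2 j
  have a3 := h2 (j + 1)
  omega

/-! ### The ladder -/

theorem Monster.ladder (hA : M.A1) (hg : M.GenFacts o) : M.Ladder o := by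
  intro i
  induction i with
  | zero =>
    intro x y hx hy
    refine ⟨[], ?_, List.nodup_nil, ?_, ?_, fun h => absurd h (lt_irrefl 0)⟩
    · rw [hg.gen_zero x hx, hg.gen_zero y hy]; exact rfl
    · intro β hβ; simp at hβ
    · intro l; simp
  | succ i ih =>
    intro x y hx hy
    obtain ⟨α, p, hp, hαp, hαx⟩ := hg.pred x i hx
    obtain ⟨α', p', hp', hαp', hαy⟩ := hg.pred y i hy
    have la : M.level o α = i := by
      have := hg.level_le α p hαp
      have := hg.le_level α x hαx
      omega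
    have la' : M.level o α' = i := by
      have := hg.level_le α' p' hαp'
      have := hg.le_level α' y hαy
      omega
    by_cases hmem : M.Mem α' x
    · obtain ⟨w, hw, hwy⟩ := hA α' x y hmem hαy
      refine ⟨[(α', w)], ⟨hw, hwy⟩, by simp, ?_, ?_, ?_⟩
      · intro β hβ
        simp only [List.map_cons, List.map_nil, List.mem_singleton] at hβ
        rw [hβ, la']; exact Nat.lt_succ_self i
      · intro l
        refine (List.length_filter_le _ _).trans ?_
        simp only [List.map_cons, List.map_nil, List.length_cons, List.length_nil, zero_add, Nat.one_le_ofNat]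
      · intro _
        refine ⟨α', α', hmem, hαy, by omega, by omega, ?_⟩
        intro β hβ
        simp only [List.map_cons, List.map_nil, List.mem_singleton] at hβ
        exact Or.inl hβ
    · obtain ⟨L0, hL0, hnd, hlt, hcnt, _⟩ := ih p p' hp hp'
      obtain ⟨w1, hw1, hw1y⟩ := hA α x p hαx hαp
      obtain ⟨w2, hw2, hw2y⟩ := hA α' p' y hαp' hαy
      have hne : α ≠ α' := fun h => hmem (h ▸ hαx)
      have hmap : ((α, w1) :: (L0 ++ [(α', w2)])).map Prod.fst = α :: (L0.map Prod.fst ++ [α']) := by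
        simp
      refine ⟨(α, w1) :: (L0 ++ [(α', w2)]), ?_, ?_, ?_, ?_, ?_⟩
      · refine ⟨hw1, ?_⟩
        rw [hw1y, Monster.spath_append]
        exact ⟨p', hL0, hw2, hw2y⟩
      · rw [hmap, List.nodup_cons, List.nodup_append]
        refine ⟨?_, hnd, by simp, ?_⟩
        · rw [List.mem_append, List.mem_singleton]
          rintro (h | h)
          · have := hlt α h; omega
          · exact hne h
        · intro a ha b hb
          rw [List.mem_singleton] at hb
          rintro rfl
          have := hlt a ha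
          rw [hb, la'] at this
          exact lt_irrefl _ this
      · intro β hβ
        rw [hmap, List.mem_cons, List.mem_append, List.mem_singleton] at hβ
        rcases hβ with rfl | h | rfl
        · omega
        · have := hlt β h; (clear * - hy hp hp' la la' this; omega)
        · (clear * - hy hp hp' la la'; omega)
      · intro l
        rw [hmap, List.filter_cons, List.filter_append]
        by_cases hl : l = i
        · subst hl
          have h0 : (L0.map Prod.fst).filter (fun β => decide (M.level o β = l)) = [] := by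
            rw [List.filter_eq_nil_iff]
            intro β hβ
            have := hlt β hβ
            simp only [decide_eq_true_eq]
            omega
          rw [h0]
          have hs : ([α'].filter (fun β => decide (M.level o β = l))).length ≤ 1 := by
            refine (List.length_filter_le _ _).trans ?_
            simp
          split
          · simp only [List.nil_append, List.length_cons]; omega
          · simp only [List.nil_append]; omega
        · have h1 : ¬ (M.level o α = l) := by rw [la]; exact fun h => hl h.symm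
          have h2 : [α'].filter (fun β => decide (M.level o β = l)) = [] := by
            rw [List.filter_eq_nil_iff]
            intro β hβ
            rw [List.mem_singleton] at hβ
            rw [hβ, la', decide_eq_true_eq]
            exact fun h => hl h.symm
          rw [h2, if_neg (by simpa using h1), List.append_nil]
          exact hcnt l
      · intro _
        refine ⟨α, α', hαx, hαy, by omega, by omega, ?_⟩
        intro β hβ
        rw [hmap, List.mem_cons, List.mem_append, List.mem_singleton] at hβ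
        rcases hβ with rfl | h | rfl
        · exact Or.inl rfl
        · have := hlt β h
          exact Or.inr (Or.inr (by (clear * - hy hp hp' la la' this; omega)))
        · exact Or.inr (Or.inl rfl)

/-! ### The facts in separate form -/

theorem Monster.gn_self (M : Monster F K) (o : M.G) : M.gn o o = 0 :=
  Nat.le_zero.1 (Monster.gen_le_of_reach (n := 0) rfl)

theorem Monster.gn_eq_zero {x : M.G} (h : M.gn o x = 0) : x = o := by
  have h1 := M.reach_gen o x
  rw [h] at h1
  exact h1

theorem Monster.level_le {β : M.Block} {x : M.G} (h : M.Mem β x) : M.level o β ≤ M.gn o x :=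
  Nat.sInf_le ⟨x, h, rfl⟩

theorem Monster.exists_block {x : M.G} (hn : ∀ m, 0 < F.n m) {i : ℕ} (h : M.gn o x = i + 1) :
    ∃ β, M.Mem β x ∧ M.level o β = i := by
  have hg := M.genFacts (fun m => ⟨⟨0, hn m⟩⟩) o
  obtain ⟨β, y, h1, h2, h3⟩ := hg.pred x i h
  refine ⟨β, h3, ?_⟩
  have := hg.level_le β y h2
  have := hg.le_level β x h3
  omega

theorem Monster.gn_le (hn : ∀ m, 0 < F.n m) {β : M.Block} {x : M.G} (h : M.Mem β x) :
    M.gn o x ≤ M.level o β + 1 :=
  (M.genFacts (fun m => ⟨⟨0, hn m⟩⟩) o).le_level β x h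

theorem Monster.exists_level (hn : ∀ m, 0 < F.n m) (o : M.G) (β : M.Block) :
    ∃ x, M.Mem β x ∧ M.gn o x = M.level o β :=
  (M.genFacts (fun m => ⟨⟨0, hn m⟩⟩) o).exists_level β

end Vale.Agent.P089
end
end

section

section

/-!
# P089, block 2, part B: generations, levels, statements (helper774)
-/

namespace Vale.Agent.P089

variable {q : ℕ} {F : Fam q} {K : ℕ}

/-! ### Hypotheses delivered by part A -/

open Classical in
/-- A4: closed chain lemma. -/
def Monster.A4 (M : Monster F K) : Prop :=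
  ∀ (x : M.G) (β : M.Block) (w : List (Letter q)) (L : List (M.Block × List (Letter q))),
    M.SPath x ((β, w) :: L) x → (β :: L.map Prod.fst).Nodup →
    (∀ m h, ((β :: L.map Prod.fst).filter (fun β' => M.Touch m h β')).length ≤ 6) →
    ∀ e ∈ M.edges x w, ∃ β' ∈ L.map Prod.fst, M.Edge β' e.1 e.2

/-! ### F1, F2 -/

/-- **F2**: for different blocks of the same level with a common vertex `y` of generation
`level + 1`, every edge of a geodesic of `κ` from a vertex of generation `level` to `y` which has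
an endpoint of generation `level + 1` lies in `κ'`. -/
def Monster.F2 (M : Monster F K) (o : M.G) : Prop :=
  ∀ (κ κ' : M.Block) (x y : M.G) (w : List (Letter q)), κ ≠ κ' → M.level o κ = M.level o κ' →
    M.Mem κ x → M.gn o x = M.level o κ → M.Mem κ y → M.Mem κ' y →
    M.gn o y = M.level o κ + 1 → M.Geo κ x w → x * M.val w = y →
    ∀ e ∈ M.edges x w, (M.gn o e.1 = M.level o κ + 1 ∨
      M.gn o (e.1 * M.s e.2) = M.level o κ + 1) → M.Edge κ' e.1 e.2

end Vale.Agent.P089
end
end

section

section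

set_option linter.all false

/-! P089, block KEY, local part (helper820): the edge count inside one copy. -/

namespace Vale.Agent.P089

open SimpleGraph

/-- A vertex outside `P` has at most one neighbour in `P`. -/
theorem unique_nbr {V : Type} (X : SimpleGraph V) {g K : ℕ} (hg : (g : ℕ∞) ≤ X.egirth)
    (hK : 20 ≤ K) (hKg : K ≤ g) {P : Set V}
    (hP : ∀ y z, y ∈ P → z ∈ P → ∃ w : X.Walk y z, K * w.length ≤ 4 * g ∧ ∀ u ∈ w.support, u ∈ P)
    {y z z' : V} (hy : y ∉ P) (hz : z ∈ P) (hz' : z' ∈ P) (h : X.Adj y z) (h' : X.Adj y z') :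
    z = z' := by
  classical
  by_contra hne
  obtain ⟨w, hwl, hws⟩ := hP z z' hz hz'
  have hyw : y ∉ w.bypass.support := fun hmem =>
    hy (hws y (w.support_bypass_subset hmem))
  have hpath : (w.bypass.concat h'.symm).IsPath := by
    rw [Walk.concat_isPath_iff]
    exact ⟨w.bypass_isPath, hyw⟩
  have hedge : s(y, z) ∉ (w.bypass.concat h'.symm).edges := by
    rw [Walk.edges_concat]
    intro hmem
    rw [List.concat_eq_append, List.mem_append, List.mem_singleton] at hmem
    rcases hmem with hmem | hmem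
    · exact hyw (Walk.fst_mem_support_of_mem_edges _ hmem)
    · rw [Sym2.eq_iff] at hmem
      rcases hmem with ⟨h1, -⟩ | ⟨-, h2⟩
      · exact h'.ne h1
      · exact hne h2
  have hcyc : (Walk.cons h (w.bypass.concat h'.symm)).IsCycle :=
    (Path.cons_isCycle (⟨_, hpath⟩ : X.Path z y) h hedge)
  have hle := (le_egirth.1 hg) y _ hcyc
  have hle' : g ≤ (Walk.cons h (w.bypass.concat h'.symm)).length := by exact_mod_cast hle
  rw [Walk.length_cons, Walk.length_concat] at hle'
  have h3 : w.bypass.length ≤ w.length := w.length_bypass_le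
  nlinarith

/-- BLOCK KEY, local part: the edges of one copy. -/
theorem copy_bound {V : Type} [Finite V] (X : SimpleGraph V) {g K : ℕ}
    (hg : (g : ℕ∞) ≤ X.egirth) (hK : 20 ≤ K) (hKg : K ≤ g) {P : Set V}
    (hP : ∀ y z, y ∈ P → z ∈ P → ∃ w : X.Walk y z, K * w.length ≤ 4 * g ∧ ∀ u ∈ w.support, u ∈ P)
    (R : Finset V) (hR : ∀ y ∈ R, y ∉ P) (hs : eIn X R ≤ 3 * R.card) :
    Nat.card {p : V × V // X.Adj p.1 p.2 ∧ ((p.1 ∈ R ∧ p.2 ∈ R) ∨ (p.1 ∈ R ∧ p.2 ∈ P) ∨
      (p.1 ∈ P ∧ p.2 ∈ R))} ≤ 5 * R.card := by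
  classical
  set A : Set (V × V) := {p | p.1 ∈ R ∧ p.2 ∈ R ∧ X.Adj p.1 p.2} with hA
  set B : Set (V × V) := {p | p.1 ∈ R ∧ p.2 ∈ P ∧ X.Adj p.1 p.2} with hB
  set C : Set (V × V) := {p | p.1 ∈ P ∧ p.2 ∈ R ∧ X.Adj p.1 p.2} with hC
  have hcard : Nat.card {p : V × V // X.Adj p.1 p.2 ∧ ((p.1 ∈ R ∧ p.2 ∈ R) ∨ (p.1 ∈ R ∧ p.2 ∈ P) ∨
      (p.1 ∈ P ∧ p.2 ∈ R))} ≤ (A ∪ B ∪ C).ncard := by
    have : Nat.card {p : V × V // X.Adj p.1 p.2 ∧ ((p.1 ∈ R ∧ p.2 ∈ R) ∨ (p.1 ∈ R ∧ p.2 ∈ P) ∨
      (p.1 ∈ P ∧ p.2 ∈ R))} = {p : V × V | X.Adj p.1 p.2 ∧ ((p.1 ∈ R ∧ p.2 ∈ R) ∨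
        (p.1 ∈ R ∧ p.2 ∈ P) ∨ (p.1 ∈ P ∧ p.2 ∈ R))}.ncard := rfl
    rw [this]
    refine Set.ncard_le_ncard ?_ (Set.toFinite _)
    rintro ⟨y, z⟩ ⟨hadj, h⟩
    rcases h with ⟨h1, h2⟩ | ⟨h1, h2⟩ | ⟨h1, h2⟩
    · exact Or.inl (Or.inl ⟨h1, h2, hadj⟩)
    · exact Or.inl (Or.inr ⟨h1, h2, hadj⟩)
    · exact Or.inr ⟨h1, h2, hadj⟩
  have hAc : A.ncard ≤ 3 * R.card := hs
  have hBc : B.ncard ≤ R.card := by
    have hinj : Set.InjOn Prod.fst B := by
      rintro ⟨y, z⟩ ⟨h1, h2, h3⟩ ⟨y', z'⟩ ⟨h1', h2', h3'⟩ heq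
      simp only at heq h1 h2 h3 h1' h2' h3'
      subst heq
      rw [unique_nbr X hg hK hKg hP (hR y h1) h2 h2' h3 h3']
    have hmaps : Set.MapsTo Prod.fst B (R : Set V) := fun p hp => hp.1
    have := Set.ncard_le_ncard_of_injOn Prod.fst hmaps hinj (Set.toFinite _)
    rwa [Set.ncard_coe_finset] at this
  have hCc : C.ncard ≤ R.card := by
    have hinj : Set.InjOn Prod.snd C := by
      rintro ⟨z, y⟩ ⟨h1, h2, h3⟩ ⟨z', y'⟩ ⟨h1', h2', h3'⟩ heq
      simp only at heq h1 h2 h3 h1' h2' h3'
      subst heq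
      rw [unique_nbr X hg hK hKg hP (hR y h2) h1 h1' h3.symm h3'.symm]
    have hmaps : Set.MapsTo Prod.snd C (R : Set V) := fun p hp => hp.2.1
    have := Set.ncard_le_ncard_of_injOn Prod.snd hmaps hinj (Set.toFinite _)
    rwa [Set.ncard_coe_finset] at this
  have h1 := Set.ncard_union_le (A ∪ B) C
  have h2 := Set.ncard_union_le A B
  omega

end Vale.Agent.P089
end
end

section

section

set_option linter.all false

/-! P089, block KEY (helper820): sparsity outside the perfect copies. -/

namespace Vale.Agent.P089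

open SimpleGraph

section

variable {q : ℕ} {F : Fam q} {K : ℕ}

theorem Monster.Edge.mem_left {M : Monster F K} {β : M.Block} {x : M.G} {a : Letter q}
    (h : M.Edge β x a) : M.Mem β x := by
  rcases β with ⟨m, g⟩ | ⟨x₀, b⟩
  · obtain ⟨y, z, -, hx, -⟩ := h
    exact ⟨y, hx⟩
  · rcases h with ⟨hx, -⟩ | ⟨hx, -⟩
    · exact Or.inl hx
    · exact Or.inr hx

theorem Monster.Edge.mem_right {M : Monster F K} {β : M.Block} {x : M.G} {a : Letter q}
    (h : M.Edge β x a) : M.Mem β (x * M.s a) := by
  rcases β with ⟨m, g⟩ | ⟨x₀, b⟩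
  · obtain ⟨y, z, hadj, hx, ha⟩ := h
    refine ⟨z, ?_⟩
    rw [M.pos_adj m y z hadj, hx, ha, mul_assoc]
  · rcases h with ⟨hx, ha⟩ | ⟨hx, ha⟩
    · exact Or.inr (by rw [hx, ha])
    · exact Or.inl (by rw [hx, ha, mul_assoc, M.s_swap, mul_one])

end

theorem keyStatement (hI : InjStatement) (hO : OrderStatement) : KeyStatement := by
  classical
  intro q F K D c e M hK hC hE t hadm Z hZ
  obtain ⟨hposinj, -, -, -⟩ := hI q F K D c e M hK hC hE
  obtain ⟨lt, ho⟩ := hO q F K D c e M hK hC hE (0, 1)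
  haveI := ho.wo
  have hwf : WellFounded lt := IsWellFounded.wf
  -- first block of a vertex
  have hne : ∀ x : M.G, {β : M.Block | M.Mem β x}.Nonempty := by
    intro x
    haveI := (hE.conn 0).nonempty
    obtain ⟨y⟩ : Nonempty (Fin (F.n 0)) := inferInstance
    exact ⟨Sum.inl (0, x * (M.pos 0 y)⁻¹), y, by simp⟩
  have hneE : ∀ p : M.G × Letter q, {β : M.Block | M.Edge β p.1 p.2}.Nonempty := by
    intro p
    exact ⟨Sum.inr (p.1, p.2), Or.inl ⟨rfl, rfl⟩⟩
  let fb : M.G → M.Block := fun x => hwf.min _ (hne x)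
  let fe : M.G × Letter q → M.Block := fun p => hwf.min _ (hneE p)
  have hfe : ∀ p, M.Edge (fe p) p.1 p.2 := fun p => hwf.min_mem _ (hneE p)
  have hfe' : ∀ p β, M.Edge β p.1 p.2 → ¬ lt β (fe p) := fun p β hβ =>
    hwf.not_lt_min _ hβ
  have hfb : ∀ x β, M.Mem β x → (¬ ∃ β', lt β' β ∧ M.Mem β' x) → fb x = β := by
    intro x β hβ hno
    have h1 : M.Mem (fb x) x := hwf.min_mem _ (hne x)
    have h2 : ¬ lt β (fb x) := hwf.not_lt_min _ hβ
    have h3 : ¬ lt (fb x) β := fun h => hno ⟨_, h, h1⟩
    rcases trichotomous_of lt (fb x) β with h | h | h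
    · exact absurd h h3
    · exact h
    · exact absurd h h2
  have hnot : ∀ p, ¬ ((∃ β', lt β' (fe p) ∧ M.Mem β' p.1) ∧
      (∃ β', lt β' (fe p) ∧ M.Mem β' (p.1 * M.s p.2))) := by
    rintro p ⟨h1, h2⟩
    obtain ⟨β', h3, h4⟩ := ho.edge _ _ _ (hfe p) h1 h2
    exact hfe' p β' h4 h3
  -- the pairs
  set S : Finset (M.G × Letter q) := (Z ×ˢ Finset.univ).filter
    (fun p => M.Pres t p.1 p.2 ∧ p.1 * M.s p.2 ∈ Z) with hS
  have hSm : ∀ p, p ∈ S ↔ p.1 ∈ Z ∧ M.Pres t p.1 p.2 ∧ p.1 * M.s p.2 ∈ Z := by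
    intro p
    simp only [hS, Finset.mem_filter, Finset.mem_product, Finset.mem_univ, and_true]
  have hcard : Nat.card {p : M.G × Letter q // p.1 ∈ Z ∧ M.Pres t p.1 p.2 ∧ p.1 * M.s p.2 ∈ Z}
      = S.card := Nat.subtype_card S hSm
  rw [hcard]
  have hA : ∀ p ∈ S, fe p ∈ Z.image fb := by
    intro p hp
    obtain ⟨h1, h2, h3⟩ := (hSm p).1 hp
    rw [Finset.mem_image]
    by_cases h4 : ∃ β', lt β' (fe p) ∧ M.Mem β' p.1
    · have h5 : ¬ ∃ β', lt β' (fe p) ∧ M.Mem β' (p.1 * M.s p.2) := fun h => hnot p ⟨h4, h⟩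
      exact ⟨_, h3, hfb _ _ (hfe p).mem_right h5⟩
    · exact ⟨_, h1, hfb _ _ (hfe p).mem_left h4⟩
  rw [Finset.card_eq_sum_card_fiberwise (f := fe) (s := S) (t := Z.image fb) (fun p hp => hA p hp),
    Finset.card_eq_sum_card_image fb Z, Finset.mul_sum]
  refine Finset.sum_le_sum fun β hβ => ?_
  rcases β with ⟨m, h⟩ | ⟨x₀, b⟩
  · -- a copy
    set P : Set (Fin (F.n m)) := {y | M.Early lt m h y} with hP
    set R : Finset (Fin (F.n m)) := Finset.univ.filter (fun y => h * M.pos m y ∈ Z ∧ y ∉ P ∧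
      ∃ B, t (h * M.pos m y) = some (F.col m y, B)) with hR
    have hRm : ∀ y, y ∈ R ↔ (h * M.pos m y ∈ Z ∧ y ∉ P ∧
        ∃ B, t (h * M.pos m y) = some (F.col m y, B)) := by
      intro y; simp only [hR, Finset.mem_filter, Finset.mem_univ, true_and]
    have hRle : R.card ≤ (Z.filter (fun x => fb x = Sum.inl (m, h))).card := by
      refine Finset.card_le_card_of_injOn (fun y => h * M.pos m y) ?_ ?_
      · intro y hy
        obtain ⟨h1, h2, -⟩ := (hRm y).1 hy
        simp only [Finset.coe_filter, Set.mem_setOf_eq]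
        exact ⟨h1, hfb _ _ ⟨y, rfl⟩ h2⟩
      · intro y _ z _ hyz
        exact hposinj m (mul_left_cancel hyz)
    have hsparse : eIn (F.X m) R ≤ 3 * R.card := by
      apply hE.sparse m R
      rcases R.eq_empty_or_nonempty with h0 | ⟨y, hy⟩
      · rw [h0]; simp
      · obtain ⟨h1, h2, -⟩ := (hRm y).1 hy
        rcases hadm m h with hperf | hle
        · exact absurd hperf (hZ _ h1 m h y rfl)
        · refine le_trans (Nat.mul_le_mul_left _ ?_) hle
          rw [Nat.card_eq_fintype_card, Fintype.card_subtype]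
          refine Finset.card_le_card ?_
          intro z hz
          rw [Finset.mem_filter]
          exact ⟨Finset.mem_univ _, ((hRm z).1 hz).2.2⟩
    have hcb := copy_bound (F.X m) (hE.girth m) hK (hC.g_large m) (P := P)
      (fun y z hy hz => ho.small m h y z hy hz) R (fun y hy => ((hRm y).1 hy).2.1) hsparse
    refine le_trans ?_ (le_trans hcb (Nat.mul_le_mul_left _ hRle))
    -- injection
    have hex : ∀ p ∈ S.filter (fun p => fe p = Sum.inl (m, h)), ∃ r : Fin (F.n m) × Fin (F.n m),
        ((F.X m).Adj r.1 r.2 ∧ ((r.1 ∈ R ∧ r.2 ∈ R) ∨ (r.1 ∈ R ∧ r.2 ∈ P) ∨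
          (r.1 ∈ P ∧ r.2 ∈ R))) ∧ p = (h * M.pos m r.1, (F.col m r.1, F.col m r.2)) := by
      intro p hp
      rw [Finset.mem_filter] at hp
      obtain ⟨hpS, hpf⟩ := hp
      obtain ⟨h1, ⟨h2, h2'⟩, h3⟩ := (hSm p).1 hpS
      have h4 := hfe p
      have h5 := hnot p
      rw [hpf] at h4 h5
      obtain ⟨y, z, hadj, hx, ha⟩ := h4
      have hz : p.1 * M.s p.2 = h * M.pos m z := by
        rw [M.pos_adj m y z hadj, hx, ha, mul_assoc]
      rw [hx] at h1 h2 h5
      rw [hx, ← hx, hz] at h2' h3
      rw [hx] at hz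
      rw [hz] at h5
      rw [ha] at h2 h2'
      have hy' : y ∉ P → y ∈ R := fun hyP => (hRm y).2 ⟨h1, hyP, by
        obtain ⟨B, hB, -⟩ := h2; exact ⟨B, hB⟩⟩
      have hz' : z ∉ P → z ∈ R := fun hzP => (hRm z).2 ⟨h3, hzP, by
        obtain ⟨B, hB, -⟩ := h2'; exact ⟨B, hB⟩⟩
      refine ⟨(y, z), ⟨hadj, ?_⟩, ?_⟩
      · by_cases hyP : y ∈ P
        · by_cases hzP : z ∈ P
          · exact absurd ⟨hyP, hzP⟩ h5
          · exact Or.inr (Or.inr ⟨hyP, hz' hzP⟩)
        · by_cases hzP : z ∈ P
          · exact Or.inr (Or.inl ⟨hy' hyP, hzP⟩)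
          · exact Or.inl ⟨hy' hyP, hz' hzP⟩
      · rw [← hx, ← ha]
    rw [Nat.card_eq_fintype_card, Fintype.card_subtype]
    refine le_trans (Finset.card_le_card ?_) (Finset.card_image_le
      (f := fun r : Fin (F.n m) × Fin (F.n m) => (h * M.pos m r.1, (F.col m r.1, F.col m r.2))))
    intro p hp
    obtain ⟨r, hr1, hr2⟩ := hex p hp
    rw [Finset.mem_image]
    exact ⟨r, Finset.mem_filter.2 ⟨Finset.mem_univ _, hr1⟩, hr2.symm⟩
  · -- a single edge
    obtain ⟨x, hx, hxβ⟩ := Finset.mem_image.1 hβ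
    have h1 : 1 ≤ (Z.filter (fun x => fb x = Sum.inr (x₀, b))).card := by
      rw [Nat.one_le_iff_ne_zero, Finset.card_ne_zero]
      exact ⟨x, Finset.mem_filter.2 ⟨hx, hxβ⟩⟩
    have h2 : (S.filter (fun p => fe p = Sum.inr (x₀, b))).card ≤ 2 := by
      have : S.filter (fun p => fe p = Sum.inr (x₀, b)) ⊆
          ({(x₀, b), (x₀ * M.s b, b.swap)} : Finset (M.G × Letter q)) := by
        intro p hp
        rw [Finset.mem_filter] at hp
        have h3 := hfe p
        rw [hp.2] at h3
        rw [Finset.mem_insert, Finset.mem_singleton]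
        rcases h3 with ⟨h3, h4⟩ | ⟨h3, h4⟩
        · exact Or.inl (Prod.ext h3 h4)
        · exact Or.inr (Prod.ext h3 h4)
      exact (Finset.card_le_card this).trans Finset.card_le_two
    omega

end Vale.Agent.P089
end
end

section

section

/-!
# P089, block CONF: abstract counting of first incidences
-/

namespace Vale.Agent.P089.Conf

open Finset

section Abstract

variable {B G A : Type} [AddCommMonoid A] [DecidableEq A] {lt : B → B → Prop}
  {N : B → Type} [∀ b, Fintype (N b)] {pos : ∀ b, N b → G}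
  {Early : ∀ b, N b → Prop} {u : ∀ b, N b → A} {w : G → A} {F : Finset B}

open Classical in
/-- the key injection: a non early point of the support of `u b` outside the support of the sum
lies in a later block, where it is early. -/
theorem exists_later (htri : ∀ a b, lt a b ∨ a = b ∨ lt b a)
    (hpos : ∀ b, Function.Injective (pos b))
    (hE : ∀ b b' y y', lt b' b → pos b y = pos b' y' → Early b y)
    (hw : ∀ x, w x = ∑ b ∈ F, ∑ y : N b, if pos b y = x then u b y else 0)
    {b : B} (hb : b ∈ F) {y : N b} (hy : u b y ≠ 0) (hn : ¬ Early b y) (h0 : w (pos b y) = 0) :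
    ∃ b' ∈ F, lt b b' ∧ ∃ y' : N b', pos b' y' = pos b y ∧ Early b' y' := by
  have h1 : ∃ b' ∈ F, b' ≠ b ∧ (∑ y' : N b', if pos b' y' = pos b y then u b' y' else 0) ≠ 0 := by
    by_contra hcon
    push Not at hcon
    have h2 : w (pos b y) = u b y := by
      rw [hw, Finset.sum_eq_single b]
      · rw [Finset.sum_eq_single y]
        · simp
        · intro z _ hz
          rw [if_neg]
          intro hh
          exact hz (hpos b hh)
        · intro hh; exact absurd (Finset.mem_univ y) hh
      · intro b' hb' hne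
        exact hcon b' hb' hne
      · intro hh; exact absurd hb hh
    exact hy (h2 ▸ h0)
  obtain ⟨b', hb', hne, hs⟩ := h1
  obtain ⟨y', _, hy'⟩ := Finset.exists_ne_zero_of_sum_ne_zero hs
  have hp : pos b' y' = pos b y := by
    by_contra hh
    exact hy' (if_neg hh)
  have hlt : lt b b' := by
    rcases htri b b' with h | h | h
    · exact h
    · exact absurd h.symm hne
    · exact absurd (hE b b' y y' h hp.symm) hn
  exact ⟨b', hb', hlt, y', hp, hE b' b y' y hlt hp⟩

/-- a point which is not early in `b` determines `b` and its position. -/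
theorem first_unique (htri : ∀ a b, lt a b ∨ a = b ∨ lt b a)
    (hpos : ∀ b, Function.Injective (pos b))
    (hE : ∀ b b' y y', lt b' b → pos b y = pos b' y' → Early b y)
    {p p' : Sigma N} (h : pos p.1 p.2 = pos p'.1 p'.2) (hn : ¬ Early p.1 p.2)
    (hn' : ¬ Early p'.1 p'.2) : p = p' := by
  obtain ⟨b, y⟩ := p
  obtain ⟨b', y'⟩ := p'
  rcases htri b b' with h1 | h1 | h1
  · exact absurd (hE b' b y' y h1 h.symm) hn'
  · subst h1
    have h2 : y = y' := hpos b h
    rw [h2]
  · exact absurd (hE b b' y y' h1 h) hn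

open Classical in
/-- **Dual counting lemma**, abstract form. -/
theorem count_le (htri : ∀ a b, lt a b ∨ a = b ∨ lt b a)
    (hpos : ∀ b, Function.Injective (pos b))
    (hE : ∀ b b' y y', lt b' b → pos b y = pos b' y' → Early b y)
    (hw : ∀ x, w x = ∑ b ∈ F, ∑ y : N b, if pos b y = x then u b y else 0)
    (W : Finset G) (hW : ∀ x, w x ≠ 0 → x ∈ W) :
    ∑ b ∈ F, (Finset.univ.filter fun y : N b => u b y ≠ 0 ∧ ¬ Early b y).card ≤
      W.card + ∑ b ∈ F, (Finset.univ.filter fun y : N b => Early b y).card := by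
  rw [← Finset.card_sigma, ← Finset.card_sigma]
  set S1 := F.sigma (fun b => Finset.univ.filter fun y : N b => u b y ≠ 0 ∧ ¬ Early b y) with hS1
  set S2 := F.sigma (fun b => Finset.univ.filter fun y : N b => Early b y) with hS2
  have hsplit := Finset.card_filter_add_card_filter_not (s := S1)
    (fun p : Sigma N => w (pos p.1 p.2) ≠ 0)
  rw [← hsplit]
  have hmem : ∀ p ∈ S1, p.1 ∈ F ∧ u p.1 p.2 ≠ 0 ∧ ¬ Early p.1 p.2 := by
    intro p hp
    rw [hS1, Finset.mem_sigma, Finset.mem_filter] at hp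
    exact ⟨hp.1, hp.2.2.1, hp.2.2.2⟩
  apply Nat.add_le_add
  · apply Finset.card_le_card_of_injOn (fun p : Sigma N => pos p.1 p.2)
    · intro p hp
      have hp := Finset.mem_coe.1 hp
      rw [Finset.mem_filter] at hp
      exact Finset.mem_coe.2 (hW _ hp.2)
    · intro p hp p' hp' h
      have hp := Finset.mem_coe.1 hp
      have hp' := Finset.mem_coe.1 hp'
      rw [Finset.mem_filter] at hp hp'
      exact first_unique htri hpos hE h (hmem p hp.1).2.2 (hmem p' hp'.1).2.2
  · have key : ∀ p ∈ S1.filter (fun p : Sigma N => ¬ (w (pos p.1 p.2) ≠ 0)),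
        ∃ p' ∈ S2, pos p'.1 p'.2 = pos p.1 p.2 := by
      intro p hp
      rw [Finset.mem_filter, not_not] at hp
      obtain ⟨hb, hy, hn⟩ := hmem p hp.1
      obtain ⟨b', hb', _, y', hy', he⟩ := exists_later htri hpos hE hw hb hy hn hp.2
      refine ⟨⟨b', y'⟩, ?_, hy'⟩
      rw [hS2, Finset.mem_sigma, Finset.mem_filter]
      exact ⟨hb', Finset.mem_univ _, he⟩
    choose! f hf1 hf2 using key
    apply Finset.card_le_card_of_injOn f
    · intro p hp
      exact Finset.mem_coe.2 (hf1 p (Finset.mem_coe.1 hp))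
    · intro p hp p' hp' h
      have hp := Finset.mem_coe.1 hp
      have hp' := Finset.mem_coe.1 hp'
      have h1 := hf2 p hp
      have h2 := hf2 p' hp'
      rw [h, h2] at h1
      rw [Finset.mem_filter] at hp hp'
      exact first_unique htri hpos hE h1.symm (hmem p hp.1).2.2 (hmem p' hp'.1).2.2

open Classical in
/-- support bound: if every `u b`, `b ∈ F`, has at least `s b` nonzero values and at most `t b` early
points, with `s b ≥ 2 t b + r b`, then the sum has at least `∑ r b` nonzero values. -/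
theorem support_ge (htri : ∀ a b, lt a b ∨ a = b ∨ lt b a)
    (hpos : ∀ b, Function.Injective (pos b))
    (hE : ∀ b b' y y', lt b' b → pos b y = pos b' y' → Early b y)
    (hw : ∀ x, w x = ∑ b ∈ F, ∑ y : N b, if pos b y = x then u b y else 0)
    (W : Finset G) (hW : ∀ x, w x ≠ 0 → x ∈ W) (r : B → ℕ)
    (hr : ∀ b ∈ F, 2 * (Finset.univ.filter fun y : N b => Early b y).card + r b ≤
      (Finset.univ.filter fun y : N b => u b y ≠ 0).card) :
    ∑ b ∈ F, r b ≤ W.card := by
  have h := count_le htri hpos hE hw W hW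
  have h2 : ∑ b ∈ F, (2 * (Finset.univ.filter fun y : N b => Early b y).card + r b) ≤
      ∑ b ∈ F, ((Finset.univ.filter fun y : N b => u b y ≠ 0 ∧ ¬ Early b y).card +
        (Finset.univ.filter fun y : N b => Early b y).card) := by
    apply Finset.sum_le_sum
    intro b hb
    refine (hr b hb).trans ?_
    have h3 : (Finset.univ.filter fun y : N b => u b y ≠ 0) ⊆
        (Finset.univ.filter fun y : N b => u b y ≠ 0 ∧ ¬ Early b y) ∪
        (Finset.univ.filter fun y : N b => Early b y) := by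
      intro y hy
      rw [Finset.mem_filter] at hy
      rw [Finset.mem_union, Finset.mem_filter, Finset.mem_filter]
      by_cases he : Early b y
      · exact Or.inr ⟨Finset.mem_univ _, he⟩
      · exact Or.inl ⟨Finset.mem_univ _, hy.2, he⟩
    exact (Finset.card_le_card h3).trans (Finset.card_union_le _ _)
  rw [Finset.sum_add_distrib, Finset.sum_add_distrib, ← Finset.mul_sum] at h2
  omega

/-- a nonempty finite family has a last block. -/
theorem exists_last (hirr : ∀ a, ¬ lt a a) (htr : ∀ a b c, lt a b → lt b c → lt a c)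
    (E : Finset B) (hE : E.Nonempty) : ∃ b ∈ E, ∀ b' ∈ E, ¬ lt b b' := by
  classical
  induction hE using Finset.Nonempty.cons_induction with
  | singleton a => exact ⟨a, Finset.mem_singleton_self a, fun b' hb' => by
      rw [Finset.mem_singleton.1 hb']; exact hirr a⟩
  | cons a s ha hs ih =>
    obtain ⟨b, hb, hmax⟩ := ih
    by_cases hab : lt b a
    · refine ⟨a, Finset.mem_cons_self a s, ?_⟩
      intro b' hb'
      rcases Finset.mem_cons.1 hb' with h | h
      · rw [h]; exact hirr a
      · intro hh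
        exact hmax b' h (htr _ _ _ hab hh)
    · refine ⟨b, Finset.mem_cons_of_mem hb, ?_⟩
      intro b' hb'
      rcases Finset.mem_cons.1 hb' with h | h
      · rw [h]; exact hab
      · exact hmax b' h

open Classical in
/-- if the sum is supported on the first block, then every block of the family except the first
one has an early point for each point of the support that is not early; hence if all supports
exceed the early parts, only the first block remains. -/
theorem only_first (htri : ∀ a b, lt a b ∨ a = b ∨ lt b a) (hirr : ∀ a, ¬ lt a a)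
    (htr : ∀ a b c, lt a b → lt b c → lt a c)
    (hpos : ∀ b, Function.Injective (pos b))
    (hE : ∀ b b' y y', lt b' b → pos b y = pos b' y' → Early b y)
    (hw : ∀ x, w x = ∑ b ∈ F, ∑ y : N b, if pos b y = x then u b y else 0)
    (b₀ : B) (hb₀ : ∀ b, b ≠ b₀ → lt b₀ b)
    (hsupp : ∀ x, w x ≠ 0 → ∃ y, x = pos b₀ y)
    (hs : ∀ b ∈ F, b ≠ b₀ → ∃ y : N b, u b y ≠ 0 ∧ ¬ Early b y) :
    ∀ b ∈ F, b = b₀ := by
  by_contra hcon
  push Not at hcon
  obtain ⟨b₁, hb₁, hne₁⟩ := hcon
  -- the last block different from `b₀`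
  obtain ⟨b, hb, hmax⟩ := exists_last hirr htr (F.filter (· ≠ b₀))
    ⟨b₁, Finset.mem_filter.2 ⟨hb₁, hne₁⟩⟩
  rw [Finset.mem_filter] at hb
  obtain ⟨y, hy, hn⟩ := hs b hb.1 hb.2
  have h0 : w (pos b y) = 0 := by
    by_contra hne
    obtain ⟨y₀, hy₀⟩ := hsupp _ hne
    exact hn (hE b b₀ y y₀ (hb₀ b hb.2) hy₀)
  obtain ⟨b', hb', hlt, y', hy', he⟩ := exists_later htri hpos hE hw hb.1 hy hn h0
  apply hmax b' _ hlt
  rw [Finset.mem_filter]
  refine ⟨hb', ?_⟩
  rintro rfl
  exact hirr _ (htr _ _ _ hlt (hb₀ b hb.2))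

end Abstract

end Vale.Agent.P089.Conf
end
end

section

section

/-!
# P089: decoded configurations are admissible (BLOCK V3)
-/

open Finset
open scoped Classical

namespace Vale.Agent.P089

variable {q k : ℕ}

theorem colVec_injective (h : q ≤ k) : Function.Injective (colVec k (q := q)) := by
  intro c c' hc
  have h1 := congrFun hc ⟨c.val, lt_of_lt_of_le c.isLt h⟩
  unfold colVec at h1
  rw [if_pos rfl] at h1
  by_contra hne
  rw [if_neg fun h2 => hne (Fin.ext h2)] at h1
  exact one_ne_zero h1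

theorem decode_eq_some_iff (h : q ≤ k) (a : Alph k q) (c : Fin q) (B : Finset (Fin q)) :
    decode a = some (c, B) ↔ colVec k c = a.1 ∧ B = Finset.univ.filter fun i => a.2 i = 1 := by
  unfold decode
  split_ifs with hd
  · constructor
    · intro he
      have he' := Option.some.inj he
      have h1 : hd.choose = c := congrArg Prod.fst he'
      have h2 := congrArg Prod.snd he'
      refine ⟨?_, h2.symm⟩
      rw [← h1]
      exact hd.choose_spec
    · rintro ⟨h1, h2⟩
      have h3 : hd.choose = c := colVec_injective h (hd.choose_spec.trans h1.symm)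
      rw [h3, h2]
  · constructor
    · intro he
      cases he
    · rintro ⟨h1, -⟩
      exact absurd ⟨c, h1⟩ hd

theorem zmod2_cases (c : ZMod 2) : c = 0 ∨ c = 1 := by
  revert c
  decide

theorem decode_pat_iff (h : q ≤ k) (F : Fam q) (m : ℕ) (y : Fin (F.n m)) (a : Alph k q) :
    decode a = F.decl m y ↔ a = F.pat k m y := by
  unfold Fam.decl
  rw [decode_eq_some_iff h]
  constructor
  · rintro ⟨h1, h2⟩
    refine Prod.ext h1.symm (funext fun i => ?_)
    have h3 : i ∈ (Finset.univ.filter fun z => (F.X m).Adj y z).image (F.col m) ↔ a.2 i = 1 := by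
      rw [h2]
      simp only [mem_filter, mem_univ, true_and]
    have h4 : (∃ z, (F.X m).Adj y z ∧ F.col m z = i) ↔ a.2 i = 1 := by
      rw [← h3]
      simp only [mem_image, mem_filter, mem_univ, true_and]
    change a.2 i = if ∃ z, (F.X m).Adj y z ∧ F.col m z = i then 1 else 0
    by_cases h5 : ∃ z, (F.X m).Adj y z ∧ F.col m z = i
    · rw [if_pos h5]
      exact h4.1 h5
    · rw [if_neg h5]
      rcases zmod2_cases (a.2 i) with h6 | h6
      · exact h6
      · exact absurd (h4.2 h6) h5
  · rintro rfl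
    refine ⟨rfl, ?_⟩
    ext i
    simp only [mem_image, mem_filter, mem_univ, true_and]
    change (∃ z, (F.X m).Adj y z ∧ F.col m z = i) ↔
      (if ∃ z, (F.X m).Adj y z ∧ F.col m z = i then (1 : ZMod 2) else 0) = 1
    by_cases h5 : ∃ z, (F.X m).Adj y z ∧ F.col m z = i
    · simp only [h5, ↓reduceIte]
    · simp only [h5, ↓reduceIte, zero_ne_one]

/-- BLOCK V3. -/
theorem admissibleStatement : AdmissibleStatement := by
  intro q F K M k e C hqk hdist hpat v hv
  have hperf : ∀ m h, M.Perfect (fun x => decode (v x)) m h ↔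
      ∀ y, v (h * M.pos m y) = F.pat k m y := by
    intro m h
    exact forall_congr' fun y => decode_pat_iff hqk F m y _
  refine ⟨fun m h => ?_, hperf⟩
  rw [hperf]
  by_cases hu : (fun y => v (h * M.pos m y)) - F.pat k m = 0
  · left
    intro y
    exact congrFun (sub_eq_zero.1 hu) y
  · right
    have h1 := hdist m _ (Submodule.sub_mem _ (hv m h) (hpat m)) hu
    refine le_trans (Nat.mul_le_mul_left _ ?_) h1
    refine Nat.card_mono (Set.toFinite _) ?_
    rintro y ⟨B, hB⟩
    have h2 := ((decode_eq_some_iff hqk _ _ _).1 hB).1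
    change ((v (h * M.pos m y)) - F.pat k m y).1 = 0
    rw [Prod.fst_sub, ← h2]
    exact sub_self _

end Vale.Agent.P089
end
end

section

section

/-!
Definitions for P086: the Hilbert space `ℓ²(G)`, the left regular representation,
the group von Neumann algebra `L(G) = λ(G)''`.
-/

namespace Vale.Agent.P086

/-- The Hilbert space `ℓ²(G)`. -/
abbrev Ell2 (G : Type) : Type := lp (fun _ : G => ℂ) 2

open Classical in
/-- The basis vector `δ_g` of `ℓ²(G)`. -/
noncomputable def dl {G : Type} (g : G) : Ell2 G := lp.single 2 g (1 : ℂ)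

theorem memlp_perm {G : Type} (e : Equiv.Perm G) (ξ : Ell2 G) :
    Memℓp (fun h : G => (ξ (e.symm h) : ℂ)) 2 := by
  have h := lp.memℓp ξ
  rw [memℓp_gen_iff (by norm_num)] at h ⊢
  exact (Equiv.summable_iff e.symm).mpr h

/-- For a permutation `e` of `G`, the unitary `ξ ↦ ξ ∘ e⁻¹` of `ℓ²(G)`. -/
noncomputable def permOp {G : Type} (e : Equiv.Perm G) : Ell2 G →L[ℂ] Ell2 G :=
  LinearMap.mkContinuous
    { toFun := fun ξ => ⟨fun h => ξ (e.symm h), memlp_perm e ξ⟩
      map_add' := fun ξ η => rfl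
      map_smul' := fun c ξ => rfl }
    1 (fun ξ => by
      rw [one_mul, lp.norm_eq_tsum_rpow (by norm_num), lp.norm_eq_tsum_rpow (by norm_num)]
      apply le_of_eq
      congr 1
      exact Equiv.tsum_eq e.symm (fun h => ‖ξ h‖ ^ (ENNReal.toReal 2)))

/-- The left regular representation: `(λ(g) ξ)(h) = ξ(g⁻¹ h)`. -/
noncomputable def lam {G : Type} [Group G] (g : G) : Ell2 G →L[ℂ] Ell2 G :=
  permOp (Equiv.mulLeft g)

/-- The von Neumann algebra `S''` generated by a set `S` of bounded operators on `ℓ²(G)`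
(the double commutant of `S ∪ S*`). -/
noncomputable def vNA {G : Type} (S : Set (Ell2 G →L[ℂ] Ell2 G)) :
    StarSubalgebra ℂ (Ell2 G →L[ℂ] Ell2 G) :=
  StarSubalgebra.centralizer ℂ
    (StarSubalgebra.centralizer ℂ S : Set (Ell2 G →L[ℂ] Ell2 G))

@[simp] theorem permOp_apply {G : Type} (e : Equiv.Perm G) (ξ : Ell2 G) (h : G) :
    permOp e ξ h = ξ (e.symm h) := rfl

@[simp] theorem lam_apply {G : Type} [Group G] (g : G) (ξ : Ell2 G) (h : G) :
    lam g ξ h = ξ (g⁻¹ * h) := rfl

end Vale.Agent.P086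
end
end

section

section

/-!
Basic theory of `L(G)`: the regular representations, the 2-norm and its trace symmetry, and
the tracial Kaplansky approximation of unitaries of `L(G)` by group algebra elements which are
bounded in every unitary representation.
-/

open scoped InnerProductSpace

namespace Vale.Agent.P086

variable {G H : Type} [Group G] [Group H]

/-! ### Permutation operators -/

theorem permOp_mul {X : Type} (e f : Equiv.Perm X) : permOp (e * f) = permOp e * permOp f := by
  ext ξ h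
  simp only [permOp_apply]
  rfl

theorem permOp_one {X : Type} : permOp (1 : Equiv.Perm X) = 1 := by
  ext ξ h
  rfl

theorem inner_permOp {X : Type} (e : Equiv.Perm X) (ξ η : Ell2 X) :
    ⟪permOp e ξ, permOp e η⟫_ℂ = ⟪ξ, η⟫_ℂ := by
  rw [lp.inner_eq_tsum, lp.inner_eq_tsum]
  simp only [permOp_apply]
  exact Equiv.tsum_eq e.symm (fun h => ⟪ξ h, η h⟫_ℂ)

theorem star_permOp {X : Type} (e : Equiv.Perm X) : star (permOp e) = permOp e⁻¹ := by
  rw [ContinuousLinearMap.star_eq_adjoint, eq_comm, ContinuousLinearMap.eq_adjoint_iff]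
  intro x y
  have h : permOp e (permOp e⁻¹ x) = x := by
    have := permOp_mul e e⁻¹
    rw [mul_inv_cancel, permOp_one] at this
    exact (congrArg (fun T : Ell2 X →L[ℂ] Ell2 X => T x) this).symm
  rw [← inner_permOp e, h]

theorem permOp_mem_unitary {X : Type} (e : Equiv.Perm X) :
    permOp e ∈ unitary (Ell2 X →L[ℂ] Ell2 X) := by
  rw [Unitary.mem_iff, star_permOp, ← permOp_mul, ← permOp_mul]
  simp [permOp_one]

theorem permOp_dl {X : Type} (e : Equiv.Perm X) (x : X) : permOp e (dl x) = dl (e x) := by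
  classical
  ext h
  simp only [permOp_apply, dl, lp.coeFn_single, Pi.single_apply]
  congr 1
  rw [eq_iff_iff]
  exact Equiv.symm_apply_eq e

theorem dl_apply {X : Type} [DecidableEq X] (x y : X) :
    (dl x : Ell2 X) y = if y = x then 1 else 0 := by
  simp only [dl, lp.coeFn_single, Pi.single_apply]
  congr

theorem inner_dl {X : Type} (x : X) (ξ : Ell2 X) : ⟪dl x, ξ⟫_ℂ = ξ x := by
  classical
  rw [dl, lp.inner_single_left]
  simp only [RCLike.inner_apply, map_one, mul_one]

theorem inner_dl_right {X : Type} (x : X) (ξ : Ell2 X) :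
    ⟪ξ, dl x⟫_ℂ = (starRingEnd ℂ) (ξ x) := by
  rw [← inner_conj_symm, inner_dl]

theorem norm_dl {X : Type} (x : X) : ‖(dl x : Ell2 X)‖ = 1 := by
  classical
  rw [dl, lp.norm_single (by norm_num)]
  simp

/-! ### The left and right regular representations -/

theorem lam_mul (g h : G) : lam (g * h) = lam g * lam h := by
  rw [lam, lam, lam, ← permOp_mul]
  congr 1
  ext x
  simp only [Equiv.mulLeft_mul, Equiv.Perm.coe_mul, Equiv.coe_mulLeft, Function.comp_apply]

theorem lam_one : lam (1 : G) = 1 := by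
  rw [lam, ← permOp_one]
  congr 1
  ext x
  simp

theorem lam_dl (g h : G) : lam g (dl h) = dl (g * h) := by
  rw [lam, permOp_dl]; rfl

/-- The unitary `ξ ↦ ξ(· g⁻¹)`, which maps `δ_h` to `δ_{hg}`. -/
noncomputable def rho (g : G) : Ell2 G →L[ℂ] Ell2 G := permOp (Equiv.mulRight g)

theorem rho_apply (g : G) (ξ : Ell2 G) (h : G) : rho g ξ h = ξ (h * g⁻¹) := rfl

/-! ### Supports: the von Neumann algebra of a subgroup -/

open Classical in
theorem memlp_ind {X : Type} (K : Set X) (ξ : Ell2 X) :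
    Memℓp (fun h : X => if h ∈ K then (ξ h : ℂ) else 0) 2 := by
  refine Memℓp.mono' (lp.memℓp ξ) fun i => ?_
  split_ifs
  · exact le_rfl
  · simp only [norm_zero, norm_nonneg]

open Classical in
/-- Multiplication by the indicator function of a set. -/
noncomputable def indLin {X : Type} (K : Set X) : Ell2 X →ₗ[ℂ] Ell2 X where
  toFun ξ := ⟨fun h => if h ∈ K then ξ h else 0, memlp_ind K ξ⟩
  map_add' ξ η := by
    ext h
    change (if h ∈ K then ξ h + η h else 0) = (if h ∈ K then ξ h else 0) + (if h ∈ K then η h else 0)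
    split_ifs <;> simp
  map_smul' c ξ := by
    ext h
    change (if h ∈ K then c * ξ h else 0) = c * (if h ∈ K then ξ h else 0)
    split_ifs <;> simp

open Classical in
theorem indLin_apply {X : Type} (K : Set X) (ξ : Ell2 X) (h : X) :
    indLin K ξ h = if h ∈ K then ξ h else 0 := rfl

/-- Multiplication by the indicator function of a set, as a bounded operator. -/
noncomputable def indOp {X : Type} (K : Set X) : Ell2 X →L[ℂ] Ell2 X :=
  (indLin K).mkContinuous 1 (fun ξ => by
      rw [one_mul]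
      refine lp.norm_mono (by norm_num) fun i => ?_
      rw [indLin_apply]
      split_ifs
      · exact le_rfl
      · simp)

open Classical in
theorem indOp_apply {X : Type} (K : Set X) (ξ : Ell2 X) (h : X) :
    indOp K ξ h = if h ∈ K then ξ h else 0 := rfl

end Vale.Agent.P086
end
end

section

section

/-!
P089, block H: the co-area inequality (finite combinatorics).

`V` is a set of vertices, `A` a finite set of letters, `σ x a` the end point of the edge with letter
`a` at `x`, `pres x a` says that this edge is present, `bad` is a set of vertices.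
-/

namespace Vale.Agent.P089.Gap

open Finset

section coarea

variable {V A : Type} [Fintype A] (σ : V → A → V) (pres : V → A → Prop) (bad : V → Prop)

open Classical in
/-- The weighted boundary of a finite set. -/
noncomputable def bdr (R : Finset V) : ℝ :=
  (∑ x ∈ R, ∑ a : A, if pres x a ∧ σ x a ∉ R then (1 : ℝ) else 0) +
    6 * ∑ x ∈ R, if bad x then (1 : ℝ) else 0

open Classical in
/-- The co-area inequality. -/
theorem coarea (W : Finset V) (hiso : ∀ R ⊆ W, (R.card : ℝ) ≤ bdr σ pres bad R) (u : V → ℝ)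
    (hu : ∀ x, 0 ≤ u x) (h0 : ∀ x, x ∉ W → u x = 0) :
    ∑ x ∈ W, u x ≤ (∑ x ∈ W, ∑ a : A, if pres x a then max (u x - u (σ x a)) 0 else 0) +
      6 * ∑ x ∈ W, if bad x then u x else 0 := by
  induction W using Finset.strongInduction generalizing u with
  | H W ih =>
    rcases W.eq_empty_or_nonempty with rfl | hne
    · simp only [sum_empty, mul_zero, add_zero, Std.le_refl]
    obtain ⟨x0, hx0, hmin⟩ := W.exists_min_image u hne
    obtain ⟨c, hc⟩ : ∃ c, c = u x0 := ⟨_, rfl⟩
    have hc0 : 0 ≤ c := hc ▸ hu x0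
    obtain ⟨u', hu'⟩ : ∃ u' : V → ℝ, u' = fun x => if x ∈ W then u x - c else 0 := ⟨_, rfl⟩
    have hu'in : ∀ x ∈ W, u' x = u x - c := fun x hx => by rw [hu']; exact if_pos hx
    have hu'out : ∀ x, x ∉ W → u' x = 0 := fun x hx => by rw [hu']; exact if_neg hx
    have hu'0 : ∀ x, 0 ≤ u' x := by
      intro x
      by_cases hx : x ∈ W
      · rw [hu'in x hx, hc]
        exact sub_nonneg.mpr (hmin x hx)
      · rw [hu'out x hx]
    have hx0' : u' x0 = 0 := by rw [hu'in x0 hx0, hc, sub_self]
    have IH := ih (W.erase x0) (Finset.erase_ssubset hx0)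
      (fun R hR => hiso R (hR.trans (Finset.erase_subset _ _))) u' hu'0 (by
        intro x hx
        by_cases hxW : x ∈ W
        · have : x = x0 := by
            by_contra hne'
            exact hx (Finset.mem_erase.mpr ⟨hne', hxW⟩)
          rw [this, hx0']
        · exact hu'out x hxW)
    have e1 : ∑ x ∈ W.erase x0, u' x = ∑ x ∈ W, u' x := by
      rw [← Finset.sum_erase_add _ _ hx0, hx0', add_zero]
    have e2 : (∑ x ∈ W.erase x0, ∑ a : A, if pres x a then max (u' x - u' (σ x a)) 0 else 0) ≤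
        ∑ x ∈ W, ∑ a : A, if pres x a then max (u' x - u' (σ x a)) 0 else 0 := by
      refine Finset.sum_le_sum_of_subset_of_nonneg (Finset.erase_subset _ _) fun x _ _ => ?_
      refine Finset.sum_nonneg fun a _ => ?_
      split_ifs
      · exact le_max_right _ _
      · exact le_rfl
    have e3 : (∑ x ∈ W.erase x0, if bad x then u' x else 0) ≤ ∑ x ∈ W, if bad x then u' x else 0 := by
      refine Finset.sum_le_sum_of_subset_of_nonneg (Finset.erase_subset _ _) fun x _ _ => ?_
      split_ifs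
      · exact hu'0 x
      · exact le_rfl
    have e4 : ∑ x ∈ W, u x = ∑ x ∈ W, u' x + c * W.card := by
      rw [mul_comm, ← nsmul_eq_mul, ← Finset.sum_const, ← Finset.sum_add_distrib]
      refine Finset.sum_congr rfl fun x hx => ?_
      rw [hu'in x hx]; ring
    have e5 : (∑ x ∈ W, ∑ a : A, if pres x a then max (u x - u (σ x a)) 0 else 0) =
        (∑ x ∈ W, ∑ a : A, if pres x a then max (u' x - u' (σ x a)) 0 else 0) +
        c * ∑ x ∈ W, ∑ a : A, if pres x a ∧ σ x a ∉ W then (1 : ℝ) else 0 := by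
      rw [Finset.mul_sum, ← Finset.sum_add_distrib]
      refine Finset.sum_congr rfl fun x hx => ?_
      rw [Finset.mul_sum, ← Finset.sum_add_distrib]
      refine Finset.sum_congr rfl fun a _ => ?_
      by_cases hp : pres x a
      · by_cases hs : σ x a ∈ W
        · rw [if_pos hp, if_pos hp, if_neg (fun h => h.2 hs), hu'in x hx, hu'in _ hs]
          rw [mul_zero, add_zero]
          congr 1
          ring
        · rw [if_pos hp, if_pos hp, if_pos ⟨hp, hs⟩, hu'out _ hs, h0 _ hs, sub_zero, sub_zero,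
            max_eq_left (hu x), max_eq_left (hu'0 x), hu'in x hx]
          ring
      · rw [if_neg hp, if_neg hp, if_neg (fun h => hp h.1)]
        ring
    have e6 : (∑ x ∈ W, if bad x then u x else 0) =
        (∑ x ∈ W, if bad x then u' x else 0) + c * ∑ x ∈ W, if bad x then (1 : ℝ) else 0 := by
      rw [Finset.mul_sum, ← Finset.sum_add_distrib]
      refine Finset.sum_congr rfl fun x hx => ?_
      split_ifs
      · rw [hu'in x hx]; ring
      · ring
    have e7 := hiso W (Finset.Subset.refl W)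
    have e8 : c * (W.card : ℝ) ≤ c * bdr σ pres bad W := mul_le_mul_of_nonneg_left e7 hc0
    rw [bdr, mul_add] at e8
    rw [e4, e5, e6]
    rw [e1] at IH
    linarith

open Classical in
/-- The local energy inequality. -/
theorem local_energy (W : Finset V) (hiso : ∀ R ⊆ W, (R.card : ℝ) ≤ bdr σ pres bad R) (f : V → ℝ)
    (hf : ∀ x, 0 ≤ f x) (h0 : ∀ x, x ∉ W → f x = 0) :
    ∑ x ∈ W, f x ^ 2 ≤ 4 * (Fintype.card A + 1 : ℝ) *
        (∑ x ∈ W, ∑ a : A, if pres x a then (f x - f (σ x a)) ^ 2 else 0) +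
      12 * ∑ x ∈ W, if bad x then f x ^ 2 else 0 := by
  have h := coarea σ pres bad W hiso (fun x => f x ^ 2) (fun x => sq_nonneg _)
    (fun x hx => by simp only [h0 x hx]; norm_num)
  obtain ⟨Q, hQ⟩ : ∃ Q : ℝ, Q = Fintype.card A + 1 := ⟨_, rfl⟩
  have hQ1 : 1 ≤ Q := by rw [hQ]; have : (0 : ℝ) ≤ Fintype.card A := Nat.cast_nonneg _; linarith
  rw [← hQ]
  have hpt : ∀ a b : ℝ, 0 ≤ a → 0 ≤ b →
      max (a ^ 2 - b ^ 2) 0 ≤ a ^ 2 / (2 * Q) + 2 * Q * (a - b) ^ 2 := by
    intro a b ha hb
    have h1 : 0 ≤ a ^ 2 / (2 * Q) := by (clear * - hQ1; positivity)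
    have h2 : 0 ≤ 2 * Q * (a - b) ^ 2 := by (clear * - hQ1; positivity)
    refine max_le ?_ (by linarith)
    have h3 : 2 * a * (a - b) ≤ a ^ 2 / (2 * Q) + 2 * Q * (a - b) ^ 2 := by
      have h4 : 0 ≤ (a - 2 * Q * (a - b)) ^ 2 / (2 * Q) := by (clear * - hQ1; positivity)
      have h5 : (a - 2 * Q * (a - b)) ^ 2 / (2 * Q) =
          a ^ 2 / (2 * Q) + 2 * Q * (a - b) ^ 2 - 2 * a * (a - b) := by
        field_simp
        ring
      linarith
    rcases le_total b a with hba | hab
    · nlinarith only [h3]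
    · have : a ^ 2 - b ^ 2 ≤ 0 := by nlinarith only [ha, hab]
      linarith only [h1, h2, this]
  have hs : (∑ x ∈ W, ∑ a : A, if pres x a then max (f x ^ 2 - f (σ x a) ^ 2) 0 else 0) ≤
      (1 / 2) * ∑ x ∈ W, f x ^ 2 +
        2 * Q * ∑ x ∈ W, ∑ a : A, if pres x a then (f x - f (σ x a)) ^ 2 else 0 := by
    rw [Finset.mul_sum, Finset.mul_sum, ← Finset.sum_add_distrib]
    refine Finset.sum_le_sum fun x _ => ?_
    have h1 : (∑ a : A, if pres x a then max (f x ^ 2 - f (σ x a) ^ 2) 0 else 0) ≤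
        ∑ a : A, (f x ^ 2 / (2 * Q) + if pres x a then 2 * Q * (f x - f (σ x a)) ^ 2 else 0) := by
      refine Finset.sum_le_sum fun a _ => ?_
      split_ifs
      · exact hpt _ _ (hf _) (hf _)
      · (clear * - hQ1; positivity)
    refine h1.trans ?_
    rw [Finset.sum_add_distrib, Finset.sum_const, Finset.card_univ, nsmul_eq_mul]
    have h2 : (Fintype.card A : ℝ) * (f x ^ 2 / (2 * Q)) ≤ 1 / 2 * f x ^ 2 := by
      have h3 : (Fintype.card A : ℝ) ≤ Q := by rw [hQ]; linarith only []
      have h4 : 0 ≤ f x ^ 2 / (2 * Q) := by (clear * - hQ1; positivity)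
      calc (Fintype.card A : ℝ) * (f x ^ 2 / (2 * Q)) ≤ Q * (f x ^ 2 / (2 * Q)) :=
            mul_le_mul_of_nonneg_right h3 h4
        _ = 1 / 2 * f x ^ 2 := by (clear * - hQ1; field_simp)
    have h5 : (∑ a : A, if pres x a then 2 * Q * (f x - f (σ x a)) ^ 2 else 0) =
        2 * Q * ∑ a : A, if pres x a then (f x - f (σ x a)) ^ 2 else 0 := by
      rw [Finset.mul_sum]
      refine Finset.sum_congr rfl fun a _ => ?_
      split_ifs <;> ring
    rw [h5]
    linarith only [h2]
  linarith only [h, hs]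

end coarea

/-! ### Medians -/

theorem exists_median {V : Type} (C : Finset V) (g : V → ℝ) (hC : C.Nonempty) :
    ∃ c : ℝ, 2 * (C.filter fun x => c < g x).card ≤ C.card ∧
      2 * (C.filter fun x => g x < c).card ≤ C.card := by
  classical
  obtain ⟨S, hS⟩ : ∃ S : Finset V, S = C.filter fun x =>
    2 * (C.filter fun y => g x < g y).card ≤ C.card := ⟨_, rfl⟩
  have hne : S.Nonempty := by
    obtain ⟨x, hx, hmax⟩ := C.exists_max_image g hC
    refine ⟨x, ?_⟩
    rw [hS, Finset.mem_filter]
    refine ⟨hx, ?_⟩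
    have : (C.filter fun y => g x < g y) = ∅ := by
      rw [Finset.filter_eq_empty_iff]
      intro y hy h
      exact absurd (hmax y hy) (not_le.mpr h)
    rw [this]
    simp
  obtain ⟨x, hx, hmin⟩ := S.exists_min_image g hne
  rw [hS, Finset.mem_filter] at hx
  refine ⟨g x, hx.2, ?_⟩
  by_contra hcon
  rw [not_le] at hcon
  have hne2 : (C.filter fun y => g y < g x).Nonempty := by
    rw [← Finset.card_pos]
    omega
  obtain ⟨z, hz, hzmax⟩ := (C.filter fun y => g y < g x).exists_max_image g hne2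
  rw [Finset.mem_filter] at hz
  have hsub : (C.filter fun y => g z < g y) ⊆ C \ (C.filter fun y => g y < g x) := by
    intro y hy
    rw [Finset.mem_filter] at hy
    rw [Finset.mem_sdiff]
    refine ⟨hy.1, fun hy2 => ?_⟩
    exact absurd (hzmax y hy2) (not_le.mpr hy.2)
  have hcard := Finset.card_le_card hsub
  have hc2 := Finset.card_sdiff_add_card_eq_card (Finset.filter_subset (fun y => g y < g x) C)
  have hzS : z ∈ S := by
    rw [hS, Finset.mem_filter]
    exact ⟨hz.1, by omega⟩
  exact absurd (hmin z hzS) (not_le.mpr hz.2)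

section median

variable {V A : Type} [Fintype A] (σ : V → A → V) (pres : V → A → Prop)

open Classical in
/-- Poincaré inequality on a finite set closed under the present edges. -/
theorem poincare_real (C : Finset V) (hC : C.Nonempty)
    (hcl : ∀ x ∈ C, ∀ a, pres x a → σ x a ∈ C)
    (hiso : ∀ R ⊆ C, 2 * R.card ≤ C.card → (R.card : ℝ) ≤ bdr σ pres (fun _ => False) R)
    (g : V → ℝ) :
    ∃ c : ℝ, ∑ x ∈ C, (g x - c) ^ 2 ≤ 4 * (Fintype.card A + 1 : ℝ) *
      ∑ x ∈ C, ∑ a : A, if pres x a then (g x - g (σ x a)) ^ 2 else 0 := by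
  obtain ⟨c, hc1, hc2⟩ := exists_median C g hC
  refine ⟨c, ?_⟩
  have key : ∀ s : ℝ, s ^ 2 = 1 → 2 * (C.filter fun x => 0 < s * (g x - c)).card ≤ C.card →
      ∑ x ∈ C.filter (fun x => 0 < s * (g x - c)), (g x - c) ^ 2 ≤
      4 * (Fintype.card A + 1 : ℝ) * ∑ x ∈ C.filter (fun x => 0 < s * (g x - c)),
        ∑ a : A, if pres x a then (g x - g (σ x a)) ^ 2 else 0 := by
    intro s hs hcard
    obtain ⟨f, hf⟩ : ∃ f : V → ℝ, f = fun x => if x ∈ C then max (s * (g x - c)) 0 else 0 :=
      ⟨_, rfl⟩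
    have hfin : ∀ x ∈ C, f x = max (s * (g x - c)) 0 := fun x hx => by rw [hf]; exact if_pos hx
    have h := local_energy σ pres (fun _ => False) (C.filter fun x => 0 < s * (g x - c))
      (fun R hR => hiso R (hR.trans (Finset.filter_subset _ _))
        (le_trans (Nat.mul_le_mul_left 2 (Finset.card_le_card hR)) hcard)) f
      (fun x => by
        by_cases hx : x ∈ C
        · rw [hfin x hx]; exact le_max_right _ _
        · rw [hf]; simp [hx])
      (fun x hx => by
        by_cases hxC : x ∈ C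
        · rw [hfin x hxC]
          refine max_eq_right ?_
          by_contra hcon
          exact hx (Finset.mem_filter.mpr ⟨hxC, not_le.mp hcon⟩)
        · rw [hf]; simp [hxC])
    have hsq : ∀ y : ℝ, (s * y) ^ 2 = y ^ 2 := fun y => by rw [mul_pow, hs, one_mul]
    have e1 : ∑ x ∈ C.filter (fun x => 0 < s * (g x - c)), f x ^ 2 =
        ∑ x ∈ C.filter (fun x => 0 < s * (g x - c)), (g x - c) ^ 2 := by
      refine Finset.sum_congr rfl fun x hx => ?_
      rw [Finset.mem_filter] at hx
      rw [hfin x hx.1, max_eq_left hx.2.le, hsq]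
    have e2 : (∑ x ∈ C.filter (fun x => 0 < s * (g x - c)),
          ∑ a : A, if pres x a then (f x - f (σ x a)) ^ 2 else 0) ≤
        ∑ x ∈ C.filter (fun x => 0 < s * (g x - c)),
          ∑ a : A, if pres x a then (g x - g (σ x a)) ^ 2 else 0 := by
      refine Finset.sum_le_sum fun x hx => Finset.sum_le_sum fun a _ => ?_
      rw [Finset.mem_filter] at hx
      split_ifs with hp
      · rw [hfin x hx.1, hfin _ (hcl x hx.1 a hp)]
        rw [← hsq (g x - g (σ x a))]
        have h1 : s * (g x - g (σ x a)) = s * (g x - c) - s * (g (σ x a) - c) := by ring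
        rw [h1]
        generalize s * (g x - c) = p
        generalize s * (g (σ x a) - c) = r
        rw [sq_le_sq]
        exact abs_max_sub_max_le_abs p r 0
      · exact le_rfl
    rw [e1] at h
    simp only [if_false, Finset.sum_const_zero, mul_zero, add_zero] at h
    refine h.trans (mul_le_mul_of_nonneg_left e2 (by positivity))
  have k1 := key 1 (by norm_num) (by simpa only [one_mul, sub_pos] using hc1)
  have k2 := key (-1) (by norm_num) (by simpa only [neg_mul, one_mul, neg_sub, sub_pos] using hc2)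
  simp only [one_mul, neg_mul, Left.neg_pos_iff, sub_pos, sub_neg] at k1 k2
  have hsplit : ∀ F : V → ℝ, (∀ x, 0 ≤ F x) →
      ∑ x ∈ C.filter (fun x => c < g x), F x + ∑ x ∈ C.filter (fun x => g x < c), F x ≤
        ∑ x ∈ C, F x := by
    intro F hF
    rw [← Finset.sum_union]
    · refine Finset.sum_le_sum_of_subset_of_nonneg ?_ fun x _ _ => hF x
      intro x hx
      rw [Finset.mem_union, Finset.mem_filter, Finset.mem_filter] at hx
      rcases hx with hx | hx <;> exact hx.1
    · rw [Finset.disjoint_filter]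
      intro x _ h1 h2
      exact absurd h1 (not_lt.mpr h2.le)
  have hsplit2 : ∑ x ∈ C, (g x - c) ^ 2 = ∑ x ∈ C.filter (fun x => c < g x), (g x - c) ^ 2 +
      ∑ x ∈ C.filter (fun x => g x < c), (g x - c) ^ 2 := by
    rw [← Finset.sum_filter_add_sum_filter_not C (fun x => c < g x)]
    congr 1
    refine (Finset.sum_subset ?_ ?_).symm
    · intro x hx
      rw [Finset.mem_filter] at hx ⊢
      exact ⟨hx.1, not_lt.mpr hx.2.le⟩
    · intro x hx hx2
      rw [Finset.mem_filter] at hx hx2
      have : g x = c := by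
        refine le_antisymm (not_lt.mp hx.2) ?_
        by_contra hcon
        exact hx2 ⟨hx.1, not_le.mp hcon⟩
      rw [this]; norm_num
  have h3 := hsplit (fun x => ∑ a : A, if pres x a then (g x - g (σ x a)) ^ 2 else 0)
    (fun x => Finset.sum_nonneg fun a _ => by split_ifs <;> positivity)
  rw [hsplit2]
  have h4 := mul_le_mul_of_nonneg_left h3
    (show (0 : ℝ) ≤ 4 * (Fintype.card A + 1 : ℝ) by positivity)
  simp only [mul_add] at h4 k1 k2 ⊢
  linarith only [h4, k1, k2]

open Classical in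
/-- Poincaré inequality, complex version. -/
theorem poincare_complex (C : Finset V) (hC : C.Nonempty)
    (hcl : ∀ x ∈ C, ∀ a, pres x a → σ x a ∈ C)
    (hiso : ∀ R ⊆ C, 2 * R.card ≤ C.card → (R.card : ℝ) ≤ bdr σ pres (fun _ => False) R)
    (g : V → ℂ) :
    ∃ c : ℂ, ∑ x ∈ C, ‖g x - c‖ ^ 2 ≤ 4 * (Fintype.card A + 1 : ℝ) *
      ∑ x ∈ C, ∑ a : A, if pres x a then ‖g x - g (σ x a)‖ ^ 2 else 0 := by
  obtain ⟨c1, h1⟩ := poincare_real σ pres C hC hcl hiso (fun x => (g x).re)
  obtain ⟨c2, h2⟩ := poincare_real σ pres C hC hcl hiso (fun x => (g x).im)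
  refine ⟨⟨c1, c2⟩, ?_⟩
  have hn : ∀ z : ℂ, ‖z‖ ^ 2 = z.re ^ 2 + z.im ^ 2 := fun z => by
    rw [Complex.sq_norm, Complex.normSq_apply]; ring
  have e1 : ∑ x ∈ C, ‖g x - ⟨c1, c2⟩‖ ^ 2 =
      ∑ x ∈ C, ((g x).re - c1) ^ 2 + ∑ x ∈ C, ((g x).im - c2) ^ 2 := by
    rw [← Finset.sum_add_distrib]
    refine Finset.sum_congr rfl fun x _ => ?_
    rw [hn, Complex.sub_re, Complex.sub_im]
  have e2 : (∑ x ∈ C, ∑ a : A, if pres x a then ‖g x - g (σ x a)‖ ^ 2 else 0) =
      (∑ x ∈ C, ∑ a : A, if pres x a then ((g x).re - (g (σ x a)).re) ^ 2 else 0) +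
      (∑ x ∈ C, ∑ a : A, if pres x a then ((g x).im - (g (σ x a)).im) ^ 2 else 0) := by
    rw [← Finset.sum_add_distrib]
    refine Finset.sum_congr rfl fun x _ => ?_
    rw [← Finset.sum_add_distrib]
    refine Finset.sum_congr rfl fun a _ => ?_
    split_ifs
    · rw [hn, Complex.sub_re, Complex.sub_im]
    · ring
  rw [e1, e2, mul_add]
  exact add_le_add h1 h2

end median

end Vale.Agent.P089.Gap
end
end

section

section

/-!
P089, block H: the operator Laplacian of the present edges plus penalty at the bad vertices on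
`ℓ²(V)` and its spectral gap.
-/

open scoped InnerProductSpace

namespace Vale.Agent.P089.Gap

open Vale.Agent.P086

section basic

variable {V : Type}

theorem star_indOp (K : Set V) : star (indOp K) = indOp K := by
  classical
  rw [ContinuousLinearMap.star_eq_adjoint, eq_comm, ContinuousLinearMap.eq_adjoint_iff]
  intro x y
  rw [lp.inner_eq_tsum, lp.inner_eq_tsum]
  refine tsum_congr fun i => ?_
  rw [indOp_apply, indOp_apply]
  split_ifs
  · rfl
  · rw [inner_zero_left, inner_zero_right]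

theorem indOp_mul_self (K : Set V) : indOp K * indOp K = indOp K := by
  classical
  ext ξ x
  change indOp K (indOp K ξ) x = indOp K ξ x
  rw [indOp_apply, indOp_apply]
  split_ifs <;> rfl

theorem norm_indOp_le (K : Set V) : ‖indOp K‖ ≤ 1 :=
  LinearMap.mkContinuous_norm_le _ zero_le_one _

theorem norm_permOp_le (e : Equiv.Perm V) : ‖permOp e‖ ≤ 1 :=
  LinearMap.mkContinuous_norm_le _ zero_le_one _

theorem norm_sq_eq_sum (f : Ell2 V) (U : Finset V) (h : ∀ x, x ∉ U → f x = 0) :
    ‖f‖ ^ 2 = ∑ x ∈ U, ‖f x‖ ^ 2 := by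
  have h1 := lp.norm_rpow_eq_tsum (p := 2) (by norm_num) f
  have h2 : ENNReal.toReal 2 = ((2 : ℕ) : ℝ) := by norm_num
  rw [h2] at h1
  simp only [Real.rpow_natCast] at h1
  rw [h1]
  refine tsum_eq_sum fun x hx => ?_
  rw [h x hx, norm_zero]
  norm_num

theorem sum_le_norm_sq (f : Ell2 V) (U : Finset V) : ∑ x ∈ U, ‖f x‖ ^ 2 ≤ ‖f‖ ^ 2 := by
  have h1 := lp.sum_rpow_le_norm_rpow (p := 2) (by norm_num) f U
  have h2 : ENNReal.toReal 2 = ((2 : ℕ) : ℝ) := by norm_num
  rw [h2] at h1
  simpa only [Real.rpow_natCast] using h1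

/-- A finitely supported function as an element of `ℓ²`. -/
noncomputable def ofFin (g : V → ℂ) (U : Finset V) (h : ∀ x, x ∉ U → g x = 0) : Ell2 V :=
  ⟨g, by
    have h0 : Memℓp (E := fun _ : V => ℂ) g 0 := by
      rw [memℓp_zero_iff]
      refine U.finite_toSet.subset fun x hx => ?_
      by_contra hcon
      exact hx (h x hcon)
    exact h0.of_exponent_ge zero_le⟩

end basic

section operator

variable {V A : Type} [Fintype A] (e : A → Equiv.Perm V) (sw : A → A) (pres : V → A → Prop)
  (bad : V → Prop)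

/-- The difference operator of the letter `a`. -/
noncomputable def dif (a : A) : Ell2 V →L[ℂ] Ell2 V :=
  indOp {x | pres x a} * (1 - permOp (e a)⁻¹)

omit [Fintype A] in
open Classical in
theorem dif_apply (a : A) (ξ : Ell2 V) (x : V) :
    dif e pres a ξ x = if pres x a then ξ x - ξ (e a x) else 0 := by
  change indOp {x | pres x a} ((1 - permOp (e a)⁻¹ : Ell2 V →L[ℂ] Ell2 V) ξ) x = _
  rw [indOp_apply]
  rfl

/-- Laplacian plus penalty. -/
noncomputable def lapOp : Ell2 V →L[ℂ] Ell2 V :=
  ∑ a : A, dif e pres a + indOp {x | bad x}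

open Classical in
theorem lapOp_apply (ξ : Ell2 V) (x : V) :
    lapOp e pres bad ξ x = (∑ a : A, if pres x a then ξ x - ξ (e a x) else 0) +
      (if bad x then ξ x else 0) := by
  rw [lapOp, add_apply, lp.coeFn_add, Pi.add_apply, indOp_apply]
  congr 1
  · rw [sum_apply, lp.coeFn_sum, Finset.sum_apply]
    exact Finset.sum_congr rfl fun a _ => dif_apply e pres a ξ x

/-- The combinatorial hypotheses. -/
structure Good (Perf : Set V) (cmp : V → Finset V) : Prop where
  inv : ∀ a x, e (sw a) (e a x) = x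
  sw_sw : ∀ a, sw (sw a) = a
  symm : ∀ x a, pres x a → pres (e a x) (sw a)
  self : ∀ x ∈ Perf, x ∈ cmp x
  eq : ∀ x ∈ Perf, ∀ y ∈ cmp x, y ∈ Perf ∧ cmp y = cmp x
  closed : ∀ x ∈ Perf, ∀ a, pres x a → e a x ∈ cmp x
  notbad : ∀ x ∈ Perf, ¬ bad x
  isoP : ∀ x ∈ Perf, ∀ R ⊆ cmp x, 2 * R.card ≤ (cmp x).card →
    (R.card : ℝ) ≤ bdr (fun x a => e a x) pres (fun _ => False) R
  isoN : ∀ R : Finset V, (∀ x ∈ R, x ∉ Perf) →
    (R.card : ℝ) ≤ bdr (fun x a => e a x) pres bad R

variable {e sw pres bad} {Perf : Set V} {cmp : V → Finset V}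

section

variable (H : Good e sw pres bad Perf cmp)
include H

theorem Good.inv' (a : A) (x : V) : e a (e (sw a) x) = x := by
  have := H.inv (sw a) x
  rwa [H.sw_sw] at this

theorem Good.symm_apply (a : A) (x : V) : (e a).symm x = e (sw a) x := by
  rw [Equiv.symm_apply_eq, H.inv']

theorem Good.pres_iff (a : A) (x : V) : pres (e (sw a) x) a ↔ pres x (sw a) := by
  constructor
  · intro h
    have := H.symm _ _ h
    rwa [H.inv'] at this
  · intro h
    have := H.symm _ _ h
    rwa [H.sw_sw] at this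

theorem Good.star_dif_mul (a : A) :
    star (dif e pres a) * dif e pres a = dif e pres a + dif e pres (sw a) := by
  classical
  have h1 : star (dif e pres a) * dif e pres a =
      (1 - permOp (e a)) * dif e pres a := by
    have h2 : star (dif e pres a) = (1 - permOp (e a)) * indOp {x | pres x a} := by
      rw [dif, star_mul, star_indOp, star_sub, star_one, star_permOp, inv_inv]
    rw [h2, dif, mul_assoc, ← mul_assoc (indOp {x | pres x a}), indOp_mul_self]
  rw [h1]
  ext ξ x
  change dif e pres a ξ x - dif e pres a ξ ((e a).symm x) =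
    dif e pres a ξ x + dif e pres (sw a) ξ x
  rw [sub_eq_add_neg]
  congr 1
  rw [H.symm_apply, dif_apply, dif_apply, H.inv']
  by_cases h : pres x (sw a)
  · rw [if_pos h, if_pos ((H.pres_iff a x).mpr h)]
    ring
  · rw [if_neg h, if_neg (fun h' => h ((H.pres_iff a x).mp h'))]
    ring

theorem Good.two_lapOp :
    (2 : ℂ) • lapOp e pres bad = ∑ a : A, star (dif e pres a) * dif e pres a +
      (2 : ℂ) • (star (indOp {x | bad x}) * indOp {x | bad x}) := by
  have h1 : ∑ a : A, dif e pres (sw a) = ∑ a : A, dif e pres a :=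
    Finset.sum_bijective sw ⟨fun a b h => by rw [← H.sw_sw a, h, H.sw_sw],
      fun a => ⟨sw a, H.sw_sw a⟩⟩ (by simp only [Finset.mem_univ, implies_true]) (fun _ _ => rfl)
  rw [star_indOp, indOp_mul_self, Finset.sum_congr rfl fun a _ => H.star_dif_mul a,
    Finset.sum_add_distrib, h1, lapOp, smul_add, two_smul ℂ (∑ a : A, dif e pres a)]

theorem Good.inner_lapOp (ξ η : Ell2 V) :
    2 * ⟪lapOp e pres bad ξ, η⟫_ℂ = ∑ a : A, ⟪dif e pres a ξ, dif e pres a η⟫_ℂ +
      2 * ⟪indOp {x | bad x} ξ, indOp {x | bad x} η⟫_ℂ := by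
  have h1 := congrArg (fun S : Ell2 V →L[ℂ] Ell2 V => ⟪S ξ, η⟫_ℂ) H.two_lapOp
  have h2 : ∀ S : Ell2 V →L[ℂ] Ell2 V, ⟪(star S * S) ξ, η⟫_ℂ = ⟪S ξ, S η⟫_ℂ := by
    intro S
    change ⟪(star S) (S ξ), η⟫_ℂ = _
    rw [ContinuousLinearMap.star_eq_adjoint, ContinuousLinearMap.adjoint_inner_left]
  rw [add_apply, inner_add_left, smul_apply, smul_apply, sum_apply, inner_smul_left,
    inner_smul_left, sum_inner, h2] at h1
  simp only [h2, Complex.conj_ofNat] at h1
  exact h1

theorem Good.isPositive : (lapOp e pres bad).IsPositive := by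
  rw [ContinuousLinearMap.isPositive_def']
  have hsymm : ∀ ξ η, ⟪lapOp e pres bad ξ, η⟫_ℂ = ⟪ξ, lapOp e pres bad η⟫_ℂ := by
    intro ξ η
    have h1 := H.inner_lapOp ξ η
    have h2 := H.inner_lapOp η ξ
    have h3 := congrArg (starRingEnd ℂ) h2
    simp only [map_mul, map_add, map_sum, inner_conj_symm, map_ofNat] at h3
    rw [← h1] at h3
    exact (mul_left_cancel₀ two_ne_zero h3).symm
  refine ⟨?_, ?_⟩
  · rw [ContinuousLinearMap.isSelfAdjoint_iff_isSymmetric]
    exact hsymm
  · intro ξ
    have h1 := congrArg Complex.re (H.inner_lapOp ξ ξ)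
    rw [Complex.add_re, Complex.re_sum, Complex.mul_re, Complex.mul_re] at h1
    have h2 : ∀ a : A, (⟪dif e pres a ξ, dif e pres a ξ⟫_ℂ).re = ‖dif e pres a ξ‖ ^ 2 := by
      intro a
      have := inner_self_eq_norm_sq (𝕜 := ℂ) (dif e pres a ξ)
      exact this
    have h3 : (⟪indOp {x | bad x} ξ, indOp {x | bad x} ξ⟫_ℂ).re = ‖indOp {x | bad x} ξ‖ ^ 2 :=
      inner_self_eq_norm_sq (𝕜 := ℂ) _
    simp only [h2, h3] at h1
    norm_num at h1
    change 0 ≤ (⟪lapOp e pres bad ξ, ξ⟫_ℂ).re
    have h4 : 0 ≤ ∑ a : A, ‖dif e pres a ξ‖ ^ 2 := Finset.sum_nonneg fun a _ => sq_nonneg _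
    have h5 := sq_nonneg ‖indOp {x | bad x} ξ‖
    linarith

theorem Good.energy (ξ : Ell2 V) :
    2 * RCLike.re ⟪lapOp e pres bad ξ, ξ⟫_ℂ = ∑ a : A, ‖dif e pres a ξ‖ ^ 2 +
      2 * ‖indOp {x | bad x} ξ‖ ^ 2 := by
  have h1 := congrArg Complex.re (H.inner_lapOp ξ ξ)
  rw [Complex.add_re, Complex.re_sum, Complex.mul_re, Complex.mul_re] at h1
  have h2 : ∀ a : A, (⟪dif e pres a ξ, dif e pres a ξ⟫_ℂ).re = ‖dif e pres a ξ‖ ^ 2 := by
    intro a
    have := inner_self_eq_norm_sq (𝕜 := ℂ) (dif e pres a ξ)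
    exact this
  have h3 : (⟪indOp {x | bad x} ξ, indOp {x | bad x} ξ⟫_ℂ).re = ‖indOp {x | bad x} ξ‖ ^ 2 :=
    inner_self_eq_norm_sq (𝕜 := ℂ) _
  simp only [h2, h3] at h1
  norm_num at h1
  exact h1

open Classical in
theorem Good.energy_ge (ξ : Ell2 V) (U : Finset V) :
    (∑ x ∈ U, ∑ a : A, if pres x a then ‖ξ x - ξ (e a x)‖ ^ 2 else 0) +
      2 * (∑ x ∈ U, if bad x then ‖ξ x‖ ^ 2 else 0) ≤
      2 * RCLike.re ⟪lapOp e pres bad ξ, ξ⟫_ℂ := by
  rw [H.energy ξ, Finset.sum_comm]
  refine add_le_add (Finset.sum_le_sum fun a _ => ?_) (mul_le_mul_of_nonneg_left ?_ two_pos.le)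
  · refine le_trans (le_of_eq ?_) (sum_le_norm_sq (dif e pres a ξ) U)
    refine Finset.sum_congr rfl fun x _ => ?_
    rw [dif_apply]
    split_ifs
    · rfl
    · rw [norm_zero]; norm_num
  · refine le_trans (le_of_eq ?_) (sum_le_norm_sq (indOp {x | bad x} ξ) U)
    refine Finset.sum_congr rfl fun x _ => ?_
    rw [indOp_apply]
    change _ = ‖if bad x then ξ x else 0‖ ^ 2
    split_ifs
    · rfl
    · rw [norm_zero]; norm_num

end

end operator

end Vale.Agent.P089.Gap
end
end

section

section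

/-!
P089, block H: the spectral gap, abstract form.
-/

open scoped InnerProductSpace

namespace Vale.Agent.P089.Gap

open Vale.Agent.P086

/-- The orthogonal projection onto the kernel. -/
theorem exists_kerProj {E : Type*} [NormedAddCommGroup E] [InnerProductSpace ℂ E] [CompleteSpace E]
    (T : E →L[ℂ] E) :
    ∃ P : E →L[ℂ] E, IsStarProjection P ∧ (∀ x, T (P x) = 0) ∧ (∀ x, T x = 0 → P x = x) ∧
      (∀ x g, T g = 0 → ‖x - P x‖ ≤ ‖x - g‖) ∧
      (∀ x w, T w = 0 → (∀ u, T u = 0 → ⟪u, x - w⟫_ℂ = 0) → P x = w) := by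
  let K : Submodule ℂ E := LinearMap.ker (T : E →ₗ[ℂ] E)
  have hKc : IsClosed (K : Set E) := T.isClosed_ker
  have : CompleteSpace K := hKc.completeSpace_coe
  have hmem : ∀ x, x ∈ K ↔ T x = 0 := fun x => LinearMap.mem_ker
  refine ⟨K.starProjection, isStarProjection_starProjection, fun x => ?_, fun x hx => ?_,
    fun x g hg => ?_, fun x w hw h => ?_⟩
  · exact (hmem _).mp (K.starProjection_apply_mem x)
  · exact Submodule.starProjection_eq_self_iff.mpr ((hmem x).mpr hx)
  · rw [Submodule.starProjection_minimal]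
    exact ciInf_le ⟨0, fun y ⟨z, hz⟩ => hz ▸ norm_nonneg _⟩ (⟨g, (hmem g).mpr hg⟩ : K)
  · exact Submodule.eq_starProjection_of_mem_orthogonal ((hmem w).mpr hw)
      (fun u hu => h u ((hmem u).mp hu))

theorem dense_fin {V : Type} (p : Ell2 V → Prop) (hp : IsClosed {x | p x}) (f : Ell2 V)
    (h : ∀ (g : Ell2 V) (F : Finset V), (∀ x, x ∉ F → g x = 0) → (∀ x, f x = 0 → g x = 0) → p g) :
    p f := by
  classical
  have h1 := lp.hasSum_single (p := 2) (by norm_num) f
  refine hp.mem_of_tendsto h1 (Filter.Eventually.of_forall fun F => ?_)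
  have h2 : ∀ x, (∑ i ∈ F, lp.single 2 i (f i) : Ell2 V) x = if x ∈ F then f x else 0 := by
    intro x
    rw [lp.coeFn_sum, Finset.sum_apply]
    simp only [lp.coeFn_single, Pi.single_apply]
    rw [Finset.sum_ite_eq]
  refine h _ F (fun x hx => ?_) (fun x hx => ?_)
  · rw [h2, if_neg hx]
  · rw [h2, hx, ite_self]

section gap

variable {V A : Type} [Fintype A] {e : A → Equiv.Perm V} {sw : A → A} {pres : V → A → Prop}
  {bad : V → Prop} {Perf : Set V} {cmp : V → Finset V}

open Classical in
theorem Good.exists_const (H : Good e sw pres bad Perf cmp) (f : V → ℂ) :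
    ∃ c : Finset V → ℂ, ∀ x ∈ Perf,
      (∑ y ∈ cmp x, ‖f y - c (cmp x)‖ ^ 2 ≤ 4 * (Fintype.card A + 1 : ℝ) *
        ∑ y ∈ cmp x, ∑ a : A, if pres y a then ‖f y - f (e a y)‖ ^ 2 else 0) ∧
      ((∀ y ∈ cmp x, f y = 0) → c (cmp x) = 0) := by
  have hex : ∀ x ∈ Perf, ∃ c : ℂ, ∑ y ∈ cmp x, ‖f y - c‖ ^ 2 ≤ 4 * (Fintype.card A + 1 : ℝ) *
        ∑ y ∈ cmp x, ∑ a : A, if pres y a then ‖f y - f (e a y)‖ ^ 2 else 0 := by
    intro x hx
    refine poincare_complex (fun x a => e a x) pres (cmp x) ⟨x, H.self x hx⟩ ?_ (H.isoP x hx) f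
    intro y hy a hya
    obtain ⟨h1, h2⟩ := H.eq x hx y hy
    rw [← h2]
    exact H.closed y h1 a hya
  obtain ⟨c, hc⟩ : ∃ c : Finset V → ℂ, c = fun C => if ∀ y ∈ C, f y = 0 then 0 else
    if h : ∃ c : ℂ, ∑ y ∈ C, ‖f y - c‖ ^ 2 ≤ 4 * (Fintype.card A + 1 : ℝ) *
        ∑ y ∈ C, ∑ a : A, if pres y a then ‖f y - f (e a y)‖ ^ 2 else 0 then h.choose else 0 :=
    ⟨_, rfl⟩
  refine ⟨c, fun x hx => ⟨?_, fun h => ?_⟩⟩
  · rw [hc]
    by_cases h : ∀ y ∈ cmp x, f y = 0
    · simp only [if_pos h]
      have h1 : ∑ y ∈ cmp x, ‖f y - 0‖ ^ 2 = 0 := by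
        refine Finset.sum_eq_zero fun y hy => ?_
        rw [h y hy, sub_zero, norm_zero]; norm_num
      rw [h1]
      refine mul_nonneg (by (clear * -; positivity)) (Finset.sum_nonneg fun y _ => Finset.sum_nonneg fun a _ => ?_)
      split_ifs <;> positivity
    · simp only [if_neg h]
      rw [dif_pos (hex x hx)]
      exact (hex x hx).choose_spec
  · rw [hc]
    exact if_pos h

theorem Good.notMem_perf (H : Good e sw pres bad Perf cmp) {x : V} (hx : x ∉ Perf) {a : A}
    (ha : pres x a) : e a x ∉ Perf := by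
  intro h
  have h1 := H.closed _ h (sw a) (H.symm x a ha)
  rw [H.inv] at h1
  exact hx (H.eq _ h x h1).1

open Classical in
theorem Good.fin_gap (H : Good e sw pres bad Perf cmp) (f : Ell2 V) (F : Finset V)
    (hF : ∀ x, x ∉ F → f x = 0) :
    ∃ g : Ell2 V, lapOp e pres bad g = 0 ∧ ((∀ x ∈ Perf, f x = 0) → g = 0) ∧
      ‖f - g‖ ^ 2 ≤ (8 * (Fintype.card A + 1 : ℝ) + 12) *
        RCLike.re ⟪lapOp e pres bad f, f⟫_ℂ := by
  obtain ⟨c, hc⟩ := H.exists_const (fun x => f x)
  obtain ⟨gf, hgf⟩ : ∃ gf : V → ℂ, gf = fun x => if x ∈ Perf then c (cmp x) else 0 := ⟨_, rfl⟩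
  have hgin : ∀ x ∈ Perf, gf x = c (cmp x) := fun x hx => by rw [hgf]; exact if_pos hx
  have hgout : ∀ x, x ∉ Perf → gf x = 0 := fun x hx => by rw [hgf]; exact if_neg hx
  obtain ⟨U, hU⟩ : ∃ U : Finset V, U = F.biUnion fun y =>
    insert y (if y ∈ Perf then cmp y else ∅) := ⟨_, rfl⟩
  have hFU : ∀ x ∈ F, x ∈ U := fun x hx => by
    rw [hU, Finset.mem_biUnion]
    exact ⟨x, hx, Finset.mem_insert_self _ _⟩
  have hcmpF : ∀ y ∈ F, y ∈ Perf → ∀ x ∈ cmp y, x ∈ U := fun y hy hyP x hx => by
    rw [hU, Finset.mem_biUnion]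
    exact ⟨y, hy, Finset.mem_insert_of_mem (by rw [if_pos hyP]; exact hx)⟩
  have hcmpU : ∀ x ∈ U, x ∈ Perf → ∀ z ∈ cmp x, z ∈ U := by
    intro x hx hxP z hz
    rw [hU, Finset.mem_biUnion] at hx
    obtain ⟨y, hy, hxy⟩ := hx
    rw [Finset.mem_insert] at hxy
    rcases hxy with rfl | hxy
    · exact hcmpF x hy hxP z hz
    · by_cases hyP : y ∈ Perf
      · rw [if_pos hyP] at hxy
        rw [(H.eq y hyP x hxy).2] at hz
        exact hcmpF y hy hyP z hz
      · rw [if_neg hyP] at hxy
        exact absurd hxy (Finset.notMem_empty _)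
  have hfU : ∀ x, x ∉ U → f x = 0 := fun x hx => hF x fun h => hx (hFU x h)
  have hgU : ∀ x, x ∉ U → gf x = 0 := by
    intro x hx
    by_cases hxP : x ∈ Perf
    · rw [hgin x hxP]
      refine (hc x hxP).2 fun y hy => ?_
      refine hF y fun hyF => hx ?_
      obtain ⟨h1, h2⟩ := H.eq x hxP y hy
      exact hcmpF y hyF h1 x (by rw [h2]; exact H.self x hxP)
    · exact hgout x hxP
  obtain ⟨g, hg⟩ : ∃ g : Ell2 V, g = ofFin gf U hgU := ⟨_, rfl⟩
  have hgx : ∀ x, g x = gf x := fun x => by rw [hg]; rfl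
  refine ⟨g, ?_, ?_, ?_⟩
  · ext x
    rw [lapOp_apply]
    have h1 : ∀ a : A, (if pres x a then g x - g (e a x) else 0) = 0 := by
      intro a
      split_ifs with hp
      · rw [hgx, hgx]
        by_cases hxP : x ∈ Perf
        · obtain ⟨h2, h3⟩ := H.eq x hxP _ (H.closed x hxP a hp)
          rw [hgin x hxP, hgin _ h2, h3, sub_self]
        · rw [hgout x hxP, hgout _ (H.notMem_perf hxP hp), sub_self]
      · rfl
    have h2 : (if bad x then g x else 0) = 0 := by
      split_ifs with hb
      · rw [hgx]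
        exact hgout x fun hxP => H.notbad x hxP hb
      · rfl
    rw [Finset.sum_congr rfl fun a _ => h1 a, Finset.sum_const_zero, h2, add_zero]
    rfl
  · intro hf0
    ext x
    rw [hgx]
    by_cases hxP : x ∈ Perf
    · rw [hgin x hxP, (hc x hxP).2 fun y hy => hf0 y (H.eq x hxP y hy).1]
      rfl
    · rw [hgout x hxP]
      rfl
  · obtain ⟨Q, hQ⟩ : ∃ Q : ℝ, Q = Fintype.card A + 1 := ⟨_, rfl⟩
    have hQ0 : 0 ≤ Q := by rw [hQ]; positivity
    rw [← hQ]
    have hnorm : ‖f - g‖ ^ 2 = ∑ x ∈ U, ‖f x - gf x‖ ^ 2 := by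
      rw [norm_sq_eq_sum (f - g) U (fun x hx => by
        rw [lp.coeFn_sub, Pi.sub_apply, hgx, hfU x hx, hgU x hx, sub_zero])]
      refine Finset.sum_congr rfl fun x _ => ?_
      rw [lp.coeFn_sub, Pi.sub_apply, hgx]
    obtain ⟨D, hD⟩ : ∃ D : V → ℝ, D = fun x =>
      ∑ a : A, if pres x a then ‖f x - f (e a x)‖ ^ 2 else 0 := ⟨_, rfl⟩
    have hDx : ∀ x, D x = ∑ a : A, if pres x a then ‖f x - f (e a x)‖ ^ 2 else 0 :=
      fun x => by rw [hD]
    have hD0 : ∀ x, 0 ≤ D x := fun x => by
      rw [hDx]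
      exact Finset.sum_nonneg fun a _ => by split_ifs <;> positivity
    -- the perfect part
    have part1 : ∑ x ∈ U.filter (· ∈ Perf), ‖f x - gf x‖ ^ 2 ≤
        4 * Q * ∑ x ∈ U.filter (· ∈ Perf), D x := by
      obtain ⟨P1, hP1⟩ : ∃ P1 : Finset V, P1 = U.filter (· ∈ Perf) := ⟨_, rfl⟩
      rw [← hP1]
      have hmaps : ∀ x ∈ P1, cmp x ∈ P1.image cmp := fun x hx => Finset.mem_image_of_mem _ hx
      rw [← Finset.sum_fiberwise_of_maps_to hmaps (fun x => ‖f x - gf x‖ ^ 2),
        ← Finset.sum_fiberwise_of_maps_to hmaps D, Finset.mul_sum]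
      refine Finset.sum_le_sum fun C hC => ?_
      obtain ⟨z, hz, rfl⟩ := Finset.mem_image.mp hC
      have hzU : z ∈ U ∧ z ∈ Perf := by rw [hP1, Finset.mem_filter] at hz; exact hz
      have hfil : P1.filter (fun x => cmp x = cmp z) = cmp z := by
        ext x
        rw [Finset.mem_filter]
        constructor
        · rintro ⟨h1, h2⟩
          rw [hP1, Finset.mem_filter] at h1
          rw [← h2]
          exact H.self x h1.2
        · intro h
          obtain ⟨h1, h2⟩ := H.eq z hzU.2 x h
          refine ⟨?_, h2⟩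
          rw [hP1, Finset.mem_filter]
          exact ⟨hcmpU z hzU.1 hzU.2 x h, h1⟩
      rw [hfil]
      have h1 := (hc z hzU.2).1
      rw [← hQ] at h1
      have e1 : ∑ x ∈ cmp z, ‖f x - gf x‖ ^ 2 = ∑ x ∈ cmp z, ‖f x - c (cmp z)‖ ^ 2 := by
        refine Finset.sum_congr rfl fun x hx => ?_
        obtain ⟨h2, h3⟩ := H.eq z hzU.2 x hx
        rw [hgin x h2, h3]
      have e2 : ∑ x ∈ cmp z, D x = ∑ y ∈ cmp z, ∑ a : A,
          if pres y a then ‖f y - f (e a y)‖ ^ 2 else 0 :=
        Finset.sum_congr rfl fun x _ => hDx x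
      rw [e1, e2]
      exact h1
    -- the other part
    have part2 : ∑ x ∈ U.filter (· ∉ Perf), ‖f x - gf x‖ ^ 2 ≤
        4 * Q * ∑ x ∈ U.filter (· ∉ Perf), D x +
          12 * ∑ x ∈ U.filter (· ∉ Perf), if bad x then ‖f x‖ ^ 2 else 0 := by
      obtain ⟨W, hW⟩ : ∃ W : Finset V, W = U.filter (· ∉ Perf) := ⟨_, rfl⟩
      rw [← hW]
      have hWm : ∀ x, x ∈ W ↔ x ∈ U ∧ x ∉ Perf := fun x => by rw [hW, Finset.mem_filter]
      obtain ⟨h, hh⟩ : ∃ h : V → ℝ, h = fun x => if x ∈ W then ‖f x‖ else 0 := ⟨_, rfl⟩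
      have hhin : ∀ x ∈ W, h x = ‖f x‖ := fun x hx => by rw [hh]; exact if_pos hx
      have hhout : ∀ x, x ∉ W → h x = 0 := fun x hx => by rw [hh]; exact if_neg hx
      have hhN : ∀ x, x ∉ Perf → h x = ‖f x‖ := by
        intro x hx
        by_cases hxU : x ∈ U
        · exact hhin x ((hWm x).mpr ⟨hxU, hx⟩)
        · rw [hhout x fun h => hxU ((hWm x).mp h).1, hfU x hxU, norm_zero]
      have h0 := local_energy (fun x a => e a x) pres bad W
        (fun R hR => H.isoN R fun x hx => ((hWm x).mp (hR hx)).2) h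
        (fun x => by
          by_cases hx : x ∈ W
          · rw [hhin x hx]; exact norm_nonneg _
          · rw [hhout x hx]) hhout
      rw [← hQ] at h0
      have e1 : ∑ x ∈ W, ‖f x - gf x‖ ^ 2 = ∑ x ∈ W, h x ^ 2 := by
        refine Finset.sum_congr rfl fun x hx => ?_
        rw [hgout x ((hWm x).mp hx).2, sub_zero, hhin x hx]
      have e2 : (∑ x ∈ W, ∑ a : A, if pres x a then (h x - h (e a x)) ^ 2 else 0) ≤
          ∑ x ∈ W, D x := by
        refine Finset.sum_le_sum fun x hx => ?_
        rw [hDx]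
        refine Finset.sum_le_sum fun a _ => ?_
        have hxN := ((hWm x).mp hx).2
        split_ifs with hp
        · rw [hhN x hxN, hhN _ (H.notMem_perf hxN hp)]
          rw [sq_le_sq, abs_norm]
          exact abs_norm_sub_norm_le _ _
        · exact le_rfl
      have e3 : (∑ x ∈ W, if bad x then h x ^ 2 else 0) = ∑ x ∈ W, if bad x then ‖f x‖ ^ 2 else 0 := by
        refine Finset.sum_congr rfl fun x hx => ?_
        rw [hhin x hx]
      rw [e1]
      rw [e3] at h0
      refine h0.trans (add_le_add ?_ le_rfl)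
      exact mul_le_mul_of_nonneg_left e2 (by (clear * - hQ0; positivity))
    have hE := H.energy_ge f U
    have hE2 : ∑ x ∈ U, D x + 2 * (∑ x ∈ U, if bad x then ‖f x‖ ^ 2 else 0) ≤
        2 * RCLike.re ⟪lapOp e pres bad f, f⟫_ℂ := by
      refine le_trans (le_of_eq ?_) hE
      congr 1
      exact Finset.sum_congr rfl fun x _ => hDx x
    have s1 : ∑ x ∈ U, ‖f x - gf x‖ ^ 2 = ∑ x ∈ U.filter (· ∈ Perf), ‖f x - gf x‖ ^ 2 +
        ∑ x ∈ U.filter (· ∉ Perf), ‖f x - gf x‖ ^ 2 :=
      (Finset.sum_filter_add_sum_filter_not U (· ∈ Perf) _).symm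
    have s2 : ∑ x ∈ U, D x = ∑ x ∈ U.filter (· ∈ Perf), D x + ∑ x ∈ U.filter (· ∉ Perf), D x :=
      (Finset.sum_filter_add_sum_filter_not U (· ∈ Perf) _).symm
    have s3 : (∑ x ∈ U.filter (· ∉ Perf), if bad x then ‖f x‖ ^ 2 else 0) ≤
        ∑ x ∈ U, if bad x then ‖f x‖ ^ 2 else 0 := by
      refine Finset.sum_le_sum_of_subset_of_nonneg (Finset.filter_subset _ _) fun x _ _ => ?_
      split_ifs <;> positivity
    have s4 : 0 ≤ ∑ x ∈ U, if bad x then ‖f x‖ ^ 2 else 0 :=
      Finset.sum_nonneg fun x _ => by split_ifs <;> positivity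
    have s5 : 0 ≤ ∑ x ∈ U, D x := Finset.sum_nonneg fun x _ => hD0 x
    rw [hnorm, s1]
    generalize (∑ x ∈ U, if bad x then ‖f x‖ ^ 2 else 0) = b at *
    generalize RCLike.re ⟪lapOp e pres bad f, f⟫_ℂ = E at *
    have t1 : ∑ x ∈ U.filter (· ∈ Perf), ‖f x - gf x‖ ^ 2 +
        ∑ x ∈ U.filter (· ∉ Perf), ‖f x - gf x‖ ^ 2 ≤ 4 * Q * ∑ x ∈ U, D x + 12 * b := by
      rw [s2, mul_add]
      linarith only [part1, part2, s3]
    have t2 : 4 * Q * ∑ x ∈ U, D x + 12 * b ≤ (4 * Q + 6) * (∑ x ∈ U, D x + 2 * b) := by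
      nlinarith only [s5, hQ0, s4]
    have t3 : (4 * Q + 6) * (∑ x ∈ U, D x + 2 * b) ≤ (4 * Q + 6) * (2 * E) :=
      mul_le_mul_of_nonneg_left hE2 (by (clear * - hQ0; positivity))
    calc _ ≤ _ := t1
      _ ≤ _ := t2
      _ ≤ _ := t3
      _ = (8 * Q + 12) * E := by ring

theorem Good.norm_le (_ : Good e sw pres bad Perf cmp) :
    ‖lapOp e pres bad‖ ≤ 2 * (Fintype.card A + 1 : ℝ) := by
  have h1 : ∀ a : A, ‖dif e pres a‖ ≤ 2 := by
    intro a
    rw [dif]
    refine (norm_mul_le _ _).trans ?_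
    have h2 : ‖(1 - permOp (e a)⁻¹ : Ell2 V →L[ℂ] Ell2 V)‖ ≤ 2 := by
      refine (norm_sub_le _ _).trans ?_
      have h3 : ‖(1 : Ell2 V →L[ℂ] Ell2 V)‖ ≤ 1 := ContinuousLinearMap.norm_id_le
      have h4 := norm_permOp_le (V := V) (e a)⁻¹
      linarith
    calc _ ≤ 1 * 2 := mul_le_mul (norm_indOp_le _) h2 (norm_nonneg _) zero_le_one
      _ = 2 := one_mul 2
  rw [lapOp]
  refine (norm_add_le _ _).trans ?_
  have h2 : ‖∑ a : A, dif e pres a‖ ≤ (Fintype.card A : ℝ) * 2 := by
    refine (norm_sum_le _ _).trans ?_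
    refine (Finset.sum_le_sum fun a _ => h1 a).trans ?_
    rw [Finset.sum_const, Finset.card_univ, nsmul_eq_mul]
  have h3 := norm_indOp_le {x | bad x}
  linarith

/-- The gap theorem. -/
theorem Good.gap (H : Good e sw pres bad Perf cmp) :
    ∃ P : Ell2 V →L[ℂ] Ell2 V, IsStarProjection P ∧ lapOp e pres bad * P = 0 ∧
      (∀ f, ‖f - P f‖ ^ 2 ≤ (8 * (Fintype.card A + 1 : ℝ) + 12) *
        RCLike.re ⟪lapOp e pres bad f, f⟫_ℂ) ∧
      (∀ x ∈ Perf, P (dl x) x = 1 / ((cmp x).card : ℂ)) ∧
      (∀ x, x ∉ Perf → P (dl x) x = 0) := by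
  classical
  obtain ⟨P, hP, hTP, hPT, hmin, huniq⟩ := exists_kerProj (lapOp e pres bad)
  have hgap : ∀ f, ‖f - P f‖ ^ 2 ≤ (8 * (Fintype.card A + 1 : ℝ) + 12) *
        RCLike.re ⟪lapOp e pres bad f, f⟫_ℂ := by
    intro f
    refine dense_fin (fun f => ‖f - P f‖ ^ 2 ≤ (8 * (Fintype.card A + 1 : ℝ) + 12) *
        RCLike.re ⟪lapOp e pres bad f, f⟫_ℂ) ?_ f ?_
    · refine isClosed_le (by (clear * -; fun_prop)) ?_
      refine Continuous.mul continuous_const ?_
      refine RCLike.continuous_re.comp ?_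
      exact (lapOp e pres bad).continuous.inner continuous_id
    · intro g F hF _
      obtain ⟨g', h1, _, h2⟩ := H.fin_gap g F hF
      refine le_trans ?_ h2
      exact pow_le_pow_left₀ (norm_nonneg _) (hmin g g' h1) 2
  -- functions in the kernel
  have hker : ∀ u, lapOp e pres bad u = 0 → ∀ a x, pres x a → u (e a x) = u x := by
    intro u hu a x hp
    have h1 := H.energy u
    rw [hu, inner_zero_left, map_zero, mul_zero] at h1
    have h2 : ∀ a : A, ‖dif e pres a u‖ ^ 2 = 0 := by
      intro a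
      have h3 : 0 ≤ ∑ a : A, ‖dif e pres a u‖ ^ 2 := Finset.sum_nonneg fun a _ => sq_nonneg _
      have h4 := sq_nonneg ‖indOp {x | bad x} u‖
      have h5 : ‖dif e pres a u‖ ^ 2 ≤ ∑ a : A, ‖dif e pres a u‖ ^ 2 :=
        Finset.single_le_sum (f := fun a => ‖dif e pres a u‖ ^ 2)
          (fun a _ => sq_nonneg _) (Finset.mem_univ a)
      have h6 := sq_nonneg ‖dif e pres a u‖
      linarith only [h6, h1, h4, h5]
    have h3 : dif e pres a u = 0 := by
      have := h2 a
      rwa [sq_eq_zero_iff, norm_eq_zero] at this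
    have h4 := dif_apply e pres a u x
    rw [h3, if_pos hp] at h4
    exact (sub_eq_zero.mp h4.symm).symm
  have hconst : ∀ u, lapOp e pres bad u = 0 → ∀ x ∈ Perf, ∃ c : ℂ, ∀ y ∈ cmp x, u y = c := by
    intro u hu x hx
    obtain ⟨c, hc⟩ := H.exists_const (fun y => u y)
    refine ⟨c (cmp x), fun y hy => ?_⟩
    have h1 := (hc x hx).1
    have h2 : (∑ y ∈ cmp x, ∑ a : A, if pres y a then ‖u y - u (e a y)‖ ^ 2 else 0) = 0 := by
      refine Finset.sum_eq_zero fun y _ => Finset.sum_eq_zero fun a _ => ?_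
      split_ifs with hp
      · rw [hker u hu a y hp, sub_self, norm_zero]; norm_num
      · rfl
    rw [h2, mul_zero] at h1
    have h3 := (Finset.sum_eq_zero_iff_of_nonneg (fun y _ => sq_nonneg _)).mp
      (le_antisymm h1 (Finset.sum_nonneg fun y _ => sq_nonneg _)) y hy
    rw [sq_eq_zero_iff, norm_eq_zero, sub_eq_zero] at h3
    exact h3
  refine ⟨P, hP, ?_, hgap, ?_, ?_⟩
  · ext f x
    change lapOp e pres bad (P f) x = _
    rw [hTP]
    rfl
  · intro x hx
    have hcard : ((cmp x).card : ℂ) ≠ 0 := by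
      rw [Nat.cast_ne_zero]
      exact Finset.card_ne_zero_of_mem (H.self x hx)
    obtain ⟨w, hw⟩ : ∃ w : Ell2 V, w = ofFin
      (fun y => if y ∈ cmp x then (1 / ((cmp x).card : ℂ)) else 0) (cmp x)
      (fun y hy => if_neg hy) := ⟨_, rfl⟩
    have hwy : ∀ y, w y = if y ∈ cmp x then (1 / ((cmp x).card : ℂ)) else 0 := fun y => by
      rw [hw]; rfl
    have hTw : lapOp e pres bad w = 0 := by
      ext y
      rw [lapOp_apply]
      have h1 : ∀ a : A, (if pres y a then w y - w (e a y) else 0) = 0 := by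
        intro a
        split_ifs with hp
        · rw [hwy, hwy]
          by_cases hy : y ∈ cmp x
          · obtain ⟨h2, h3⟩ := H.eq x hx y hy
            have h4 := H.closed y h2 a hp
            rw [h3] at h4
            rw [if_pos hy, if_pos h4, sub_self]
          · have h5 : e a y ∉ cmp x := by
              intro h
              obtain ⟨h2, h3⟩ := H.eq x hx _ h
              have h4 := H.closed _ h2 (sw a) (H.symm y a hp)
              rw [H.inv, h3] at h4
              exact hy h4
            rw [if_neg hy, if_neg h5, sub_self]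
        · rfl
      have h2 : (if bad y then w y else 0) = 0 := by
        split_ifs with hb
        · rw [hwy]
          exact if_neg fun hy => H.notbad y (H.eq x hx y hy).1 hb
        · rfl
      rw [Finset.sum_congr rfl fun a _ => h1 a, Finset.sum_const_zero, h2, add_zero]
      rfl
    have h1 : P (dl x) = w := by
      refine huniq _ _ hTw fun u hu => ?_
      obtain ⟨c, hc⟩ := hconst u hu x hx
      rw [inner_sub_right, inner_dl_right, hc x (H.self x hx)]
      have h2 : ⟪u, w⟫_ℂ = ∑ y ∈ cmp x, (starRingEnd ℂ) (u y) * w y := by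
        rw [lp.inner_eq_tsum, tsum_eq_sum (s := cmp x)]
        · refine Finset.sum_congr rfl fun y _ => ?_
          rw [RCLike.inner_apply, mul_comm]
        · intro y hy
          rw [hwy, if_neg hy, inner_zero_right]
      rw [h2, Finset.sum_congr rfl fun y hy => by rw [hc y hy, hwy, if_pos hy], Finset.sum_const,
        nsmul_eq_mul]
      field_simp
      ring
    rw [h1, hwy, if_pos (H.self x hx)]
  · intro x hx
    have h1 : ∀ u, lapOp e pres bad u = 0 → u x = 0 := by
      intro u hu
      obtain ⟨u', hu'⟩ : ∃ u' : Ell2 V, u' = indOp Perfᶜ u := ⟨_, rfl⟩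
      have hu'y : ∀ y, u' y = if y ∈ Perfᶜ then u y else 0 := fun y => by
        rw [hu', indOp_apply]
        congr
      have hTu' : lapOp e pres bad u' = 0 := by
        ext y
        by_cases hy : y ∈ Perf
        · rw [lapOp_apply]
          have h1 : ∀ a : A, (if pres y a then u' y - u' (e a y) else 0) = 0 := by
            intro a
            split_ifs with hp
            · rw [hu'y, hu'y, if_neg (fun h => h hy),
                if_neg (fun h => h (H.eq y hy _ (H.closed y hy a hp)).1), sub_self]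
            · rfl
          have h2 : (if bad y then u' y else 0) = 0 := by
            split_ifs with hb
            · exact absurd hb (H.notbad y hy)
            · rfl
          rw [Finset.sum_congr rfl fun a _ => h1 a, Finset.sum_const_zero, h2, add_zero]
          rfl
        · have h3 : lapOp e pres bad u' y = lapOp e pres bad u y := by
            rw [lapOp_apply, lapOp_apply]
            congr 1
            · refine Finset.sum_congr rfl fun a _ => ?_
              split_ifs with hp
              · rw [hu'y, hu'y, if_pos (show y ∈ Perfᶜ from hy),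
                  if_pos (show e a y ∈ Perfᶜ from H.notMem_perf hy hp)]
              · rfl
            · rw [hu'y, if_pos (show y ∈ Perfᶜ from hy)]
          rw [h3, hu]
      have h2 : ‖u'‖ ^ 2 ≤ (8 * (Fintype.card A + 1 : ℝ) + 12) *
          RCLike.re ⟪lapOp e pres bad u', u'⟫_ℂ := by
        refine dense_fin (fun f => ‖f‖ ^ 2 ≤ (8 * (Fintype.card A + 1 : ℝ) + 12) *
          RCLike.re ⟪lapOp e pres bad f, f⟫_ℂ) ?_ u' ?_
        · refine isClosed_le (by fun_prop) ?_
          refine Continuous.mul continuous_const ?_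
          refine RCLike.continuous_re.comp ?_
          exact (lapOp e pres bad).continuous.inner continuous_id
        · intro g F hF hg0
          obtain ⟨g', _, h3, h4⟩ := H.fin_gap g F hF
          have h5 : g' = 0 := h3 fun y hy => hg0 y (by rw [hu'y]; exact if_neg fun h => h hy)
          rw [h5, sub_zero] at h4
          exact h4
      rw [hTu', inner_zero_left, map_zero, mul_zero] at h2
      have h3 : ‖u'‖ = 0 := by
        have := le_antisymm h2 (sq_nonneg _)
        rwa [sq_eq_zero_iff] at this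
      rw [norm_eq_zero] at h3
      have h4 := hu'y x
      rw [h3, if_pos (show x ∈ Perfᶜ from hx)] at h4
      exact h4.symm
    exact h1 _ (hTP _)

end gap

end Vale.Agent.P089.Gap
end
end

section

section

/-!
The group algebra `ℂ[G]`, its involution, and its representations attached to unitary
representations of `G` in C*-algebras.
-/

open scoped InnerProductSpace

namespace Vale.Agent.P086

variable {G H : Type} [Group G] [Group H]

/-- `λ` as a homomorphism into the unitary group of `B(ℓ²(G))`. -/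
noncomputable def lamU : G →* unitary (Ell2 G →L[ℂ] Ell2 G) where
  toFun g := ⟨lam g, permOp_mem_unitary _⟩
  map_one' := Subtype.ext lam_one
  map_mul' g h := Subtype.ext (lam_mul g h)

theorem lamU_coe (g : G) : ((lamU g : unitary (Ell2 G →L[ℂ] Ell2 G)) : Ell2 G →L[ℂ] Ell2 G)
    = lam g := rfl

/-- The representation of the group algebra `ℂ[G]` attached to a unitary representation. -/
noncomputable def repAlg {A : Type} [CStarAlgebra A] (π : G →* unitary A) :
    MonoidAlgebra ℂ G →ₐ[ℂ] A :=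
  MonoidAlgebra.lift ℂ A G ((unitary A).subtype.comp π)

/-- The involution of `ℂ[G]`. -/
noncomputable def gstar (p : MonoidAlgebra ℂ G) : MonoidAlgebra ℂ G :=
  p.coeff.sum fun g c => MonoidAlgebra.single g⁻¹ (star c)

theorem repAlg_single {A : Type} [CStarAlgebra A] (π : G →* unitary A) (g : G) (c : ℂ) :
    repAlg π (MonoidAlgebra.single g c) = c • (π g : A) := by
  rw [repAlg, MonoidAlgebra.lift_single]
  rfl

theorem repAlg_apply {A : Type} [CStarAlgebra A] (π : G →* unitary A) (p : MonoidAlgebra ℂ G) :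
    repAlg π p = ∑ g ∈ p.coeff.support, p.coeff g • (π g : A) := by
  rw [repAlg, MonoidAlgebra.lift_apply]
  rfl

theorem repAlg_gstar {A : Type} [CStarAlgebra A] (π : G →* unitary A) (p : MonoidAlgebra ℂ G) :
    repAlg π (gstar p) = star (repAlg π p) := by
  rw [repAlg_apply π p, star_sum, gstar, Finsupp.sum, map_sum]
  refine Finset.sum_congr rfl fun g _ => ?_
  rw [repAlg_single, star_smul, map_inv]
  rfl

theorem repAlg_lamU_dl_apply (p : MonoidAlgebra ℂ G) (g : G) :
    (repAlg lamU p) (dl (1 : G)) g = p.coeff g := by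
  classical
  rw [repAlg_apply, sum_apply, lp.coeFn_sum, Finset.sum_apply]
  have h1 : ∀ x ∈ p.coeff.support,
      ((p.coeff x • ((lamU x : unitary (Ell2 G →L[ℂ] Ell2 G)) : Ell2 G →L[ℂ] Ell2 G))
        (dl 1) : Ell2 G) g = if x = g then p.coeff x else 0 := by
    intro x _
    change p.coeff x * (lam x (dl 1)) g = _
    rw [lam_dl, mul_one, dl_apply]
    by_cases hx : g = x
    · rw [if_pos hx, if_pos hx.symm, mul_one]
    · rw [if_neg hx, if_neg (fun h => hx h.symm), mul_zero]
  rw [Finset.sum_congr rfl h1, Finset.sum_ite_eq']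
  split_ifs with h
  · rfl
  · rw [Finsupp.notMem_support_iff] at h
    exact h.symm

end Vale.Agent.P086
end
end

section

section

/-!
P089, operator layer: definitions.

* `N` is an abelian group, `G` a group acting on `N` by `φ : G →* MulAut (Multiplicative N)`, and
  `Γ = Multiplicative N ⋊[φ] G`.
* For a character `χ : N →+ ZMod 2`, `fibU φ χ` is the unitary representation of `Γ` on `ℓ²(G)`
  given by `(π_χ(n, g) ξ)(x) = (-1)^{χ(x · n)} ξ(x g)`.
* `CrG Γ` is the reduced group C*-algebra, `trc` its canonical trace.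
-/

open scoped InnerProductSpace

namespace Vale.Agent.P089.Op

open Vale.Agent.P086

/-! ### Signs -/

/-- The character `ZMod 2 → {1, -1}`, as a complex number. -/
noncomputable def sg (a : ZMod 2) : ℂ := if a = 0 then 1 else -1

@[simp] theorem sg_zero : sg 0 = 1 := by simp [sg]

@[simp] theorem sg_one : sg 1 = -1 := by simp only [sg, one_ne_zero, ↓reduceIte]

theorem zmod2_cases (a : ZMod 2) : a = 0 ∨ a = 1 := by
  revert a; decide

theorem sg_add (a b : ZMod 2) : sg (a + b) = sg a * sg b := by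
  rcases zmod2_cases a with rfl | rfl <;> rcases zmod2_cases b with rfl | rfl
  · simp
  · simp
  · simp
  · rw [show (1 : ZMod 2) + 1 = 0 by decide]; simp

theorem sg_mul_self (a : ZMod 2) : sg a * sg a = 1 := by
  rcases zmod2_cases a with rfl | rfl <;> simp

theorem norm_sg (a : ZMod 2) : ‖sg a‖ = 1 := by
  rcases zmod2_cases a with rfl | rfl <;> simp

theorem conj_sg (a : ZMod 2) : (starRingEnd ℂ) (sg a) = sg a := by
  rcases zmod2_cases a with rfl | rfl <;> simp

/-! ### Sign multiplication operators -/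

section sgnOp

variable {X : Type}

theorem memlp_sg (s : X → ZMod 2) (ξ : Ell2 X) :
    Memℓp (fun x : X => (sg (s x) * ξ x : ℂ)) 2 := by
  have h := lp.memℓp ξ
  rw [memℓp_gen_iff (by norm_num)] at h ⊢
  refine h.congr fun x => ?_
  rw [norm_mul, norm_sg, one_mul]

/-- Multiplication by the function `x ↦ (-1)^{s x}`. -/
noncomputable def sgnOp (s : X → ZMod 2) : Ell2 X →L[ℂ] Ell2 X :=
  LinearMap.mkContinuous
    { toFun := fun ξ => ⟨fun x => sg (s x) * ξ x, memlp_sg s ξ⟩
      map_add' := fun ξ η => by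
        ext x; exact mul_add _ _ _
      map_smul' := fun c ξ => by
        ext x; exact mul_left_comm _ _ _ }
    1 (fun ξ => by
      rw [one_mul, lp.norm_eq_tsum_rpow (by norm_num), lp.norm_eq_tsum_rpow (by norm_num)]
      apply le_of_eq
      congr 1
      refine tsum_congr fun x => ?_
      show ‖sg (s x) * ξ x‖ ^ _ = _
      rw [norm_mul, norm_sg, one_mul])

@[simp] theorem sgnOp_apply (s : X → ZMod 2) (ξ : Ell2 X) (x : X) :
    sgnOp s ξ x = sg (s x) * ξ x := rfl

theorem sgnOp_mul_self (s : X → ZMod 2) : sgnOp s * sgnOp s = 1 := by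
  ext ξ x
  show sg (s x) * (sg (s x) * ξ x) = ξ x
  rw [← mul_assoc, sg_mul_self, one_mul]

theorem star_sgnOp (s : X → ZMod 2) : star (sgnOp s) = sgnOp s := by
  rw [ContinuousLinearMap.star_eq_adjoint, eq_comm, ContinuousLinearMap.eq_adjoint_iff]
  intro x y
  rw [lp.inner_eq_tsum, lp.inner_eq_tsum]
  refine tsum_congr fun i => ?_
  simp only [sgnOp_apply, RCLike.inner_apply, map_mul, conj_sg]
  ring

theorem sgnOp_mem_unitary (s : X → ZMod 2) : sgnOp s ∈ unitary (Ell2 X →L[ℂ] Ell2 X) := by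
  rw [Unitary.mem_iff, star_sgnOp, sgnOp_mul_self]
  exact ⟨rfl, rfl⟩

end sgnOp

/-! ### The fibre representations -/

section fibre

variable {N G : Type} [AddCommGroup N] [Group G] (φ : G →* MulAut (Multiplicative N))

/-- The action of `G` on `N`, written additively. -/
def act (x : G) (n : Multiplicative N) : N := Multiplicative.toAdd (φ x n)

theorem act_mul_left (x y : G) (n : Multiplicative N) : act φ (x * y) n = act φ x (φ y n) := by
  simp [act, map_mul, MulAut.mul_apply]

theorem act_mul (x : G) (n m : Multiplicative N) : act φ x (n * m) = act φ x n + act φ x m := by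
  simp [act, map_mul]

theorem act_one (x : G) : act φ x 1 = 0 := by
  simp [act]

/-- The operator `(π_χ(n, g) ξ)(x) = (-1)^{χ(x · n)} ξ(x g)` on `ℓ²(G)`. -/
noncomputable def fib (χ : N →+ ZMod 2) (γ : Multiplicative N ⋊[φ] G) : Ell2 G →L[ℂ] Ell2 G :=
  sgnOp (fun x => χ (act φ x γ.left)) * rho γ.right⁻¹

theorem fib_apply (χ : N →+ ZMod 2) (γ : Multiplicative N ⋊[φ] G) (ξ : Ell2 G) (x : G) :
    fib φ χ γ ξ x = sg (χ (act φ x γ.left)) * ξ (x * γ.right) := by
  show sg (χ (act φ x γ.left)) * (rho γ.right⁻¹ ξ) x = _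
  rw [rho_apply, inv_inv]

theorem fib_one (χ : N →+ ZMod 2) : fib φ χ 1 = 1 := by
  ext ξ x
  rw [fib_apply, SemidirectProduct.one_left, SemidirectProduct.one_right, act_one, map_zero,
    sg_zero, one_mul, mul_one]
  rfl

theorem fib_mul (χ : N →+ ZMod 2) (γ δ : Multiplicative N ⋊[φ] G) :
    fib φ χ (γ * δ) = fib φ χ γ * fib φ χ δ := by
  ext ξ x
  show fib φ χ (γ * δ) ξ x = fib φ χ γ (fib φ χ δ ξ) x
  rw [fib_apply, fib_apply, fib_apply, SemidirectProduct.mul_left, SemidirectProduct.mul_right,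
    act_mul, map_add, sg_add, act_mul_left, mul_assoc, mul_assoc]

theorem fib_mem_unitary (χ : N →+ ZMod 2) (γ : Multiplicative N ⋊[φ] G) :
    fib φ χ γ ∈ unitary (Ell2 G →L[ℂ] Ell2 G) :=
  mul_mem (sgnOp_mem_unitary _) (permOp_mem_unitary _)

/-- The fibre representation `π_χ` of `Γ = N ⋊ G` on `ℓ²(G)`. -/
noncomputable def fibU (χ : N →+ ZMod 2) :
    (Multiplicative N ⋊[φ] G) →* unitary (Ell2 G →L[ℂ] Ell2 G) where
  toFun γ := ⟨fib φ χ γ, fib_mem_unitary φ χ γ⟩
  map_one' := Subtype.ext (fib_one φ χ)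
  map_mul' γ δ := Subtype.ext (fib_mul φ χ γ δ)

theorem fibU_coe (χ : N →+ ZMod 2) (γ : Multiplicative N ⋊[φ] G) :
    ((fibU φ χ γ : unitary (Ell2 G →L[ℂ] Ell2 G)) : Ell2 G →L[ℂ] Ell2 G) = fib φ χ γ := rfl

/-- The fibre representation on the group algebra. -/
noncomputable def fibA (χ : N →+ ZMod 2) :
    MonoidAlgebra ℂ (Multiplicative N ⋊[φ] G) →ₐ[ℂ] (Ell2 G →L[ℂ] Ell2 G) :=
  repAlg (fibU φ χ)

end fibre

/-! ### The reduced C*-algebra -/

section reduced

variable (Γ : Type) [Group Γ]

/-- The reduced group C*-algebra: the norm closure of the group algebra in the left regular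
representation. -/
noncomputable def CrG : StarSubalgebra ℂ (Ell2 Γ →L[ℂ] Ell2 Γ) :=
  (StarAlgebra.adjoin ℂ (Set.range (lam (G := Γ)))).topologicalClosure

variable {Γ}

/-- The left regular representation of the group algebra. -/
noncomputable def lamA : MonoidAlgebra ℂ Γ →ₐ[ℂ] (Ell2 Γ →L[ℂ] Ell2 Γ) := repAlg lamU

/-- The canonical trace. -/
noncomputable def trc (a : Ell2 Γ →L[ℂ] Ell2 Γ) : ℂ := ⟪dl (1 : Γ), a (dl 1)⟫_ℂ

theorem lamA_mem_CrG (a : MonoidAlgebra ℂ Γ) : lamA a ∈ CrG Γ := by
  rw [lamA, repAlg_apply]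
  refine sum_mem fun g _ => (CrG Γ).smul_mem ?_ _
  exact StarSubalgebra.le_topologicalClosure _ (StarAlgebra.subset_adjoin _ _ ⟨g, rfl⟩)

theorem trc_lamA (a : MonoidAlgebra ℂ Γ) : trc (lamA a) = a.coeff 1 := by
  rw [trc, inner_dl, lamA, repAlg_lamU_dl_apply]

end reduced

end Vale.Agent.P089.Op
end
end

section

section

/-!
P089, operator layer: averaging over characters, and the transfer of positivity and of norm
bounds from the fibres `π_χ` to the left regular representation of `N ⋊ G`.
-/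

open scoped InnerProductSpace ComplexOrder

namespace Vale.Agent.P089.Op

open Vale.Agent.P086

/-! ### Averaging over finitely many characters -/

section avg

variable {N : Type} [AddCommGroup N]

open Classical in
/-- For every finite subset `M` of `N` there are finitely many characters in `V` over which the
average of `(-1)^{χ n}`, `n ∈ M`, is `1` for `n = 0` and `0` otherwise. -/
theorem exists_avg (V : AddSubgroup (N →+ ZMod 2)) (hV : ∀ n : N, n ≠ 0 → ∃ χ ∈ V, χ n ≠ 0)
    (M : Finset N) :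
    ∃ (J : Type) (_ : Fintype J) (_ : Nonempty J) (c : J → (N →+ ZMod 2)),
      (∀ j, c j ∈ V) ∧ ∀ n ∈ M, (Fintype.card J : ℂ)⁻¹ * ∑ j, sg (c j n) =
        if n = 0 then 1 else 0 := by
  classical
  let r : V →+ (M → ZMod 2) :=
    { toFun := fun χ n => (χ : N →+ ZMod 2) n
      map_zero' := rfl
      map_add' := fun χ ψ => rfl }
  have hfin : Finite r.range := inferInstance
  let : Fintype r.range := Fintype.ofFinite _
  have hsec : ∀ w : r.range, ∃ χ : V, r χ = w := fun w => w.2
  choose s hs using hsec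
  refine ⟨r.range, inferInstance, ⟨0⟩, fun w => (s w : N →+ ZMod 2), fun w => (s w).2, ?_⟩
  intro n hn
  have hval : ∀ w : r.range, (s w : N →+ ZMod 2) n = (w : M → ZMod 2) ⟨n, hn⟩ := fun w => by
    rw [← hs w]; rfl
  have hsum : ∑ w : r.range, sg ((s w : N →+ ZMod 2) n) =
      ∑ w : r.range, sg ((w : M → ZMod 2) ⟨n, hn⟩) :=
    Finset.sum_congr rfl fun w _ => by rw [hval w]
  rw [hsum]
  have hcard : (Fintype.card r.range : ℂ) ≠ 0 := by
    exact_mod_cast Fintype.card_ne_zero
  split_ifs with h0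
  · subst h0
    have h1 : ∀ w : r.range, sg ((w : M → ZMod 2) ⟨0, hn⟩) = 1 := fun w => by
      rw [← hval w, map_zero, sg_zero]
    rw [Finset.sum_congr rfl fun w _ => h1 w, Finset.sum_const, Finset.card_univ, nsmul_eq_mul,
      mul_one, inv_mul_cancel₀ hcard]
  · obtain ⟨χ, hχ, hχn⟩ := hV n h0
    have hχ1 : χ n = 1 := (zmod2_cases _).resolve_left hχn
    let w₀ : r.range := ⟨r ⟨χ, hχ⟩, ⟨χ, hχ⟩, rfl⟩
    have hshift : ∑ w : r.range, sg ((w : M → ZMod 2) ⟨n, hn⟩) =
        ∑ w : r.range, sg (((w₀ + w : r.range) : M → ZMod 2) ⟨n, hn⟩) :=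
      (Fintype.sum_equiv (Equiv.addLeft w₀) _ _ fun w => rfl).symm
    have hneg : ∑ w : r.range, sg (((w₀ + w : r.range) : M → ZMod 2) ⟨n, hn⟩) =
        - ∑ w : r.range, sg ((w : M → ZMod 2) ⟨n, hn⟩) := by
      rw [← Finset.sum_neg_distrib]
      refine Finset.sum_congr rfl fun w _ => ?_
      have h2 : (((w₀ + w : r.range) : M → ZMod 2) ⟨n, hn⟩) =
          χ n + (w : M → ZMod 2) ⟨n, hn⟩ := rfl
      rw [h2, hχ1, sg_add, sg_one, neg_one_mul]
    have hz : ∑ w : r.range, sg ((w : M → ZMod 2) ⟨n, hn⟩) = 0 := by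
      have h3 := hshift.trans hneg
      have h4 : (2 : ℂ) * ∑ w : r.range, sg ((w : M → ZMod 2) ⟨n, hn⟩) = 0 := by
        linear_combination h3
      simpa only [mul_eq_zero, OfNat.ofNat_ne_zero, false_or] using h4
    rw [hz, mul_zero]

end avg

/-! ### The coefficient at `1` as an average over the fibres -/

section coeff

variable {N G : Type} [AddCommGroup N] [Group G] (φ : G →* MulAut (Multiplicative N))

open Classical in
theorem inner_fib_dl_one (χ : N →+ ZMod 2) (γ : Multiplicative N ⋊[φ] G) :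
    ⟪dl (1 : G), fib φ χ γ (dl 1)⟫_ℂ =
      if γ.right = 1 then sg (χ (Multiplicative.toAdd γ.left)) else 0 := by
  classical
  rw [inner_dl, fib_apply, one_mul, dl_apply]
  have h : act φ 1 γ.left = Multiplicative.toAdd γ.left := by simp only [act, map_one, MulAut.one_apply]
  rw [h]
  split_ifs <;> simp

open Classical in
theorem inner_fibA_dl_one (χ : N →+ ZMod 2) (a : MonoidAlgebra ℂ (Multiplicative N ⋊[φ] G)) :
    ⟪dl (1 : G), fibA φ χ a (dl 1)⟫_ℂ =
      ∑ γ ∈ a.coeff.support, a.coeff γ *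
        (if γ.right = 1 then sg (χ (Multiplicative.toAdd γ.left)) else 0) := by
  rw [fibA, repAlg_apply, sum_apply, inner_sum]
  refine Finset.sum_congr rfl fun γ _ => ?_
  show ⟪dl (1 : G), (a.coeff γ • fib φ χ γ) (dl 1)⟫_ℂ = _
  rw [smul_apply, inner_smul_right, inner_fib_dl_one]

/-- The coefficient at `1` of `a ∈ ℂ[N ⋊ G]` is the average of the fibre coefficients. -/
theorem coeff_one_eq_avg (V : AddSubgroup (N →+ ZMod 2))
    (hV : ∀ n : N, n ≠ 0 → ∃ χ ∈ V, χ n ≠ 0)
    (a : MonoidAlgebra ℂ (Multiplicative N ⋊[φ] G)) :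
    ∃ (J : Type) (_ : Fintype J) (_ : Nonempty J) (c : J → (N →+ ZMod 2)),
      (∀ j, c j ∈ V) ∧
        a.coeff 1 = (Fintype.card J : ℂ)⁻¹ * ∑ j, ⟪dl (1 : G), fibA φ (c j) a (dl 1)⟫_ℂ := by
  classical
  obtain ⟨J, hJ, hJn, c, hc, havg⟩ := exists_avg V hV
    (a.coeff.support.image fun γ => Multiplicative.toAdd γ.left)
  refine ⟨J, hJ, hJn, c, hc, ?_⟩
  have h1 : ∑ j, ⟪dl (1 : G), fibA φ (c j) a (dl 1)⟫_ℂ =
      ∑ γ ∈ a.coeff.support, a.coeff γ *
        (if γ.right = 1 then ∑ j, sg (c j (Multiplicative.toAdd γ.left)) else 0) := by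
    rw [Finset.sum_congr rfl fun j _ => inner_fibA_dl_one φ (c j) a, Finset.sum_comm]
    refine Finset.sum_congr rfl fun γ _ => ?_
    rw [← Finset.mul_sum]
    split_ifs with h
    · rfl
    · simp
  rw [h1, Finset.mul_sum]
  have h2 : ∀ γ ∈ a.coeff.support, (Fintype.card J : ℂ)⁻¹ * (a.coeff γ *
        (if γ.right = 1 then ∑ j, sg (c j (Multiplicative.toAdd γ.left)) else 0)) =
      if γ = 1 then a.coeff γ else 0 := by
    intro γ hγ
    have h3 := havg (Multiplicative.toAdd γ.left) (Finset.mem_image_of_mem _ hγ)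
    by_cases hr : γ.right = 1
    · rw [if_pos hr, mul_left_comm, h3]
      by_cases hl : Multiplicative.toAdd γ.left = 0
      · have h4 : γ = 1 := by
          refine SemidirectProduct.ext ?_ hr
          exact Multiplicative.toAdd.injective hl
        rw [if_pos hl, if_pos h4, mul_one]
      · have h4 : γ ≠ 1 := fun h => hl (by rw [h]; rfl)
        rw [if_neg hl, if_neg h4, mul_zero]
    · have h4 : γ ≠ 1 := fun h => hr (by rw [h]; rfl)
      rw [if_neg hr, if_neg h4, mul_zero, mul_zero]
  rw [Finset.sum_congr rfl h2, Finset.sum_ite_eq']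
  split_ifs with h
  · rfl
  · exact Finsupp.notMem_support_iff.mp h

end coeff

/-! ### Density of the group algebra in `ℓ²(Γ)` -/

section dense

variable {Γ : Type} [Group Γ]

theorem lamA_single_dl_one (g : Γ) (c : ℂ) :
    lamA (MonoidAlgebra.single g c) (dl (1 : Γ)) = c • (dl g : Ell2 Γ) := by
  rw [lamA, repAlg_single]
  show c • (lam g (dl 1)) = _
  rw [lam_dl, mul_one]

theorem dense_lamA_dl_one :
    Dense (Set.range fun b : MonoidAlgebra ℂ Γ => lamA b (dl (1 : Γ))) := by
  classical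
  intro ζ
  have h := lp.hasSum_single (p := 2) (by norm_num) ζ
  refine mem_closure_of_tendsto h (Filter.Eventually.of_forall fun s => ?_)
  refine ⟨∑ g ∈ s, MonoidAlgebra.single g (ζ g), ?_⟩
  show lamA (∑ g ∈ s, MonoidAlgebra.single g (ζ g)) (dl (1 : Γ)) = _
  rw [map_sum, sum_apply]
  refine Finset.sum_congr rfl fun g _ => ?_
  rw [lamA_single_dl_one]
  ext y
  show ζ g * (dl g : Ell2 Γ) y = _
  rw [dl_apply, lp.coeFn_single, Pi.single_apply]
  split_ifs <;> simp

theorem fibA_gstar {N G : Type} [AddCommGroup N] [Group G]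
    (φ : G →* MulAut (Multiplicative N)) (χ : N →+ ZMod 2)
    (a : MonoidAlgebra ℂ (Multiplicative N ⋊[φ] G)) :
    fibA φ χ (gstar a) = star (fibA φ χ a) := repAlg_gstar _ _

theorem lamA_gstar (a : MonoidAlgebra ℂ Γ) : lamA (gstar a) = star (lamA a) := repAlg_gstar _ _

end dense

/-! ### Transfer -/

section transfer

theorem inner_self_ofReal {E : Type} [NormedAddCommGroup E] [InnerProductSpace ℂ E] (x : E) :
    ⟪x, x⟫_ℂ = ((‖x‖ ^ 2 : ℝ) : ℂ) := by
  rw [inner_self_eq_norm_sq_to_K]
  simp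

variable {N G : Type} [AddCommGroup N] [Group G] (φ : G →* MulAut (Multiplicative N))

/-- A quadratic form in the regular representation, on the group algebra, is an average of the
quadratic forms in the fibres. -/
theorem inner_lamA_eq_avg (V : AddSubgroup (N →+ ZMod 2))
    (hV : ∀ n : N, n ≠ 0 → ∃ χ ∈ V, χ n ≠ 0)
    (a b : MonoidAlgebra ℂ (Multiplicative N ⋊[φ] G)) :
    ∃ (J : Type) (_ : Fintype J) (_ : Nonempty J) (c : J → (N →+ ZMod 2)),
      (∀ j, c j ∈ V) ∧
        ⟪lamA b (dl 1), lamA a (lamA b (dl 1))⟫_ℂ = (Fintype.card J : ℂ)⁻¹ *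
          ∑ j, ⟪fibA φ (c j) b (dl (1 : G)), fibA φ (c j) a (fibA φ (c j) b (dl 1))⟫_ℂ := by
  obtain ⟨J, hJ, hJn, c, hc, h⟩ := coeff_one_eq_avg φ V hV (gstar b * a * b)
  refine ⟨J, hJ, hJn, c, hc, ?_⟩
  rw [← trc_lamA, trc, map_mul, map_mul, lamA_gstar] at h
  have h1 : ⟪dl 1, (star (lamA b) * lamA a * lamA b) (dl 1)⟫_ℂ =
      ⟪lamA b (dl 1), lamA a (lamA b (dl 1))⟫_ℂ := by
    rw [mul_assoc]
    show ⟪dl 1, star (lamA b) (lamA a (lamA b (dl 1)))⟫_ℂ = _
    rw [ContinuousLinearMap.star_eq_adjoint, ContinuousLinearMap.adjoint_inner_right]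
  rw [← h1, h]
  congr 1
  refine Finset.sum_congr rfl fun j _ => ?_
  rw [map_mul, map_mul, fibA_gstar, mul_assoc]
  show ⟪dl 1, star (fibA φ (c j) b) (fibA φ (c j) a (fibA φ (c j) b (dl 1)))⟫_ℂ = _
  rw [ContinuousLinearMap.star_eq_adjoint, ContinuousLinearMap.adjoint_inner_right]

/-- If all fibres of `a` have nonnegative quadratic form, then so has `λ(a)`. -/
theorem inner_lamA_nonneg (V : AddSubgroup (N →+ ZMod 2))
    (hV : ∀ n : N, n ≠ 0 → ∃ χ ∈ V, χ n ≠ 0)
    (a : MonoidAlgebra ℂ (Multiplicative N ⋊[φ] G))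
    (ha : ∀ χ ∈ V, ∀ ξ : Ell2 G, 0 ≤ ⟪ξ, fibA φ χ a ξ⟫_ℂ)
    (ζ : Ell2 (Multiplicative N ⋊[φ] G)) : 0 ≤ ⟪ζ, lamA a ζ⟫_ℂ := by
  have hcl : IsClosed {ζ : Ell2 (Multiplicative N ⋊[φ] G) | 0 ≤ ⟪ζ, lamA a ζ⟫_ℂ} := by
    refine isClosed_le continuous_const ?_
    exact continuous_id.inner (lamA a).continuous
  have hd := dense_lamA_dl_one (Γ := Multiplicative N ⋊[φ] G)
  refine hcl.closure_subset_iff.mpr ?_ (hd ζ)
  rintro _ ⟨b, rfl⟩
  obtain ⟨J, hJ, hJn, c, hc, h⟩ := inner_lamA_eq_avg φ V hV a b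
  show 0 ≤ ⟪lamA b (dl 1), lamA a (lamA b (dl 1))⟫_ℂ
  rw [h]
  refine mul_nonneg ?_ (Finset.sum_nonneg fun j _ => ha _ (hc j) _)
  rw [inv_nonneg]
  exact_mod_cast Nat.zero_le _

/-- A uniform norm bound in the fibres is a norm bound in the regular representation. -/
theorem norm_lamA_le (V : AddSubgroup (N →+ ZMod 2))
    (hV : ∀ n : N, n ≠ 0 → ∃ χ ∈ V, χ n ≠ 0)
    (a : MonoidAlgebra ℂ (Multiplicative N ⋊[φ] G)) (C : ℝ) (hC : 0 ≤ C)
    (ha : ∀ χ ∈ V, ‖fibA φ χ a‖ ≤ C) : ‖lamA a‖ ≤ C := by
  refine ContinuousLinearMap.opNorm_le_bound _ hC fun ζ => ?_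
  have h := inner_lamA_nonneg φ V hV
    (((C ^ 2 : ℝ) : ℂ) • 1 - gstar a * a) (fun χ hχ ξ => by
      rw [map_sub, map_mul, fibA_gstar, map_smul, map_one]
      show 0 ≤ ⟪ξ, ((C ^ 2 : ℝ) : ℂ) • ξ - star (fibA φ χ a) (fibA φ χ a ξ)⟫_ℂ
      rw [inner_sub_right, inner_smul_right, ContinuousLinearMap.star_eq_adjoint,
        ContinuousLinearMap.adjoint_inner_right, inner_self_ofReal, inner_self_ofReal]
      have h1 : ‖fibA φ χ a ξ‖ ≤ C * ‖ξ‖ :=
        ((fibA φ χ a).le_opNorm ξ).trans (by gcongr; exact ha χ hχ)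
      have h2 : ‖fibA φ χ a ξ‖ ^ 2 ≤ C ^ 2 * ‖ξ‖ ^ 2 := by
        rw [← mul_pow]
        exact pow_le_pow_left₀ (norm_nonneg _) h1 2
      have h3 : (0 : ℝ) ≤ C ^ 2 * ‖ξ‖ ^ 2 - ‖fibA φ χ a ξ‖ ^ 2 := by linarith only [h2]
      exact_mod_cast h3) ζ
  rw [map_sub, map_mul, lamA_gstar, map_smul, map_one] at h
  have h' : 0 ≤ ⟪ζ, ((C ^ 2 : ℝ) : ℂ) • ζ - star (lamA a) (lamA a ζ)⟫_ℂ := h
  rw [inner_sub_right, inner_smul_right, ContinuousLinearMap.star_eq_adjoint,
    ContinuousLinearMap.adjoint_inner_right, inner_self_ofReal, inner_self_ofReal] at h'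
  have h3 : (0 : ℝ) ≤ C ^ 2 * ‖ζ‖ ^ 2 - ‖lamA a ζ‖ ^ 2 := by exact_mod_cast h'
  refine le_of_sq_le_sq ?_ (by positivity)
  rw [mul_pow]
  linarith only [h3]

end transfer

end Vale.Agent.P089.Op
end
end

section

section

/-!
P089, operator layer: local functions as elements of the group algebra of `N`.
-/

open scoped InnerProductSpace ComplexOrder

namespace Vale.Agent.P089.Op

open Vale.Agent.P086

variable {N G : Type} [AddCommGroup N] [Group G] (φ : G →* MulAut (Multiplicative N))

/-- The sign character `n ↦ (-1)^{χ n}` as a monoid homomorphism. -/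
noncomputable def sgHom (χ : N →+ ZMod 2) : Multiplicative N →* ℂ where
  toFun n := sg (χ (Multiplicative.toAdd n))
  map_one' := by simp
  map_mul' n m := by simp [map_add, sg_add]

/-- Evaluation of `c ∈ ℂ[N]` at a character: `∑ n, c(n) (-1)^{χ n}`. -/
noncomputable def evc (χ : N →+ ZMod 2) : MonoidAlgebra ℂ (Multiplicative N) →ₐ[ℂ] ℂ :=
  MonoidAlgebra.lift ℂ ℂ (Multiplicative N) (sgHom χ)

theorem evc_single (χ : N →+ ZMod 2) (n : Multiplicative N) (c : ℂ) :
    evc χ (MonoidAlgebra.single n c) = c * sg (χ (Multiplicative.toAdd n)) := by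
  rw [evc, MonoidAlgebra.lift_single]
  rfl

/-- The translated character `n ↦ χ (x · n)`. -/
def trch (χ : N →+ ZMod 2) (x : G) : N →+ ZMod 2 where
  toFun n := χ (act φ x (Multiplicative.ofAdd n))
  map_zero' := by
    show χ (act φ x (Multiplicative.ofAdd 0)) = 0
    rw [ofAdd_zero, act_one, map_zero]
  map_add' n m := by
    show χ (act φ x (Multiplicative.ofAdd (n + m))) = _
    rw [ofAdd_add, act_mul, map_add]

theorem trch_apply (χ : N →+ ZMod 2) (x : G) (n : N) :
    trch φ χ x n = χ (act φ x (Multiplicative.ofAdd n)) := rfl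

/-- The inclusion `ℂ[N] → ℂ[N ⋊ G]`. -/
noncomputable def inlA :
    MonoidAlgebra ℂ (Multiplicative N) →ₐ[ℂ] MonoidAlgebra ℂ (Multiplicative N ⋊[φ] G) :=
  MonoidAlgebra.lift ℂ _ (Multiplicative N)
    ((MonoidAlgebra.of ℂ (Multiplicative N ⋊[φ] G)).comp SemidirectProduct.inl)

theorem inlA_single (n : Multiplicative N) (c : ℂ) :
    inlA φ (MonoidAlgebra.single n c) = MonoidAlgebra.single (SemidirectProduct.inl n) c := by
  rw [inlA, MonoidAlgebra.lift_single]
  show c • MonoidAlgebra.single (SemidirectProduct.inl n) (1 : ℂ) = _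
  rw [MonoidAlgebra.smul_single, smul_eq_mul, mul_one]

/-- The fibres of `c ∈ ℂ[N]` are multiplication operators. -/
theorem fibA_inlA_apply (χ : N →+ ZMod 2) (c : MonoidAlgebra ℂ (Multiplicative N))
    (ξ : Ell2 G) (x : G) :
    fibA φ χ (inlA φ c) ξ x = evc (trch φ χ x) c * ξ x := by
  induction c using MonoidAlgebra.induction_linear with
  | zero => simp
  | add a b ha hb =>
    rw [map_add, map_add, map_add, add_mul, ← ha, ← hb]
    rfl
  | single n c =>
    rw [inlA_single, evc_single, fibA, repAlg_single]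
    show c * (fib φ χ (SemidirectProduct.inl n) ξ) x = _
    rw [fib_apply, SemidirectProduct.left_inl, SemidirectProduct.right_inl, mul_one, trch_apply,
      mul_assoc]
    rfl

/-- The fibres of a group element of `G` are right translations. -/
theorem fibA_inr_apply (χ : N →+ ZMod 2) (g : G) (ξ : Ell2 G) (x : G) :
    fibA φ χ (MonoidAlgebra.single (SemidirectProduct.inr g) 1) ξ x = ξ (x * g) := by
  rw [fibA, repAlg_single, one_smul]
  show (fib φ χ (SemidirectProduct.inr g) ξ) x = _
  rw [fib_apply, SemidirectProduct.left_inr, SemidirectProduct.right_inr, act_one, map_zero,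
    sg_zero, one_mul]

/-! ### Cylinder functions -/

section cyl

variable {ι : Type} [Fintype ι]

/-- The indicator of `χ (n i) = u i` for all `i`, as an element of `ℂ[N]`. -/
noncomputable def cylInd (n : ι → N) (u : ι → ZMod 2) : MonoidAlgebra ℂ (Multiplicative N) :=
  ∏ i, (2⁻¹ : ℂ) • (1 + MonoidAlgebra.single (Multiplicative.ofAdd (n i)) (sg (u i)))

open Classical in
/-- The cylinder function `χ ↦ f (i ↦ χ (n i))` as an element of `ℂ[N]`. -/
noncomputable def cyl (n : ι → N) (f : (ι → ZMod 2) → ℂ) : MonoidAlgebra ℂ (Multiplicative N) :=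
  ∑ u : ι → ZMod 2, f u • cylInd n u

open Classical in
theorem evc_cylInd (χ : N →+ ZMod 2) (n : ι → N) (u : ι → ZMod 2) :
    evc χ (cylInd n u) = if (fun i => χ (n i)) = u then 1 else 0 := by
  rw [cylInd, map_prod]
  have h1 : ∀ i, evc χ ((2⁻¹ : ℂ) •
      (1 + MonoidAlgebra.single (Multiplicative.ofAdd (n i)) (sg (u i)))) =
      if χ (n i) = u i then 1 else 0 := by
    intro i
    rw [map_smul, map_add, map_one, evc_single, toAdd_ofAdd, smul_eq_mul]
    rcases zmod2_cases (χ (n i)) with h | h <;> rcases zmod2_cases (u i) with h' | h' <;>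
      simp [h, h'] <;> norm_num
  rw [Finset.prod_congr rfl fun i _ => h1 i]
  split_ifs with h
  · refine Finset.prod_eq_one fun i _ => ?_
    rw [if_pos (congrFun h i)]
  · obtain ⟨i, hi⟩ := Function.ne_iff.mp h
    exact Finset.prod_eq_zero (Finset.mem_univ i) (if_neg hi)

theorem evc_cyl (χ : N →+ ZMod 2) (n : ι → N) (f : (ι → ZMod 2) → ℂ) :
    evc χ (cyl n f) = f fun i => χ (n i) := by
  classical
  rw [cyl, map_sum]
  have h1 : ∀ u : ι → ZMod 2, evc χ (f u • cylInd n u) =
      if (fun i => χ (n i)) = u then f u else 0 := by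
    intro u
    rw [map_smul, evc_cylInd, smul_eq_mul]
    split_ifs <;> simp
  rw [Finset.sum_congr rfl fun u _ => h1 u, Finset.sum_ite_eq]
  simp

/-- The fibre of a cylinder function. -/
theorem fibA_cyl_apply (χ : N →+ ZMod 2) (n : ι → N) (f : (ι → ZMod 2) → ℂ)
    (ξ : Ell2 G) (x : G) :
    fibA φ χ (inlA φ (cyl n f)) ξ x =
      f (fun i => χ (act φ x (Multiplicative.ofAdd (n i)))) * ξ x := by
  rw [fibA_inlA_apply, evc_cyl]
  rfl

end cyl

end Vale.Agent.P089.Op
end
end

section

section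

/-!
P089, operator layer: the group `N = (⊕_G A) / Rel`, the action of `G`, and the correspondence
between characters of `N` and configurations.
-/

open scoped InnerProductSpace ComplexOrder

namespace Vale.Agent.P089.Op

open Vale.Agent.P086

variable {q : ℕ} {F : Fam q} {K k : ℕ} (M : Monster F K) (C : Codes k F)

/-- The group `N`. -/
abbrev NN : Type := (M.G →₀ Alph k q) ⧸ M.Rel C

/-- The class of a finitely supported function. -/
noncomputable def mkN (f : M.G →₀ Alph k q) : NN M C := Submodule.Quotient.mk f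

theorem mkN_add (f g : M.G →₀ Alph k q) : mkN M C (f + g) = mkN M C f + mkN M C g := rfl

theorem mkN_neg (f : M.G →₀ Alph k q) : mkN M C (-f) = -mkN M C f := rfl

theorem mkN_sub (f g : M.G →₀ Alph k q) : mkN M C (f - g) = mkN M C f - mkN M C g := rfl

theorem mkN_eq_zero {f : M.G →₀ Alph k q} : mkN M C f = 0 ↔ f ∈ M.Rel C :=
  Submodule.Quotient.mk_eq_zero _

theorem mkN_surj (n : NN M C) : ∃ f, mkN M C f = n := Submodule.Quotient.mk_surjective _ n

/-! ### Translations -/

/-- Translation of finitely supported functions: `single y a ↦ single (g * y) a`. -/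
noncomputable def trF (g : M.G) : (M.G →₀ Alph k q) ≃ₗ[ZMod 2] (M.G →₀ Alph k q) :=
  Finsupp.domLCongr (Equiv.mulLeft g)

theorem trF_single (g y : M.G) (a : Alph k q) :
    trF M g (Finsupp.single y a) = Finsupp.single (g * y) a := by
  rw [trF, Finsupp.domLCongr_single]
  rfl

theorem trF_apply (g x : M.G) (f : M.G →₀ Alph k q) : trF M g f x = f (g⁻¹ * x) := by
  rw [trF, Finsupp.domLCongr_apply]
  rfl

theorem trF_one (f : M.G →₀ Alph k q) : trF M 1 f = f := by
  ext1 x
  rw [trF_apply, inv_one, one_mul]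

theorem trF_mul (g h : M.G) (f : M.G →₀ Alph k q) : trF M (g * h) f = trF M g (trF M h f) := by
  ext1 x
  rw [trF_apply, trF_apply, trF_apply, mul_inv_rev, mul_assoc]

theorem trF_place (g : M.G) (m : ℕ) (h : M.G) (ψ : Fin (F.n m) → Alph k q) :
    trF M g (M.place m h ψ) = M.place m (g * h) ψ := by
  rw [Monster.place, map_sum, Monster.place]
  refine Finset.sum_congr rfl fun y _ => ?_
  rw [trF_single, mul_assoc]

theorem trF_mem_Rel (g : M.G) {f : M.G →₀ Alph k q} (hf : f ∈ M.Rel C) :
    trF M g f ∈ M.Rel C := by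
  have h : M.Rel C ≤ (M.Rel C).comap (trF M g).toLinearMap := by
    rw [Monster.Rel, Submodule.span_le]
    rintro _ ⟨m, h, ψ, hψ, rfl⟩
    show trF M g (M.place m h ψ) ∈ M.Rel C
    rw [trF_place]
    exact Submodule.subset_span ⟨m, g * h, ψ, hψ, rfl⟩
  exact h hf

theorem map_trF_Rel (g : M.G) : (M.Rel C).map (trF M g).toLinearMap = M.Rel C := by
  apply le_antisymm
  · rintro _ ⟨f, hf, rfl⟩
    exact trF_mem_Rel M C g hf
  · intro f hf
    refine ⟨trF M g⁻¹ f, trF_mem_Rel M C g⁻¹ hf, ?_⟩
    show trF M g (trF M g⁻¹ f) = f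
    rw [← trF_mul, mul_inv_cancel, trF_one]

/-- The action of `g` on `N`. -/
noncomputable def trN (g : M.G) : NN M C ≃ₗ[ZMod 2] NN M C :=
  Submodule.Quotient.equiv (M.Rel C) (M.Rel C) (trF M g) (map_trF_Rel M C g)

theorem trN_mk (g : M.G) (f : M.G →₀ Alph k q) :
    trN M C g (mkN M C f) = mkN M C (trF M g f) := rfl

/-- The action of `G` on `N`. -/
noncomputable def actN : M.G →* MulAut (Multiplicative (NN M C)) where
  toFun g := AddEquiv.toMultiplicative (trN M C g).toAddEquiv
  map_one' := by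
    refine MulEquiv.ext fun n => ?_
    show trN M C 1 (Multiplicative.toAdd n) = Multiplicative.toAdd n
    obtain ⟨f, hf⟩ := mkN_surj M C (Multiplicative.toAdd n)
    rw [← hf, trN_mk, trF_one]
  map_mul' g h := by
    refine MulEquiv.ext fun n => ?_
    show trN M C (g * h) (Multiplicative.toAdd n) =
      trN M C g (trN M C h (Multiplicative.toAdd n))
    obtain ⟨f, hf⟩ := mkN_surj M C (Multiplicative.toAdd n)
    rw [← hf, trN_mk, trN_mk, trN_mk, trF_mul]

theorem act_actN_mk (x : M.G) (f : M.G →₀ Alph k q) :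
    act (actN M C) x (Multiplicative.ofAdd (mkN M C f)) = mkN M C (trF M x f) := rfl

/-- The group `Γ`. -/
abbrev Gam : Type := Multiplicative (NN M C) ⋊[actN M C] M.G

/-! ### Characters and configurations -/

section pairing

variable {G : Type}

theorem dotA_add_left (a b c : Alph k q) : dotA (a + b) c = dotA a c + dotA b c := by
  simp only [dotA, Prod.fst_add, Prod.snd_add, Pi.add_apply, add_mul, Finset.sum_add_distrib]
  ring

theorem dotA_zero_left (c : Alph k q) : dotA 0 c = 0 := by
  simp only [dotA, Prod.fst_zero, Pi.zero_apply, zero_mul, Finset.sum_const_zero, Prod.snd_zero, add_zero]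

theorem pairG_add (f g : G →₀ Alph k q) (v : G → Alph k q) :
    pairG (f + g) v = pairG f v + pairG g v := by
  classical
  rw [pairG, pairG, pairG]
  exact Finsupp.sum_add_index' (fun x => dotA_zero_left _) fun x a b => dotA_add_left a b _

theorem pairG_zero (v : G → Alph k q) : pairG (0 : G →₀ Alph k q) v = 0 := by
  rw [pairG]
  exact Finsupp.sum_zero_index

theorem pairG_single (x : G) (a : Alph k q) (v : G → Alph k q) :
    pairG (Finsupp.single x a) v = dotA a (v x) := by
  rw [pairG]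
  exact Finsupp.sum_single_index (dotA_zero_left _)

/-- The pairing with a configuration as an additive homomorphism. -/
noncomputable def pairHom (v : G → Alph k q) : (G →₀ Alph k q) →+ ZMod 2 where
  toFun f := pairG f v
  map_zero' := pairG_zero v
  map_add' f g := pairG_add f g v

/-- The basis of the alphabet. -/
def bas : Fin k ⊕ Fin q → Alph k q
  | Sum.inl i => (Pi.single i 1, 0)
  | Sum.inr j => (0, Pi.single j 1)

/-- The coordinates of the alphabet. -/
def coord (a : Alph k q) : Fin k ⊕ Fin q → ZMod 2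
  | Sum.inl i => a.1 i
  | Sum.inr j => a.2 j

/-- The element of the alphabet with given coordinates. -/
def ofCoord (w : Fin k ⊕ Fin q → ZMod 2) : Alph k q := (fun i => w (Sum.inl i), fun j => w (Sum.inr j))

theorem coord_ofCoord (w : Fin k ⊕ Fin q → ZMod 2) : coord (ofCoord w) = w := by
  ext i; cases i <;> rfl

theorem ofCoord_coord (a : Alph k q) : ofCoord (coord a) = a := rfl

theorem dotA_bas (i : Fin k ⊕ Fin q) (a : Alph k q) : dotA (bas i) a = coord a i := by
  cases i with
  | inl i => simp only [dotA, bas, Pi.single_apply, ite_mul, one_mul, zero_mul, Finset.sum_ite_eq', Finset.mem_univ, ↓reduceIte, Pi.zero_apply, Finset.sum_const_zero, add_zero, coord]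
  | inr j => simp only [dotA, bas, Pi.zero_apply, zero_mul, Finset.sum_const_zero, Pi.single_apply, ite_mul, one_mul, Finset.sum_ite_eq', Finset.mem_univ, ↓reduceIte, zero_add, coord]

theorem eq_sum_bas (a : Alph k q) : a = ∑ i, coord a i • (bas i : Alph k q) := by
  rw [Fintype.sum_sum_type]
  refine Prod.ext ?_ ?_
  · funext i
    simp only [coord, bas, Prod.smul_mk, smul_zero, Prod.fst_add, Prod.fst_sum, Finset.sum_const_zero, Pi.add_apply, Finset.sum_apply, Pi.smul_apply, Pi.single_apply, smul_eq_mul, mul_ite, mul_one, mul_zero, Finset.sum_ite_eq, Finset.mem_univ, ↓reduceIte, Pi.zero_apply, add_zero]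
  · funext j
    simp only [coord, bas, Prod.smul_mk, smul_zero, Prod.snd_add, Prod.snd_sum, Finset.sum_const_zero, Pi.add_apply, Pi.zero_apply, Finset.sum_apply, Pi.smul_apply, Pi.single_apply, smul_eq_mul, mul_ite, mul_one, mul_zero, Finset.sum_ite_eq, Finset.mem_univ, ↓reduceIte, zero_add]

theorem dotA_eq_sum (a b : Alph k q) : dotA a b = ∑ i, coord a i * coord b i := by
  rw [Fintype.sum_sum_type]
  rfl

theorem map_zmod2_smul {N : Type} [AddCommGroup N] [Module (ZMod 2) N] (f : N →+ ZMod 2)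
    (c : ZMod 2) (n : N) : f (c • n) = c * f n := by
  rcases zmod2_cases c with rfl | rfl
  · simp
  · simp

end pairing

/-- The configuration of a character. -/
noncomputable def conf (χ : NN M C →+ ZMod 2) (x : M.G) : Alph k q :=
  ofCoord fun i => χ (mkN M C (Finsupp.single x (bas i)))

theorem coord_conf (χ : NN M C →+ ZMod 2) (x : M.G) (i : Fin k ⊕ Fin q) :
    coord (conf M C χ x) i = χ (mkN M C (Finsupp.single x (bas i))) := by
  rw [conf, coord_ofCoord]

/-- The quotient map as an additive homomorphism. -/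
noncomputable def mkHom : (M.G →₀ Alph k q) →+ NN M C where
  toFun := mkN M C
  map_zero' := rfl
  map_add' _ _ := rfl

theorem chi_mkN (χ : NN M C →+ ZMod 2) (f : M.G →₀ Alph k q) :
    χ (mkN M C f) = pairG f (conf M C χ) := by
  have h : χ.comp (mkHom M C) = pairHom (conf M C χ) := by
    refine Finsupp.addHom_ext fun x a => ?_
    show χ (mkN M C (Finsupp.single x a)) = pairG (Finsupp.single x a) (conf M C χ)
    rw [pairG_single, dotA_eq_sum]
    conv_lhs => rw [eq_sum_bas a]
    have h1 : mkN M C (Finsupp.single x (∑ i, coord a i • (bas i : Alph k q))) =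
        ∑ i, coord a i • mkN M C (Finsupp.single x (bas i)) := by
      show Submodule.Quotient.mk (p := M.Rel C) _ = _
      rw [Finsupp.single_finsetSum]
      show (M.Rel C).mkQ _ = _
      rw [map_sum]
      refine Finset.sum_congr rfl fun i _ => ?_
      rw [← Finsupp.smul_single, map_smul]
      rfl
    rw [h1, map_sum]
    refine Finset.sum_congr rfl fun i _ => ?_
    rw [map_zmod2_smul, coord_conf]
  exact DFunLike.congr_fun h f

theorem conf_mem (χ : NN M C →+ ZMod 2) : conf M C χ ∈ M.Conf C := by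
  intro f hf
  rw [← chi_mkN, (mkN_eq_zero M C).mpr hf, map_zero]

/-- The character of a configuration. -/
noncomputable def chOf (v : M.G → Alph k q) (hv : v ∈ M.Conf C) : NN M C →+ ZMod 2 :=
  QuotientAddGroup.lift (M.Rel C).toAddSubgroup (pairHom v) fun f hf => hv f hf

theorem chOf_mk (v : M.G → Alph k q) (hv : v ∈ M.Conf C) (f : M.G →₀ Alph k q) :
    chOf M C v hv (mkN M C f) = pairG f v := rfl

theorem conf_chOf (v : M.G → Alph k q) (hv : v ∈ M.Conf C) : conf M C (chOf M C v hv) = v := by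
  funext x
  rw [conf, ← ofCoord_coord (v x)]
  congr 1
  funext i
  rw [chOf_mk, pairG_single, dotA_bas]

end Vale.Agent.P089.Op
end
end

section

section

/-!
P089, operator layer: the element `T` of the group algebra of `Γ` and its fibres.
-/

open scoped InnerProductSpace ComplexOrder

namespace Vale.Agent.P089.Op

open Vale.Agent.P086

variable {q : ℕ} {F : Fam q} {K k : ℕ} (M : Monster F K) (C : Codes k F)

/-- Index set of the local window: the coordinates of `v` at `1` and at the neighbours of `1`. -/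
abbrev Win (k q : ℕ) : Type := Option (Letter q) × (Fin k ⊕ Fin q)

/-- The positions of the local window. -/
def posW : Option (Letter q) → M.G
  | none => 1
  | some a => M.s a

/-- The elements of `N` of the local window. -/
noncomputable def winN (i : Win k q) : NN M C :=
  mkN M C (Finsupp.single (posW M i.1) (bas i.2))

/-- The local window of a character at `x`. -/
theorem win_apply (χ : NN M C →+ ZMod 2) (x : M.G) (i : Win k q) :
    χ (act (actN M C) x (Multiplicative.ofAdd (winN M C i))) =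
      coord (conf M C χ (x * posW M i.1)) i.2 := by
  rw [winN, act_actN_mk, trF_single, coord_conf]

/-- The symbols in a window. -/
def symW (w : Win k q → ZMod 2) (o : Option (Letter q)) : Alph k q := ofCoord fun i => w (o, i)

theorem symW_win (χ : NN M C →+ ZMod 2) (x : M.G) (o : Option (Letter q)) :
    symW (fun i : Win k q => χ (act (actN M C) x (Multiplicative.ofAdd (winN M C i)))) o =
      conf M C χ (x * posW M o) := by
  rw [symW]
  have h : (fun i => χ (act (actN M C) x (Multiplicative.ofAdd (winN M C (o, i))))) =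
      coord (conf M C χ (x * posW M o)) := by
    funext i
    exact win_apply M C χ x (o, i)
  rw [h, ofCoord_coord]

/-- The edge with letter `a` is present in the window. -/
def PresW (w : Win k q → ZMod 2) (a : Letter q) : Prop :=
  (∃ B, decode (symW w none) = some (a.1, B) ∧ a.2 ∈ B) ∧
    (∃ B, decode (symW w (some a)) = some (a.2, B) ∧ a.1 ∈ B)

/-- The centre of the window is bad. -/
def BadW (w : Win k q → ZMod 2) : Prop :=
  ¬ ∃ c B, decode (symW w none) = some (c, B) ∧ 6 ≤ B.card ∧ ∀ c' ∈ B, PresW w (c, c')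

open Classical in
/-- Indicator of a property of windows. -/
noncomputable def indW (p : (Win k q → ZMod 2) → Prop) (w : Win k q → ZMod 2) : ℂ :=
  if p w then 1 else 0

/-- The element `T` of the group algebra. -/
noncomputable def elT : MonoidAlgebra ℂ (Gam M C) :=
  (∑ a : Letter q, inlA (actN M C) (cyl (winN M C) (indW fun w => PresW w a)) *
      (1 - MonoidAlgebra.single (SemidirectProduct.inr (M.s a)) 1)) +
    inlA (actN M C) (cyl (winN M C) (indW BadW))

theorem presW_iff (χ : NN M C →+ ZMod 2) (x : M.G) (a : Letter q) :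
    PresW (fun i : Win k q => χ (act (actN M C) x (Multiplicative.ofAdd (winN M C i)))) a ↔
      M.Pres (fun y => decode (conf M C χ y)) x a := by
  rw [PresW, Monster.Pres, symW_win, symW_win]
  simp only [posW, mul_one]

theorem badW_iff (χ : NN M C →+ ZMod 2) (x : M.G) :
    BadW (fun i : Win k q => χ (act (actN M C) x (Multiplicative.ofAdd (winN M C i)))) ↔
      M.Bad (fun y => decode (conf M C χ y)) x := by
  rw [BadW, Monster.Bad, symW_win]
  simp only [posW, mul_one, presW_iff]

/-- The fibres of `T`. -/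
theorem fibA_elT_apply (χ : NN M C →+ ZMod 2) (ξ : Ell2 M.G) (x : M.G) :
    fibA (actN M C) χ (elT M C) ξ x = M.Tfun (fun y => decode (conf M C χ y)) ξ x := by
  classical
  rw [elT, map_add, map_sum, Monster.Tfun]
  show ((∑ a : Letter q, fibA (actN M C) χ (inlA (actN M C)
      (cyl (winN M C) (indW fun w => PresW w a)) *
      (1 - MonoidAlgebra.single (SemidirectProduct.inr (M.s a)) 1))) ξ) x +
    (fibA (actN M C) χ (inlA (actN M C) (cyl (winN M C) (indW BadW))) ξ) x = _
  rw [sum_apply, lp.coeFn_sum, Finset.sum_apply]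
  congr 1
  · refine Finset.sum_congr rfl fun a _ => ?_
    rw [map_mul, map_sub, map_one]
    show (fibA (actN M C) χ (inlA (actN M C) (cyl (winN M C) (indW fun w => PresW w a)))
      (ξ - fibA (actN M C) χ (MonoidAlgebra.single (SemidirectProduct.inr (M.s a)) 1) ξ)) x = _
    rw [fibA_cyl_apply]
    have h1 : (ξ - fibA (actN M C) χ (MonoidAlgebra.single
        (SemidirectProduct.inr (M.s a)) 1) ξ : Ell2 M.G) x = ξ x - ξ (x * M.s a) := by
      show ξ x - (fibA (actN M C) χ (MonoidAlgebra.single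
        (SemidirectProduct.inr (M.s a)) 1) ξ) x = _
      rw [fibA_inr_apply]
    rw [h1, indW]
    simp only [presW_iff]
    split_ifs <;> simp
  · rw [fibA_cyl_apply, indW]
    simp only [badW_iff]
    split_ifs <;> simp

end Vale.Agent.P089.Op
end
end

section

section

/-! Characters of vector spaces over Z/2 and finite averages (P089, trace formula). -/

namespace Vale.Agent.P089.Op

open Module

theorem tr_sum_sg_dual (W : Type*) [AddCommGroup W] [Module (ZMod 2) W]
    [Fintype (Dual (ZMod 2) W)] (w : W) :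
    ∑ φ : Dual (ZMod 2) W, sg (φ w) =
      (open Classical in if w = 0 then (Fintype.card (Dual (ZMod 2) W) : ℂ) else 0) := by
  classical
  split_ifs with h
  · subst h
    simp only [map_zero, sg_zero, Finset.sum_const, Finset.card_univ, nsmul_eq_mul, mul_one]
  · obtain ⟨φ0, h0⟩ : ∃ φ0 : Dual (ZMod 2) W, φ0 w ≠ 0 := by
      by_contra hcon
      push Not at hcon
      exact h ((Module.forall_dual_apply_eq_zero_iff (ZMod 2) w).1 hcon)
    have h1 : φ0 w = 1 := (zmod2_cases (φ0 w)).resolve_left h0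
    have hs : ∑ φ : Dual (ZMod 2) W, sg (φ w) = - ∑ φ : Dual (ZMod 2) W, sg (φ w) := by
      calc ∑ φ : Dual (ZMod 2) W, sg (φ w)
          = ∑ φ : Dual (ZMod 2) W, sg ((φ + φ0) w) :=
            (Equiv.sum_comp (Equiv.addRight φ0) (fun φ => sg (φ w))).symm
        _ = ∑ φ : Dual (ZMod 2) W, - sg (φ w) := by
            refine Finset.sum_congr rfl fun φ _ => ?_
            rw [LinearMap.add_apply, sg_add, h1, sg_one]
            ring
        _ = - ∑ φ : Dual (ZMod 2) W, sg (φ w) := by rw [Finset.sum_neg_distrib]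
    have h2 : (2 : ℂ) * ∑ φ : Dual (ZMod 2) W, sg (φ w) = 0 := by
      linear_combination hs
    simpa only [mul_eq_zero, OfNat.ofNat_ne_zero, false_or] using h2

/-- Finite average over functionals which vanish on the subspace `K`. -/
theorem tr_exists_avg {N : Type*} [AddCommGroup N] [Module (ZMod 2) N]
    (K : Submodule (ZMod 2) N) (S : Finset N) :
    ∃ (m : ℕ) (v : Fin (m + 1) → Dual (ZMod 2) N), (∀ i, ∀ n ∈ K, v i n = 0) ∧
      ∀ n ∈ S, (∑ i, sg (v i n)) = (open Classical in if n ∈ K then ((m : ℂ) + 1) else 0) := by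
  classical
  let W : Submodule (ZMod 2) (N ⧸ K) := Submodule.span (ZMod 2) (S.image K.mkQ : Set (N ⧸ K))
  have : FiniteDimensional (ZMod 2) W := FiniteDimensional.span_finset (ZMod 2) (S.image K.mkQ)
  have : Finite (Dual (ZMod 2) W) := Module.finite_of_finite (ZMod 2)
  have : Fintype (Dual (ZMod 2) W) := Fintype.ofFinite _
  obtain ⟨r, hr⟩ := LinearMap.exists_leftInverse_of_injective W.subtype
    (LinearMap.ker_eq_bot.2 W.injective_subtype)
  have hcard : 0 < Fintype.card (Dual (ZMod 2) W) := Fintype.card_pos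
  obtain ⟨m, hm⟩ : ∃ m, Fintype.card (Dual (ZMod 2) W) = m + 1 :=
    ⟨_, (Nat.succ_pred_eq_of_pos hcard).symm⟩
  let e : Dual (ZMod 2) W ≃ Fin (m + 1) := Fintype.equivFinOfCardEq hm
  refine ⟨m, fun i => (e.symm i) ∘ₗ r ∘ₗ K.mkQ, ?_, ?_⟩
  · intro i n hn
    have : K.mkQ n = 0 := by
      rw [Submodule.mkQ_apply, Submodule.Quotient.mk_eq_zero]; exact hn
    simp only [LinearMap.comp_apply, this, map_zero]
  · intro n hn
    have hmem : K.mkQ n ∈ W := Submodule.subset_span
      (by simpa only [Finset.coe_image, Submodule.mkQ_apply, Set.mem_image, SetLike.mem_coe, Finset.mem_image] using     Finset.mem_image_of_mem K.mkQ hn)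
    have hrn : r (K.mkQ n) = ⟨K.mkQ n, hmem⟩ := by
      have := LinearMap.congr_fun hr ⟨K.mkQ n, hmem⟩
      simpa using this
    have h1 : (∑ i : Fin (m + 1), sg (((e.symm i) ∘ₗ r ∘ₗ K.mkQ) n))
        = ∑ φ : Dual (ZMod 2) W, sg (φ ⟨K.mkQ n, hmem⟩) := by
      rw [← Equiv.sum_comp e.symm (fun φ : Dual (ZMod 2) W => sg (φ ⟨K.mkQ n, hmem⟩))]
      refine Finset.sum_congr rfl fun i _ => ?_
      simp only [LinearMap.comp_apply, hrn]
    rw [h1, tr_sum_sg_dual]
    have h2 : ((⟨K.mkQ n, hmem⟩ : W) = 0) ↔ n ∈ K := by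
      rw [← Submodule.coe_eq_zero]
      change K.mkQ n = 0 ↔ n ∈ K
      rw [Submodule.mkQ_apply, Submodule.Quotient.mk_eq_zero]
    simp only [h2, hm]
    push_cast
    rfl

end Vale.Agent.P089.Op
end
end

section

section

/-! Indicator elements of patterns in `ℂ[N]` and their traces (P089). -/

namespace Vale.Agent.P089.Op

open Module

section

variable {W N : Type*} [AddCommGroup W] [Module (ZMod 2) W]
  [AddCommGroup N] [Module (ZMod 2) N]

theorem tr_sum_sg_space [Fintype W] (α : Dual (ZMod 2) W) :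
    ∑ w : W, sg (α w) = (open Classical in if α = 0 then (Fintype.card W : ℂ) else 0) := by
  classical
  split_ifs with h
  · subst h
    simp only [LinearMap.zero_apply, sg_zero, Finset.sum_const, Finset.card_univ, nsmul_eq_mul, mul_one]
  · obtain ⟨w0, h0⟩ : ∃ w0 : W, α w0 ≠ 0 := by
      by_contra hcon
      push Not at hcon
      exact h (LinearMap.ext hcon)
    have h1 : α w0 = 1 := (zmod2_cases (α w0)).resolve_left h0
    have hs : ∑ w : W, sg (α w) = - ∑ w : W, sg (α w) := by
      calc ∑ w : W, sg (α w)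
          = ∑ w : W, sg (α (w + w0)) :=
            (Equiv.sum_comp (Equiv.addRight w0) (fun w => sg (α w))).symm
        _ = ∑ w : W, - sg (α w) := by
            refine Finset.sum_congr rfl fun w _ => ?_
            rw [map_add, sg_add, h1, sg_one]
            ring
        _ = - ∑ w : W, sg (α w) := by rw [Finset.sum_neg_distrib]
    have h2 : (2 : ℂ) * ∑ w : W, sg (α w) = 0 := by
      linear_combination hs
    simpa only [mul_eq_zero, OfNat.ofNat_ne_zero, false_or] using h2

/-- value of the indicator element at the functional `v`. -/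
theorem tr_ind_eval [Fintype W] (L : W →ₗ[ZMod 2] N) (α : Dual (ZMod 2) W) (v : Dual (ZMod 2) N) :
    (Fintype.card W : ℂ)⁻¹ * ∑ w : W, sg (α w) * sg (v (L w)) =
      (open Classical in if v ∘ₗ L = α then 1 else 0) := by
  classical
  have h1 : ∑ w : W, sg (α w) * sg (v (L w)) = ∑ w : W, sg ((α + v ∘ₗ L) w) := by
    refine Finset.sum_congr rfl fun w _ => ?_
    rw [← sg_add]
    rfl
  have h2 : α + v ∘ₗ L = 0 ↔ v ∘ₗ L = α := by
    constructor
    · intro h
      ext w
      have hw := LinearMap.congr_fun h w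
      rw [LinearMap.add_apply, LinearMap.zero_apply] at hw
      have h3 : (v ∘ₗ L) w = -α w := by
        rw [eq_neg_iff_add_eq_zero, add_comm]
        exact hw
      rw [h3, ZMod.neg_eq_self_mod_two]
    · rintro rfl
      ext w
      rw [LinearMap.add_apply, LinearMap.zero_apply]
      exact CharTwo.add_self_eq_zero _
  rw [h1, tr_sum_sg_space]
  simp only [h2]
  split_ifs
  · exact inv_mul_cancel₀ (by exact_mod_cast Fintype.card_ne_zero)
  · simp

/-- the patterns of the functionals vanishing on `K`. -/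
def patt (K : Submodule (ZMod 2) N) (L : W →ₗ[ZMod 2] N) : Submodule (ZMod 2) (Dual (ZMod 2) W) :=
  LinearMap.range (K.mkQ ∘ₗ L).dualMap

theorem mem_patt (K : Submodule (ZMod 2) N) (L : W →ₗ[ZMod 2] N) (α : Dual (ZMod 2) W) :
    α ∈ patt K L ↔ ∃ v : Dual (ZMod 2) N, (∀ n ∈ K, v n = 0) ∧ v ∘ₗ L = α := by
  constructor
  · rintro ⟨φ, rfl⟩
    refine ⟨φ ∘ₗ K.mkQ, ?_, ?_⟩
    · intro n hn
      have : K.mkQ n = 0 := by
        rw [Submodule.mkQ_apply, Submodule.Quotient.mk_eq_zero]; exact hn
      rw [LinearMap.comp_apply, this, map_zero]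
    · ext w
      rfl
  · rintro ⟨v, hv, rfl⟩
    refine ⟨K.liftQ v (fun n hn => hv n hn), ?_⟩
    ext w
    rfl

open Classical in
/-- the trace of the indicator element. -/
theorem tr_ind_trace [Fintype W] (K : Submodule (ZMod 2) N) (L : W →ₗ[ZMod 2] N)
    (α : Dual (ZMod 2) W) (hα : α ∈ patt K L) :
    (Fintype.card W : ℂ)⁻¹ * ∑ w : W, (if L w ∈ K then sg (α w) else 0) =
      ((2 : ℂ) ^ finrank (ZMod 2) (patt K L))⁻¹ := by
  obtain ⟨v, hv, rfl⟩ := (mem_patt K L _).1 hα
  have h1 : ∀ w : W, (if L w ∈ K then sg ((v ∘ₗ L) w) else 0)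
      = if L w ∈ K then (1 : ℂ) else 0 := by
    intro w
    split_ifs with h
    · rw [LinearMap.comp_apply, hv _ h, sg_zero]
    · rfl
  simp only [h1]
  have hfin : FiniteDimensional (ZMod 2) W := Module.finite_iff_finite.2 inferInstance
  rw [Finset.sum_boole]
  set U : Submodule (ZMod 2) W := LinearMap.ker (K.mkQ ∘ₗ L) with hU
  have hUmem : ∀ w, L w ∈ K ↔ w ∈ U := by
    intro w
    rw [hU, LinearMap.mem_ker, LinearMap.comp_apply, Submodule.mkQ_apply,
      Submodule.Quotient.mk_eq_zero]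
  have hcU : (Finset.univ.filter fun w => L w ∈ K).card = 2 ^ finrank (ZMod 2) U := by
    have h2 : (Finset.univ.filter fun w => L w ∈ K).card = Fintype.card U := by
      rw [Fintype.card_subtype]
      congr 1
      ext w
      simp only [hUmem, Finset.mem_filter, Finset.mem_univ, true_and]
    rw [h2, Module.card_eq_pow_finrank (K := ZMod 2) (V := U), ZMod.card]
  have hcW : Fintype.card W = 2 ^ finrank (ZMod 2) W := by
    rw [Module.card_eq_pow_finrank (K := ZMod 2) (V := W), ZMod.card]
  have hp : patt K L = U.dualAnnihilator := by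
    rw [patt, LinearMap.range_dualMap_eq_dualAnnihilator_ker]
  have hadd : finrank (ZMod 2) U + finrank (ZMod 2) (patt K L) = finrank (ZMod 2) W := by
    rw [hp]
    exact Subspace.finrank_add_finrank_dualAnnihilator_eq U
  rw [hcU, hcW, ← hadd]
  push_cast
  rw [pow_add, mul_inv, mul_comm ((2 : ℂ) ^ finrank (ZMod 2) U)⁻¹, mul_assoc,
    inv_mul_cancel₀ (pow_ne_zero _ two_ne_zero), mul_one]

end

end Vale.Agent.P089.Op
end
end

section

section

/-! The trace formula for `Γ = N ⋊ G` (P089, Op3). -/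

open scoped InnerProductSpace

namespace Vale.Agent.P089.Op

open Vale.Agent.P086 Module Filter Topology

section

variable {N G : Type} [AddCommGroup N] [Group G]
  (φ : G →* MulAut (Multiplicative N))

theorem tr_act_one_left (n : Multiplicative N) : act φ 1 n = Multiplicative.toAdd n := by
  simp only [act, map_one, MulAut.one_apply]

open Classical in
theorem tr_inner_fib_dl (χ : N →+ ZMod 2) (γ : Multiplicative N ⋊[φ] G) :
    ⟪dl (1 : G), fib φ χ γ (dl 1)⟫_ℂ
      = if γ.right = 1 then sg (χ (Multiplicative.toAdd γ.left)) else 0 := by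
  rw [inner_dl, fib_apply, tr_act_one_left, one_mul, dl_apply]
  split_ifs <;> simp

theorem tr_inner_fibA_dl (χ : N →+ ZMod 2) (b : MonoidAlgebra ℂ (Multiplicative N ⋊[φ] G)) :
    ⟪dl (1 : G), fibA φ χ b (dl 1)⟫_ℂ
      = ∑ γ ∈ b.coeff.support, b.coeff γ * ⟪dl (1 : G), fib φ χ γ (dl 1)⟫_ℂ := by
  rw [fibA, repAlg_apply]
  rw [inner_dl]
  simp only [sum_apply, lp.coeFn_sum, Finset.sum_apply]
  refine Finset.sum_congr rfl fun γ _ => ?_
  rw [inner_dl]
  rfl

variable [Module (ZMod 2) N]

/-- A functional on `B(ℓ²Γ)` extending the trace attached to the subspace `K` of `N`. -/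
def IsTr (K : Submodule (ZMod 2) N)
    (F : (Ell2 (Multiplicative N ⋊[φ] G) →L[ℂ] Ell2 (Multiplicative N ⋊[φ] G)) →L[ℂ] ℂ) : Prop :=
  (∀ γ, γ.right = 1 → Multiplicative.toAdd γ.left ∈ K → F (lam γ) = 1) ∧
  (∀ γ, ¬ (γ.right = 1 ∧ Multiplicative.toAdd γ.left ∈ K) → F (lam γ) = 0)

/-- The averaging formula: the trace attached to `K` is a finite average of fibre states over
functionals vanishing on `K`. -/
theorem tr_average (K : Submodule (ZMod 2) N)
    (F : (Ell2 (Multiplicative N ⋊[φ] G) →L[ℂ] Ell2 (Multiplicative N ⋊[φ] G)) →L[ℂ] ℂ)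
    (hF : IsTr φ K F) (b : MonoidAlgebra ℂ (Multiplicative N ⋊[φ] G)) :
    ∃ (m : ℕ) (v : Fin (m + 1) → Dual (ZMod 2) N), (∀ i, ∀ n ∈ K, v i n = 0) ∧
      ((m : ℂ) + 1) * F (lamA b) =
        ∑ i, ⟪dl (1 : G), fibA φ (v i).toAddMonoidHom b (dl 1)⟫_ℂ := by
  classical
  obtain ⟨m, v, hv, hsum⟩ := tr_exists_avg K
    (b.coeff.support.image fun γ => Multiplicative.toAdd γ.left)
  refine ⟨m, v, hv, ?_⟩
  simp only [tr_inner_fibA_dl]
  rw [Finset.sum_comm, lamA, repAlg_apply, map_sum, Finset.mul_sum]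
  refine Finset.sum_congr rfl fun γ hγ => ?_
  rw [map_smul, ← Finset.mul_sum, smul_eq_mul, lamU_coe, mul_left_comm]
  congr 1
  simp only [tr_inner_fib_dl]
  by_cases h1 : γ.right = 1
  · simp only [if_pos h1]
    have h2 := hsum (Multiplicative.toAdd γ.left) (Finset.mem_image_of_mem _ hγ)
    have h3 : ∑ i, sg ((v i).toAddMonoidHom (Multiplicative.toAdd γ.left))
        = ∑ i, sg (v i (Multiplicative.toAdd γ.left)) := rfl
    rw [h3, h2]
    split_ifs with h4
    · rw [hF.1 γ h1 h4, mul_one]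
    · rw [hF.2 γ (fun h => h4 h.2), mul_zero]
  · simp only [if_neg h1]
    rw [hF.2 γ (fun h => h1 h.1), mul_zero, Finset.sum_const_zero]

/-- The element of the group algebra representing the indicator of the pattern `α`. -/
noncomputable def indA {W : Type} [AddCommGroup W] [Module (ZMod 2) W] [Fintype W]
    (L : W →ₗ[ZMod 2] N) (α : Dual (ZMod 2) W) : MonoidAlgebra ℂ (Multiplicative N ⋊[φ] G) :=
  ∑ w : W, MonoidAlgebra.single (SemidirectProduct.inl (Multiplicative.ofAdd (L w)))
    ((Fintype.card W : ℂ)⁻¹ * sg (α w))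

section ind

variable {W : Type} [AddCommGroup W] [Module (ZMod 2) W] [Fintype W]

theorem inner_fibA_indA (L : W →ₗ[ZMod 2] N) (α : Dual (ZMod 2) W) (v : Dual (ZMod 2) N) :
    ⟪dl (1 : G), fibA φ v.toAddMonoidHom (indA φ L α) (dl 1)⟫_ℂ
      = (open Classical in if v ∘ₗ L = α then 1 else 0) := by
  rw [← tr_ind_eval L α v, indA, fibA, map_sum, Finset.mul_sum]
  simp only [repAlg_single, sum_apply, inner_sum]
  refine Finset.sum_congr rfl fun w _ => ?_
  rw [fibU_coe]
  change ⟪dl (1 : G), ((Fintype.card W : ℂ)⁻¹ * sg (α w)) • (fib φ v.toAddMonoidHom _ (dl 1))⟫_ℂ = _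
  rw [inner_smul_right, tr_inner_fib_dl, if_pos (SemidirectProduct.right_inl _),
    SemidirectProduct.left_inl, toAdd_ofAdd, mul_assoc]
  rfl

theorem tr_indA (K : Submodule (ZMod 2) N)
    (F : (Ell2 (Multiplicative N ⋊[φ] G) →L[ℂ] Ell2 (Multiplicative N ⋊[φ] G)) →L[ℂ] ℂ)
    (hF : IsTr φ K F) (L : W →ₗ[ZMod 2] N) (α : Dual (ZMod 2) W) (hα : α ∈ patt K L) :
    F (lamA (indA φ L α)) = ((2 : ℂ) ^ finrank (ZMod 2) (patt K L))⁻¹ := by
  classical
  rw [← tr_ind_trace K L α hα, indA, lamA, map_sum, map_sum, Finset.mul_sum]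
  refine Finset.sum_congr rfl fun w _ => ?_
  rw [repAlg_single, map_smul, lamU_coe, smul_eq_mul, mul_assoc]
  congr 1
  split_ifs with h
  · rw [hF.1 _ (SemidirectProduct.right_inl _) (by
      rw [SemidirectProduct.left_inl, toAdd_ofAdd]; exact h), mul_one]
  · rw [hF.2 _ (fun h2 => h (by
      have h3 := h2.2
      rw [SemidirectProduct.left_inl, toAdd_ofAdd] at h3
      exact h3)), mul_zero]

end ind

/-- If all fibre states (over functionals vanishing on `K`) are small on `b`, so is the trace. -/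
theorem tr_norm_le (K : Submodule (ZMod 2) N)
    (F : (Ell2 (Multiplicative N ⋊[φ] G) →L[ℂ] Ell2 (Multiplicative N ⋊[φ] G)) →L[ℂ] ℂ)
    (hF : IsTr φ K F) (b : MonoidAlgebra ℂ (Multiplicative N ⋊[φ] G)) (ρ : ℝ)
    (hb : ∀ v : Dual (ZMod 2) N, (∀ x ∈ K, v x = 0) →
      ‖⟪dl (1 : G), fibA φ v.toAddMonoidHom b (dl 1)⟫_ℂ‖ ≤ ρ) :
    ‖F (lamA b)‖ ≤ ρ := by
  obtain ⟨m, v, hv, hsum⟩ := tr_average φ K F hF b
  have hm : (0 : ℝ) < (m : ℝ) + 1 := by (clear * -; positivity)
  have h3 : ‖((m : ℂ) + 1) * F (lamA b)‖ ≤ ((m : ℝ) + 1) * ρ := by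
    rw [hsum]
    refine (norm_sum_le _ _).trans ((Finset.sum_le_sum fun i _ => hb (v i) (hv i)).trans ?_)
    rw [Finset.sum_const, Finset.card_univ, Fintype.card_fin, nsmul_eq_mul]
    push_cast
    exact le_refl _
  have h4 : ‖((m : ℂ) + 1)‖ = (m : ℝ) + 1 := by
    have : ((m : ℂ) + 1) = (((m : ℝ) + 1 : ℝ) : ℂ) := by push_cast; ring
    rw [this, Complex.norm_real, Real.norm_of_nonneg hm.le]
  rw [norm_mul, h4] at h3
  exact le_of_mul_le_mul_left h3 hm

/-- TrMain: the trace of a norm limit of group ring elements is computed by any other sequence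
of group ring elements with the same limiting fibre states. -/
theorem tr_main (K : Submodule (ZMod 2) N)
    (F : (Ell2 (Multiplicative N ⋊[φ] G) →L[ℂ] Ell2 (Multiplicative N ⋊[φ] G)) →L[ℂ] ℂ)
    (hF : IsTr φ K F)
    (a : ℕ → MonoidAlgebra ℂ (Multiplicative N ⋊[φ] G))
    (Q : Ell2 (Multiplicative N ⋊[φ] G) →L[ℂ] Ell2 (Multiplicative N ⋊[φ] G))
    (hQ : Tendsto (fun j => lamA (a j)) atTop (𝓝 Q))
    (w : Dual (ZMod 2) N → ℂ) (r : ℕ → ℝ) (hr0 : Tendsto r atTop (𝓝 0))
    (hr : ∀ v : Dual (ZMod 2) N, (∀ x ∈ K, v x = 0) → ∀ j,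
      ‖⟪dl (1 : G), fibA φ v.toAddMonoidHom (a j) (dl 1)⟫_ℂ - w v‖ ≤ r j)
    (c : ℕ → MonoidAlgebra ℂ (Multiplicative N ⋊[φ] G)) (s : ℕ → ℝ)
    (hs0 : Tendsto s atTop (𝓝 0))
    (hs : ∀ v : Dual (ZMod 2) N, (∀ x ∈ K, v x = 0) → ∀ M,
      ‖⟪dl (1 : G), fibA φ v.toAddMonoidHom (c M) (dl 1)⟫_ℂ - w v‖ ≤ s M) :
    Tendsto (fun M => F (lamA (c M))) atTop (𝓝 (F Q)) := by
  have h1 : ∀ M, ‖F Q - F (lamA (c M))‖ ≤ s M := by
    intro M
    have h2 : ∀ j, ‖F (lamA (a j)) - F (lamA (c M))‖ ≤ r j + s M := by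
      intro j
      have h3 := tr_norm_le φ K F hF (a j - c M) (r j + s M) (by
        intro v hv
        have h4 : ⟪dl (1 : G), fibA φ v.toAddMonoidHom (a j - c M) (dl 1)⟫_ℂ
            = (⟪dl (1 : G), fibA φ v.toAddMonoidHom (a j) (dl 1)⟫_ℂ - w v)
              - (⟪dl (1 : G), fibA φ v.toAddMonoidHom (c M) (dl 1)⟫_ℂ - w v) := by
          rw [map_sub, sub_apply, inner_sub_right]
          ring
        rw [h4]
        exact (norm_sub_le _ _).trans (add_le_add (hr v hv j) (hs v hv M)))
      rwa [map_sub, map_sub] at h3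
    have h5 : Tendsto (fun j => ‖F (lamA (a j)) - F (lamA (c M))‖) atTop
        (𝓝 ‖F Q - F (lamA (c M))‖) :=
      (((F.continuous.tendsto Q).comp hQ).sub tendsto_const_nhds).norm
    have h6 : Tendsto (fun j => r j + s M) atTop (𝓝 (s M)) := by
      simpa only [zero_add] using hr0.add (tendsto_const_nhds (x := s M))
    exact le_of_tendsto_of_tendsto' h5 h6 h2
  rw [tendsto_iff_norm_sub_tendsto_zero]
  refine squeeze_zero (fun M => norm_nonneg _) (fun M => ?_) hs0
  rw [norm_sub_rev]
  exact h1 M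

/-- The element of the group algebra counting the perfect copies of type `m` through the
identity, with weight `1 / n m`. -/
noncomputable def qA (n : ℕ → ℕ)
    (W : ℕ → Type) [∀ m, AddCommGroup (W m)] [∀ m, Module (ZMod 2) (W m)] [∀ m, Fintype (W m)]
    (L : ∀ m, Fin (n m) → (W m →ₗ[ZMod 2] N)) (α : ∀ m, Dual (ZMod 2) (W m)) (m : ℕ) :
    MonoidAlgebra ℂ (Multiplicative N ⋊[φ] G) :=
  (n m : ℂ)⁻¹ • ∑ i, indA φ (L m i) (α m)

/-- THE TRACE FORMULA. `Fin (n m)` indexes the copies of type `m` through the identity. -/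
theorem trace_formula (K : Submodule (ZMod 2) N)
    (F : (Ell2 (Multiplicative N ⋊[φ] G) →L[ℂ] Ell2 (Multiplicative N ⋊[φ] G)) →L[ℂ] ℂ)
    (hF : IsTr φ K F)
    (n : ℕ → ℕ) (hn : ∀ m, 0 < n m) (hn' : StrictMono n)
    (W : ℕ → Type) [∀ m, AddCommGroup (W m)] [∀ m, Module (ZMod 2) (W m)] [∀ m, Fintype (W m)]
    (L : ∀ m, Fin (n m) → (W m →ₗ[ZMod 2] N)) (α : ∀ m, Dual (ZMod 2) (W m))
    (d : ℕ → ℕ) (hα : ∀ m i, α m ∈ patt K (L m i))
    (hd : ∀ m i, finrank (ZMod 2) (patt K (L m i)) = d m)
    (a : ℕ → MonoidAlgebra ℂ (Multiplicative N ⋊[φ] G))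
    (Q : Ell2 (Multiplicative N ⋊[φ] G) →L[ℂ] Ell2 (Multiplicative N ⋊[φ] G))
    (hQ : Tendsto (fun j => lamA (a j)) atTop (𝓝 Q))
    (w : Dual (ZMod 2) N → ℂ) (r : ℕ → ℝ) (hr0 : Tendsto r atTop (𝓝 0))
    (hr : ∀ v : Dual (ZMod 2) N, (∀ x ∈ K, v x = 0) → ∀ j,
      ‖⟪dl (1 : G), fibA φ v.toAddMonoidHom (a j) (dl 1)⟫_ℂ - w v‖ ≤ r j)
    (hw : ∀ v : Dual (ZMod 2) N, (∀ x ∈ K, v x = 0) →
      ((∀ m i, v ∘ₗ L m i ≠ α m) ∧ w v = 0) ∨
      ∃ m i, v ∘ₗ L m i = α m ∧
        (∀ m' i', v ∘ₗ L m' i' = α m' → (⟨m', i'⟩ : Σ m, Fin (n m)) = ⟨m, i⟩) ∧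
        w v = (n m : ℂ)⁻¹) :
    Tendsto (fun M => ∑ m ∈ Finset.range M, ((2 : ℂ) ^ d m)⁻¹) atTop (𝓝 (F Q)) := by
  classical
  have hval : ∀ m, F (lamA (qA φ n W L α m)) = ((2 : ℂ) ^ d m)⁻¹ := by
    intro m
    rw [qA, map_smul, map_smul, map_sum, map_sum]
    rw [Finset.sum_congr rfl (fun i _ => by
      rw [tr_indA φ K F hF (L m i) (α m) (hα m i), hd m i])]
    rw [Finset.sum_const, Finset.card_univ, Fintype.card_fin, nsmul_eq_mul, smul_eq_mul,
      ← mul_assoc, inv_mul_cancel₀ (by exact_mod_cast (hn m).ne'), one_mul]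
  have hq : ∀ (v : Dual (ZMod 2) N) m,
      ⟪dl (1 : G), fibA φ v.toAddMonoidHom (qA φ n W L α m) (dl 1)⟫_ℂ
      = (n m : ℂ)⁻¹ * ∑ i, (if v ∘ₗ L m i = α m then (1 : ℂ) else 0) := by
    intro v m
    rw [qA, map_smul, map_sum, smul_apply, inner_smul_right, sum_apply, inner_sum]
    simp only [inner_fibA_indA]
  have h := tr_main φ K F hF a Q hQ w r hr0 hr
    (fun M => ∑ m ∈ Finset.range M, qA φ n W L α m) (fun M => (n M : ℝ)⁻¹)
    (tendsto_inv_atTop_zero.comp
      (tendsto_natCast_atTop_atTop.comp hn'.tendsto_atTop)) (by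
      intro v hv M
      rw [map_sum, sum_apply, inner_sum]
      simp only [hq]
      rcases hw v hv with ⟨h0, hw0⟩ | ⟨m, i, hmi, huniq, hwm⟩
      · rw [hw0, Finset.sum_eq_zero (fun m _ => by
          rw [Finset.sum_eq_zero (fun i _ => if_neg (h0 m i)), mul_zero]), sub_zero, norm_zero]
        (clear * -; positivity)
      · have h5 : ∀ m', ∑ i', (if v ∘ₗ L m' i' = α m' then (1 : ℂ) else 0)
            = if m' = m then 1 else 0 := by
          intro m'
          split_ifs with h6
          · subst h6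
            rw [Finset.sum_eq_single i, if_pos hmi]
            · intro i' _ hi'
              rw [if_neg]
              intro h7
              have h8 := huniq m' i' h7
              exact hi' (eq_of_heq (Sigma.mk.inj h8).2)
            · intro h7
              exact absurd (Finset.mem_univ _) h7
          · refine Finset.sum_eq_zero fun i' _ => if_neg ?_
            intro h7
            exact h6 (Sigma.mk.inj (huniq m' i' h7)).1
        simp only [h5, mul_ite, mul_one, mul_zero, Finset.sum_ite_eq', Finset.mem_range, hwm]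
        split_ifs with h6
        · rw [sub_self, norm_zero]
          (clear * -; positivity)
        · rw [zero_sub, norm_neg, norm_inv, Complex.norm_natCast]
          have h7 : M ≤ m := not_lt.1 h6
          have h8 : n M ≤ n m := hn'.monotone h7
          exact inv_anti₀ (by exact_mod_cast hn M) (by exact_mod_cast h8))
  refine h.congr fun M => ?_
  rw [map_sum, map_sum]
  exact Finset.sum_congr rfl fun m _ => hval m

end

end Vale.Agent.P089.Op
end
end

section

section

/-! The trace formula for the group `Gam M C` (P089, Op3, final form). -/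

open scoped InnerProductSpace

namespace Vale.Agent.P089.Op

open Vale.Agent.P086 Module Filter Topology

section tconf

variable {q : ℕ} {F : Fam q} {K k : ℕ} (M : Monster F K) (C' C : Codes k F)

/-- The image of the relations of `C'` in the group `N` of `C`. -/
noncomputable def KK : Submodule (ZMod 2) (NN M C) := (M.Rel C').map (M.Rel C).mkQ

theorem mem_KK (n : NN M C) : n ∈ KK M C' C ↔ ∃ f ∈ M.Rel C', mkN M C f = n := Iff.rfl

variable {C' C} in
theorem Rel_mono (h : ∀ m, C' m ≤ C m) : M.Rel C ≤ M.Rel C' := by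
  rw [Monster.Rel, Monster.Rel]
  apply Submodule.span_mono
  rintro _ ⟨m, g, ψ, hψ, rfl⟩
  exact ⟨m, g, ψ, fun v hv => hψ v (h m hv), rfl⟩

theorem KK_self : KK M C C = ⊥ := by
  rw [eq_bot_iff]
  rintro _ ⟨f, hf, rfl⟩
  exact (Submodule.mem_bot _).2 ((mkN_eq_zero M C).2 hf)

theorem conf_mem_of_vanish (v : Dual (ZMod 2) (NN M C)) (hv : ∀ x ∈ KK M C' C, v x = 0) :
    conf M C v.toAddMonoidHom ∈ M.Conf C' := by
  intro f hf
  rw [← chi_mkN]
  exact hv _ ⟨f, hf, rfl⟩

variable {C' C} in
theorem exists_dual_conf (h : ∀ m, C' m ≤ C m) (w : M.G → Alph k q) (hw : w ∈ M.Conf C') :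
    ∃ v : Dual (ZMod 2) (NN M C), (∀ x ∈ KK M C' C, v x = 0) ∧
      conf M C v.toAddMonoidHom = w := by
  have hw' : w ∈ M.Conf C := fun f hf => hw f (Rel_mono M h hf)
  refine ⟨AddMonoidHom.toZModLinearMap 2 (chOf M C w hw'), ?_, ?_⟩
  · rintro _ ⟨f, hf, rfl⟩
    exact hw f hf
  · exact conf_chOf M C w hw'

/-- Placing a function on the copy `(m, h)`, as a linear map to `N`. -/
noncomputable def placeN (m : ℕ) (h : M.G) :
    (Fin (F.n m) → Alph k q) →ₗ[ZMod 2] NN M C :=
  (M.Rel C).mkQ ∘ₗ (∑ y, Finsupp.lsingle (h * M.pos m y) ∘ₗ LinearMap.proj y)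

theorem placeN_apply (m : ℕ) (h : M.G) (ψ : Fin (F.n m) → Alph k q) :
    placeN M C m h ψ = mkN M C (M.place m h ψ) := by
  rw [placeN, LinearMap.comp_apply, LinearMap.sum_apply, Monster.place]
  rfl

theorem dotA_add_right (a b c : Alph k q) : dotA a (b + c) = dotA a b + dotA a c := by
  simp only [dotA, Prod.fst_add, Prod.snd_add, Pi.add_apply, mul_add, Finset.sum_add_distrib]
  ring

theorem dotA_smul_left (r : ZMod 2) (a b : Alph k q) : dotA (r • a) b = r * dotA a b := by
  simp only [dotA, Prod.smul_fst, Prod.smul_snd, Pi.smul_apply, smul_eq_mul, mul_add,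
    Finset.mul_sum, mul_assoc]

theorem dotA_smul_right (r : ZMod 2) (a b : Alph k q) : dotA a (r • b) = r * dotA a b := by
  simp only [dotA, Prod.smul_fst, Prod.smul_snd, Pi.smul_apply, smul_eq_mul, mul_add,
    Finset.mul_sum]
  congr 1 <;> exact Finset.sum_congr rfl fun i _ => by ring

/-- The pairing of functions on `Fin n`, as a linear map to the dual. -/
noncomputable def dotL (k q n : ℕ) :
    (Fin n → Alph k q) →ₗ[ZMod 2] Dual (ZMod 2) (Fin n → Alph k q) :=
  LinearMap.mk₂ (ZMod 2) (fun u ψ => ∑ y, dotA (ψ y) (u y))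
    (fun u u' ψ => by
      simp only [Pi.add_apply, dotA_add_right, Finset.sum_add_distrib])
    (fun r u ψ => by
      simp only [Pi.smul_apply, dotA_smul_right, Finset.mul_sum, smul_eq_mul])
    (fun u ψ ψ' => by
      simp only [Pi.add_apply, dotA_add_left, Finset.sum_add_distrib])
    (fun r u ψ => by
      simp only [Pi.smul_apply, dotA_smul_left, Finset.mul_sum, smul_eq_mul])

theorem dotL_apply (n : ℕ) (u ψ : Fin n → Alph k q) :
    dotL k q n u ψ = ∑ y, dotA (ψ y) (u y) := rfl

theorem dotL_injective (n : ℕ) : Function.Injective (dotL k q n) := by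
  classical
  rw [injective_iff_map_eq_zero]
  intro u hu
  funext y
  rw [← ofCoord_coord (u y)]
  have h : ∀ i, coord (u y) i = 0 := by
    intro i
    have h1 := LinearMap.congr_fun hu (Pi.single y (bas i))
    rw [dotL_apply, LinearMap.zero_apply, Finset.sum_eq_single y] at h1
    · rwa [Pi.single_eq_same, dotA_bas] at h1
    · intro z _ hz
      rw [Pi.single_eq_of_ne hz, dotA_zero_left]
    · intro h2
      exact absurd (Finset.mem_univ _) h2
  have h2 : coord (u y) = fun _ => 0 := funext h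
  rw [h2]
  rfl

theorem comp_placeN (v : Dual (ZMod 2) (NN M C)) (m : ℕ) (h : M.G) :
    v ∘ₗ placeN M C m h
      = dotL k q (F.n m) (fun y => conf M C v.toAddMonoidHom (h * M.pos m y)) := by
  refine LinearMap.ext fun ψ => ?_
  rw [LinearMap.comp_apply, placeN_apply, dotL_apply]
  have h1 : v (mkN M C (M.place m h ψ)) = pairG (M.place m h ψ) (conf M C v.toAddMonoidHom) :=
    chi_mkN M C v.toAddMonoidHom _
  rw [h1, Monster.place]
  have h2 : pairG (∑ y, Finsupp.single (h * M.pos m y) (ψ y)) (conf M C v.toAddMonoidHom)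
      = pairHom (conf M C v.toAddMonoidHom) (∑ y, Finsupp.single (h * M.pos m y) (ψ y)) := rfl
  rw [h2, map_sum]
  exact Finset.sum_congr rfl fun y _ => pairG_single _ _ _

variable {C' C} in
/-- The patterns on a copy. -/
theorem patt_placeN (h : ∀ m, C' m ≤ C m)
    (hr1 : ∀ v ∈ M.Conf C', ∀ m h, (fun y => v (h * M.pos m y)) ∈ C' m)
    (hr2 : ∀ m h, ∀ u ∈ C' m, ∃ v ∈ M.Conf C', ∀ y, v (h * M.pos m y) = u y)
    (m : ℕ) (g : M.G) :
    patt (KK M C' C) (placeN M C m g) = (C' m).map (dotL k q (F.n m)) := by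
  ext α
  rw [mem_patt, Submodule.mem_map]
  constructor
  · rintro ⟨v, hv, rfl⟩
    exact ⟨_, hr1 _ (conf_mem_of_vanish M C' C v hv) m g, (comp_placeN M C v m g).symm⟩
  · rintro ⟨u, hu, rfl⟩
    obtain ⟨w, hw, hwu⟩ := hr2 m g u hu
    obtain ⟨v, hv, hvw⟩ := exists_dual_conf M h w hw
    refine ⟨v, hv, ?_⟩
    rw [comp_placeN, hvw]
    congr 1
    funext y
    exact hwu y

variable {C' C} in
theorem finrank_patt (h : ∀ m, C' m ≤ C m)
    (hr1 : ∀ v ∈ M.Conf C', ∀ m h, (fun y => v (h * M.pos m y)) ∈ C' m)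
    (hr2 : ∀ m h, ∀ u ∈ C' m, ∃ v ∈ M.Conf C', ∀ y, v (h * M.pos m y) = u y)
    (m : ℕ) (g : M.G) :
    finrank (ZMod 2) (patt (KK M C' C) (placeN M C m g)) = finrank (ZMod 2) (C' m) := by
  rw [patt_placeN M h hr1 hr2 m g]
  exact (Submodule.equivMapOfInjective _ (dotL_injective _) (C' m)).finrank_eq.symm

end tconf

end Vale.Agent.P089.Op
end
end

section

section

/-!
P089: two perfect copies with a common vertex are equal.
-/

namespace Vale.Agent.P089.Op

variable {q : ℕ} {F : Fam q} {K D c e : ℕ}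

/-- Every vertex has at least six neighbours. -/
theorem six_le_degree (hE : F.Expander D c e) (m : ℕ) (y : Fin (F.n m)) :
    6 ≤ Nat.card {z // (F.X m).Adj y z} := by
  classical
  have h1 := hE.expand m {y} (by simpa only [Finset.card_singleton, mul_one] using hE.two m)
  rw [Finset.card_singleton, mul_one] at h1
  refine h1.trans ?_
  rw [eOut]
  refine Nat.card_le_card_of_injective (fun p => ⟨p.1.2, ?_⟩) ?_
  · have h2 := p.2.1
    rw [Finset.mem_singleton] at h2
    have h3 := p.2.2.2
    rwa [h2] at h3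
  · rintro ⟨⟨a, b⟩, h⟩ ⟨⟨a', b'⟩, h'⟩ hab
    have h2 : a = y := by simpa using h.1
    have h3 : a' = y := by simpa using h'.1
    have h4 : b = b' := congrArg Subtype.val hab
    subst h2 h3 h4
    rfl

/-- Every vertex has a neighbour different from a given vertex. -/
theorem exists_next (hE : F.Expander D c e) (m : ℕ) (x y : Fin (F.n m)) :
    ∃ z, (F.X m).Adj y z ∧ z ≠ x := by
  classical
  by_contra hcon
  push Not at hcon
  have h1 := six_le_degree hE m y
  have h2 : Nat.card {z // (F.X m).Adj y z} ≤ 1 := by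
    rw [← Nat.card_unique (α := Unit)]
    refine Nat.card_le_card_of_injective (fun _ => ()) ?_
    rintro ⟨a, ha⟩ ⟨b, hb⟩ -
    exact Subtype.ext ((hcon a ha).trans (hcon b hb).symm)
  omega

/-- Reduced words of every length are readable from every vertex. -/
theorem exists_long_word (hC : F.Coloured K) (hE : F.Expander D c e) (m : ℕ) :
    ∀ (L : ℕ) (x y : Fin (F.n m)), ∃ w y', F.Reads m y w y' ∧ w.length = L ∧ Red Prod.swap w ∧
      ∀ a ∈ w.head?, ∃ z, (F.X m).Adj y z ∧ z ≠ x ∧ a = (F.col m y, F.col m z) := by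
  intro L
  induction L with
  | zero =>
    intro x y
    exact ⟨[], y, rfl, rfl, List.isChain_nil, by simp only [List.head?_nil, Option.mem_def, reduceCtorEq, ne_eq, IsEmpty.forall_iff, implies_true]⟩
  | succ L ih =>
    intro x y
    obtain ⟨z, hz, hzx⟩ := exists_next hE m x y
    obtain ⟨w, y', hw, hlen, hred, hhead⟩ := ih y z
    refine ⟨(F.col m y, F.col m z) :: w, y', ⟨z, hz, rfl, hw⟩, by simp [hlen], ?_, ?_⟩
    · rw [Red, List.isChain_cons]
      refine ⟨?_, hred⟩
      intro b hb heq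
      obtain ⟨z', hz', hne, hbz⟩ := hhead b hb
      rw [hbz] at heq
      simp only [Prod.swap_prod_mk, Prod.mk.injEq, true_and] at heq
      exact hne (hC.dist2 m z z' y hz' hz.symm heq)
    · intro a ha
      simp only [List.head?_cons, Option.mem_def, Option.some.injEq] at ha
      exact ⟨z, hz, hzx, ha.symm⟩

variable {M : Monster F K}

theorem decl_inj {m m' : ℕ} {y : Fin (F.n m)} {y' : Fin (F.n m')}
    (h : F.decl m y = F.decl m' y') :
    F.col m y = F.col m' y' ∧ ∀ z, (F.X m).Adj y z → ∃ z', (F.X m').Adj y' z' ∧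
      F.col m' z' = F.col m z := by
  classical
  simp only [Fam.decl, Option.some.injEq, Prod.mk.injEq] at h
  refine ⟨h.1, fun z hz => ?_⟩
  have h1 : F.col m z ∈ (Finset.univ.filter fun z => (F.X m).Adj y z).image (F.col m) :=
    Finset.mem_image_of_mem _ (by simpa only [Finset.mem_filter, Finset.mem_univ, true_and] using hz)
  rw [h.2] at h1
  obtain ⟨z', hz', hc⟩ := Finset.mem_image.mp h1
  exact ⟨z', by simpa only [Finset.mem_filter, Finset.mem_univ, true_and] using hz', hc⟩

/-- Words readable in a perfect copy are readable in every perfect copy from a common vertex. -/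
theorem reads_transfer {t : M.G → Decl q} {m m' : ℕ} {h h' : M.G}
    (hP : M.Perfect t m h) (hP' : M.Perfect t m' h') :
    ∀ (w : List (Letter q)) (y z : Fin (F.n m)) (y' : Fin (F.n m')),
      h * M.pos m y = h' * M.pos m' y' → F.Reads m y w z →
      ∃ z', F.Reads m' y' w z' ∧ h * M.pos m z = h' * M.pos m' z' := by
  intro w
  induction w with
  | nil =>
    intro y z y' hyy hr
    have hr' : y = z := hr
    exact ⟨y', rfl, by rw [← hr', hyy]⟩
  | cons a w ih =>
    rintro y z y' hyy ⟨z₁, hadj, ha, hr⟩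
    have h1 : F.decl m y = F.decl m' y' := by rw [← hP y, ← hP' y', hyy]
    obtain ⟨hcol, hnb⟩ := decl_inj h1
    obtain ⟨z₁', hadj', hcol'⟩ := hnb z₁ hadj
    have h2 : h * M.pos m z₁ = h' * M.pos m' z₁' := by
      rw [M.pos_adj m y z₁ hadj, M.pos_adj m' y' z₁' hadj', ← mul_assoc, ← mul_assoc, hyy, hcol,
        hcol']
    obtain ⟨z', hr', hz'⟩ := ih z₁ z z₁' h2 hr
    exact ⟨z', ⟨z₁', hadj', by rw [ha, hcol, hcol'], hr'⟩, hz'⟩

/-- Two perfect copies with a common vertex are equal. -/
theorem perfect_unique (hK : 1 ≤ K) (hC : F.Coloured K) (hE : F.Expander D c e)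
    {t : M.G → Decl q} {m m' : ℕ} {h h' : M.G}
    (hP : M.Perfect t m h) (hP' : M.Perfect t m' h') {y : Fin (F.n m)} {y' : Fin (F.n m')}
    (hyy : h * M.pos m y = h' * M.pos m' y') :
    (⟨m, y⟩ : Σ m, Fin (F.n m)) = ⟨m', y'⟩ := by
  by_contra hne
  obtain ⟨w, z, hw, hlen, hred, -⟩ := exists_long_word hC hE m (F.g m) y y
  obtain ⟨z', hw', -⟩ := reads_transfer hP hP' w y z y' hyy hw
  have h1 := hC.piece m y w z m' y' z' hred hw hw' hne
  rw [hlen] at h1
  nlinarith only [h1, hK]

end Vale.Agent.P089.Op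
end
end

section

section

/-!
P089, operator layer: arithmetic of the traces.
-/

namespace Vale.Agent.P089

theorem finrank_code_le {k q n : ℕ} (C : Submodule (ZMod 2) (Fin n → Alph k q)) :
    Module.finrank (ZMod 2) C ≤ (k + q) * n := by
  refine (Submodule.finrank_le C).trans (le_of_eq ?_)
  rw [Module.finrank_pi_fintype]
  simp only [Module.finrank_prod, Module.finrank_fin_fun, Finset.sum_const, Finset.card_univ,
    Fintype.card_fin, smul_eq_mul]
  ring

/-- Exponential lower bound for the trace differences. -/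
theorem exp_le_half_pow (d κ n r : ℕ) (hd : 0 < d) (hn : 2 * d ≤ n) (hr : r ≤ κ * n) :
    Real.exp (-((4 * d * κ : ℕ) : ℝ) * ((n / (2 * d) : ℕ) : ℝ)) ≤ (1 / 2 : ℝ) ^ r := by
  have h1 : r ≤ (4 * d * κ) * (n / (2 * d)) := by
    have h2 : 1 ≤ n / (2 * d) := (Nat.one_le_div_iff (by omega)).2 hn
    have h3 : n < 2 * d * (n / (2 * d) + 1) := by
      have := Nat.lt_mul_div_succ n (show 0 < 2 * d by omega)
      exact this
    have h4 : n ≤ 4 * d * (n / (2 * d)) := by
      have h5 : 2 * d * (n / (2 * d) + 1) ≤ 2 * d * (n / (2 * d) + n / (2 * d)) :=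
        Nat.mul_le_mul_left _ (by omega)
      have h6 : 2 * d * (n / (2 * d) + n / (2 * d)) = 4 * d * (n / (2 * d)) := by ring
      omega
    calc r ≤ κ * n := hr
      _ ≤ κ * (4 * d * (n / (2 * d))) := Nat.mul_le_mul_left _ h4
      _ = (4 * d * κ) * (n / (2 * d)) := by ring
  have h2 : Real.exp (-((4 * d * κ : ℕ) : ℝ) * ((n / (2 * d) : ℕ) : ℝ)) ≤ Real.exp (-(r : ℝ)) := by
    rw [Real.exp_le_exp]
    have h3 : (r : ℝ) ≤ ((4 * d * κ : ℕ) : ℝ) * ((n / (2 * d) : ℕ) : ℝ) := by exact_mod_cast h1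
    linarith only [h3]
  refine h2.trans ?_
  have h3 : Real.exp (-(r : ℝ)) = (Real.exp (-1)) ^ r := by
    rw [← Real.exp_nat_mul]
    congr 1
    ring
  rw [h3]
  refine pow_le_pow_left₀ (Real.exp_pos _).le ?_ r
  rw [Real.exp_neg, one_div]
  refine inv_anti₀ (by norm_num) ?_
  have := Real.add_one_le_exp (1 : ℝ)
  linarith only [this]

/-- Irrationality of lacunary binary sums. -/
theorem irrational_tsum_half_pow (d : ℕ → ℕ) (hd : ∀ m, d m + m + 1 ≤ d (m + 1)) :
    Irrational (∑' m, (1 / 2 : ℝ) ^ (d m)) := by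
  have hstep : ∀ m j, d m + j ≤ d (m + j) := by
    intro m j
    induction j with
    | zero => simp
    | succ j ih =>
      have h1 := hd (m + j)
      have h2 : m + (j + 1) = m + j + 1 := by ring
      rw [h2]
      omega
  have hsum : Summable fun m => (1 / 2 : ℝ) ^ (d m) := by
    refine Summable.of_nonneg_of_le (fun m => by positivity) (fun m => ?_)
      (summable_geometric_of_lt_one (by norm_num : (0 : ℝ) ≤ 1 / 2) (by norm_num))
    refine pow_le_pow_of_le_one (by norm_num) (by norm_num) ?_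
    have := hstep 0 m
    rw [zero_add] at this
    omega
  rintro ⟨x, hx⟩
  -- multiply by the denominator and by `2 ^ d m`
  set q : ℕ := x.den with hq
  have hq0 : 0 < q := x.den_pos
  obtain ⟨m, hm⟩ : ∃ m : ℕ, (q : ℝ) < 2 ^ m := by
    obtain ⟨m, hm⟩ := pow_unbounded_of_one_lt (q : ℝ) (by norm_num : (1 : ℝ) < 2)
    exact ⟨m, hm⟩
  have hsplit := hsum.sum_add_tsum_nat_add (m + 1)
  set tail : ℝ := ∑' i, (1 / 2 : ℝ) ^ (d (i + (m + 1))) with htail
  have hsum' : Summable fun i => (1 / 2 : ℝ) ^ (d (i + (m + 1))) :=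
    (summable_nat_add_iff (f := fun i => (1 / 2 : ℝ) ^ (d i)) (m + 1)).2 hsum
  have htpos : 0 < tail := hsum'.tsum_pos (fun i => by positivity) 0 (by positivity)
  have htle : tail ≤ 2 * (1 / 2 : ℝ) ^ (d (m + 1)) := by
    have h1 : ∀ i, (1 / 2 : ℝ) ^ (d (i + (m + 1))) ≤ (1 / 2) ^ (d (m + 1)) * (1 / 2) ^ i := by
      intro i
      rw [← pow_add]
      refine pow_le_pow_of_le_one (by norm_num) (by norm_num) ?_
      have := hstep (m + 1) i
      rwa [add_comm (m + 1) i] at this
    have h2 : Summable fun i : ℕ => (1 / 2 : ℝ) ^ (d (m + 1)) * (1 / 2) ^ i :=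
      (summable_geometric_of_lt_one (by norm_num) (by norm_num)).mul_left _
    calc tail ≤ ∑' i : ℕ, (1 / 2 : ℝ) ^ (d (m + 1)) * (1 / 2) ^ i :=
          hsum'.tsum_le_tsum h1 h2
      _ = 2 * (1 / 2 : ℝ) ^ (d (m + 1)) := by
          rw [tsum_mul_left, tsum_geometric_of_lt_one (by norm_num) (by norm_num)]
          norm_num
          ring
  -- the integer
  have hint : ∃ z : ℤ, (q : ℝ) * 2 ^ (d m) * tail = z := by
    refine ⟨x.num * 2 ^ (d m) - ∑ i ∈ Finset.range (m + 1), (q : ℤ) * 2 ^ (d m - d i), ?_⟩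
    have h1 : tail = (x : ℝ) - ∑ i ∈ Finset.range (m + 1), (1 / 2 : ℝ) ^ (d i) := by
      rw [hx, ← hsplit]
      ring
    have h2 : (q : ℝ) * (x : ℝ) = x.num := by
      have := Rat.den_mul_eq_num x
      exact_mod_cast this
    have h3 : ∀ i ∈ Finset.range (m + 1), (q : ℝ) * 2 ^ (d m) * (1 / 2 : ℝ) ^ (d i) =
        (q : ℝ) * 2 ^ (d m - d i) := by
      intro i hi
      have h4 : d i ≤ d m := by
        have h5 := hstep i (m - i)
        have h6 : i + (m - i) = m := by
          have := Finset.mem_range.1 hi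
          omega
        rw [h6] at h5
        omega
      rw [one_div, inv_pow, mul_assoc, ← div_eq_mul_inv]
      congr 1
      rw [div_eq_iff (by positivity), ← pow_add]
      congr 1
      omega
    rw [h1]
    push_cast
    rw [mul_sub, Finset.mul_sum, Finset.sum_congr rfl h3]
    congr 1
    rw [← h2]
    ring
  obtain ⟨z, hz⟩ := hint
  have hz0 : 0 < z := by
    have : (0 : ℝ) < (q : ℝ) * 2 ^ (d m) * tail := by (clear * - htpos; positivity)
    rw [hz] at this
    exact_mod_cast this
  have hz1 : z < 1 := by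
    have h1 : (q : ℝ) * 2 ^ (d m) * tail < 1 := by
      have h2 : (2 : ℝ) ^ (d m) * (2 * (1 / 2 : ℝ) ^ (d (m + 1))) ≤ (1 / 2) ^ m := by
        have h3 : (1 / 2 : ℝ) ^ (d (m + 1)) ≤ (1 / 2) ^ (d m + m + 1) :=
          pow_le_pow_of_le_one (by norm_num) (by norm_num) (hd m)
        calc (2 : ℝ) ^ (d m) * (2 * (1 / 2 : ℝ) ^ (d (m + 1)))
            ≤ 2 ^ (d m) * (2 * (1 / 2) ^ (d m + m + 1)) := by (clear * - h3; gcongr)
          _ = (1 / 2) ^ m * ((2 : ℝ) ^ (d m) * (1 / 2) ^ (d m)) := by
              rw [pow_succ, pow_add]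
              ring
          _ = (1 / 2) ^ m := by
              rw [← mul_pow]
              norm_num
      calc (q : ℝ) * 2 ^ (d m) * tail ≤ (q : ℝ) * 2 ^ (d m) * (2 * (1 / 2 : ℝ) ^ (d (m + 1))) := by
            (clear * - htle; gcongr)
        _ = (q : ℝ) * (2 ^ (d m) * (2 * (1 / 2 : ℝ) ^ (d (m + 1)))) := by ring
        _ ≤ (q : ℝ) * (1 / 2) ^ m := by (clear * - h2; gcongr)
        _ < 2 ^ m * (1 / 2) ^ m := by (clear * - hm; gcongr)
        _ = 1 := by
            rw [← mul_pow]
            norm_num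
    rw [hz] at h1
    exact_mod_cast h1
  omega

end Vale.Agent.P089
end
end

section

section

/-!
Positive operators with a spectral gap at zero: the projection onto the kernel is the norm limit
of the powers of `1 - T / K`.
-/

open scoped InnerProductSpace

namespace Vale.Agent.P089

variable {H : Type*} [NormedAddCommGroup H] [InnerProductSpace ℂ H] [CompleteSpace H]

theorem spec_gap (T : H →L[ℂ] H) (ε : ℝ) (hT : T.IsPositive)
    (hgap : ∀ x, ε * RCLike.re ⟪T x, x⟫_ℂ ≤ ‖T x‖ ^ 2) :
    ∀ t ∈ spectrum ℝ T, t = 0 ∨ ε ≤ t := by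
  intro t ht
  have h0 : 0 ≤ T := (ContinuousLinearMap.nonneg_iff_isPositive T).2 hT
  have hsa : IsSelfAdjoint T := hT.isSelfAdjoint
  have ht0 : 0 ≤ t := spectrum_nonneg_of_nonneg h0 ht
  have hpos : 0 ≤ T * T - ε • T := by
    rw [ContinuousLinearMap.nonneg_iff_isPositive]
    refine ⟨?_, ?_⟩
    · have : IsSelfAdjoint (T * T - ε • T) := by
        refine IsSelfAdjoint.sub ?_ ((IsSelfAdjoint.all ε).smul hsa)
        rw [← sq]
        exact hsa.pow 2
      exact this.isSymmetric
    · intro x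
      have h1 : RCLike.re ⟪(T * T) x, x⟫_ℂ = ‖T x‖ ^ 2 := by
        change RCLike.re ⟪T (T x), x⟫_ℂ = _
        rw [show ⟪T (T x), x⟫_ℂ = ⟪T x, T x⟫_ℂ from hsa.isSymmetric (T x) x,
          inner_self_eq_norm_sq]
      have h2 : RCLike.re ⟪(ε • T) x, x⟫_ℂ = ε * RCLike.re ⟪T x, x⟫_ℂ := by
        change RCLike.re ⟪ε • (T x), x⟫_ℂ = _
        rw [inner_smul_left_eq_smul, RCLike.smul_re]
      have h3 := hgap x
      change 0 ≤ RCLike.re ⟪(T * T - ε • T) x, x⟫_ℂ
      rw [sub_apply, inner_sub_left, map_sub, h1, h2]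
      linarith
  have hcfc : cfc (fun s : ℝ => s * s - ε * s) T = T * T - ε • T := by
    rw [cfc_sub (fun s : ℝ => s * s) (fun s : ℝ => ε * s) T, cfc_mul (fun s : ℝ => s) (fun s => s) T,
      cfc_id' ℝ T, cfc_const_mul_id ε T]
  have hsp : t * t - ε * t ∈ spectrum ℝ (T * T - ε • T) := by
    rw [← hcfc, cfc_map_spectrum (fun s : ℝ => s * s - ε * s) T]
    exact ⟨t, ht, rfl⟩
  have h4 := spectrum_nonneg_of_nonneg hpos hsp
  rcases ht0.eq_or_lt with h | h
  · exact Or.inl h.symm
  · right
    have h5 : 0 ≤ t * (t - ε) := by linarith only [h4]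
    have h6 := nonneg_of_mul_nonneg_right h5 h
    linarith only [h6]

/-- The spectral projection at zero of a positive operator with a spectral gap. -/
theorem exists_proj (T : H →L[ℂ] H) (K ε : ℝ) (hε : 0 < ε) (hεK : ε ≤ K) (hT : T.IsPositive)
    (hK : ‖T‖ ≤ K) (hgap : ∀ x, ε * RCLike.re ⟪T x, x⟫_ℂ ≤ ‖T x‖ ^ 2) :
    ∃ P : H →L[ℂ] H, IsStarProjection P ∧ T * P = 0 ∧ (∀ x, P x = x ↔ T x = 0) ∧
      ∀ n : ℕ, ‖(1 - K⁻¹ • T) ^ n - P‖ ≤ (1 - ε / K) ^ n := by
  have hK0 : 0 < K := hε.trans_le hεK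
  have h0 : 0 ≤ T := (ContinuousLinearMap.nonneg_iff_isPositive T).2 hT
  have hsa : IsSelfAdjoint T := hT.isSelfAdjoint
  have hsp := spec_gap T ε hT hgap
  have hspK : ∀ t ∈ spectrum ℝ T, t ≤ K := by
    intro t ht
    have h1 := spectrum.norm_le_norm_mul_of_mem ht
    rcases subsingleton_or_nontrivial H with hH | hH
    · exfalso
      have : Subsingleton (H →L[ℂ] H) := ⟨fun a b => by ext x; exact Subsingleton.elim _ _⟩
      rw [spectrum.of_subsingleton] at ht
      exact ht
    · rw [norm_one, mul_one] at h1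
      exact (le_abs_self t).trans (h1.trans hK)
  let f : ℝ → ℝ := fun t => max 0 (1 - t / ε)
  have hf : Continuous f := by fun_prop
  have hf0 : f 0 = 1 := by simp only [zero_div, sub_zero, zero_le_one, sup_of_le_right, f]
  have hfε : ∀ t, ε ≤ t → f t = 0 := by
    intro t ht
    have : 1 ≤ t / ε := by rwa [le_div_iff₀ hε, one_mul]
    simp only [f]
    exact max_eq_left (by linarith only [this])
  let P := cfc f T
  have hP2 : P * P = P := by
    change cfc f T * cfc f T = cfc f T
    rw [← cfc_mul f f T hf.continuousOn hf.continuousOn]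
    refine cfc_congr ?_
    intro t ht
    rcases hsp t ht with h | h
    · simp [h, hf0]
    · simp [hfε t h]
  have hPsa : IsSelfAdjoint P := cfc_predicate f T
  have hTP : T * P = 0 := by
    have h1 : T * cfc f T = cfc (fun t : ℝ => t * f t) T := by
      rw [cfc_mul (fun s : ℝ => s) f T continuous_id.continuousOn hf.continuousOn, cfc_id' ℝ T]
    change T * cfc f T = 0
    rw [h1]
    have h2 : cfc (fun t : ℝ => t * f t) T = cfc (fun _ : ℝ => (0 : ℝ)) T := by
      refine cfc_congr ?_
      intro t ht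
      rcases hsp t ht with h | h
      · simp [h]
      · simp [hfε t h]
    rw [h2, cfc_const_zero ℝ T]
  have hpow : ∀ n : ℕ, (1 - K⁻¹ • T) ^ n = cfc (fun t : ℝ => (1 - K⁻¹ * t) ^ n) T := by
    intro n
    rw [cfc_pow (fun t : ℝ => 1 - K⁻¹ * t) n T, cfc_sub (fun _ : ℝ => (1 : ℝ)) (fun t => K⁻¹ * t) T,
      cfc_const_one ℝ T, cfc_const_mul_id K⁻¹ T]
  have hlim : ∀ n : ℕ, ‖(1 - K⁻¹ • T) ^ n - P‖ ≤ (1 - ε / K) ^ n := by
    intro n
    rw [hpow n]
    change ‖cfc (fun t : ℝ => (1 - K⁻¹ * t) ^ n) T - cfc f T‖ ≤ _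
    rw [← cfc_sub (fun t : ℝ => (1 - K⁻¹ * t) ^ n) f T (by fun_prop) hf.continuousOn]
    have h1 : 0 ≤ 1 - ε / K := by
      rw [sub_nonneg, div_le_one hK0]
      exact hεK
    refine norm_cfc_le (by (clear * - h1; positivity)) ?_
    intro t ht
    rcases hsp t ht with h | h
    · rw [h, hf0]
      simp only [mul_zero, sub_zero, one_pow, sub_self, norm_zero]
      (clear * - h1; positivity)
    · rw [hfε t h, sub_zero, norm_pow]
      have h2 := hspK t ht
      have h3 : K⁻¹ * t ≤ 1 := by
        rw [inv_mul_le_iff₀ hK0]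
        linarith only [h2]
      have h4 : ε / K ≤ K⁻¹ * t := by
        rw [div_eq_inv_mul]
        (clear * - h hK0; gcongr)
      rw [Real.norm_of_nonneg (by linarith only [h3])]
      (clear * - h3 h4; gcongr)
  refine ⟨P, ⟨hP2, hPsa⟩, hTP, ?_, hlim⟩
  intro x
  constructor
  · intro h
    have h1 := congrArg (fun S : H →L[ℂ] H => S x) hTP
    change T (P x) = 0 at h1
    rwa [h] at h1
  · intro h
    have h1 : ∀ n : ℕ, ((1 - K⁻¹ • T) ^ n) x = x := by
      intro n
      induction n with
      | zero => simp only [pow_zero, one_apply_eq_self]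
      | succ n ih =>
        rw [pow_succ]
        change ((1 - K⁻¹ • T) ^ n) ((1 - K⁻¹ • T) x) = x
        have h2 : (1 - K⁻¹ • T) x = x := by
          rw [sub_apply]
          change x - K⁻¹ • T x = x
          rw [h, smul_zero, sub_zero]
        rw [h2, ih]
    have h2 : ∀ n : ℕ, ‖x - P x‖ ≤ (1 - ε / K) ^ n * ‖x‖ := by
      intro n
      have h3 := ((1 - K⁻¹ • T) ^ n - P).le_opNorm x
      rw [sub_apply, h1 n] at h3
      exact h3.trans (by gcongr; exact hlim n)
    have h4 : Filter.Tendsto (fun n : ℕ => (1 - ε / K) ^ n * ‖x‖) Filter.atTop (nhds (0 * ‖x‖)) := by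
      refine Filter.Tendsto.mul_const _ ?_
      refine tendsto_pow_atTop_nhds_zero_of_lt_one ?_ ?_
      · rw [sub_nonneg, div_le_one hK0]
        exact hεK
      · have : 0 < ε / K := by positivity
        linarith only [this]
    rw [zero_mul] at h4
    have h5 : ‖x - P x‖ ≤ 0 := ge_of_tendsto' h4 h2
    exact (sub_eq_zero.1 (norm_le_zero_iff.1 h5)).symm

theorem gap_of_proj (T P : H →L[ℂ] H) (ε : ℝ) (hε : 0 < ε)
    (hT : T.IsPositive) (hP : IsStarProjection P) (hTP : T * P = 0)
    (hgap : ∀ x, ε * ‖x - P x‖ ^ 2 ≤ RCLike.re ⟪T x, x⟫_ℂ) (x : H) :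
    ε * RCLike.re ⟪T x, x⟫_ℂ ≤ ‖T x‖ ^ 2 := by
  have hsa : IsSelfAdjoint T := hT.isSelfAdjoint
  have hPT : P * T = 0 := by
    have h := congrArg star hTP
    rwa [star_mul, hsa.star_eq, hP.isSelfAdjoint.star_eq, star_zero] at h
  have h1 : ⟪T x, P x⟫_ℂ = 0 := by
    have h2 : ⟪P (T x), x⟫_ℂ = ⟪T x, P x⟫_ℂ := hP.isSelfAdjoint.isSymmetric (T x) x
    rw [← h2]
    have h3 : P (T x) = 0 := congrArg (fun S : H →L[ℂ] H => S x) hPT
    rw [h3, inner_zero_left]
  have h2 : RCLike.re ⟪T x, x⟫_ℂ = RCLike.re ⟪T x, x - P x⟫_ℂ := by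
    rw [inner_sub_right, h1, sub_zero]
  have h3 : RCLike.re ⟪T x, x⟫_ℂ ≤ ‖T x‖ * ‖x - P x‖ := by
    rw [h2]
    exact (RCLike.re_le_norm _).trans (norm_inner_le_norm _ _)
  have h4 := hgap x
  have h5 : 0 ≤ RCLike.re ⟪T x, x⟫_ℂ := le_trans (by (clear * - hε; positivity)) h4
  set q := RCLike.re ⟪T x, x⟫_ℂ with hq
  rcases h5.eq_or_lt with h | h
  · rw [← h, mul_zero]
    (clear * -; positivity)
  · have h6 : q ^ 2 ≤ ‖T x‖ ^ 2 * ‖x - P x‖ ^ 2 := by
      rw [← mul_pow]
      exact pow_le_pow_left₀ h5 h3 2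
    have h7 : ε * q * q ≤ ‖T x‖ ^ 2 * q := by
      calc ε * q * q = ε * q ^ 2 := by ring
        _ ≤ ε * (‖T x‖ ^ 2 * ‖x - P x‖ ^ 2) := by (clear * - h6 hε; gcongr)
        _ = ‖T x‖ ^ 2 * (ε * ‖x - P x‖ ^ 2) := by ring
        _ ≤ ‖T x‖ ^ 2 * q := by (clear * - h4; gcongr)
    exact le_of_mul_le_mul_right h7 h

/-- The powers of `1 - T / K` converge to the projection `P` if `T P = 0` and `T ≥ ε (1 - P)`. -/
theorem pow_sub_proj_le (T P : H →L[ℂ] H) (K ε : ℝ) (hε : 0 < ε) (hεK : ε ≤ K)
    (hT : T.IsPositive) (hK : ‖T‖ ≤ K) (hP : IsStarProjection P) (hTP : T * P = 0)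
    (hgap : ∀ x, ε * ‖x - P x‖ ^ 2 ≤ RCLike.re ⟪T x, x⟫_ℂ) (n : ℕ) :
    ‖(1 - K⁻¹ • T) ^ n - P‖ ≤ (1 - ε / K) ^ n := by
  obtain ⟨Q, hQ, hTQ, hQ1, hlim⟩ := exists_proj T K ε hε hεK hT hK
    (gap_of_proj T P ε hε hT hP hTP hgap)
  have h1 : P * Q = Q := by
    ext y
    change P (Q y) = Q y
    have h2 := hgap (Q y)
    have h3 : T (Q y) = 0 := congrArg (fun S : H →L[ℂ] H => S y) hTQ
    rw [h3, inner_zero_left, map_zero] at h2
    have h4 : ‖Q y - P (Q y)‖ ^ 2 ≤ 0 := by
      by_contra hc
      rw [not_le] at hc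
      have := mul_pos hε hc
      linarith only [h2, this]
    have h5 : ‖Q y - P (Q y)‖ = 0 := by
      have := sq_nonneg ‖Q y - P (Q y)‖
      exact pow_eq_zero_iff (two_ne_zero) |>.1 (le_antisymm h4 this)
    exact (sub_eq_zero.1 (norm_eq_zero.1 h5)).symm
  have h2 : Q * P = P := by
    ext y
    change Q (P y) = P y
    rw [hQ1]
    exact congrArg (fun S : H →L[ℂ] H => S y) hTP
  have h3 : Q = P := by
    have h4 := congrArg star h1
    rw [star_mul, hP.isSelfAdjoint.star_eq, hQ.isSelfAdjoint.star_eq, h2] at h4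
    exact h4.symm
  rw [← h3]
  exact hlim n

end Vale.Agent.P089
end
end

section

section

/-!
# P089, block E2: graph facts for the colourings

* `NB X l p`: the vertex sequence `p 0, ..., p l` is a walk without backtracking;
* `nb_inj`: such a walk of length less than the girth is injective;
* `card_walk_through`, `card_walk`: numbers of walks of length `l`;
* `piece_seq`: words read at two places give vertex sequences.
-/

namespace Vale.Agent.P089

/-! ### Short walks without backtracking are injective -/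

/-- `p 0, ..., p l` is a walk without backtracking. -/
def NB {V : Type*} (X : SimpleGraph V) (l : ℕ) (p : ℕ → V) : Prop :=
  (∀ i < l, X.Adj (p i) (p (i + 1))) ∧ (∀ i, i + 2 ≤ l → p i ≠ p (i + 2))

theorem exists_walk_seq {V : Type*} (X : SimpleGraph V) (p : ℕ → V) (i : ℕ) :
    ∀ k : ℕ, (∀ a, a < k → X.Adj (p (i + a)) (p (i + a + 1))) →
      ∃ w : X.Walk (p i) (p (i + k)), w.length = k ∧
        w.support = (List.range (k + 1)).map (fun a => p (i + a)) ∧
        w.edges = (List.range k).map (fun a => s(p (i + a), p (i + a + 1))) := by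
  intro k
  induction k with
  | zero =>
    intro _
    exact ⟨SimpleGraph.Walk.nil, rfl, by simp, by simp⟩
  | succ k ih =>
    intro h
    obtain ⟨w, h1, h2, h3⟩ := ih fun a ha => h a (by omega)
    have hadj : X.Adj (p (i + k)) (p (i + (k + 1))) := h k (by omega)
    refine ⟨w.concat hadj, ?_, ?_, ?_⟩
    · rw [SimpleGraph.Walk.length_concat, h1]
    · rw [SimpleGraph.Walk.support_concat, h2, List.range_succ (n := k + 1), List.map_append]
      rfl
    · rw [SimpleGraph.Walk.edges_concat, h3, List.range_succ (n := k), List.map_append]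
      simp [add_assoc]

/-- a walk without backtracking, shorter than the girth, is injective -/
theorem nb_inj {V : Type*} {X : SimpleGraph V} {g l : ℕ} (hg : (g : ℕ∞) ≤ X.egirth) (hl : l < g)
    {p : ℕ → V} (h : NB X l p) : ∀ i ≤ l, ∀ j ≤ l, p i = p j → i = j := by
  -- a minimal counterexample
  suffices H : ∀ d i, 0 < d → i + d ≤ l → p i ≠ p (i + d) by
    intro i hi j hj hij
    rcases lt_trichotomy i j with h1 | h1 | h1
    · exact absurd hij (by
        have := H (j - i) i (by omega) (by omega)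
        rwa [show i + (j - i) = j by omega] at this)
    · exact h1
    · exact absurd hij.symm (by
        have := H (i - j) j (by omega) (by omega)
        rwa [show j + (i - j) = i by omega] at this)
  intro d
  induction d using Nat.strong_induction_on with
  | _ d ih =>
    intro i hd hid heq
    -- distinctness inside
    have hinj : ∀ a ≤ d, ∀ b ≤ d, a < b → b - a < d → p (i + a) ≠ p (i + b) := by
      intro a ha b hb hab hlt
      have := ih (b - a) hlt (i + a) (by omega) (by omega)
      rwa [show i + a + (b - a) = i + b by omega] at this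
    have hd1 : d ≠ 1 := by
      rintro rfl
      exact (h.1 i (by omega)).ne heq
    have hd2 : d ≠ 2 := by
      rintro rfl
      exact h.2 i (by omega) heq
    obtain ⟨k, rfl⟩ : ∃ k, d = k + 3 := ⟨d - 3, by omega⟩
    obtain ⟨w, h1, h2, h3⟩ := exists_walk_seq X p (i + 1) (k + 2) (fun a ha => by
      have := h.1 (i + 1 + a) (by (clear * - hid ha; omega))
      exact this)
    have hend : p (i + 1 + (k + 2)) = p i := by
      rw [heq]; congr 1; omega
    have hadj : X.Adj (p i) (p (i + 1)) := h.1 i (by omega)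
    set w' : X.Walk (p (i + 1)) (p i) := w.copy rfl hend with hw'
    have hpath : w'.IsPath := by
      rw [SimpleGraph.Walk.isPath_def, hw', SimpleGraph.Walk.support_copy, h2]
      refine List.Nodup.map_on ?_ List.nodup_range
      intro a ha b hb hab
      rw [List.mem_range] at ha hb
      by_contra hne
      rcases lt_or_gt_of_ne hne with hlt | hlt
      · refine hinj (1 + a) (by omega) (1 + b) (by omega) (by omega) (by omega) ?_
        rw [← add_assoc, ← add_assoc]; exact hab
      · refine hinj (1 + b) (by omega) (1 + a) (by omega) (by omega) (by omega) ?_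
        rw [← add_assoc, ← add_assoc]; exact hab.symm
    have hedge : s(p i, p (i + 1)) ∉ w'.edges := by
      rw [hw', SimpleGraph.Walk.edges_copy, h3, List.mem_map]
      rintro ⟨a, ha, hab⟩
      rw [List.mem_range] at ha
      rw [Sym2.eq_iff] at hab
      rcases hab with ⟨e1, e2⟩ | ⟨e1, e2⟩
      · refine hinj 0 (by omega) (1 + a) (by omega) (by omega) (by omega) ?_
        rw [← add_assoc]; exact e1.symm
      · rcases Nat.eq_zero_or_pos a with rfl | hapos
        · exact h.2 i (by omega) e2.symm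
        · refine hinj 1 (by omega) (1 + a) (by omega) (by omega) (by omega) ?_
          rw [← add_assoc]; exact e1.symm
    have hcyc : (SimpleGraph.Walk.cons hadj w').IsCycle :=
      (SimpleGraph.Walk.cons_isCycle_iff w' hadj).2 ⟨hpath, hedge⟩
    have hle := hg.trans (SimpleGraph.egirth_le_length hcyc)
    rw [SimpleGraph.Walk.length_cons, hw', SimpleGraph.Walk.length_copy, h1] at hle
    have : g ≤ k + 2 + 1 := by exact_mod_cast hle
    omega

/-! ### Counting walks -/

/-- `f 0, ..., f l` is a walk. -/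
def IsW {V : Type*} (X : SimpleGraph V) {l : ℕ} (f : Fin (l + 1) → V) : Prop :=
  ∀ i : Fin l, X.Adj (f i.castSucc) (f i.succ)

theorem exists_code {V : Type*} [Finite V] (X : SimpleGraph V) {D : ℕ}
    (hD : ∀ x, Nat.card {y // X.Adj x y} ≤ D) (x : V) :
    ∃ e : {y // X.Adj x y} → Fin D, Function.Injective e := by
  have := Fintype.ofFinite {y // X.Adj x y}
  have h := hD x
  rw [Nat.card_eq_fintype_card] at h
  obtain ⟨e⟩ := Function.Embedding.nonempty_of_card_le (α := {y // X.Adj x y}) (β := Fin D)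
    (by simpa only [Fintype.card_fin] using h)
  exact ⟨e, e.injective⟩

/-- the number of walks of length `l` through `v` at time `j` -/
theorem card_walk_through {V : Type*} [Finite V] (X : SimpleGraph V) {D : ℕ}
    (hD : ∀ x, Nat.card {y // X.Adj x y} ≤ D) :
    ∀ (l : ℕ) (j : Fin (l + 1)) (v : V),
      Nat.card {f : Fin (l + 1) → V // IsW X f ∧ f j = v} ≤ D ^ l := by
  choose e he using exists_code X hD
  intro l
  induction l with
  | zero =>
    intro j v
    rw [pow_zero]
    have : Subsingleton {f : Fin (0 + 1) → V // IsW X f ∧ f j = v} := by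
      constructor
      rintro ⟨f, -, hf⟩ ⟨f', -, hf'⟩
      congr 1
      funext i
      have hij : i = j := Fin.ext (by omega)
      rw [hij, hf, hf']
    exact Finite.card_le_one_iff_subsingleton.2 this
  | succ l ih =>
    intro j v
    induction j using Fin.cases with
    | zero =>
      -- remove the last vertex
      have key : Nat.card {f : Fin (l + 1 + 1) → V // IsW X f ∧ f 0 = v} ≤
          Nat.card ({f : Fin (l + 1) → V // IsW X f ∧ f 0 = v} × Fin D) := by
        refine Nat.card_le_card_of_injective (fun f =>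
          (⟨fun i => f.1 i.castSucc, ⟨fun i => ?_, ?_⟩⟩,
            e (f.1 (Fin.last l).castSucc) ⟨f.1 (Fin.last (l + 1)), ?_⟩)) ?_
        · exact f.2.1 i.castSucc
        · exact f.2.2
        · exact f.2.1 (Fin.last l)
        · rintro ⟨f, hf⟩ ⟨f', hf'⟩ hff
          rw [Prod.mk.injEq] at hff
          obtain ⟨h1, h2⟩ := hff
          have h1' : ∀ i : Fin (l + 1), f i.castSucc = f' i.castSucc :=
            fun i => congrFun (Subtype.mk.inj h1) i
          have h3 : f (Fin.last (l + 1)) = f' (Fin.last (l + 1)) := by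
            have h4 := h1' (Fin.last l)
            simp only at h2
            have h5 : ∀ (a b : V) (hab : a = b) (ya : {y // X.Adj a y}) (yb : {y // X.Adj b y}),
                e a ya = e b yb → ya.1 = yb.1 := by
              rintro a b rfl ya yb hy
              exact congrArg _ (he a hy)
            exact h5 _ _ h4 _ _ h2
          congr 1
          funext i
          induction i using Fin.lastCases with
          | last => exact h3
          | cast i => exact h1' i
      refine key.trans ?_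
      rw [Nat.card_prod, Nat.card_eq_fintype_card (α := Fin D), Fintype.card_fin, pow_succ]
      exact Nat.mul_le_mul_right _ (ih 0 v)
    | succ j =>
      -- remove the first vertex
      have key : Nat.card {f : Fin (l + 1 + 1) → V // IsW X f ∧ f j.succ = v} ≤
          Nat.card ({f : Fin (l + 1) → V // IsW X f ∧ f j = v} × Fin D) := by
        refine Nat.card_le_card_of_injective (fun f =>
          (⟨fun i => f.1 i.succ, ⟨fun i => ?_, ?_⟩⟩,
            e (f.1 (Fin.succ 0)) ⟨f.1 0, ?_⟩)) ?_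
        · exact f.2.1 i.succ
        · exact f.2.2
        · exact (f.2.1 0).symm
        · rintro ⟨f, hf⟩ ⟨f', hf'⟩ hff
          rw [Prod.mk.injEq] at hff
          obtain ⟨h1, h2⟩ := hff
          have h1' : ∀ i : Fin (l + 1), f i.succ = f' i.succ :=
            fun i => congrFun (Subtype.mk.inj h1) i
          have h3 : f 0 = f' 0 := by
            have h4 := h1' 0
            simp only at h2
            have h5 : ∀ (a b : V) (hab : a = b) (ya : {y // X.Adj a y}) (yb : {y // X.Adj b y}),
                e a ya = e b yb → ya.1 = yb.1 := by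
              rintro a b rfl ya yb hy
              exact congrArg _ (he a hy)
            exact h5 _ _ h4 _ _ h2
          congr 1
          funext i
          induction i using Fin.cases with
          | zero => exact h3
          | succ i => exact h1' i
      refine key.trans ?_
      rw [Nat.card_prod, Nat.card_eq_fintype_card (α := Fin D), Fintype.card_fin, pow_succ]
      exact Nat.mul_le_mul_right _ (ih j v)

/-- the number of walks of length `l` -/
theorem card_walk {V : Type*} [Finite V] (X : SimpleGraph V) {D : ℕ}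
    (hD : ∀ x, Nat.card {y // X.Adj x y} ≤ D) (l : ℕ) :
    Nat.card {f : Fin (l + 1) → V // IsW X f} ≤ Nat.card V * D ^ l := by
  have := Fintype.ofFinite V
  have h1 : Nat.card {f : Fin (l + 1) → V // IsW X f} ≤
      Nat.card (Σ v : V, {f : Fin (l + 1) → V // IsW X f ∧ f 0 = v}) := by
    refine Nat.card_le_card_of_injective (fun f => ⟨f.1 0, ⟨f.1, f.2, rfl⟩⟩) ?_
    rintro ⟨f, hf⟩ ⟨f', hf'⟩ hff
    simp only [Sigma.mk.injEq] at hff
    obtain ⟨h2, h3⟩ := hff
    congr 1
    have h5 : ∀ (a b : V) (hab : a = b) (ya : {f : Fin (l + 1) → V // IsW X f ∧ f 0 = a})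
        (yb : {f : Fin (l + 1) → V // IsW X f ∧ f 0 = b}), HEq ya yb → ya.1 = yb.1 := by
      rintro a b rfl ya yb hy
      rw [eq_of_heq hy]
    exact h5 _ _ h2 _ _ h3
  refine h1.trans ?_
  rw [Nat.card_sigma, Nat.card_eq_fintype_card]
  calc ∑ v : V, Nat.card {f : Fin (l + 1) → V // IsW X f ∧ f 0 = v} ≤ ∑ _v : V, D ^ l :=
        Finset.sum_le_sum fun v _ => card_walk_through X hD l 0 v
    _ = Fintype.card V * D ^ l := by
        rw [Finset.sum_const, smul_eq_mul, Finset.card_univ]

/-! ### From words to vertex sequences -/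

/-- the vertex sequence of a word -/
theorem reads_seq {q : ℕ} (F : Fam q) (m : ℕ) : ∀ (w : List (Letter q)) (x y : Fin (F.n m)),
    F.Reads m x w y → ∃ p : ℕ → Fin (F.n m), p 0 = x ∧ p w.length = y ∧
      ∀ i (h : i < w.length), (F.X m).Adj (p i) (p (i + 1)) ∧
        w[i] = (F.col m (p i), F.col m (p (i + 1))) := by
  intro w
  induction w with
  | nil =>
    intro x y h
    exact ⟨fun _ => x, rfl, h, fun i hi => absurd hi (by simp)⟩
  | cons a w ih =>
    rintro x y ⟨z, hxz, ha, hz⟩
    obtain ⟨p, h0, h1, h2⟩ := ih z y hz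
    refine ⟨fun i => Nat.casesOn i x p, rfl, h1, fun i hi => ?_⟩
    cases i with
    | zero =>
      show (F.X m).Adj x (p 0) ∧ a = (F.col m x, F.col m (p 0))
      rw [h0]
      exact ⟨hxz, ha⟩
    | succ i =>
      have hi' : i < w.length := by simpa only [List.length_cons, Order.lt_add_one_iff, Order.add_one_le_iff] using hi
      exact h2 i hi'

/-- a reduced word gives a walk without backtracking -/
theorem nb_of_red {q : ℕ} {F : Fam q} {m : ℕ} {w : List (Letter q)} {p : ℕ → Fin (F.n m)}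
    (hw : Red Prod.swap w)
    (h : ∀ i (h : i < w.length), (F.X m).Adj (p i) (p (i + 1)) ∧
        w[i] = (F.col m (p i), F.col m (p (i + 1)))) : NB (F.X m) w.length p := by
  refine ⟨fun i hi => (h i hi).1, fun i hi heq => ?_⟩
  have h1 := (h i (by omega)).2
  have h2 := (h (i + 1) (by omega)).2
  have h3 : w[i + 1] ≠ Prod.swap w[i] := List.isChain_iff_getElem.1 hw i (by omega)
  apply h3
  rw [h1, h2, show i + 1 + 1 = i + 2 from rfl, ← heq]
  rfl

/-- a reduced word read at two places gives two walks without backtracking with the same colours -/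
theorem piece_seq {q : ℕ} {F : Fam q} {m m' : ℕ} {w : List (Letter q)} {x x' : Fin (F.n m)}
    {y y' : Fin (F.n m')} (hw : Red Prod.swap w) (h : F.Reads m x w x')
    (h' : F.Reads m' y w y') :
    ∃ (p : ℕ → Fin (F.n m)) (p' : ℕ → Fin (F.n m')), p 0 = x ∧ p' 0 = y ∧
      p w.length = x' ∧ p' w.length = y' ∧
      NB (F.X m) w.length p ∧ NB (F.X m') w.length p' ∧
      (w ≠ [] → ∀ i ≤ w.length, F.col m (p i) = F.col m' (p' i)) := by
  obtain ⟨p, a0, a1, a2⟩ := reads_seq F m w x x' h
  obtain ⟨p', b0, b1, b2⟩ := reads_seq F m' w y y' h'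
  refine ⟨p, p', a0, b0, a1, b1, nb_of_red hw a2, nb_of_red hw b2, fun hne i hi => ?_⟩
  have hpos : 0 < w.length := List.length_pos_iff.2 hne
  rcases Nat.lt_or_ge i w.length with hlt | hge
  · have e := (a2 i hlt).2.symm.trans (b2 i hlt).2
    exact (Prod.mk.inj e).1
  · obtain rfl : i = w.length := le_antisymm hi hge
    have hlt : w.length - 1 < w.length := by omega
    have e := (a2 _ hlt).2.symm.trans (b2 _ hlt).2
    have e2 := (Prod.mk.inj e).2
    rwa [show w.length - 1 + 1 = w.length by omega] at e2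

/-! ### The forms used in `Colour.lean` -/

theorem inj_of_nb {V : Type} (X : SimpleGraph V) (g : ℕ) (hg : (g : ℕ∞) ≤ X.egirth) (l : ℕ)
    (hl : l < g) (p : ℕ → V) (adj : ∀ i, i < l → X.Adj (p i) (p (i + 1)))
    (nb : ∀ i, i + 2 ≤ l → p i ≠ p (i + 2)) :
    ∀ i j, i ≤ l → j ≤ l → p i = p j → i = j :=
  fun i j hi hj h => nb_inj hg hl ⟨adj, nb⟩ i hi j hj h

/-- `p 0, ..., p l` is a walk. -/
def WkP {V : Type} (X : SimpleGraph V) (l : ℕ) (p : Fin (l + 1) → V) : Prop :=
  ∀ i : Fin l, X.Adj (p i.castSucc) (p i.succ)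

theorem card_through {V : Type} (X : SimpleGraph V) (D : ℕ)
    (hD : ∀ x, Nat.card {y // X.Adj x y} ≤ D) [Fintype V] (l : ℕ) (j : Fin (l + 1)) (v : V) :
    Nat.card {p : Fin (l + 1) → V // WkP X l p ∧ p j = v} ≤ D ^ l :=
  card_walk_through X hD l j v

theorem card_walks {V : Type} (X : SimpleGraph V) (D : ℕ)
    (hD : ∀ x, Nat.card {y // X.Adj x y} ≤ D) [Fintype V] (l : ℕ) :
    Nat.card {p : Fin (l + 1) → V // WkP X l p} ≤ Fintype.card V * D ^ l := by
  have h := card_walk X hD l
  rw [Nat.card_eq_fintype_card (α := V)] at h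
  exact h

theorem seq_of_reads {q : ℕ} (F : Fam q)
    (_hproper : ∀ m x y, (F.X m).Adj x y → F.col m x ≠ F.col m y)
    (_hd2 : ∀ m x y z, (F.X m).Adj x y → (F.X m).Adj x z → F.col m y = F.col m z → y = z)
    (m m' : ℕ) (x x' : Fin (F.n m)) (y y' : Fin (F.n m')) (w : List (Letter q))
    (hred : Red Prod.swap w) (h1 : F.Reads m x w x') (h2 : F.Reads m' y w y') (hw : w ≠ []) :
    ∃ (p : ℕ → Fin (F.n m)) (r : ℕ → Fin (F.n m')), p 0 = x ∧ r 0 = y ∧
      (∀ i, i < w.length → (F.X m).Adj (p i) (p (i + 1))) ∧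
      (∀ i, i < w.length → (F.X m').Adj (r i) (r (i + 1))) ∧
      (∀ i, i + 2 ≤ w.length → p i ≠ p (i + 2)) ∧
      (∀ i, i + 2 ≤ w.length → r i ≠ r (i + 2)) ∧
      (∀ i, i ≤ w.length → F.col m (p i) = F.col m' (r i)) := by
  obtain ⟨p, r, hp, hr, -, -, hP, hR, hc⟩ := piece_seq hred h1 h2
  exact ⟨p, r, hp, hr, hP.1, hR.1, hP.2, hR.2, hc hw⟩

end Vale.Agent.P089
end
end

section

section

/-!
# P089, block 2 (part B): vertices of lowest generation, meeting of blocks of the same level
-/

namespace Vale.Agent.P089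

variable {q : ℕ} {F : Fam q} {K : ℕ}

/-- Facts on generations and levels. -/
structure Monster.LevelFacts (M : Monster F K) (o : M.G) : Prop where
  gn_self : M.gn o o = 0
  gn_eq_zero : ∀ x, M.gn o x = 0 → x = o
  level_le : ∀ β x, M.Mem β x → M.level o β ≤ M.gn o x
  gn_le : ∀ β x, M.Mem β x → M.gn o x ≤ M.level o β + 1
  exists_level : ∀ β, ∃ x, M.Mem β x ∧ M.gn o x = M.level o β
  exists_block : ∀ x i, M.gn o x = i + 1 → ∃ β, M.Mem β x ∧ M.level o β = i

namespace Monster

variable {M : Monster F K} {o : M.G}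

theorem f_mem_left {β : M.Block} {x : M.G} {a : Letter q} (h : M.Edge β x a) : M.Mem β x := by
  rcases β with ⟨m, k⟩ | ⟨x₀, b⟩
  · obtain ⟨y, z, _, h2, _⟩ := h
    exact ⟨y, h2⟩
  · rcases h with ⟨h1, _⟩ | ⟨h1, _⟩
    · exact Or.inl h1
    · exact Or.inr h1

theorem f_mem_right {β : M.Block} {x : M.G} {a : Letter q} (h : M.Edge β x a) :
    M.Mem β (x * M.s a) := by
  rcases β with ⟨m, k⟩ | ⟨x₀, b⟩
  · obtain ⟨y, z, h1, h2, h3⟩ := h
    refine ⟨z, ?_⟩
    rw [M.pos_adj m y z h1, h2, h3, mul_assoc]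
  · rcases h with ⟨h1, h2⟩ | ⟨h1, h2⟩
    · right
      rw [h1, h2]
    · left
      rw [h1, h2, mul_assoc, M.s_swap, mul_one]

theorem f_spath_append {x y z : M.G} {L L' : List (M.Block × List (Letter q))}
    (h : M.SPath x L y) (h' : M.SPath y L' z) : M.SPath x (L ++ L') z := by
  induction L generalizing x with
  | nil =>
    have h1 : x = y := h
    subst h1
    exact h'
  | cons σ L ih => exact ⟨h.1, ih h.2⟩

theorem f_touch {m : ℕ} {h : M.G} {β : M.Block} (H : M.LevelFacts o) (ht : M.Touch m h β) :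
    M.level o β ≤ M.level o (Sum.inl (m, h)) + 1 ∧ M.level o (Sum.inl (m, h)) ≤ M.level o β + 1 := by
  obtain ⟨x, a, h1, h2⟩ := ht
  exact ⟨(H.level_le _ _ (f_mem_left h1)).trans (H.gn_le _ _ (f_mem_left h2)),
    (H.level_le _ _ (f_mem_left h2)).trans (H.gn_le _ _ (f_mem_left h1))⟩

/-- If each level contains at most two blocks of the list then at most six of them touch a given
copy. -/
theorem f_six (H : M.LevelFacts o) {B : List M.Block}
    (hB : ∀ k (T : Finset M.Block), (∀ β ∈ T, β ∈ B ∧ M.level o β = k) → T.card ≤ 2)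
    (m : ℕ) (h : M.G) (T : Finset M.Block) (hT : ∀ β ∈ T, β ∈ B ∧ M.Touch m h β) :
    T.card ≤ 6 := by
  classical
  set j := M.level o (Sum.inl (m, h)) with hj
  have h1 : T ⊆ (T.filter fun β => M.level o β = j - 1) ∪ ((T.filter fun β => M.level o β = j) ∪
      (T.filter fun β => M.level o β = j + 1)) := by
    intro β hβ
    have h2 := f_touch H (hT β hβ).2
    rw [Finset.mem_union, Finset.mem_union, Finset.mem_filter, Finset.mem_filter,
      Finset.mem_filter]
    have h3 : M.level o β = j - 1 ∨ M.level o β = j ∨ M.level o β = j + 1 := by omega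
    rcases h3 with h3 | h3 | h3
    · exact Or.inl ⟨hβ, h3⟩
    · exact Or.inr (Or.inl ⟨hβ, h3⟩)
    · exact Or.inr (Or.inr ⟨hβ, h3⟩)
  have h2 : ∀ k, (T.filter fun β => M.level o β = k).card ≤ 2 := fun k =>
    hB k _ fun β hβ => ⟨(hT β (Finset.mem_filter.1 hβ).1).1, (Finset.mem_filter.1 hβ).2⟩
  have h3 := Finset.card_le_card h1
  have h4 := Finset.card_union_le (T.filter fun β => M.level o β = j - 1)
    ((T.filter fun β => M.level o β = j) ∪ (T.filter fun β => M.level o β = j + 1))
  have h5 := Finset.card_union_le (T.filter fun β => M.level o β = j)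
    (T.filter fun β => M.level o β = j + 1)
  have h6 := h2 (j - 1)
  have h7 := h2 j
  have h8 := h2 (j + 1)
  omega

/-- Two vertices of the same generation `i` are joined by a chain of blocks of levels `< i`, at
most two of each level. -/
theorem f_chain (H : M.LevelFacts o)
    (hA1 : ∀ β y z, M.Mem β y → M.Mem β z → ∃ w, M.Geo β y w ∧ y * M.val w = z) (i : ℕ) :
    ∀ x y, M.gn o x = i → M.gn o y = i → ∃ L, M.SPath x L y ∧ (L.map Prod.fst).Nodup ∧
      (∀ β ∈ L.map Prod.fst, M.level o β < i) ∧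
      (∀ k (T : Finset M.Block), (∀ β ∈ T, β ∈ L.map Prod.fst ∧ M.level o β = k) → T.card ≤ 2) ∧
      (x = y ∨ ∃ β β', M.Mem β x ∧ M.Mem β' y ∧ M.level o β < i ∧ M.level o β' < i ∧
        ∀ γ ∈ L.map Prod.fst, M.level o γ + 1 = i → γ = β ∨ γ = β') := by
  classical
  induction i with
  | zero =>
    intro x y hx hy
    have h1 := H.gn_eq_zero x hx
    have h2 := H.gn_eq_zero y hy
    refine ⟨[], ?_, by simp, by simp, ?_, Or.inl (h1.trans h2.symm)⟩
    · exact h1.trans h2.symm
    · intro k T hT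
      have : T = ∅ := by
        rw [Finset.eq_empty_iff_forall_notMem]
        intro β hβ
        simpa using (hT β hβ).1
      simp only [this, Finset.card_empty, zero_le]
  | succ i ih =>
    intro x y hx hy
    obtain ⟨β, hβx, hβi⟩ := H.exists_block x i hx
    obtain ⟨β', hβy, hβi'⟩ := H.exists_block y i hy
    by_cases hbb : β = β'
    · subst hbb
      obtain ⟨w, hw, hwy⟩ := hA1 β x y hβx hβy
      refine ⟨[(β, w)], ⟨hw, hwy⟩, by simp, by simp only [List.map_cons, List.map_nil, List.mem_cons, List.not_mem_nil, or_false, Order.lt_add_one_iff, forall_eq, hβi, Std.le_refl], ?_, 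
        Or.inr ⟨β, β, hβx, hβy, by omega, by omega, by simp only [List.map_cons, List.map_nil, List.mem_cons, List.not_mem_nil, or_false, Nat.add_right_cancel_iff, or_self, forall_eq, implies_true]⟩⟩
      intro k T hT
      have h1 : T ⊆ {β} := fun γ hγ => by simpa using (hT γ hγ).1
      have := Finset.card_le_card h1
      simp only [Finset.card_singleton] at this
      omega
    · obtain ⟨x₁, hx₁, hx₁i⟩ := H.exists_level β
      obtain ⟨y₁, hy₁, hy₁i⟩ := H.exists_level β'
      obtain ⟨L, hL, hnd, hlev, hcard, _⟩ := ih x₁ y₁ (by omega) (by (clear * - hy hβi hβi' hx₁i hy₁i; omega))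
      obtain ⟨w, hw, hwx⟩ := hA1 β x x₁ hβx hx₁
      obtain ⟨w', hw', hwy⟩ := hA1 β' y₁ y hy₁ hβy
      have hm : (((β, w) :: (L ++ [(β', w')])).map Prod.fst) =
          β :: (L.map Prod.fst ++ [β']) := by simp
      have hβL : β ∉ L.map Prod.fst := fun h => by
        have := hlev β h
        omega
      have hβL' : β' ∉ L.map Prod.fst := fun h => by
        have := hlev β' h
        omega
      refine ⟨(β, w) :: (L ++ [(β', w')]), ⟨hw, ?_⟩, ?_, ?_, ?_, 
        Or.inr ⟨β, β', hβx, hβy, by omega, by omega, ?_⟩⟩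
      · change M.SPath (x * M.val w) (L ++ [(β', w')]) y
        rw [hwx]
        exact f_spath_append hL ⟨hw', hwy⟩
      · rw [hm, List.nodup_cons]
        refine ⟨?_, ?_⟩
        · rw [List.mem_append, List.mem_singleton]
          rintro (h | h)
          · exact hβL h
          · exact hbb h
        · rw [List.nodup_append]
          refine ⟨hnd, by simp, ?_⟩
          intro a ha b hb hab
          rw [List.mem_singleton] at hb
          subst hb
          subst hab
          exact hβL' ha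
      · rw [hm]
        intro γ hγ
        rw [List.mem_cons, List.mem_append, List.mem_singleton] at hγ
        rcases hγ with h | h | h
        · rw [h]; omega
        · have := hlev γ h
          (clear * - hy hβi hβi' hx₁i hy₁i this; omega)
        · rw [h]; omega
      · intro k T hT
        rw [hm] at hT
        by_cases hk : k = i
        · subst hk
          have h1 : T ⊆ {β, β'} := by
            intro γ hγ
            obtain ⟨h1, h2⟩ := hT γ hγ
            rw [List.mem_cons, List.mem_append, List.mem_singleton] at h1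
            rw [Finset.mem_insert, Finset.mem_singleton]
            rcases h1 with h | h | h
            · exact Or.inl h
            · have := hlev γ h
              omega
            · exact Or.inr h
          exact (Finset.card_le_card h1).trans Finset.card_le_two
        · refine hcard k T fun γ hγ => ⟨?_, (hT γ hγ).2⟩
          obtain ⟨h1, h2⟩ := hT γ hγ
          rw [List.mem_cons, List.mem_append, List.mem_singleton] at h1
          rcases h1 with h | h | h
          · rw [h] at h2; omega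
          · exact h
          · rw [h] at h2; omega
      · rw [hm]
        intro γ hγ hγi
        rw [List.mem_cons, List.mem_append, List.mem_singleton] at hγ
        rcases hγ with h | h | h
        · exact Or.inl h
        · have := hlev γ h
          omega
        · exact Or.inr h

/-- The main consequence of the closed chain lemma for geodesics between vertices of the lowest
generation. -/
theorem f_one (H : M.LevelFacts o)
    (hA1 : ∀ β y z, M.Mem β y → M.Mem β z → ∃ w, M.Geo β y w ∧ y * M.val w = z)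
    (hcc : M.ClosedChain) {β : M.Block} {x : M.G} {w : List (Letter q)} (hw : M.Geo β x w)
    (hx : M.gn o x = M.level o β) (hy : M.gn o (x * M.val w) = M.level o β) :
    (x = x * M.val w ∨ ∃ β₁ β₂, M.Mem β₁ (x * M.val w) ∧ M.Mem β₂ x ∧ β₁ ≠ β ∧ β₂ ≠ β ∧
      ∀ e ∈ M.edges x w, M.Edge β₁ e.1 e.2 ∨ M.Edge β₂ e.1 e.2) ∧
    ∀ e ∈ M.edges x w, M.gn o (e.1 * M.s e.2) = M.level o β ∧ ∃ β', β' ≠ β ∧
      M.level o β' < M.level o β ∧ M.Edge β' e.1 e.2 := by
  classical
  obtain ⟨L, hL, hnd, hlev, hcard, hends⟩ := f_chain H hA1 (M.level o β) (x * M.val w) x hy hx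
  have hβL : β ∉ L.map Prod.fst := fun h => lt_irrefl _ (hlev β h)
  have hm : (((β, w) :: L).map Prod.fst) = β :: L.map Prod.fst := rfl
  have hB : ∀ k (T : Finset M.Block),
      (∀ γ ∈ T, γ ∈ ((β, w) :: L).map Prod.fst ∧ M.level o γ = k) → T.card ≤ 2 := by
    intro k T hT
    rw [hm] at hT
    by_cases hk : k = M.level o β
    · have h1 : T ⊆ {β} := by
        intro γ hγ
        obtain ⟨h1, h2⟩ := hT γ hγ
        rw [List.mem_cons] at h1
        rw [Finset.mem_singleton]
        rcases h1 with h | h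
        · exact h
        · have := hlev γ h
          (clear * - hy hk h2 this; omega)
      have := Finset.card_le_card h1
      simp at this
      omega
    · refine hcard k T fun γ hγ => ⟨?_, (hT γ hγ).2⟩
      obtain ⟨h1, h2⟩ := hT γ hγ
      rw [List.mem_cons] at h1
      rcases h1 with h | h
      · rw [h] at h2
        exact absurd h2.symm hk
      · exact h
  have key := hcc x β w L ⟨hw, hL⟩ (by rw [hm, List.nodup_cons]; exact ⟨hβL, hnd⟩)
    (fun m h T hT => f_six H hB m h T hT)
  have key2 : ∀ e ∈ M.edges x w, M.gn o (e.1 * M.s e.2) = M.level o β ∧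
      ∃ β' ∈ L.map Prod.fst, M.level o β' + 1 = M.level o β ∧ M.Edge β' e.1 e.2 := by
    intro e he
    obtain ⟨β', hβ', hedge⟩ := key e he
    have h1 := hlev β' hβ'
    have h2 := H.level_le β _ (f_mem_right (hw.1 e he))
    have h3 := H.gn_le β' _ (f_mem_right hedge)
    exact ⟨by omega, β', hβ', by omega, hedge⟩
  refine ⟨?_, fun e he => ?_⟩
  · rcases hends with h | ⟨β₁, β₂, h1, h2, hl1, hl2, h3⟩
    · exact Or.inl h.symm
    · refine Or.inr ⟨β₁, β₂, h1, h2, ?_, ?_, fun e he => ?_⟩
      · rintro rfl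
        exact lt_irrefl _ hl1
      · rintro rfl
        exact lt_irrefl _ hl2
      obtain ⟨_, β', hβ', hl, hedge⟩ := key2 e he
      rcases h3 β' hβ' hl with h | h
      · rw [h] at hedge
        exact Or.inl hedge
      · rw [h] at hedge
        exact Or.inr hedge
  · obtain ⟨h1, β', hβ', hl, hedge⟩ := key2 e he
    refine ⟨h1, β', ?_, by omega, hedge⟩
    rintro rfl
    omega

theorem f_geo_single (hs1 : ∀ a, M.s a ≠ 1) {β : M.Block} {x : M.G} {a : Letter q}
    (h : M.Edge β x a) : M.Geo β x [a] := by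
  classical
  refine ⟨?_, fun v => if v = x then 0 else 1, ?_, ?_⟩
  · intro e he
    have h1 : e = (x, a) := by simpa [Monster.edges] using he
    rw [h1]
    exact h
  · intro y b _
    have h1 : ∀ v : M.G, (0 : ℤ) ≤ (if v = x then 0 else 1) := fun v => by split_ifs <;> simp
    have h2 : ∀ v : M.G, (if v = x then (0 : ℤ) else 1) ≤ 1 := fun v => by split_ifs <;> simp
    have h3 := h1 y
    have h4 := h2 (y * M.s b)
    linarith only [h3, h4]
  · intro e he
    have h1 : e = (x, a) := by simpa [Monster.edges] using he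
    rw [h1]
    have h2 : x * M.s a ≠ x := fun h => hs1 a (by simpa using h)
    simp [h2]

/-- (H3) -/
theorem lowEdge (H : M.LevelFacts o)
    (hA1 : ∀ β y z, M.Mem β y → M.Mem β z → ∃ w, M.Geo β y w ∧ y * M.val w = z)
    (hcc : M.ClosedChain) (hs1 : ∀ a, M.s a ≠ 1) : M.LowEdge o := by
  intro β x a he hx hy
  have hv : M.val [a] = M.s a := by simp [Monster.val]
  obtain ⟨_, h2⟩ := f_one H hA1 hcc (f_geo_single hs1 he) hx (by rw [hv]; exact hy)
  obtain ⟨_, β', _, h3, h4⟩ := h2 (x, a) (by simp [Monster.edges])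
  exact ⟨β', h3, h4⟩

/-- crossing of generations along a path -/
theorem f_cross {i : ℕ} : ∀ (w : List (Letter q)) (x : M.G), M.gn o x = i →
    M.gn o (x * M.val w) ≠ i →
    (∀ e ∈ M.edges x w, M.gn o (e.1 * M.s e.2) = i ∨ M.gn o (e.1 * M.s e.2) = i + 1) →
    ∃ e ∈ M.edges x w, M.gn o e.1 = i ∧ M.gn o (e.1 * M.s e.2) = i + 1 := by
  intro w
  induction w with
  | nil =>
    intro x hx hy _
    simp only [val, List.map_nil, List.prod_nil, mul_one, ne_eq] at hy
    exact absurd hx hy
  | cons a w ih =>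
    intro x hx hy he
    have h1 : x * M.val (a :: w) = x * M.s a * M.val w := by simp only [val, List.map_cons, List.prod_cons, mul_assoc]
    rcases he (x, a) (by simp [Monster.edges]) with h | h
    · rw [h1] at hy
      obtain ⟨e, he1, he2⟩ := ih (x * M.s a) h hy
        (fun e he' => he e (by simp [Monster.edges, he']))
      exact ⟨e, by simp [Monster.edges, he1], he2⟩
    · exact ⟨(x, a), by simp [Monster.edges], hx, h⟩

/-- (H4) -/
theorem meet (H : M.LevelFacts o)
    (hA1 : ∀ β y z, M.Mem β y → M.Mem β z → ∃ w, M.Geo β y w ∧ y * M.val w = z)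
    (hcc : M.ClosedChain) : M.Meet o := by
  classical
  intro β β' x hne hlev hx hx' hgx
  obtain ⟨p, hp, hpi⟩ := H.exists_level β
  obtain ⟨p', hp', hpi'⟩ := H.exists_level β'
  obtain ⟨L, hL, hnd, hlevL, hcard, _⟩ := f_chain H hA1 (M.level o β) p' p (by omega) hpi
  obtain ⟨w, hw, hwx⟩ := hA1 β p x hp hx
  obtain ⟨w', hw', hwp⟩ := hA1 β' x p' hx' hp'
  have hβL : β ∉ L.map Prod.fst := fun h => lt_irrefl _ (hlevL β h)
  have hβL' : β' ∉ L.map Prod.fst := fun h => by
    have := hlevL β' h
    omega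
  have hm : (((β, w) :: (β', w') :: L).map Prod.fst) = β :: β' :: L.map Prod.fst := rfl
  have hB : ∀ k (T : Finset M.Block),
      (∀ γ ∈ T, γ ∈ ((β, w) :: (β', w') :: L).map Prod.fst ∧ M.level o γ = k) → T.card ≤ 2 := by
    intro k T hT
    rw [hm] at hT
    by_cases hk : k = M.level o β
    · have h1 : T ⊆ {β, β'} := by
        intro γ hγ
        obtain ⟨h1, h2⟩ := hT γ hγ
        rw [List.mem_cons, List.mem_cons] at h1
        rw [Finset.mem_insert, Finset.mem_singleton]
        rcases h1 with h | h | h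
        · exact Or.inl h
        · exact Or.inr h
        · have := hlevL γ h
          omega
      exact (Finset.card_le_card h1).trans Finset.card_le_two
    · refine hcard k T fun γ hγ => ⟨?_, (hT γ hγ).2⟩
      obtain ⟨h1, h2⟩ := hT γ hγ
      rw [List.mem_cons, List.mem_cons] at h1
      rcases h1 with h | h | h
      · rw [h] at h2
        exact absurd h2.symm hk
      · rw [h] at h2
        exact absurd (h2.symm.trans hlev.symm) hk
      · exact h
  have hsp : M.SPath p ((β, w) :: (β', w') :: L) p := by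
    refine ⟨hw, ?_⟩
    change M.SPath (p * M.val w) ((β', w') :: L) p
    rw [hwx]
    refine ⟨hw', ?_⟩
    change M.SPath (x * M.val w') L p
    rw [hwp]
    exact hL
  have key := hcc p β w ((β', w') :: L) hsp (by
      rw [hm, List.nodup_cons, List.nodup_cons]
      refine ⟨?_, hβL', hnd⟩
      rw [List.mem_cons]
      rintro (h | h)
      · exact hne h
      · exact hβL h) (fun m h T hT => f_six H hB m h T hT)
  obtain ⟨e, he, he1, he2⟩ := f_cross (o := o) (i := M.level o β) w p hpi
    (by rw [hwx, hgx]; omega) (fun e he => by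
      have h1 := H.level_le β _ (f_mem_right (hw.1 e he))
      have h2 := H.gn_le β _ (f_mem_right (hw.1 e he))
      omega)
  obtain ⟨γ, hγ, hedge⟩ := key e he
  have hγ' : γ = β' := by
    rw [List.map_cons, List.mem_cons] at hγ
    rcases hγ with h | h
    · exact h
    · have h1 := hlevL γ h
      have h2 := H.gn_le γ _ (f_mem_right hedge)
      omega
  rw [hγ'] at hedge
  exact ⟨e.1, f_mem_left (hw.1 e he), f_mem_left hedge, he1⟩

/-- switch between two blocks along a path -/
theorem f_switch {β₁ β₂ : M.Block} : ∀ (w : List (Letter q)) (x : M.G), M.Mem β₂ x →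
    M.Mem β₁ (x * M.val w) → (∀ e ∈ M.edges x w, M.Edge β₁ e.1 e.2 ∨ M.Edge β₂ e.1 e.2) →
    ∃ v, M.Mem β₁ v ∧ M.Mem β₂ v ∧ (v = x ∨ ∃ e ∈ M.edges x w, v = e.1 * M.s e.2) := by
  intro w
  induction w with
  | nil =>
    intro x h2 h1 _
    simp [Monster.val] at h1
    exact ⟨x, h1, h2, Or.inl rfl⟩
  | cons a w ih =>
    intro x h2 h1 he
    have hv : x * M.val (a :: w) = x * M.s a * M.val w := by simp [Monster.val, mul_assoc]
    rcases he (x, a) (by simp [Monster.edges]) with h | h
    · exact ⟨x, f_mem_left h, h2, Or.inl rfl⟩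
    · rw [hv] at h1
      obtain ⟨v, hv1, hv2, hv3⟩ := ih (x * M.s a) (f_mem_right h) h1
        (fun e he' => he e (by simp [Monster.edges, he']))
      refine ⟨v, hv1, hv2, Or.inr ?_⟩
      rcases hv3 with hv3 | ⟨e, he1, he2⟩
      · exact ⟨(x, a), by simp [Monster.edges], hv3⟩
      · exact ⟨e, by simp [Monster.edges, he1], he2⟩

/-- paths in a copy are walks -/
theorem f_walk (hpos : ∀ m, Function.Injective (M.pos m)) {m : ℕ} {h : M.G} :
    ∀ (w : List (Letter q)) (v : Fin (F.n m)),
    (∀ e ∈ M.edges (h * M.pos m v) w, M.Edge (Sum.inl (m, h)) e.1 e.2) →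
    ∃ (v' : Fin (F.n m)) (W : (F.X m).Walk v v'), W.length = w.length ∧
      h * M.pos m v' = h * M.pos m v * M.val w ∧ ∀ u ∈ W.support, u = v ∨
        ∃ e ∈ M.edges (h * M.pos m v) w, h * M.pos m u = e.1 * M.s e.2 := by
  intro w
  induction w with
  | nil =>
    intro v _
    exact ⟨v, SimpleGraph.Walk.nil, rfl, by simp [Monster.val], by simp only [SimpleGraph.Walk.support_nil, List.mem_cons, List.not_mem_nil, or_false, Prod.exists, forall_eq, true_or]⟩
  | cons a w ih =>
    intro v he
    obtain ⟨y, z, hadj, hy, hz⟩ := he (h * M.pos m v, a) (by simp [Monster.edges])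
    have hvy : v = y := hpos m (mul_left_cancel hy)
    subst hvy
    have hsa : h * M.pos m v * M.s a = h * M.pos m z := by
      rw [M.pos_adj m v z hadj, mul_assoc]
      congr 2
      rw [← hz]
    have h2 := ih z (fun e he' => he e (by
      simp only [Monster.edges, List.mem_cons]
      right
      rw [hsa]
      exact he'))
    obtain ⟨v', W, hl, hv', hsup⟩ := h2
    refine ⟨v', SimpleGraph.Walk.cons hadj W, by simp [hl], ?_, ?_⟩
    · rw [hv', ← hsa]
      simp [Monster.val, mul_assoc]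
    · intro u hu
      rw [SimpleGraph.Walk.support_cons, List.mem_cons] at hu
      rcases hu with hu | hu
      · exact Or.inl hu
      · right
        rcases hsup u hu with hu' | ⟨e, he1, he2⟩
        · exact ⟨(h * M.pos m v, a), by simp [Monster.edges], by rw [hu', ← hsa]⟩
        · refine ⟨e, ?_, he2⟩
          simp only [Monster.edges, List.mem_cons]
          right
          rw [hsa]
          exact he1

/-- a potential bounds the length of walks in a copy -/
theorem f_pot {m : ℕ} {h : M.G} {f : M.G → ℤ}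
    (hf : ∀ y a, M.Edge (Sum.inl (m, h)) y a → f (y * M.s a) ≤ f y + 1) {y z : Fin (F.n m)}
    (W : (F.X m).Walk y z) : f (h * M.pos m z) ≤ f (h * M.pos m y) + W.length := by
  induction W with
  | nil => simp
  | @cons u v t hadj W ih =>
    have h1 : M.Edge (Sum.inl (m, h)) (h * M.pos m u) (F.col m u, F.col m v) :=
      ⟨u, v, hadj, rfl, rfl⟩
    have h2 := hf _ _ h1
    rw [mul_assoc, ← M.pos_adj m u v hadj] at h2
    rw [SimpleGraph.Walk.length_cons]
    push_cast
    linarith only [ih, h2]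

theorem f_pot_path {f : M.G → ℤ} : ∀ (w : List (Letter q)) (x : M.G),
    (∀ e ∈ M.edges x w, f (e.1 * M.s e.2) = f e.1 + 1) →
    f (x * M.val w) = f x + w.length := by
  intro w
  induction w with
  | nil => intro x _; simp [Monster.val]
  | cons a w ih =>
    intro x he
    have hv : x * M.val (a :: w) = x * M.s a * M.val w := by simp [Monster.val, mul_assoc]
    have h1 := he (x, a) (by simp [Monster.edges])
    have h2 := ih (x * M.s a) (fun e he' => he e (by simp [Monster.edges, he']))
    simp only at h1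
    rw [hv, h2, h1, List.length_cons]
    push_cast
    ring

/-- (H2) -/
theorem lowCopy (H : M.LevelFacts o) (hpos : ∀ m, Function.Injective (M.pos m))
    (hA1 : ∀ β y z, M.Mem β y → M.Mem β z → ∃ w, M.Geo β y w ∧ y * M.val w = z)
    (hcc : M.ClosedChain) (hInter : M.Inter) : M.LowCopy o := by
  intro m h y z hy hz
  obtain ⟨w, hw, hwz⟩ := hA1 (Sum.inl (m, h)) (h * M.pos m y) (h * M.pos m z) ⟨y, rfl⟩ ⟨z, rfl⟩
  obtain ⟨h1, h2⟩ := f_one H hA1 hcc hw hy (by rw [hwz]; exact hz)
  obtain ⟨z', W, hWl, hWz, hsup⟩ := f_walk hpos w y hw.1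
  have hzz : z' = z := by
    rw [hwz] at hWz
    exact hpos m (mul_left_cancel hWz)
  subst hzz
  refine ⟨W, ?_, ?_⟩
  · obtain ⟨f, hf1, hf2⟩ := hw.2
    have hlen := f_pot_path w (h * M.pos m y) hf2
    rw [hwz] at hlen
    rcases h1 with h1 | ⟨β₁, β₂, hβ₁, hβ₂, hne₁, hne₂, hed⟩
    · rw [hwz] at h1
      have : y = z' := hpos m (mul_left_cancel h1)
      subst this
      have : (w.length : ℤ) = 0 := by linarith only [hlen]
      have h0 : W.length = 0 := by omega
      rw [h0]
      omega
    · by_cases hw0 : w = []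
      · subst hw0
        rw [hWl]
        simp only [List.length_nil, mul_zero, zero_le]
      · obtain ⟨v, hv1, hv2, hv3⟩ := f_switch w (h * M.pos m y) hβ₂ hβ₁ hed
        have hvm : M.Mem (Sum.inl (m, h)) v := by
          rcases hv3 with hv3 | ⟨e, he, hv3⟩
          · exact ⟨y, hv3⟩
          · rw [hv3]
            exact f_mem_right (hw.1 e he)
        obtain ⟨u, rfl⟩ := hvm
        rw [hwz] at hβ₁
        obtain ⟨W₁, hW₁, _⟩ := hInter m h β₂ hne₂ y u hβ₂ hv2
        obtain ⟨W₂, hW₂, _⟩ := hInter m h β₁ hne₁ u z' hv1 hβ₁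
        have h5 := f_pot hf1 (W₁.append W₂)
        rw [SimpleGraph.Walk.length_append] at h5
        push_cast at h5
        have h6 : W.length ≤ W₁.length + W₂.length := by omega
        calc K * W.length ≤ K * (W₁.length + W₂.length) := Nat.mul_le_mul_left K h6
          _ = K * W₁.length + K * W₂.length := by ring
          _ ≤ 2 * F.g m := by omega
  · intro u hu
    rcases hsup u hu with h3 | ⟨e, he, h3⟩
    · rw [h3]; exact hy
    · rw [h3]; exact (h2 e he).1

end Monster

end Vale.Agent.P089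
end
end

section

section

/-!
# P089: the level facts (helper774)
-/

namespace Vale.Agent.P089

variable {q : ℕ} {F : Fam q} {K : ℕ}

theorem Monster.levelFacts (M : Monster F K) (hn : ∀ m, 0 < F.n m) (o : M.G) :
    M.LevelFacts o where
  gn_self := M.gn_self o
  gn_eq_zero := fun _ h => Monster.gn_eq_zero h
  level_le := fun _ _ h => Monster.level_le h
  gn_le := fun _ _ h => Monster.gn_le hn h
  exists_level := Monster.exists_level hn o
  exists_block := fun _ _ h => Monster.exists_block hn h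

end Vale.Agent.P089
end
end

section

section

/-!
# P089, block 2, part B2: two blocks of the same level (F2) (helper890)
-/

namespace Vale.Agent.P089

variable {q : ℕ} {F : Fam q} {K : ℕ} {M : Monster F K} {o : M.G}

theorem Monster.f2 (hA : M.A1) (hA4 : M.A4) (hg : M.GenFacts o) (hL : M.Ladder o) : M.F2 o := by
  classical
  intro κ κ' x y w hne hlev hx hgx hy hy' hgy hw hwy e he hor
  obtain ⟨z, hz, hgz⟩ := hg.exists_level κ'
  obtain ⟨w', hw', hw'z⟩ := hA κ' y z hy' hz
  obtain ⟨L, hLp, hnd, hlt, hcnt, _⟩ := hL (M.level o κ) z x (by rw [hgz, hlev]) hgx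
  have hchain : M.SPath x ((κ, w) :: (κ', w') :: L) x := by
    refine ⟨hw, ?_⟩
    show M.SPath (x * M.val w) ((κ', w') :: L) x
    rw [hwy]
    refine ⟨hw', ?_⟩
    show M.SPath (y * M.val w') L x
    rw [hw'z]
    exact hLp
  have hκL : κ ∉ L.map Prod.fst := fun h => lt_irrefl _ (hlt κ h)
  have hκL' : κ' ∉ L.map Prod.fst := fun h => by
    have := hlt κ' h
    rw [hlev] at this
    exact lt_irrefl _ this
  have hnodup : (κ :: ((κ', w') :: L).map Prod.fst).Nodup := by
    rw [List.map_cons, List.nodup_cons, List.nodup_cons, List.mem_cons, not_or]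
    exact ⟨⟨hne, hκL⟩, hκL', hnd⟩
  have hcount : ∀ l, ((κ :: ((κ', w') :: L).map Prod.fst).filter
      (fun b => decide (M.level o b = l))).length ≤ 2 := by
    intro l
    rw [List.map_cons]
    by_cases hl : M.level o κ = l
    · have h0 : (L.map Prod.fst).filter (fun b => decide (M.level o b = l)) = [] := by
        rw [List.filter_eq_nil_iff]
        intro β hβ
        have := hlt β hβ
        rw [decide_eq_true_eq]
        omega
      rw [List.filter_cons_of_pos (by simpa using hl),
        List.filter_cons_of_pos (by simpa using (hlev ▸ hl)), h0]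
      simp
    · rw [List.filter_cons_of_neg (by simpa using hl),
        List.filter_cons_of_neg (by simpa using (fun h => hl (hlev.trans h)))]
      exact hcnt l
  obtain ⟨β', hβ', hedge⟩ := hA4 x κ w ((κ', w') :: L) hchain hnodup
    (fun m h => Monster.touch_count hg _ hcount m h) e he
  rw [List.map_cons, List.mem_cons] at hβ'
  rcases hβ' with rfl | hβ'
  · exact hedge
  · exfalso
    have h1 := hlt β' hβ'
    have h2 := M.mem_of_edge hedge
    have h3 := hg.le_level β' _ h2.1
    have h4 := hg.le_level β' _ h2.2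
    omega

end Vale.Agent.P089
end
end

section

section

/-!
# P089, block CONF: relations, minimal weight, dual counting
-/

namespace Vale.Agent.P089.Conf

open Finset

variable {q : ℕ} {F : Fam q} {K : ℕ} {k : ℕ}

/-! ### The pairing -/

theorem dotA_zero_left (b : Alph k q) : dotA 0 b = 0 := by simp only [dotA, Prod.fst_zero, Pi.zero_apply, zero_mul, sum_const_zero, Prod.snd_zero, add_zero]

theorem dotA_zero_right (a : Alph k q) : dotA a 0 = 0 := by simp only [dotA, Prod.fst_zero, Pi.zero_apply, mul_zero, sum_const_zero, Prod.snd_zero, add_zero]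

theorem dotA_add_left (a a' b : Alph k q) : dotA (a + a') b = dotA a b + dotA a' b := by
  simp only [dotA, Prod.fst_add, Prod.snd_add, Pi.add_apply, add_mul, Finset.sum_add_distrib]
  ring

theorem dotA_smul_left (c : ZMod 2) (a b : Alph k q) : dotA (c • a) b = c * dotA a b := by
  simp only [dotA, Prod.smul_fst, Prod.smul_snd, Pi.smul_apply, smul_eq_mul, mul_add,
    Finset.mul_sum, mul_assoc]

theorem dotA_single_fst (a : Alph k q) (i : Fin k) : dotA a (Pi.single i 1, 0) = a.1 i := by
  simp only [dotA, Pi.single_apply, mul_ite, mul_one, mul_zero, sum_ite_eq', mem_univ, ↓reduceIte, Pi.zero_apply, sum_const_zero, add_zero]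

theorem dotA_single_snd (a : Alph k q) (i : Fin q) : dotA a (0, Pi.single i 1) = a.2 i := by
  simp only [dotA, Pi.zero_apply, mul_zero, sum_const_zero, Pi.single_apply, mul_ite, mul_one, sum_ite_eq', mem_univ, ↓reduceIte, zero_add]

theorem dotA_nondeg {a : Alph k q} (h : ∀ b, dotA a b = 0) : a = 0 := by
  apply Prod.ext
  · funext i
    rw [← dotA_single_fst a i, h]; rfl
  · funext i
    rw [← dotA_single_snd a i, h]; rfl

/-! ### Dual codewords -/

/-- the dual code. -/
def dual {n : ℕ} (C : Submodule (ZMod 2) (Fin n → Alph k q)) :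
    Submodule (ZMod 2) (Fin n → Alph k q) where
  carrier := {ψ | ∀ v ∈ C, ∑ y, dotA (ψ y) (v y) = 0}
  zero_mem' := by
    intro v _
    simp [dotA_zero_left]
  add_mem' := by
    intro a b ha hb v hv
    simp only [Pi.add_apply, dotA_add_left, Finset.sum_add_distrib, ha v hv, hb v hv, add_zero]
  smul_mem' := by
    intro c a ha v hv
    simp only [Pi.smul_apply, dotA_smul_left, ← Finset.mul_sum, ha v hv, mul_zero]

open Classical in
/-- minimal weight of dual codewords. -/
theorem weight {n d : ℕ} {C : Submodule (ZMod 2) (Fin n → Alph k q)} (hC : CodeOnto d C)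
    {ψ : Fin n → Alph k q} (hψ : ψ ∈ dual C) (h0 : ψ ≠ 0) :
    n < d * (Finset.univ.filter fun y => ψ y ≠ 0).card := by
  by_contra hcon
  push Not at hcon
  apply h0
  funext y
  by_contra hy
  apply hy
  apply dotA_nondeg
  intro b
  obtain ⟨v, hv, hvf⟩ := hC _ hcon (Pi.single y b)
  have h1 := hψ v hv
  rw [Finset.sum_eq_single y] at h1
  · rw [hvf y (by rw [Finset.mem_filter]; exact ⟨Finset.mem_univ _, hy⟩)] at h1
    rwa [Pi.single_eq_same] at h1
  · intro z _ hz
    by_cases hz0 : ψ z = 0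
    · rw [hz0, dotA_zero_left]
    · rw [hvf z (by rw [Finset.mem_filter]; exact ⟨Finset.mem_univ _, hz0⟩),
        Pi.single_eq_of_ne hz, dotA_zero_right]
  · intro h; exact absurd (Finset.mem_univ y) h

/-! ### Placement -/

theorem place_add (M : Monster F K) (m : ℕ) (h : M.G) (ψ ψ' : Fin (F.n m) → Alph k q) :
    M.place m h (ψ + ψ') = M.place m h ψ + M.place m h ψ' := by
  simp only [Monster.place, Pi.add_apply, Finsupp.single_add, Finset.sum_add_distrib]

theorem place_smul (M : Monster F K) (m : ℕ) (h : M.G) (c : ZMod 2)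
    (ψ : Fin (F.n m) → Alph k q) : M.place m h (c • ψ) = c • M.place m h ψ := by
  simp only [Monster.place, Pi.smul_apply, Finset.smul_sum, Finsupp.smul_single]

theorem place_zero (M : Monster F K) (m : ℕ) (h : M.G) :
    M.place m h (0 : Fin (F.n m) → Alph k q) = 0 := by
  simp only [Monster.place, Pi.zero_apply, Finsupp.single_zero, sum_const_zero]

open Classical in
theorem place_apply (M : Monster F K) (m : ℕ) (h : M.G) (ψ : Fin (F.n m) → Alph k q) (x : M.G) :
    M.place m h ψ x = ∑ y, if h * M.pos m y = x then ψ y else 0 := by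
  simp only [Monster.place, Finsupp.coe_finsetSum, Finset.sum_apply]
  refine Finset.sum_congr rfl fun y _ => ?_
  rw [Finsupp.single_apply]

theorem place_apply_pos (M : Monster F K) (hinj : ∀ m, Function.Injective (M.pos m)) (m : ℕ)
    (h : M.G) (ψ : Fin (F.n m) → Alph k q) (y : Fin (F.n m)) :
    M.place m h ψ (h * M.pos m y) = ψ y := by
  classical
  rw [place_apply, Finset.sum_eq_single y]
  · rw [if_pos rfl]
  · intro z _ hz
    rw [if_neg]
    intro hh
    exact hz (hinj m (mul_left_cancel hh))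
  · intro hh; exact absurd (Finset.mem_univ y) hh

theorem place_ne_zero (M : Monster F K) {m : ℕ} {h : M.G} {ψ : Fin (F.n m) → Alph k q} {x : M.G}
    (hx : M.place m h ψ x ≠ 0) : ∃ y, x = h * M.pos m y := by
  classical
  rw [place_apply] at hx
  obtain ⟨y, _, hy⟩ := Finset.exists_ne_zero_of_sum_ne_zero hx
  refine ⟨y, ?_⟩
  by_contra hne
  exact hy (if_neg fun hh => hne hh.symm)

theorem place_mem_rel (M : Monster F K) (C : Codes k F) (m : ℕ) (h : M.G)
    {ψ : Fin (F.n m) → Alph k q} (hψ : ψ ∈ dual (C m)) : M.place m h ψ ∈ M.Rel C :=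
  Submodule.subset_span ⟨m, h, ψ, hψ, rfl⟩

/-- every relation is a finite sum of placed dual codewords over distinct copies. -/
theorem rel_repr (M : Monster F K) (C : Codes k F) {φ : M.G →₀ Alph k q} (hφ : φ ∈ M.Rel C) :
    ∃ (E : Finset (ℕ × M.G)) (ψ : ∀ κ : ℕ × M.G, Fin (F.n κ.1) → Alph k q),
      (∀ κ, κ ∉ E → ψ κ = 0) ∧ (∀ κ, ψ κ ∈ dual (C κ.1)) ∧
      φ = ∑ κ ∈ E, M.place κ.1 κ.2 (ψ κ) := by
  classical
  unfold Monster.Rel at hφ
  induction hφ using Submodule.span_induction with
  | mem φ hφ =>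
    obtain ⟨m, h, ψ, hψ, rfl⟩ := hφ
    refine ⟨{(m, h)}, fun κ => if hκ : κ = (m, h) then hκ ▸ ψ else 0, ?_, ?_, ?_⟩
    · intro κ hκ
      rw [Finset.mem_singleton] at hκ
      exact dif_neg hκ
    · intro κ
      by_cases hκ : κ = (m, h)
      · subst hκ
        simp only [dite_true]
        exact hψ
      · simp only [dif_neg hκ]
        exact Submodule.zero_mem _
    · rw [Finset.sum_singleton]
      simp
  | zero => exact ⟨∅, fun _ => 0, fun _ _ => rfl, fun _ => Submodule.zero_mem _, by simp⟩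
  | add a b _ _ iha ihb =>
    obtain ⟨E1, ψ1, h1, h2, h3⟩ := iha
    obtain ⟨E2, ψ2, g1, g2, g3⟩ := ihb
    refine ⟨E1 ∪ E2, fun κ => ψ1 κ + ψ2 κ, ?_, ?_, ?_⟩
    · intro κ hκ
      rw [Finset.mem_union, not_or] at hκ
      simp only [h1 κ hκ.1, g1 κ hκ.2, add_zero]
    · intro κ
      exact Submodule.add_mem _ (h2 κ) (g2 κ)
    · simp only [place_add, Finset.sum_add_distrib]
      rw [h3, g3]
      congr 1
      · refine Finset.sum_subset Finset.subset_union_left ?_
        intro κ _ hκ
        rw [h1 κ hκ, place_zero]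
      · refine Finset.sum_subset Finset.subset_union_right ?_
        intro κ _ hκ
        rw [g1 κ hκ, place_zero]
  | smul c a _ iha =>
    obtain ⟨E1, ψ1, h1, h2, h3⟩ := iha
    refine ⟨E1, fun κ => c • ψ1 κ, ?_, ?_, ?_⟩
    · intro κ hκ
      simp only [h1 κ hκ, smul_zero]
    · intro κ
      exact Submodule.smul_mem _ _ (h2 κ)
    · rw [h3, Finset.smul_sum]
      exact Finset.sum_congr rfl fun κ _ => by rw [place_smul]

/-- every relation is a finite sum of nonzero placed dual codewords over distinct copies. -/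
theorem rel_repr' (M : Monster F K) (C : Codes k F) {φ : M.G →₀ Alph k q} (hφ : φ ∈ M.Rel C) :
    ∃ (E : Finset (ℕ × M.G)) (ψ : ∀ κ : ℕ × M.G, Fin (F.n κ.1) → Alph k q),
      (∀ κ ∈ E, ψ κ ≠ 0) ∧ (∀ κ, ψ κ ∈ dual (C κ.1)) ∧
      φ = ∑ κ ∈ E, M.place κ.1 κ.2 (ψ κ) := by
  classical
  obtain ⟨E, ψ, _, h2, h3⟩ := rel_repr M C hφ
  refine ⟨E.filter (fun κ => ψ κ ≠ 0), ψ, ?_, h2, ?_⟩
  · intro κ hκ
    exact (Finset.mem_filter.1 hκ).2
  · rw [h3, Finset.sum_filter]
    refine Finset.sum_congr rfl fun κ _ => ?_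
    by_cases h : ψ κ = 0
    · rw [if_neg (by simpa using h), h, place_zero]
    · rw [if_pos h]

/-! ### Early parts -/

section Order

variable {M : Monster F K} {κ₀ : ℕ × M.G} {lt : M.Block → M.Block → Prop}

/-- the order restricted to copies. -/
def clt (M : Monster F K) (lt : M.Block → M.Block → Prop) (a b : ℕ × M.G) : Prop :=
  lt (Sum.inl a) (Sum.inl b)

theorem clt_tri (h : M.GoodOrder κ₀ lt) (a b : ℕ × M.G) :
    clt M lt a b ∨ a = b ∨ clt M lt b a := by
  have := h.wo
  rcases trichotomous_of lt (Sum.inl a) (Sum.inl b) with h1 | h1 | h1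
  · exact Or.inl h1
  · exact Or.inr (Or.inl (Sum.inl_injective h1))
  · exact Or.inr (Or.inr h1)

theorem clt_irrefl (h : M.GoodOrder κ₀ lt) (a : ℕ × M.G) : ¬ clt M lt a a := by
  have := h.wo
  exact irrefl_of lt _

theorem clt_trans (h : M.GoodOrder κ₀ lt) (a b c : ℕ × M.G) (h1 : clt M lt a b)
    (h2 : clt M lt b c) : clt M lt a c := by
  have := h.wo
  exact trans_of lt h1 h2

theorem early_of_clt {a b : ℕ × M.G} {y : Fin (F.n a.1)} {y' : Fin (F.n b.1)}
    (h : clt M lt b a) (he : a.2 * M.pos a.1 y = b.2 * M.pos b.1 y') :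
    M.Early lt a.1 a.2 y :=
  ⟨Sum.inl b, h, y', he⟩

open Classical in
theorem early_card (h : M.GoodOrder κ₀ lt) {d : ℕ} (hs : F.SmallSets K d) (a : ℕ × M.G) :
    d * (Finset.univ.filter fun y => M.Early lt a.1 a.2 y).card ≤ F.n a.1 := by
  apply hs
  intro y hy z hz
  obtain ⟨w, hw, _⟩ := h.small a.1 a.2 y z (Finset.mem_filter.1 hy).2 (Finset.mem_filter.1 hz).2
  exact ⟨w, hw⟩

/-- **T2.** A relation placed on one copy comes from a dual codeword of that copy. -/
theorem dual_of_place_mem_rel (hinj : ∀ m, Function.Injective (M.pos m))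
    (h : M.GoodOrder κ₀ lt) {d : ℕ} {C : Codes k F} (hs : F.SmallSets K (8 * d))
    (hC : ∀ m, CodeOnto d (C m)) {ψ₀ : Fin (F.n κ₀.1) → Alph k q}
    (hψ₀ : M.place κ₀.1 κ₀.2 ψ₀ ∈ M.Rel C) : ψ₀ ∈ dual (C κ₀.1) := by
  classical
  obtain ⟨E, ψ, hne, hd, hsum⟩ := rel_repr' M C hψ₀
  have honly := only_first (lt := clt M lt) (N := fun κ : ℕ × M.G => Fin (F.n κ.1))
    (pos := fun κ y => κ.2 * M.pos κ.1 y) (Early := fun κ y => M.Early lt κ.1 κ.2 y)
    (u := ψ) (w := fun x => M.place κ₀.1 κ₀.2 ψ₀ x) (F := E) (clt_tri h) (clt_irrefl h)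
    (clt_trans h) (fun κ => fun y z hyz => hinj κ.1 (mul_left_cancel hyz))
    (fun b b' y y' hlt he => early_of_clt hlt he)
    (by
      intro x
      simp only [hsum, Finsupp.coe_finsetSum, Finset.sum_apply]
      exact Finset.sum_congr rfl fun κ _ => place_apply M κ.1 κ.2 (ψ κ) x)
    κ₀ (fun b hb => h.first (Sum.inl b) (fun hh => hb (Sum.inl_injective hh)))
    (fun x hx => place_ne_zero M hx)
    (by
      intro κ hκ _
      by_contra hcon
      push Not at hcon
      have h1 := weight (hC κ.1) (hd κ) (hne κ hκ)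
      have h2 := early_card h hs κ
      have h3 : (Finset.univ.filter fun y => ψ κ y ≠ 0).card ≤
          (Finset.univ.filter fun y => M.Early lt κ.1 κ.2 y).card := by
        apply Finset.card_le_card
        intro y hy
        rw [Finset.mem_filter] at hy ⊢
        exact ⟨hy.1, hcon y hy.2⟩
      have h4 : d * (Finset.univ.filter fun y => ψ κ y ≠ 0).card ≤
          8 * d * (Finset.univ.filter fun y => M.Early lt κ.1 κ.2 y).card := by
        calc _ ≤ d * (Finset.univ.filter fun y => M.Early lt κ.1 κ.2 y).card :=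
              Nat.mul_le_mul_left _ h3
          _ ≤ _ := by
              apply Nat.mul_le_mul_right
              omega
      omega)
  have h5 : ψ₀ = ψ κ₀ ∨ ψ₀ = 0 := by
    by_cases hmem : κ₀ ∈ E
    · left
      have hE : E = {κ₀} := by
        ext κ
        rw [Finset.mem_singleton]
        exact ⟨honly κ, fun hh => hh ▸ hmem⟩
      rw [hE, Finset.sum_singleton] at hsum
      funext y
      have := congrArg (fun f => f (κ₀.2 * M.pos κ₀.1 y)) hsum
      simp only [place_apply_pos M hinj] at this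
      exact this
    · right
      have hE : E = ∅ := by
        rw [Finset.eq_empty_iff_forall_notMem]
        intro κ hκ
        exact hmem (honly κ hκ ▸ hκ)
      rw [hE, Finset.sum_empty] at hsum
      funext y
      have := congrArg (fun f => f (κ₀.2 * M.pos κ₀.1 y)) hsum
      simp only [place_apply_pos M hinj] at this
      exact this
  rcases h5 with h5 | h5
  · rw [h5]; exact hd κ₀
  · rw [h5]; exact Submodule.zero_mem _

end Order

/-! ### T3: the support bound -/

theorem supportStatement : SupportStatement := by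
  classical
  intro q F K M k d C' C m₁ hd hinj hord hs hn hC' hle hCeq φ hφ hφC
  obtain ⟨lt, h⟩ := hord (m₁, 1)
  obtain ⟨E, ψ, hne, hdual, hsum⟩ := rel_repr' M C' hφ
  -- some copy of level `m₁` occurs
  have hex : ∃ κ ∈ E, κ.1 = m₁ := by
    by_contra hcon
    push Not at hcon
    apply hφC
    rw [hsum]
    refine Submodule.sum_mem _ fun κ hκ => place_mem_rel M C κ.1 κ.2 ?_
    have h1 := hCeq κ.1 (hcon κ hκ)
    have h2 := hdual κ
    rw [h1] at h2
    exact h2
  obtain ⟨κ₁, hκ₁, hm₁⟩ := hex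
  have key := support_ge (lt := clt M lt) (N := fun κ : ℕ × M.G => Fin (F.n κ.1))
    (pos := fun κ y => κ.2 * M.pos κ.1 y) (Early := fun κ y => M.Early lt κ.1 κ.2 y)
    (u := ψ) (w := fun x => φ x) (F := E) (clt_tri h)
    (fun κ => fun y z hyz => hinj κ.1 (mul_left_cancel hyz))
    (fun b b' y y' hlt he => early_of_clt hlt he)
    (by
      intro x
      simp only [hsum, Finsupp.coe_finsetSum, Finset.sum_apply]
      exact Finset.sum_congr rfl fun κ _ => place_apply M κ.1 κ.2 (ψ κ) x)
    φ.support (fun x hx => Finsupp.mem_support_iff.2 hx)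
    (fun κ => (Finset.univ.filter fun y => ψ κ y ≠ 0).card -
      2 * (Finset.univ.filter fun y => M.Early lt κ.1 κ.2 y).card)
    (by
      intro κ hκ
      have h1 := weight (hC' κ.1) (hdual κ) (hne κ hκ)
      have h2 := early_card h hs κ
      have h3 : 2 * (Finset.univ.filter fun y => M.Early lt κ.1 κ.2 y).card ≤
          (Finset.univ.filter fun y => ψ κ y ≠ 0).card := by
        apply Nat.le_of_mul_le_mul_left _ hd
        linarith
      show 2 * _ + (_ - 2 * _) ≤ _
      omega)
  have h4 : (Finset.univ.filter fun y => ψ κ₁ y ≠ 0).card -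
      2 * (Finset.univ.filter fun y => M.Early lt κ₁.1 κ₁.2 y).card ≤ φ.support.card :=
    (Finset.single_le_sum (f := fun κ => (Finset.univ.filter fun y => ψ κ y ≠ 0).card -
      2 * (Finset.univ.filter fun y => M.Early lt κ.1 κ.2 y).card)
      (fun _ _ => Nat.zero_le _) hκ₁).trans key
  have h1 := weight (hC' κ₁.1) (hdual κ₁) (hne κ₁ hκ₁)
  have h2 := early_card h hs κ₁
  rw [← hm₁]
  set A := (Finset.univ.filter fun y => ψ κ₁ y ≠ 0).card
  set B := (Finset.univ.filter fun y => M.Early lt κ₁.1 κ₁.2 y).card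
  have h5 : A ≤ φ.support.card + 2 * B := by omega
  have h6 : d * A ≤ d * (φ.support.card + 2 * B) := Nat.mul_le_mul_left _ h5
  nlinarith only [h1, h2, h6]

/-! ### RestrictStatement -/

/-- every functional on the space of words is given by the pairing. -/
theorem exists_functional {n : ℕ} (ℓ : (Fin n → Alph k q) →ₗ[ZMod 2] ZMod 2) :
    ∃ ψ : Fin n → Alph k q, ∀ v, ℓ v = ∑ y, dotA (ψ y) (v y) := by
  classical
  refine ⟨fun y => (fun i => ℓ (Pi.single y (Pi.single i 1, 0)),
    fun i => ℓ (Pi.single y (0, Pi.single i 1))), ?_⟩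
  intro v
  have hv : v = ∑ y, (∑ i, (v y).1 i • (Pi.single y ((Pi.single i 1, 0) : Alph k q) :
      Fin n → Alph k q) + ∑ i, (v y).2 i • (Pi.single y ((0, Pi.single i 1) : Alph k q) :
      Fin n → Alph k q)) := by
    funext z
    rw [Finset.sum_apply, Finset.sum_eq_single z]
    · apply Prod.ext
      · funext j
        simp only [Pi.add_apply, Finset.sum_apply, Pi.smul_apply, Pi.single_eq_same, Prod.smul_mk, smul_zero, Prod.fst_add, Prod.fst_sum, sum_const_zero, Pi.single_apply, smul_eq_mul, mul_ite, mul_one, mul_zero, sum_ite_eq, mem_univ, ↓reduceIte, Pi.zero_apply, add_zero]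
      · funext j
        simp only [Pi.add_apply, Finset.sum_apply, Pi.smul_apply, Pi.single_eq_same, Prod.smul_mk, smul_zero, Prod.snd_add, Prod.snd_sum, sum_const_zero, Pi.zero_apply, Pi.single_apply, smul_eq_mul, mul_ite, mul_one, mul_zero, sum_ite_eq, mem_univ, ↓reduceIte, zero_add]
    · intro y _ hy
      simp only [Pi.add_apply, Finset.sum_apply, Pi.smul_apply, Pi.single_eq_of_ne (Ne.symm hy), smul_zero, sum_const_zero, add_zero]
    · intro h; exact absurd (Finset.mem_univ z) h
  conv_lhs => rw [hv]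
  simp only [map_sum, map_add, map_smul, smul_eq_mul, dotA]
  refine Finset.sum_congr rfl fun y _ => ?_
  congr 1 <;> exact Finset.sum_congr rfl fun i _ => mul_comm _ _

/-- double dual. -/
theorem mem_of_dual {n : ℕ} (C : Submodule (ZMod 2) (Fin n → Alph k q)) (v : Fin n → Alph k q)
    (h : ∀ ψ ∈ dual C, ∑ y, dotA (ψ y) (v y) = 0) : v ∈ C := by
  by_contra hv
  obtain ⟨ℓ, hℓ, hC⟩ := Submodule.exists_le_ker_of_notMem hv
  obtain ⟨ψ, hψ⟩ := exists_functional ℓ
  apply hℓ
  rw [hψ]
  apply h
  intro w hw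
  rw [← hψ]
  exact hC hw

/-- the pairing as a linear map in the finitely supported argument. -/
noncomputable def pairL {G : Type} (v : G → Alph k q) : (G →₀ Alph k q) →ₗ[ZMod 2] ZMod 2 :=
  Finsupp.lsum (ZMod 2) fun x =>
    { toFun := fun a => dotA a (v x)
      map_add' := fun a b => dotA_add_left a b (v x)
      map_smul' := fun c a => dotA_smul_left c a (v x) }

theorem pairL_apply {G : Type} (v : G → Alph k q) (φ : G →₀ Alph k q) :
    pairL v φ = pairG φ v := rfl

theorem pairG_place (M : Monster F K) (m : ℕ) (h : M.G) (ψ : Fin (F.n m) → Alph k q)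
    (v : M.G → Alph k q) :
    pairG (M.place m h ψ) v = ∑ y, dotA (ψ y) (v (h * M.pos m y)) := by
  rw [← pairL_apply]
  unfold Monster.place
  rw [map_sum]
  refine Finset.sum_congr rfl fun y _ => ?_
  unfold pairL
  rw [Finsupp.lsum_single]
  rfl

/-- every functional on finitely supported functions is given by a configuration. -/
theorem exists_config {G : Type} (ℓ : (G →₀ Alph k q) →ₗ[ZMod 2] ZMod 2) :
    ∃ v : G → Alph k q, ∀ φ, ℓ φ = pairG φ v := by
  classical
  refine ⟨fun x => (fun i => ℓ (Finsupp.single x (Pi.single i 1, 0)),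
    fun i => ℓ (Finsupp.single x (0, Pi.single i 1))), ?_⟩
  intro φ
  rw [← pairL_apply]
  revert φ
  rw [← LinearMap.ext_iff]
  apply Finsupp.lhom_ext
  intro x a
  unfold pairL
  rw [Finsupp.lsum_single]
  change ℓ (Finsupp.single x a) = dotA a _
  have ha : Finsupp.single x a = (∑ i, a.1 i • Finsupp.single x ((Pi.single i 1, 0) : Alph k q)) +
      ∑ i, a.2 i • Finsupp.single x ((0, Pi.single i 1) : Alph k q) := by
    simp only [Finsupp.smul_single, ← Finsupp.single_finsetSum, ← Finsupp.single_add]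
    congr 1
    apply Prod.ext
    · funext j
      simp only [Prod.smul_mk, smul_zero, Prod.fst_add, Prod.fst_sum, sum_const_zero, Pi.add_apply, Finset.sum_apply, Pi.smul_apply, Pi.single_apply, smul_eq_mul, mul_ite, mul_one, mul_zero, sum_ite_eq, mem_univ, ↓reduceIte, Pi.zero_apply, add_zero]
    · funext j
      simp only [Prod.smul_mk, smul_zero, Prod.snd_add, Prod.snd_sum, sum_const_zero, Pi.add_apply, Pi.zero_apply, Finset.sum_apply, Pi.smul_apply, Pi.single_apply, smul_eq_mul, mul_ite, mul_one, mul_zero, sum_ite_eq, mem_univ, ↓reduceIte, zero_add]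
  rw [ha]
  simp only [map_sum, map_add, map_smul, smul_eq_mul, dotA]

theorem restrictStatement : RestrictStatement := by
  classical
  intro q F K M k d C hd hinj hord hs hn hC
  refine ⟨?_, ?_⟩
  · intro v hv m h
    apply mem_of_dual
    intro ψ hψ
    have h1 := hv _ (place_mem_rel M C m h hψ)
    rw [pairG_place] at h1
    exact h1
  · intro m h u hu
    obtain ⟨lt, hlt⟩ := hord (m, h)
    -- the functional `ψ ↦ ⟨ψ, u⟩` on placed words
    let P : (Fin (F.n m) → Alph k q) →ₗ[ZMod 2] (M.G →₀ Alph k q) :=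
      { toFun := M.place m h
        map_add' := place_add M m h
        map_smul' := place_smul M m h }
    let π := (M.Rel C).mkQ
    let Q : (Fin (F.n m) → Alph k q) →ₗ[ZMod 2] ((M.G →₀ Alph k q) ⧸ M.Rel C) := π.comp P
    let U : (Fin (F.n m) → Alph k q) →ₗ[ZMod 2] ZMod 2 :=
      { toFun := fun ψ => ∑ y, dotA (ψ y) (u y)
        map_add' := by
          intro a b
          simp only [Pi.add_apply, dotA_add_left, Finset.sum_add_distrib]
        map_smul' := by
          intro c a
          simp only [Pi.smul_apply, dotA_smul_left, ← Finset.mul_sum, RingHom.id_apply,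
            smul_eq_mul] }
    have hker : LinearMap.ker Q ≤ LinearMap.ker U := by
      intro ψ hψ
      rw [LinearMap.mem_ker] at hψ ⊢
      have h1 : M.place m h ψ ∈ M.Rel C := (Submodule.Quotient.mk_eq_zero _).1 hψ
      exact dual_of_place_mem_rel (κ₀ := (m, h)) hinj hlt hs hC h1 u hu
    obtain ⟨ℓ, hℓ⟩ : ∃ ℓ : ((M.G →₀ Alph k q) ⧸ M.Rel C) →ₗ[ZMod 2] ZMod 2, ℓ.comp Q = U := by
      have hmem : U ∈ LinearMap.range (LinearMap.dualMap Q) := by
        rw [LinearMap.range_dualMap_eq_dualAnnihilator_ker, Submodule.mem_dualAnnihilator]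
        intro w hw
        exact hker hw
      obtain ⟨ℓ, hℓ⟩ := hmem
      exact ⟨ℓ, hℓ⟩
    obtain ⟨v, hv⟩ := exists_config (ℓ.comp π)
    refine ⟨v, ?_, ?_⟩
    · intro φ hφ
      rw [← hv]
      have : π φ = 0 := (Submodule.Quotient.mk_eq_zero _).2 hφ
      rw [LinearMap.comp_apply, this, map_zero]
    · have h2 : ∀ ψ : Fin (F.n m) → Alph k q,
          ∑ y, dotA (ψ y) (v (h * M.pos m y)) = ∑ y, dotA (ψ y) (u y) := by
        intro ψ
        rw [← pairG_place, ← hv]
        have := congrArg (fun f => f ψ) hℓ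
        exact this
      intro y
      have h3 : ∀ a : Alph k q, dotA a (v (h * M.pos m y)) = dotA a (u y) := by
        intro a
        have := h2 (Pi.single y a)
        rw [Finset.sum_eq_single y, Finset.sum_eq_single y] at this
        · simpa using this
        · intro z _ hz
          rw [Pi.single_eq_of_ne hz, dotA_zero_left]
        · intro hh; exact absurd (Finset.mem_univ y) hh
        · intro z _ hz
          rw [Pi.single_eq_of_ne hz, dotA_zero_left]
        · intro hh; exact absurd (Finset.mem_univ y) hh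
      apply Prod.ext
      · funext i
        have := h3 (Pi.single i 1, 0)
        simpa only [dotA, Pi.single_apply, ite_mul, one_mul, zero_mul, sum_ite_eq', mem_univ, ↓reduceIte,     Pi.zero_apply, sum_const_zero, add_zero] using this
      · funext i
        have := h3 (0, Pi.single i 1)
        simpa only [dotA, Pi.zero_apply, zero_mul, sum_const_zero, Pi.single_apply, ite_mul, one_mul, sum_ite_eq',     mem_univ, ↓reduceIte, zero_add] using this

end Vale.Agent.P089.Conf
end
end

section

section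

/-!
P089, block H: `GapStatement`.
-/

open scoped InnerProductSpace

namespace Vale.Agent.P089

open Gap

section

variable {q : ℕ} {F : Fam q} {K : ℕ} (M : Monster F K) (t : M.G → Decl q)

/-- the action of a letter. -/
def Monster.mv (a : Letter q) : Equiv.Perm M.G := Equiv.mulRight (M.s a)

theorem Monster.mv_apply (a : Letter q) (x : M.G) : M.mv a x = x * M.s a := rfl

open Classical in
/-- the vertices of a copy. -/
noncomputable def Monster.vs (m : ℕ) (h : M.G) : Finset M.G :=
  Finset.univ.image fun y : Fin (F.n m) => h * M.pos m y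

theorem Monster.mem_vs (m : ℕ) (h x : M.G) : x ∈ M.vs m h ↔ ∃ y, h * M.pos m y = x := by
  simp only [vs, Finset.mem_image, Finset.mem_univ, true_and]

theorem Monster.card_vs (hinj : ∀ m, Function.Injective (M.pos m)) (m : ℕ) (h : M.G) :
    (M.vs m h).card = F.n m := by
  classical
  rw [Monster.vs, Finset.card_image_of_injective _ (fun a b hab => hinj m (mul_left_cancel hab)),
    Finset.card_univ, Fintype.card_fin]

/-- the vertices of the perfect copies. -/
def Monster.PerfSet : Set M.G := {x | ∃ m h y, h * M.pos m y = x ∧ M.Perfect t m h}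

variable {M t}

theorem Monster.Perfect.pres {m : ℕ} {h : M.G} (hp : M.Perfect t m h) {y z : Fin (F.n m)}
    (hyz : (F.X m).Adj y z) : M.Pres t (h * M.pos m y) (F.col m y, F.col m z) := by
  refine ⟨⟨_, hp y, ?_⟩, ?_⟩
  · exact Finset.mem_image.mpr ⟨z, by simpa only [Finset.mem_filter, Finset.mem_univ, true_and] using hyz, rfl⟩
  · have h1 : h * M.pos m y * M.s (F.col m y, F.col m z) = h * M.pos m z := by
      rw [M.pos_adj m y z hyz, mul_assoc]
    rw [h1]
    exact ⟨_, hp z, Finset.mem_image.mpr ⟨y, by simpa only [Finset.mem_filter, Finset.mem_univ, true_and] using hyz.symm, rfl⟩⟩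

theorem Monster.Perfect.of_pres {m : ℕ} {h : M.G} (hp : M.Perfect t m h) {y : Fin (F.n m)}
    {a : Letter q} (ha : M.Pres t (h * M.pos m y) a) :
    ∃ z, (F.X m).Adj y z ∧ a = (F.col m y, F.col m z) ∧
      h * M.pos m y * M.s a = h * M.pos m z := by
  classical
  obtain ⟨⟨B, h1, h2⟩, _⟩ := ha
  rw [hp y, Fam.decl, Option.some.injEq, Prod.mk.injEq] at h1
  obtain ⟨h3, h4⟩ := h1
  rw [← h4, Finset.mem_image] at h2
  obtain ⟨z, hz, hz2⟩ := h2
  have hz' : (F.X m).Adj y z := by simpa only [Finset.mem_filter, Finset.mem_univ, true_and] using hz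
  have ha : a = (F.col m y, F.col m z) := Prod.ext h3.symm hz2.symm
  refine ⟨z, hz', ha, ?_⟩
  rw [ha, M.pos_adj m y z hz', mul_assoc]

theorem Monster.Perfect.sub {D c e : ℕ} (hE : F.Expander D c e) {m m' : ℕ} {h h' : M.G}
    (hp : M.Perfect t m h) (hp' : M.Perfect t m' h') {y : Fin (F.n m)} {y' : Fin (F.n m')}
    (heq : h * M.pos m y = h' * M.pos m' y') (z : Fin (F.n m)) :
    ∃ z', h * M.pos m z = h' * M.pos m' z' := by
  obtain ⟨w⟩ := (hE.conn m).preconnected y z
  induction w generalizing y' with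
  | nil => exact ⟨y', heq⟩
  | cons hadj w ih =>
    rename_i u v w'
    have h1 := hp.pres hadj
    have h2 : h * M.pos m u * M.s (F.col m u, F.col m v) = h * M.pos m v := by
      rw [M.pos_adj m u v hadj, mul_assoc]
    rw [heq] at h1 h2
    obtain ⟨z', _, _, h3⟩ := hp'.of_pres h1
    exact ih (h2.symm.trans h3)

theorem Monster.vs_eq {D c e : ℕ} (hE : F.Expander D c e) {m m' : ℕ} {h h' : M.G}
    (hp : M.Perfect t m h) (hp' : M.Perfect t m' h') {x : M.G} (hx : x ∈ M.vs m h)
    (hx' : x ∈ M.vs m' h') : M.vs m h = M.vs m' h' := by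
  obtain ⟨y, hy⟩ := (M.mem_vs m h x).mp hx
  obtain ⟨y', hy'⟩ := (M.mem_vs m' h' x).mp hx'
  apply Finset.Subset.antisymm
  · intro z hz
    obtain ⟨w, hw⟩ := (M.mem_vs m h z).mp hz
    obtain ⟨w', hw'⟩ := hp.sub hE hp' (hy.trans hy'.symm) w
    exact (M.mem_vs m' h' z).mpr ⟨w', by rw [← hw', hw]⟩
  · intro z hz
    obtain ⟨w, hw⟩ := (M.mem_vs m' h' z).mp hz
    obtain ⟨w', hw'⟩ := hp'.sub hE hp (hy'.trans hy.symm) w
    exact (M.mem_vs m h z).mpr ⟨w', by rw [← hw', hw]⟩

open Classical in
/-- the component of a vertex. -/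
noncomputable def Monster.cmpOf (M : Monster F K) (t : M.G → Decl q) (x : M.G) : Finset M.G :=
  if h : ∃ p : ℕ × M.G, M.Perfect t p.1 p.2 ∧ x ∈ M.vs p.1 p.2 then
    M.vs h.choose.1 h.choose.2 else ∅

theorem Monster.mem_perfSet (x : M.G) :
    x ∈ M.PerfSet t ↔ ∃ p : ℕ × M.G, M.Perfect t p.1 p.2 ∧ x ∈ M.vs p.1 p.2 := by
  constructor
  · rintro ⟨m, h, y, h1, h2⟩
    exact ⟨(m, h), h2, (M.mem_vs m h x).mpr ⟨y, h1⟩⟩
  · rintro ⟨⟨m, h⟩, h1, h2⟩
    obtain ⟨y, hy⟩ := (M.mem_vs m h x).mp h2
    exact ⟨m, h, y, hy, h1⟩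

theorem Monster.cmpOf_eq {D c e : ℕ} (hE : F.Expander D c e) {m : ℕ} {h x : M.G}
    (hp : M.Perfect t m h) (hx : x ∈ M.vs m h) : M.cmpOf t x = M.vs m h := by
  have hex : ∃ p : ℕ × M.G, M.Perfect t p.1 p.2 ∧ x ∈ M.vs p.1 p.2 := ⟨(m, h), hp, hx⟩
  rw [Monster.cmpOf, dif_pos hex]
  exact Monster.vs_eq hE hex.choose_spec.1 hp hex.choose_spec.2 hx

theorem card_le_filter {V A : Type} [Fintype A] [DecidableEq V] (R : Finset V)
    (Q : V → A → Prop) [∀ x a, Decidable (Q x a)] :
    (∑ x ∈ R, ∑ a : A, if Q x a then (1 : ℝ) else 0) =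
      (Nat.card {p : V × A // p.1 ∈ R ∧ Q p.1 p.2} : ℝ) := by
  classical
  rw [← Finset.sum_product' (s := R) (t := Finset.univ) (f := fun x a =>
    if Q x a then (1 : ℝ) else 0), ← Finset.sum_filter, Finset.sum_const, nsmul_eq_mul, mul_one]
  congr 1
  rw [Nat.subtype_card]
  intro p
  simp only [Finset.mem_filter, Finset.mem_product, Finset.mem_univ, and_comm, true_and]

theorem finite_pairs {V A : Type} [Fintype A] (R : Finset V) (Q : V → A → Prop) :
    Finite {p : V × A // p.1 ∈ R ∧ Q p.1 p.2} := by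
  classical
  refine Set.Finite.subset (R ×ˢ (Finset.univ : Finset A)).finite_toSet ?_
  rintro p ⟨hp, _⟩
  simpa only [Finset.coe_product, Finset.coe_univ, Set.mem_prod, SetLike.mem_coe, Set.mem_univ, and_true] using     hp

theorem Monster.good {D c e : ℕ} (hC : F.Coloured K) (hE : F.Expander D c e)
    (hinj : ∀ m, Function.Injective (M.pos m))
    (hkey : ∀ Z : Finset M.G, (∀ x ∈ Z, ∀ m h y, x = h * M.pos m y → ¬ M.Perfect t m h) →
      Nat.card {p : M.G × Letter q // p.1 ∈ Z ∧ M.Pres t p.1 p.2 ∧ p.1 * M.s p.2 ∈ Z} ≤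
        5 * Z.card) :
    Good M.mv Prod.swap (M.Pres t) (M.Bad t) (M.PerfSet t) (M.cmpOf t) := by
  classical
  have hinv : ∀ (a : Letter q) (x : M.G), M.mv a.swap (M.mv a x) = x := by
    intro a x
    rw [M.mv_apply, M.mv_apply, mul_assoc, M.s_swap, mul_one]
  refine ⟨hinv, fun a => Prod.swap_swap a, ?_, ?_, ?_, ?_, ?_, ?_, ?_⟩
  · rintro x a ⟨h1, h2⟩
    refine ⟨?_, ?_⟩
    · exact h2
    · have h3 : M.mv a x * M.s a.swap = x := hinv a x
      rw [h3]
      exact h1
  · intro x hx
    obtain ⟨⟨m, h⟩, h1, h2⟩ := (Monster.mem_perfSet x).mp hx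
    rw [Monster.cmpOf_eq hE h1 h2]
    exact h2
  · intro x hx y hy
    obtain ⟨⟨m, h⟩, h1, h2⟩ := (Monster.mem_perfSet x).mp hx
    rw [Monster.cmpOf_eq hE h1 h2] at hy ⊢
    exact ⟨(Monster.mem_perfSet y).mpr ⟨(m, h), h1, hy⟩, Monster.cmpOf_eq hE h1 hy⟩
  · intro x hx a ha
    obtain ⟨⟨m, h⟩, h1, h2⟩ := (Monster.mem_perfSet x).mp hx
    rw [Monster.cmpOf_eq hE h1 h2]
    obtain ⟨y, rfl⟩ := (M.mem_vs m h x).mp h2
    obtain ⟨z, _, _, hz⟩ := h1.of_pres ha
    exact (M.mem_vs m h _).mpr ⟨z, hz.symm⟩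
  · intro x hx hb
    obtain ⟨⟨m, h⟩, h1, h2⟩ := (Monster.mem_perfSet x).mp hx
    obtain ⟨y, rfl⟩ := (M.mem_vs m h x).mp h2
    refine hb ⟨_, _, h1 y, ?_, ?_⟩
    · have h3 := hE.expand m {y} (by rw [Finset.card_singleton]; exact hE.two m)
      rw [Finset.card_singleton, mul_one] at h3
      refine h3.trans ?_
      rw [eOut]
      have h5 : Nat.card {p : Fin (F.n m) × Fin (F.n m) //
          p.1 ∈ ({y} : Finset (Fin (F.n m))) ∧ p.2 ∉ ({y} : Finset (Fin (F.n m))) ∧
            (F.X m).Adj p.1 p.2} ≤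
          Nat.card {c : Fin q // c ∈ (Finset.univ.filter fun z => (F.X m).Adj y z).image
            (F.col m)} := by
        refine Nat.card_le_card_of_injective (fun p => ⟨F.col m p.1.2, ?_⟩) ?_
        · obtain ⟨h6, _, h7⟩ := p.2
          rw [Finset.mem_singleton] at h6
          rw [h6] at h7
          exact Finset.mem_image.mpr ⟨_, by simpa only [Finset.mem_filter, Finset.mem_univ, true_and] using h7, rfl⟩
        · rintro ⟨⟨a, b⟩, h6, _, h7⟩ ⟨⟨a', b'⟩, h6', _, h7'⟩ h8
          simp only [Finset.mem_singleton] at h6 h6'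
          subst h6
          subst h6'
          simp only [Subtype.mk.injEq] at h8
          have := hC.dist2 m _ _ _ h7 h7' h8
          subst this
          rfl
      refine h5.trans (le_of_eq ?_)
      rw [Nat.card_eq_fintype_card, Fintype.card_coe]
    · intro c' hc'
      rw [Finset.mem_image] at hc'
      obtain ⟨z, hz, rfl⟩ := hc'
      exact h1.pres (by simpa only [Finset.mem_filter, Finset.mem_univ, true_and] using hz)
  · intro x hx R hR hcard
    obtain ⟨⟨m, h⟩, h1, h2⟩ := (Monster.mem_perfSet x).mp hx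
    rw [Monster.cmpOf_eq hE h1 h2] at hR hcard
    rw [M.card_vs hinj] at hcard
    obtain ⟨R', hR'⟩ : ∃ R' : Finset (Fin (F.n m)), R' = Finset.univ.filter fun y =>
      h * M.pos m y ∈ R := ⟨_, rfl⟩
    have hmem : ∀ y, y ∈ R' ↔ h * M.pos m y ∈ R := fun y => by rw [hR']; simp only [Finset.mem_filter, Finset.mem_univ, true_and]
    have hRR : R = R'.image fun y => h * M.pos m y := by
      ext z
      rw [Finset.mem_image]
      constructor
      · intro hz
        obtain ⟨y, hy⟩ := (M.mem_vs m h z).mp (hR hz)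
        exact ⟨y, (hmem y).mpr (by rw [hy]; exact hz), hy⟩
      · rintro ⟨y, hy, rfl⟩
        exact (hmem y).mp hy
    have hcR : R.card = R'.card := by
      conv_lhs => rw [hRR]
      exact Finset.card_image_of_injective _ fun a b hab => hinj m (mul_left_cancel hab)
    have h3 := hE.expand m R' (by rw [← hcR]; exact hcard)
    rw [bdr]
    simp only [if_false, Finset.sum_const_zero, mul_zero, add_zero]
    rw [card_le_filter R (fun x a => M.Pres t x a ∧ M.mv a x ∉ R)]
    have h4 : R.card ≤ Nat.card {p : M.G × Letter q // p.1 ∈ R ∧ M.Pres t p.1 p.2 ∧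
        M.mv p.2 p.1 ∉ R} := by
      have h5 : R.card ≤ eOut (F.X m) R' := by omega
      refine h5.trans ?_
      rw [eOut]
      have := finite_pairs R (fun (x : M.G) (a : Letter q) => M.Pres t x a ∧ M.mv a x ∉ R)
      refine Nat.card_le_card_of_injective (fun p => ⟨(h * M.pos m p.1.1,
        (F.col m p.1.1, F.col m p.1.2)), ?_⟩) ?_
      · obtain ⟨h6, h7, h8⟩ := p.2
        refine ⟨(hmem _).mp h6, h1.pres h8, ?_⟩
        rw [M.mv_apply]
        have h9 : h * M.pos m p.1.1 * M.s (F.col m p.1.1, F.col m p.1.2) =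
            h * M.pos m p.1.2 := by
          rw [M.pos_adj m _ _ h8, mul_assoc]
        rw [h9]
        exact fun h10 => h7 ((hmem _).mpr h10)
      · rintro ⟨⟨a, b⟩, h6, h7, h8⟩ ⟨⟨a', b'⟩, h6', h7', h8'⟩ h9
        simp only [Subtype.mk.injEq, Prod.mk.injEq] at h9 ⊢
        have h10 : a = a' := hinj m (mul_left_cancel h9.1)
        simp only at h8 h8'
        rw [← h10] at h8'
        exact ⟨h10, hC.dist2 m _ _ _ h8 h8' h9.2.2⟩
    exact_mod_cast h4
  · intro R hR
    have hR' : ∀ x ∈ R, ∀ m h y, x = h * M.pos m y → ¬ M.Perfect t m h :=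
      fun x hx m h y hxy hp => hR x hx ⟨m, h, y, hxy.symm, hp⟩
    have hk := hkey R hR'
    rw [bdr]
    have h1 : (∑ x ∈ R, ∑ a : Letter q, if M.Pres t x a ∧ M.mv a x ∈ R then (1 : ℝ) else 0) ≤
        5 * R.card := by
      rw [card_le_filter R (fun x a => M.Pres t x a ∧ M.mv a x ∈ R)]
      exact_mod_cast hk
    have h2 : (∑ x ∈ R, ∑ a : Letter q, if M.Pres t x a then (1 : ℝ) else 0) =
        (∑ x ∈ R, ∑ a : Letter q, if M.Pres t x a ∧ M.mv a x ∈ R then (1 : ℝ) else 0) +
        ∑ x ∈ R, ∑ a : Letter q, if M.Pres t x a ∧ M.mv a x ∉ R then (1 : ℝ) else 0 := by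
      rw [← Finset.sum_add_distrib]
      refine Finset.sum_congr rfl fun x _ => ?_
      rw [← Finset.sum_add_distrib]
      refine Finset.sum_congr rfl fun a _ => ?_
      by_cases hp : M.Pres t x a <;> by_cases hm : M.mv a x ∈ R <;> simp [hp, hm]
    have h3 : (6 * R.card : ℝ) ≤
        (∑ x ∈ R, ∑ a : Letter q, if M.Pres t x a then (1 : ℝ) else 0) +
        6 * ∑ x ∈ R, if M.Bad t x then (1 : ℝ) else 0 := by
      rw [Finset.mul_sum, ← Finset.sum_add_distrib]
      have h4 : (6 * R.card : ℝ) = ∑ x ∈ R, (6 : ℝ) := by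
        rw [Finset.sum_const, nsmul_eq_mul, mul_comm]
      rw [h4]
      refine Finset.sum_le_sum fun x _ => ?_
      by_cases hb : M.Bad t x
      · rw [if_pos hb, mul_one]
        have : 0 ≤ ∑ a : Letter q, if M.Pres t x a then (1 : ℝ) else 0 :=
          Finset.sum_nonneg fun a _ => by split_ifs <;> norm_num
        linarith only [this]
      · rw [if_neg hb, mul_zero, add_zero]
        rw [Monster.Bad, not_not] at hb
        obtain ⟨c', B, h5, h6, h7⟩ := hb
        have h8 : ((B.image fun b => ((c', b) : Letter q)).card : ℝ) ≤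
            ∑ a : Letter q, if M.Pres t x a then (1 : ℝ) else 0 := by
          rw [← Finset.sum_filter, Finset.sum_const, nsmul_eq_mul, mul_one, Nat.cast_le]
          refine Finset.card_le_card ?_
          intro a ha
          obtain ⟨b, hb, rfl⟩ := Finset.mem_image.mp ha
          exact Finset.mem_filter.mpr ⟨Finset.mem_univ _, h7 b hb⟩
        rw [Finset.card_image_of_injective _ (fun a b hab => (Prod.mk.inj hab).2)] at h8
        have h9 : (6 : ℝ) ≤ B.card := by exact_mod_cast h6
        linarith only [h8, h9]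
    linarith only [h1, h2, h3]

end

/-- BLOCK H. -/
theorem gapStatement : GapStatement := by
  intro q D e _
  obtain ⟨N, hN⟩ : ∃ N : ℝ, N = (Fintype.card (Letter q) : ℝ) + 1 := ⟨_, rfl⟩
  have hN1 : 1 ≤ N := by
    rw [hN]
    have : (0 : ℝ) ≤ Fintype.card (Letter q) := Nat.cast_nonneg _
    linarith only []
  have hC0 : 0 < 8 * N + 12 := by linarith only [hN]
  refine ⟨(1 / (8 * N + 12)) / (2 * N), 2 * N, by positivity, ?_, by positivity, ?_⟩
  · rw [div_div, div_le_one (by positivity)]
    nlinarith only [hN]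
  intro F K c M _ hC hE hinj _ _ t _ hkey
  have H := Monster.good (t := t) hC hE hinj hkey
  obtain ⟨P, hP, hTP, hgap, hP1, hP0⟩ := H.gap
  have hnorm := H.norm_le
  rw [← hN] at hnorm hgap
  refine ⟨lapOp M.mv (M.Pres t) (M.Bad t), P, ?_, H.isPositive.isSelfAdjoint, hP.isSelfAdjoint,
    hP.isIdempotentElem, ?_, ?_, ?_⟩
  · intro f x
    rw [lapOp_apply]
    rfl
  · intro j
    have h1 := pow_sub_proj_le (lapOp M.mv (M.Pres t) (M.Bad t)) P (2 * N) (1 / (8 * N + 12))
      (by positivity) (by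
        rw [div_le_iff₀ hC0]
        nlinarith only [hN]) H.isPositive hnorm hP hTP (by
        intro x
        rw [one_div, inv_mul_le_iff₀ hC0]
        exact hgap x) j
    have h2 : ((2 * N : ℝ) : ℂ)⁻¹ • lapOp M.mv (M.Pres t) (M.Bad t) =
        (2 * N)⁻¹ • lapOp M.mv (M.Pres t) (M.Bad t) := by
      refine ContinuousLinearMap.ext fun x => ?_
      change ((2 * N : ℝ) : ℂ)⁻¹ • (lapOp M.mv (M.Pres t) (M.Bad t) x) =
        (2 * N)⁻¹ • (lapOp M.mv (M.Pres t) (M.Bad t) x)
      rw [← Complex.ofReal_inv]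
      exact Complex.coe_smul _ _
    rw [h2]
    exact h1
  · intro m h y h1 hp
    have hx : (1 : M.G) ∈ M.vs m h := (M.mem_vs m h 1).mpr ⟨y, h1.symm⟩
    have h2 := hP1 1 ((Monster.mem_perfSet 1).mpr ⟨(m, h), hp, hx⟩)
    rw [Monster.cmpOf_eq hE hp hx, M.card_vs hinj] at h2
    exact h2
  · intro h1
    exact hP0 1 fun ⟨m, h, y, h2, h3⟩ => h1 m h y h2.symm h3

end Vale.Agent.P089
end
end

section

section

/-!
P089, operator layer: the projection `P` as the norm limit of `λ((1 - T/B)^j)`.
-/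

open scoped InnerProductSpace ComplexOrder Topology

namespace Vale.Agent.P089.Op

open Vale.Agent.P086 Filter

/-- Characters separate the points of a vector space over `ZMod 2`. -/
theorem exists_char_ne {N : Type} [AddCommGroup N] [Module (ZMod 2) N] (n : N) (hn : n ≠ 0) :
    ∃ χ ∈ (⊤ : AddSubgroup (N →+ ZMod 2)), χ n ≠ 0 := by
  by_contra hcon
  push Not at hcon
  refine hn ((Module.forall_dual_apply_eq_zero_iff (ZMod 2) n).mp fun f => ?_)
  exact hcon f.toAddMonoidHom (AddSubgroup.mem_top _)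

section lim

variable {N G : Type} [AddCommGroup N] [Module (ZMod 2) N] [Group G]
  (φ : G →* MulAut (Multiplicative N))

/-- Group algebra elements whose fibres converge uniformly converge in the regular
representation. -/
theorem exists_lim (a : ℕ → MonoidAlgebra ℂ (Multiplicative N ⋊[φ] G)) (r : ℕ → ℝ)
    (hr0 : Tendsto r atTop (𝓝 0))
    (p : (N →+ ZMod 2) → Ell2 G →L[ℂ] Ell2 G)
    (hr : ∀ χ j, ‖fibA φ χ (a j) - p χ‖ ≤ r j) :
    ∃ P : Ell2 (Multiplicative N ⋊[φ] G) →L[ℂ] Ell2 (Multiplicative N ⋊[φ] G),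
      P ∈ CrG (Multiplicative N ⋊[φ] G) ∧ Tendsto (fun j => lamA (a j)) atTop (𝓝 P) := by
  have hr1 : ∀ j, 0 ≤ r j := fun j => (norm_nonneg _).trans (hr 0 j)
  have hdist : ∀ i j, ‖lamA (a i) - lamA (a j)‖ ≤ r i + r j := by
    intro i j
    rw [← map_sub]
    refine norm_lamA_le φ ⊤ exists_char_ne _ _ (add_nonneg (hr1 i) (hr1 j)) fun χ _ => ?_
    rw [map_sub]
    calc ‖fibA φ χ (a i) - fibA φ χ (a j)‖
        = ‖(fibA φ χ (a i) - p χ) - (fibA φ χ (a j) - p χ)‖ := by rw [sub_sub_sub_cancel_right]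
      _ ≤ ‖fibA φ χ (a i) - p χ‖ + ‖fibA φ χ (a j) - p χ‖ := norm_sub_le _ _
      _ ≤ r i + r j := add_le_add (hr χ i) (hr χ j)
  have hc : CauchySeq (fun j => (lamA (a j) :
      Ell2 (Multiplicative N ⋊[φ] G) →L[ℂ] Ell2 (Multiplicative N ⋊[φ] G))) := by
    rw [Metric.cauchySeq_iff]
    intro ε hε
    have h1 := (hr0.eventually (gt_mem_nhds (half_pos hε)))
    obtain ⟨n₀, hn₀⟩ := eventually_atTop.mp h1
    refine ⟨n₀, fun i hi j hj => ?_⟩
    rw [dist_eq_norm]
    have h2 := hdist i j
    have h3 := hn₀ i hi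
    have h4 := hn₀ j hj
    linarith only [h2, h3, h4]
  obtain ⟨P, hP⟩ := cauchySeq_tendsto_of_complete hc
  refine ⟨P, ?_, hP⟩
  have hclosed : IsClosed (CrG (Multiplicative N ⋊[φ] G) :
      Set (Ell2 (Multiplicative N ⋊[φ] G) →L[ℂ] Ell2 (Multiplicative N ⋊[φ] G))) :=
    StarSubalgebra.isClosed_topologicalClosure _
  exact hclosed.mem_of_tendsto hP (Eventually.of_forall fun j => lamA_mem_CrG _)

/-- If the fibres are powers `b^j`, the limit is an idempotent. -/
theorem exists_idem (b : MonoidAlgebra ℂ (Multiplicative N ⋊[φ] G)) (r : ℕ → ℝ)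
    (hr0 : Tendsto r atTop (𝓝 0))
    (p : (N →+ ZMod 2) → Ell2 G →L[ℂ] Ell2 G)
    (hr : ∀ χ j, ‖(fibA φ χ b) ^ j - p χ‖ ≤ r j) :
    ∃ P : Ell2 (Multiplicative N ⋊[φ] G) →L[ℂ] Ell2 (Multiplicative N ⋊[φ] G),
      P ∈ CrG (Multiplicative N ⋊[φ] G) ∧ Tendsto (fun j => lamA (b ^ j)) atTop (𝓝 P) ∧
        P * P = P := by
  obtain ⟨P, hP, hlim⟩ := exists_lim φ (fun j => b ^ j) r hr0 p fun χ j => by
    rw [map_pow]; exact hr χ j
  refine ⟨P, hP, hlim, ?_⟩
  have h1 : Tendsto (fun j => lamA (b ^ j) * lamA (b ^ j)) atTop (𝓝 (P * P)) := hlim.mul hlim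
  have h2 : Tendsto (fun j => lamA (b ^ (2 * j))) atTop (𝓝 P) :=
    hlim.comp (tendsto_id.const_mul_atTop' (by norm_num : 0 < 2))
  have h3 : (fun j => lamA (b ^ j) * lamA (b ^ j)) = fun j => lamA (b ^ (2 * j)) := by
    funext j
    rw [← map_mul, ← pow_add, two_mul]
  rw [h3] at h1
  exact tendsto_nhds_unique h1 h2

/-- If moreover the fibres of `b` are self-adjoint, the limit is self-adjoint. -/
theorem isSelfAdjoint_lamA (b : MonoidAlgebra ℂ (Multiplicative N ⋊[φ] G))
    (hb : ∀ χ, IsSelfAdjoint (fibA φ χ b)) : IsSelfAdjoint (lamA b) := by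
  have h : ‖lamA (b - gstar b)‖ ≤ 0 := by
    refine norm_lamA_le φ ⊤ exists_char_ne _ _ le_rfl fun χ _ => ?_
    rw [map_sub, fibA_gstar, (hb χ).star_eq, sub_self, norm_zero]
  have h1 : lamA (b - gstar b) = 0 := norm_le_zero_iff.mp h
  rw [map_sub, lamA_gstar, sub_eq_zero] at h1
  exact h1.symm

theorem isSelfAdjoint_lim {H : Type} [NormedAddCommGroup H] [InnerProductSpace ℂ H]
    [CompleteSpace H] (a : ℕ → H →L[ℂ] H) (P : H →L[ℂ] H) (ha : ∀ j, IsSelfAdjoint (a j))
    (hlim : Tendsto a atTop (𝓝 P)) : IsSelfAdjoint P := by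
  have h1 : Tendsto (fun j => star (a j)) atTop (𝓝 (star P)) := (continuous_star.tendsto _).comp hlim
  have h2 : (fun j => star (a j)) = a := by funext j; exact (ha j).star_eq
  rw [h2] at h1
  exact tendsto_nhds_unique h1 hlim

end lim

/-! ### The projection -/

variable {q : ℕ} {F : Fam q} {K k : ℕ} (M : Monster F K) (C : Codes k F)

/-- The element `1 - T/B` of the group algebra. -/
noncomputable def elB (B : ℝ) : MonoidAlgebra ℂ (Gam M C) := 1 - (B : ℂ)⁻¹ • elT M C

/-- The projection. -/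
theorem exists_proj_gam (ε B : ℝ) (hε : 0 < ε) (hε1 : ε ≤ 1)
    (T P : (NN M C →+ ZMod 2) → Ell2 M.G →L[ℂ] Ell2 M.G)
    (hT : ∀ χ (f : Ell2 M.G) x, T χ f x = M.Tfun (fun y => decode (conf M C χ y)) f x)
    (hTs : ∀ χ, IsSelfAdjoint (T χ))
    (hP : ∀ χ (j : ℕ), ‖(1 - (B : ℂ)⁻¹ • T χ) ^ j - P χ‖ ≤ (1 - ε) ^ j) :
    ∃ Q : Ell2 (Gam M C) →L[ℂ] Ell2 (Gam M C), Q ∈ CrG (Gam M C) ∧ Q * Q = Q ∧
      IsSelfAdjoint Q ∧ Tendsto (fun j => lamA (elB M C B ^ j)) atTop (𝓝 Q) := by
  have hfib : ∀ χ, fibA (actN M C) χ (elT M C) = T χ := by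
    intro χ
    ext ξ x
    rw [fibA_elT_apply, hT]
  have hfibB : ∀ χ, fibA (actN M C) χ (elB M C B) = 1 - (B : ℂ)⁻¹ • T χ := by
    intro χ
    rw [elB, map_sub, map_one, map_smul, hfib]
  obtain ⟨Q, hQ, hlim, hidem⟩ := exists_idem (actN M C) (elB M C B) (fun j => (1 - ε) ^ j)
    (tendsto_pow_atTop_nhds_zero_of_lt_one (by linarith) (by linarith)) P fun χ j => by
      rw [hfibB]; exact hP χ j
  refine ⟨Q, hQ, hidem, ?_, hlim⟩
  refine isSelfAdjoint_lim (fun j => lamA (elB M C B ^ j)) Q (fun j => ?_) hlim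
  refine isSelfAdjoint_lamA (actN M C) _ fun χ => ?_
  rw [map_pow, hfibB]
  refine IsSelfAdjoint.pow ?_ j
  refine IsSelfAdjoint.sub (IsSelfAdjoint.one _) ?_
  refine IsSelfAdjoint.smul ?_ (hTs χ)
  rw [isSelfAdjoint_iff]
  simp

end Vale.Agent.P089.Op
end
end

section

section

/-!
P089, operator layer: the fibre operators and the projection `Q` in `C*_r(Γ)`.
-/

open scoped InnerProductSpace ComplexOrder Topology

namespace Vale.Agent.P089.Op

open Vale.Agent.P086 Filter

/-- The fibres: for every configuration `v` in the codes there are the operators `T_v` and the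
projections `P_v`, with a uniform gap. -/
structure FibData {q : ℕ} {F : Fam q} {K k : ℕ} (M : Monster F K) (C : Codes k F) (ε B : ℝ)
    (T P : (M.G → Alph k q) → Ell2 M.G →L[ℂ] Ell2 M.G) : Prop where
  eps_pos : 0 < ε
  eps_le : ε ≤ 1
  tfun : ∀ v, (∀ m h, (fun y => v (h * M.pos m y)) ∈ C m) → ∀ (f : Ell2 M.G) x,
    T v f x = M.Tfun (fun y => decode (v y)) f x
  selfAdjoint : ∀ v, (∀ m h, (fun y => v (h * M.pos m y)) ∈ C m) → IsSelfAdjoint (T v)
  lim : ∀ v, (∀ m h, (fun y => v (h * M.pos m y)) ∈ C m) → ∀ j : ℕ,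
    ‖(1 - (B : ℂ)⁻¹ • T v) ^ j - P v‖ ≤ (1 - ε) ^ j
  perfect : ∀ v, (∀ m h, (fun y => v (h * M.pos m y)) ∈ C m) → ∀ m h y,
    (1 : M.G) = h * M.pos m y → (∀ y, v (h * M.pos m y) = F.pat k m y) →
    P v (dl 1) 1 = 1 / (F.n m : ℂ)
  imperfect : ∀ v, (∀ m h, (fun y => v (h * M.pos m y)) ∈ C m) →
    (∀ m h y, (1 : M.G) = h * M.pos m y → ¬ ∀ y, v (h * M.pos m y) = F.pat k m y) →
    P v (dl 1) 1 = 0

/-- Existence of the fibre data from the block statements. -/
theorem exists_fibData (hKey : KeyStatement) (hGap : GapStatement) (hAdm : AdmissibleStatement)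
    {q k D e : ℕ} (he : 0 < e) (hqk : q ≤ k) :
    ∃ ε B : ℝ, ∀ {c K : ℕ} {F : Fam q} (M : Monster F K) (C : Codes k F), 20 ≤ K →
      F.Coloured K → F.Expander D c e → (∀ m, CodeDist e (C m)) → (∀ m, F.pat k m ∈ C m) →
      (∀ m, Function.Injective (M.pos m)) → Function.Injective M.s → (∀ a, M.s a ≠ 1) →
      ∃ T P, FibData M C ε B T P := by
  classical
  obtain ⟨ε, B, hε, hε1, hB, hgap⟩ := hGap q D e he
  refine ⟨ε, B, ?_⟩
  intro c K F M C hK hC hE hdist hpat hinj hsinj hsne
  have hex : ∀ v : M.G → Alph k q, ∃ T P : Ell2 M.G →L[ℂ] Ell2 M.G,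
      (∀ m h, (fun y => v (h * M.pos m y)) ∈ C m) →
      (∀ (f : Ell2 M.G) x, T f x = M.Tfun (fun y => decode (v y)) f x) ∧ IsSelfAdjoint T ∧
      (∀ j : ℕ, ‖(1 - (B : ℂ)⁻¹ • T) ^ j - P‖ ≤ (1 - ε) ^ j) ∧
      (∀ m h y, (1 : M.G) = h * M.pos m y → (∀ y, v (h * M.pos m y) = F.pat k m y) →
        P (dl 1) 1 = 1 / (F.n m : ℂ)) ∧
      ((∀ m h y, (1 : M.G) = h * M.pos m y → ¬ ∀ y, v (h * M.pos m y) = F.pat k m y) →
        P (dl 1) 1 = 0) := by
    intro v
    by_cases hv : ∀ m h, (fun y => v (h * M.pos m y)) ∈ C m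
    · obtain ⟨hadm, hperf⟩ := hAdm q F K M k e C hqk hdist hpat v hv
      obtain ⟨T, P, h1, h2, -, -, h3, h4, h5⟩ := hgap F K c M hK hC hE hinj hsinj hsne
        (fun x => decode (v x)) hadm (hKey q F K D c e M hK hC hE _ hadm)
      refine ⟨T, P, fun _ => ⟨h1, h2, h3, ?_, ?_⟩⟩
      · intro m h y hy hp
        exact h4 m h y hy ((hperf m h).mpr hp)
      · intro hp
        exact h5 fun m h y hy hpf => hp m h y hy ((hperf m h).mp hpf)
    · exact ⟨0, 0, fun h => absurd h hv⟩
  choose T P hTP using hex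
  exact ⟨T, P,
    { eps_pos := hε
      eps_le := hε1
      tfun := fun v hv => (hTP v hv).1
      selfAdjoint := fun v hv => (hTP v hv).2.1
      lim := fun v hv => (hTP v hv).2.2.1
      perfect := fun v hv => (hTP v hv).2.2.2.1
      imperfect := fun v hv => (hTP v hv).2.2.2.2 }⟩

variable {q : ℕ} {F : Fam q} {K k : ℕ} {M : Monster F K} {C : Codes k F}

/-- The projection `Q` in `C*_r(Γ)`. -/
theorem FibData.exists_Q {ε B : ℝ} {T P : (M.G → Alph k q) → Ell2 M.G →L[ℂ] Ell2 M.G}
    (hD : FibData M C ε B T P)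
    (hres : ∀ v ∈ M.Conf C, ∀ m h, (fun y => v (h * M.pos m y)) ∈ C m) :
    ∃ Q : Ell2 (Gam M C) →L[ℂ] Ell2 (Gam M C), Q ∈ CrG (Gam M C) ∧ Q * Q = Q ∧
      IsSelfAdjoint Q ∧ Tendsto (fun j => lamA (elB M C B ^ j)) atTop (𝓝 Q) :=
  exists_proj_gam M C ε B hD.eps_pos hD.eps_le (fun χ => T (conf M C χ)) (fun χ => P (conf M C χ))
    (fun χ => hD.tfun _ (hres _ (conf_mem M C χ)))
    (fun χ => hD.selfAdjoint _ (hres _ (conf_mem M C χ)))
    (fun χ => hD.lim _ (hres _ (conf_mem M C χ)))

/-- The fibre states of the powers converge uniformly. -/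
theorem FibData.state_le {ε B : ℝ} {T P : (M.G → Alph k q) → Ell2 M.G →L[ℂ] Ell2 M.G}
    (hD : FibData M C ε B T P)
    (hres : ∀ v ∈ M.Conf C, ∀ m h, (fun y => v (h * M.pos m y)) ∈ C m)
    (χ : NN M C →+ ZMod 2) (j : ℕ) :
    ‖⟪dl (1 : M.G), fibA (actN M C) χ (elB M C B ^ j) (dl 1)⟫_ℂ - P (conf M C χ) (dl 1) 1‖ ≤
      (1 - ε) ^ j := by
  have hfib : fibA (actN M C) χ (elT M C) = T (conf M C χ) := by
    ext ξ x
    rw [fibA_elT_apply, hD.tfun _ (hres _ (conf_mem M C χ))]
  have hfibB : fibA (actN M C) χ (elB M C B) = 1 - (B : ℂ)⁻¹ • T (conf M C χ) := by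
    rw [elB, map_sub, map_one, map_smul, hfib]
  rw [← inner_dl, ← inner_sub_right, ← sub_apply, map_pow, hfibB]
  refine (norm_inner_le_norm _ _).trans ?_
  rw [norm_dl, one_mul]
  refine (ContinuousLinearMap.le_opNorm _ _).trans ?_
  rw [norm_dl, mul_one]
  exact hD.lim _ (hres _ (conf_mem M C χ)) j

end Vale.Agent.P089.Op
end
end
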