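import Vale.Agent.P089.MathlibUsed
import Vale.Agent.P089.BC.DefsA
import Vale.Agent.P089.BC.Defs

set_option linter.all false

section

section

/-! Combinatorial half of the Greendlinger lemma for P089: Euler inequality from (H1),
curvature, arcs.  Abstract polygon scheme: `P` = sides, `succ` = next side of the polygon,
`mu` = the paired side (reverse), `face` = the polygon (union of cycles of `succ`),
`out` = the outer polygon. -/

set_option autoImplicit false
set_option linter.unusedSectionVars false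

namespace Vale.Agent.P089.GLC

open Finset

variable {P : Type*} {Fc : Type*} {V : Type*}

/-- homological triviality mod 2 of a polygon scheme -/
def H1 [Fintype P] [DecidableEq V] (mu : Equiv.Perm P) (face : P → Fc) (out : Fc) (tau : P → V) :
    Prop :=
  ∀ z : P → ZMod 2, (∀ p, z (mu p) = z p) →
    (∀ x : V, ∑ p with tau p = x, z p = 0) →
    ∃ Y : Fc → ZMod 2, Y out = 0 ∧ ∀ p, z p = Y (face p) + Y (face (mu p))

section Euler

variable [Fintype P] [DecidableEq P] [DecidableEq V] [DecidableEq Fc]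
variable {succ mu : Equiv.Perm P} {face : P → Fc} {out : Fc} {tau : P → V}

/-- the orbits of a permutation -/
abbrev Orb (r : Equiv.Perm P) : Type _ := Quotient (Equiv.Perm.SameCycle.setoid r)

noncomputable scoped instance (r : Equiv.Perm P) : Fintype (Orb r) := Fintype.ofFinite _
noncomputable scoped instance (r : Equiv.Perm P) : DecidableEq (Orb r) := Classical.decEq _

/-- the class of a side -/
def cls (r : Equiv.Perm P) (p : P) : Orb r := Quotient.mk _ p

omit [Fintype P] [DecidableEq P] in
lemma cls_eq_iff (r : Equiv.Perm P) (p q : P) : cls r p = cls r q ↔ r.SameCycle p q := by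
  unfold cls
  exact Quotient.eq

omit [Fintype P] [DecidableEq P] in
lemma cls_apply (r : Equiv.Perm P) (p : P) : cls r (r p) = cls r p := by
  rw [cls_eq_iff]
  exact (Equiv.Perm.sameCycle_apply_left).2 (Equiv.Perm.SameCycle.refl _ _)

omit [Fintype P] [DecidableEq P] in
lemma sameCycle_mu (hmm : ∀ p, mu (mu p) = p) {p q : P} (h : mu.SameCycle p q) :
    q = p ∨ q = mu p := by
  obtain ⟨i, hi⟩ := h
  have h2 : mu ^ (2:ℤ) = 1 := by
    ext x
    simp only [zpow_ofNat, pow_two, Equiv.Perm.coe_mul, Function.comp_apply, hmm, Equiv.Perm.coe_one, id_eq]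
  rcases Int.even_or_odd' i with ⟨k, rfl | rfl⟩
  · left
    rw [← hi, zpow_mul, h2]; simp
  · right
    rw [← hi, zpow_add, zpow_mul, h2]; simp

omit [DecidableEq P] in
/-- number of edges -/
lemma card_edges [DecidableEq P] (hmm : ∀ p, mu (mu p) = p) (hne : ∀ p, mu p ≠ p) :
    Fintype.card P = 2 * Fintype.card (Orb mu) := by
  classical
  have h : (univ : Finset P).card = ∑ e : Orb mu, (univ.filter fun p : P => cls mu p = e).card :=
    Finset.card_eq_sum_card_fiberwise (fun x _ => Finset.mem_coe.2 (Finset.mem_univ _))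
  have h2 : ∀ e : Orb mu, (univ.filter fun p : P => cls mu p = e).card = 2 := by
    intro e
    induction e using Quotient.inductionOn with
    | _ p =>
      have : (univ.filter fun q : P => cls mu q = cls mu p) = {p, mu p} := by
        ext q
        simp only [mem_filter, mem_univ, true_and, mem_insert, mem_singleton]
        rw [cls_eq_iff]
        constructor
        · intro hq
          exact sameCycle_mu hmm hq.symm
        · rintro (rfl | rfl)
          · exact Equiv.Perm.SameCycle.refl _ _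
          · exact (Equiv.Perm.sameCycle_apply_left).2 (Equiv.Perm.SameCycle.refl _ _)
      change (univ.filter fun q : P => cls mu q = cls mu p).card = 2
      rw [this, card_pair (hne p).symm]
  rw [Finset.sum_congr rfl (fun e _ => h2 e)] at h
  simp only [sum_const, smul_eq_mul, card_univ] at h
  omega

/-- boundary map on mu-invariant functions -/
noncomputable def bd (mu rho : Equiv.Perm P) : (Orb mu → ZMod 2) →ₗ[ZMod 2] (Orb rho → ZMod 2) where
  toFun z := fun x => ∑ p with cls rho p = x, z (cls mu p)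
  map_add' z w := by
    funext x
    simp [sum_add_distrib]
  map_smul' c z := by
    funext x
    simp [mul_sum]

/-- Euler inequality -/
theorem euler (hmm : ∀ p, mu (mu p) = p) (hne : ∀ p, mu p ≠ p)
    (htau : ∀ p, tau (succ (mu p)) = tau p)
    (h1 : H1 mu face out tau) [Nonempty P] (rho : Equiv.Perm P) (hrho : ∀ p, rho p = succ (mu p)) :
    Fintype.card P + 2 ≤ 2 * Fintype.card (Orb rho) +
      2 * (((univ : Finset P).image face).erase out).card := by
  classical
  set Fs : Finset Fc := ((univ : Finset P).image face).erase out with hFs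
  rw [card_edges hmm hne]
  -- rank of boundary
  set D := bd mu rho with hD
  have hrn := LinearMap.finrank_range_add_finrank_ker D
  rw [Module.finrank_fintype_fun_eq_card] at hrn
  -- range is in kernel of sum
  let s : (Orb rho → ZMod 2) →ₗ[ZMod 2] ZMod 2 := ∑ x : Orb rho, LinearMap.proj x
  have hs : ∀ u, s u = ∑ x, u x := by
    intro u
    simp only [LinearMap.coe_sum, LinearMap.coe_proj, Finset.sum_apply, Function.eval, s]
  have hrange : LinearMap.range D ≤ LinearMap.ker s := by
    rintro _ ⟨z, rfl⟩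
    rw [LinearMap.mem_ker, hs]
    have : ∑ x : Orb rho, (D z) x = ∑ p : P, z (cls mu p) := by
      rw [hD]
      simp only [bd, LinearMap.coe_mk, AddHom.coe_mk]
      exact (Finset.sum_fiberwise (s := (univ : Finset P)) (g := fun p => cls rho p)
        (f := fun p => z (cls mu p)))
    rw [this]
    have h2 : ∑ p : P, z (cls mu p) = ∑ e : Orb mu, ∑ p with cls mu p = e, z (cls mu p) :=
      (Finset.sum_fiberwise (s := (univ : Finset P)) (g := fun p => cls mu p)
        (f := fun p => z (cls mu p))).symm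
    rw [h2]
    apply Finset.sum_eq_zero
    intro e _
    induction e using Quotient.inductionOn with
    | _ p =>
      have : (univ.filter fun q : P => cls mu q = cls mu p) = {p, mu p} := by
        ext q
        simp only [mem_filter, mem_univ, true_and, mem_insert, mem_singleton]
        rw [cls_eq_iff]
        constructor
        · intro hq
          exact sameCycle_mu hmm hq.symm
        · rintro (rfl | rfl)
          · exact Equiv.Perm.SameCycle.refl _ _
          · exact (Equiv.Perm.sameCycle_apply_left).2 (Equiv.Perm.SameCycle.refl _ _)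
      change ∑ q with cls mu q = cls mu p, z (cls mu q) = 0
      rw [this, sum_pair (hne p).symm, cls_apply]
      exact CharTwo.add_self_eq_zero _
  have hker_s : Module.finrank (ZMod 2) (LinearMap.ker s) + 1 = Fintype.card (Orb rho) := by
    have h := LinearMap.finrank_range_add_finrank_ker s
    rw [Module.finrank_fintype_fun_eq_card] at h
    have hsurj : Function.Surjective s := by
      intro c
      obtain ⟨p⟩ := (inferInstance : Nonempty P)
      refine ⟨Pi.single (cls rho p) c, ?_⟩
      rw [hs]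
      simp only [sum_pi_single', mem_univ, ↓reduceIte]
    rw [LinearMap.range_eq_top.2 hsurj, finrank_top, Module.finrank_self] at h
    omega
  have hle1 : Module.finrank (ZMod 2) (LinearMap.range D) ≤
      Module.finrank (ZMod 2) (LinearMap.ker s) := Submodule.finrank_mono hrange
  -- kernel is in image of faces
  let T : (Fs → ZMod 2) →ₗ[ZMod 2] (P → ZMod 2) :=
    { toFun := fun y p => (if h : face p ∈ Fs then y ⟨face p, h⟩ else 0) +
        (if h : face (mu p) ∈ Fs then y ⟨face (mu p), h⟩ else 0)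
      map_add' := by
        intro y w
        funext p
        by_cases h : face p ∈ Fs <;> by_cases h' : face (mu p) ∈ Fs <;>
          simp [h, h']
        ring
      map_smul' := by
        intro c y
        funext p
        by_cases h : face p ∈ Fs <;> by_cases h' : face (mu p) ∈ Fs <;>
          simp [h, h', mul_add] }
  let J : (Orb mu → ZMod 2) →ₗ[ZMod 2] (P → ZMod 2) :=
    { toFun := fun z p => z (cls mu p)
      map_add' := by intro z w; rfl
      map_smul' := by intro c z; rfl }
  have hJinj : Function.Injective J := by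
    intro z w h
    funext e
    induction e using Quotient.inductionOn with
    | _ p => exact congrFun h p
  have hkerle : (LinearMap.ker D).map J ≤ LinearMap.range T := by
    rintro _ ⟨z, hz, rfl⟩
    have hz' : D z = 0 := hz
    have hfib : ∀ x : V, ∑ p with tau p = x, z (cls mu p) = 0 := by
      intro x
      -- tau is constant on rho orbits
      have htau' : ∀ p q, rho.SameCycle p q → tau p = tau q := by
        intro p q hpq
        obtain ⟨i, rfl⟩ := hpq
        have hstep : ∀ p, tau (rho p) = tau p := fun p => by rw [hrho]; exact htau p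
        have hstep' : ∀ p, tau (rho⁻¹ p) = tau p := fun p => by
          have := hstep (rho⁻¹ p)
          have e : rho (rho⁻¹ p) = p := rho.apply_symm_apply p
          rw [e] at this
          exact this.symm
        have hn : ∀ (n : ℕ) p, tau ((rho ^ n) p) = tau p := by
          intro n
          induction n with
          | zero => intro p; simp only [pow_zero, Equiv.Perm.coe_one, id_eq]
          | succ n ih => intro p; rw [pow_succ', Equiv.Perm.mul_apply, hstep, ih]
        have hn' : ∀ (n : ℕ) p, tau ((rho⁻¹ ^ n) p) = tau p := by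
          intro n
          induction n with
          | zero => intro p; simp only [pow_zero, Equiv.Perm.coe_one, id_eq]
          | succ n ih => intro p; rw [pow_succ', Equiv.Perm.mul_apply, hstep', ih]
        rcases Int.eq_nat_or_neg i with ⟨n, rfl | rfl⟩
        · rw [zpow_natCast, hn]
        · rw [zpow_neg, zpow_natCast, ← inv_pow, hn']
      have hsum : ∑ p with tau p = x, z (cls mu p) =
          ∑ e : Orb rho, ∑ p ∈ (univ.filter fun p : P => tau p = x) with cls rho p = e,
            z (cls mu p) :=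
        (Finset.sum_fiberwise (s := (univ.filter fun p : P => tau p = x))
          (g := fun p => cls rho p) (f := fun p => z (cls mu p))).symm
      rw [hsum]
      apply Finset.sum_eq_zero
      intro e _
      induction e using Quotient.inductionOn with
      | _ p =>
        change ∑ q ∈ (univ.filter fun q : P => tau q = x) with cls rho q = cls rho p,
          z (cls mu q) = 0
        by_cases hx : tau p = x
        · have : (filter (fun q => cls rho q = cls rho p) (univ.filter fun q : P => tau q = x))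
              = univ.filter (fun q => cls rho q = cls rho p) := by
            ext q
            simp only [mem_filter, mem_univ, true_and, and_iff_right_iff_imp]
            intro hq
            rw [cls_eq_iff] at hq
            rw [htau' _ _ hq, hx]
          rw [this]
          have := congrFun hz' (cls rho p)
          exact this
        · have : (filter (fun q => cls rho q = cls rho p) (univ.filter fun q : P => tau q = x))
              = ∅ := by
            ext q
            simp only [mem_filter, mem_univ, true_and, notMem_empty, iff_false, not_and]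
            intro hq hq2
            rw [cls_eq_iff] at hq2
            rw [htau' _ _ hq2] at hq
            exact hx hq
          rw [this, sum_empty]
    obtain ⟨Y, hY0, hY⟩ := h1 (fun p => z (cls mu p)) (fun p => by rw [cls_apply]) hfib
    refine ⟨fun f => Y f.1, ?_⟩
    funext p
    have key : ∀ p : P, (if h : face p ∈ Fs then Y (face p) else 0) = Y (face p) := by
      intro p
      by_cases h : face p ∈ Fs
      · simp [h]
      · have : face p = out := by
          by_contra hne'
          exact h (by rw [hFs]; exact mem_erase.2 ⟨hne', mem_image_of_mem _ (mem_univ _)⟩)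
        rw [dif_neg h, this, hY0]
    have e1 := key p
    have e2 := key (mu p)
    change (if h : face p ∈ Fs then Y (face p) else 0) +
      (if h : face (mu p) ∈ Fs then Y (face (mu p)) else 0) = z (cls mu p)
    rw [e1, e2]
    exact (hY p).symm
  have hker : Module.finrank (ZMod 2) (LinearMap.ker D) ≤ Fs.card := by
    have e1 : Module.finrank (ZMod 2) (LinearMap.ker D) =
        Module.finrank (ZMod 2) ((LinearMap.ker D).map J) :=
      (Submodule.equivMapOfInjective J hJinj (LinearMap.ker D)).finrank_eq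
    rw [e1]
    calc Module.finrank (ZMod 2) ((LinearMap.ker D).map J)
        ≤ Module.finrank (ZMod 2) (LinearMap.range T) := Submodule.finrank_mono hkerle
      _ ≤ Module.finrank (ZMod 2) (Fs → ZMod 2) := LinearMap.finrank_range_le T
      _ = Fs.card := by rw [Module.finrank_fintype_fun_eq_card, Fintype.card_coe]
  omega

end Euler

section Curv

variable [Fintype P] [DecidableEq P] [DecidableEq V] [DecidableEq Fc]

/-- a real corner: the vertex class has at least three sides. -/
def Real (succ mu : Equiv.Perm P) (p : P) : Prop := succ (mu (succ (mu p))) ≠ p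

scoped instance (succ mu : Equiv.Perm P) : DecidablePred (Real succ mu) := fun _ => by
  unfold Real; infer_instance

variable {succ mu : Equiv.Perm P} {face : P → Fc} {out : Fc} {tau : P → V}

omit [DecidableEq V] [DecidableEq Fc] in
/-- local inequality: `6 V' + R ≤ 3 |P|` -/
theorem vertex_count
    (hred : ∀ p, succ (mu p) ≠ p) (rho : Equiv.Perm P) (hrho : ∀ p, rho p = succ (mu p)) :
    6 * Fintype.card (Orb rho) + (univ.filter fun p => Real succ mu p).card ≤
      3 * Fintype.card P := by
  classical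
  have hcard : (univ : Finset P).card =
      ∑ e : Orb rho, (univ.filter fun p : P => cls rho p = e).card :=
    Finset.card_eq_sum_card_fiberwise (fun x _ => Finset.mem_coe.2 (Finset.mem_univ _))
  have hcardR : (univ.filter fun p => Real succ mu p).card =
      ∑ e : Orb rho, ((univ.filter fun p => Real succ mu p).filter fun p : P => cls rho p = e).card :=
    Finset.card_eq_sum_card_fiberwise (fun x _ => Finset.mem_coe.2 (Finset.mem_univ _))
  rw [hcardR, ← Finset.card_univ (α := P), hcard, ← Finset.card_univ (α := Orb rho),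
    Finset.card_eq_sum_ones, Finset.mul_sum, Finset.mul_sum, ← Finset.sum_add_distrib]
  apply Finset.sum_le_sum
  intro e _
  by_cases hall : ∀ p, cls rho p = e → Real succ mu p
  · -- all real : at least three elements
    have h3 : 3 ≤ (univ.filter fun p : P => cls rho p = e).card := by
      induction e using Quotient.inductionOn with
      | _ p =>
        have hp : Real succ mu p := hall p rfl
        have h1 : cls rho (rho p) = cls rho p := cls_apply rho p
        have h2 : cls rho (rho (rho p)) = cls rho p := by rw [cls_apply, cls_apply]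
        have hsub : ({p, rho p, rho (rho p)} : Finset P) ⊆
            (univ.filter fun q : P => cls rho q = cls rho p) := by
          intro q hq
          simp only [mem_insert, mem_singleton] at hq
          rw [mem_filter]
          refine ⟨mem_univ _, ?_⟩
          rcases hq with rfl | rfl | rfl
          · rfl
          · exact h1
          · exact h2
        have hc : ({p, rho p, rho (rho p)} : Finset P).card = 3 := by
          have a1 : rho p ≠ p := by rw [hrho]; exact hred p
          have a2 : rho (rho p) ≠ p := by rw [hrho, hrho]; exact hp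
          have a3 : rho (rho p) ≠ rho p := by rw [hrho (rho p)]; exact hred _
          rw [card_insert_of_notMem, card_insert_of_notMem, card_singleton]
          · simpa using a3.symm
          · simp only [mem_insert, mem_singleton, not_or]
            exact ⟨a1.symm, a2.symm⟩
        calc 3 = _ := hc.symm
          _ ≤ _ := card_le_card hsub
    have hle : ((univ.filter fun p => Real succ mu p).filter fun p : P => cls rho p = e).card ≤
        (univ.filter fun p : P => cls rho p = e).card := by
      apply card_le_card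
      intro q hq
      simp only [mem_filter, mem_univ, true_and] at hq ⊢
      exact hq.2
    omega
  · push Not at hall
    obtain ⟨p, hpe, hp⟩ := hall
    -- orbit = {p, rho p}, both not real
    have hp' : rho (rho p) = p := by
      unfold Real at hp
      push Not at hp
      rw [hrho, hrho]; exact hp
    have hp1 : rho p ≠ p := by rw [hrho]; exact hred p
    have horb : ∀ q, cls rho q = e → q = p ∨ q = rho p := by
      intro q hq
      rw [← hpe, cls_eq_iff] at hq
      obtain ⟨i, hi⟩ := hq.symm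
      have h2 : (rho ^ (2:ℤ)) p = p := by
        simp [zpow_ofNat, pow_two, hp']
      rcases Int.even_or_odd' i with ⟨k, rfl | rfl⟩
      · left
        rw [← hi, zpow_mul]
        exact Equiv.Perm.zpow_apply_eq_self_of_apply_eq_self h2 k
      · right
        rw [← hi, add_comm, zpow_add, Equiv.Perm.mul_apply, zpow_mul,
          Equiv.Perm.zpow_apply_eq_self_of_apply_eq_self h2 k]
        simp
    have hset : (univ.filter fun p : P => cls rho p = e) = {p, rho p} := by
      ext q
      simp only [mem_filter, mem_univ, true_and, mem_insert, mem_singleton]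
      constructor
      · exact horb q
      · rintro (rfl | rfl)
        · exact hpe
        · rw [cls_apply]; exact hpe
    have hset2 : ((univ.filter fun p => Real succ mu p).filter fun p : P => cls rho p = e) = ∅ := by
      ext q
      simp only [mem_filter, mem_univ, true_and, notMem_empty, iff_false, not_and]
      intro hq hqe
      rcases horb q hqe with rfl | rfl
      · exact hp hq
      · apply hq
        rw [← hrho, ← hrho, hp']
    rw [hset, hset2, card_pair hp1.symm]
    simp

/-- number of inner/outer arcs of a face -/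
def iN (succ mu : Equiv.Perm P) (face : P → Fc) (out : Fc) (f : Fc) : ℕ :=
  (univ.filter fun p => Real succ mu p ∧ face p = f ∧ face (mu p) ≠ out).card

def oN (succ mu : Equiv.Perm P) (face : P → Fc) (out : Fc) (f : Fc) : ℕ :=
  (univ.filter fun p => Real succ mu p ∧ face p = f ∧ face (mu p) = out).card

/-- the faces -/
def faces (face : P → Fc) (out : Fc) : Finset Fc := ((univ : Finset P).image face).erase out

theorem curvature (hmm : ∀ p, mu (mu p) = p) (hne : ∀ p, mu p ≠ p)
    (htau : ∀ p, tau (succ (mu p)) = tau p)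
    (hface : ∀ p, face (succ p) = face p)
    (hoo : ∀ p, face p = out → face (mu p) ≠ out)
    (h1 : H1 mu face out tau) [Nonempty P]
    (hred : ∀ p, succ (mu p) ≠ p) :
    6 + ∑ f ∈ faces face out, (iN succ mu face out f + 2 * oN succ mu face out f) ≤
      6 * (faces face out).card := by
  classical
  set rho : Equiv.Perm P := mu.trans succ with hrhodef
  have hrho : ∀ p, rho p = succ (mu p) := fun p => rfl
  have he := euler hmm hne htau h1 rho hrho
  have hv := vertex_count hred rho hrho
  -- real corners split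
  have hR : (univ.filter fun p => Real succ mu p).card =
      ∑ f ∈ faces face out, (iN succ mu face out f + 2 * oN succ mu face out f) := by
    set R := (univ.filter fun p => Real succ mu p) with hRdef
    have hsplit : R.card = (R.filter fun p => face p ≠ out).card +
        (R.filter fun p => ¬ face p ≠ out).card :=
      (Finset.card_filter_add_card_filter_not (s := R) (fun p => face p ≠ out)).symm
    -- outer real corners
    have hout : (R.filter fun p => ¬ face p ≠ out).card =
        (R.filter fun p => face p ≠ out ∧ face (mu p) = out).card := by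
      apply Finset.card_bij' (i := fun r _ => rho.symm r) (j := fun p _ => rho p)
      · intro r hr
        simp only [mem_filter, hRdef, mem_univ, true_and, not_not] at hr ⊢
        have e1 : rho (rho.symm r) = r := rho.apply_symm_apply r
        have e2 : face (mu (rho.symm r)) = out := by
          rw [← hface, ← hrho, e1]; exact hr.2
        refine ⟨?_, ?_, e2⟩
        · intro h
          apply hr.1
          rw [← hrho, ← hrho] at h ⊢
          have := congrArg rho h
          rw [e1] at this
          exact this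
        · intro h
          exact hoo _ h e2
      · intro p hp
        simp only [mem_filter, hRdef, mem_univ, true_and, not_not] at hp ⊢
        refine ⟨?_, ?_⟩
        · intro h
          apply hp.1
          rw [← hrho, ← hrho] at h ⊢
          exact rho.injective h
        · rw [hrho, hface]; exact hp.2.2
      · intro r _
        exact rho.apply_symm_apply r
      · intro p _
        exact rho.symm_apply_apply p
    have hin : (R.filter fun p => face p ≠ out).card =
        ∑ f ∈ faces face out, ((R.filter fun p => face p ≠ out).filter fun p => face p = f).card := by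
      apply Finset.card_eq_sum_card_fiberwise
      intro p hp
      have hp' : p ∈ R.filter fun p => face p ≠ out := hp
      rw [mem_filter] at hp'
      exact Finset.mem_coe.2 (mem_erase.2 ⟨hp'.2, mem_image_of_mem _ (mem_univ _)⟩)
    have hin2 : (R.filter fun p => face p ≠ out ∧ face (mu p) = out).card =
        ∑ f ∈ faces face out,
          ((R.filter fun p => face p ≠ out ∧ face (mu p) = out).filter fun p => face p = f).card := by
      apply Finset.card_eq_sum_card_fiberwise
      intro p hp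
      have hp' : p ∈ R.filter fun p => face p ≠ out ∧ face (mu p) = out := hp
      rw [mem_filter] at hp'
      exact Finset.mem_coe.2 (mem_erase.2 ⟨hp'.2.1, mem_image_of_mem _ (mem_univ _)⟩)
    rw [hsplit, hout, hin, hin2, ← Finset.sum_add_distrib]
    apply Finset.sum_congr rfl
    intro f hf
    have hf' : f ≠ out := (mem_erase.1 hf).1
    have e1 : ((R.filter fun p => face p ≠ out).filter fun p => face p = f).card =
        iN succ mu face out f + oN succ mu face out f := by
      have : iN succ mu face out f + oN succ mu face out f =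
        (((R.filter fun p => face p ≠ out).filter fun p => face p = f).filter
          fun p => face (mu p) ≠ out).card +
        (((R.filter fun p => face p ≠ out).filter fun p => face p = f).filter
          fun p => ¬ face (mu p) ≠ out).card := by
        unfold iN oN
        congr 2
        · ext p
          simp only [mem_filter, hRdef, mem_univ, true_and]
          constructor
          · rintro ⟨h1, h2, h3⟩
            exact ⟨⟨⟨h1, by rw [h2]; exact hf'⟩, h2⟩, h3⟩
          · rintro ⟨⟨⟨h1, _⟩, h2⟩, h3⟩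
            exact ⟨h1, h2, h3⟩
        · ext p
          simp only [mem_filter, hRdef, mem_univ, true_and, not_not]
          constructor
          · rintro ⟨h1, h2, h3⟩
            exact ⟨⟨⟨h1, by rw [h2]; exact hf'⟩, h2⟩, h3⟩
          · rintro ⟨⟨⟨h1, _⟩, h2⟩, h3⟩
            exact ⟨h1, h2, h3⟩
      rw [this]
      exact (Finset.card_filter_add_card_filter_not _).symm
    have e2 : ((R.filter fun p => face p ≠ out ∧ face (mu p) = out).filter
        fun p => face p = f).card = oN succ mu face out f := by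
      unfold oN
      congr 1
      ext p
      simp only [hRdef, mem_filter, mem_univ, true_and]
      constructor
      · rintro ⟨⟨h1, _, h2⟩, h3⟩
        exact ⟨h1, h3, h2⟩
      · rintro ⟨h1, h3, h2⟩
        exact ⟨⟨h1, by rw [h3]; exact hf', h2⟩, h3⟩
    rw [e1, e2]
    ring
  have hF : (faces face out).card = (((univ : Finset P).image face).erase out).card := rfl
  rw [← hF] at he
  rw [← hR]
  (clear * - he hv hR hF; omega)

end Curv

section Arcs

variable [Fintype P] [DecidableEq P]
variable {succ mu : Equiv.Perm P} {face : P → Fc} {out : Fc} {tau : P → V}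

open Classical in
/-- length of the arc starting at a real corner -/
noncomputable def arcLen (succ mu : Equiv.Perm P) (p : P) : ℕ :=
  if h : ∃ k, 0 < k ∧ Real succ mu (succ^[k] p) then Nat.find h else 0

omit [DecidableEq P] in
lemma mem_per (succ : Equiv.Perm P) (p : P) : p ∈ Function.periodicPts succ := by
  classical
  exact Function.mk_mem_periodicPts (orderOf_pos succ) (by
    rw [Function.IsPeriodicPt, Function.IsFixedPt, Equiv.Perm.iterate_eq_pow, pow_orderOf_eq_one]
    rfl)

/-- cycle length -/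
noncomputable def cyc (succ : Equiv.Perm P) (p : P) : ℕ := Function.minimalPeriod succ p

omit [DecidableEq P] in
lemma cyc_pos (p : P) : 0 < cyc succ p :=
  Function.minimalPeriod_pos_of_mem_periodicPts (mem_per succ p)

omit [DecidableEq P] in
lemma cyc_it (p : P) : succ^[cyc succ p] p = p := Function.isPeriodicPt_minimalPeriod succ p

omit [DecidableEq P] in
lemma cyc_iterate (p : P) (n : ℕ) : cyc succ (succ^[n] p) = cyc succ p :=
  Function.minimalPeriod_apply_iterate (mem_per succ p) n

lemma next_exists {p : P} (hp : Real succ mu p) : ∃ k, 0 < k ∧ Real succ mu (succ^[k] p) :=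
  ⟨cyc succ p, cyc_pos p, by rw [cyc_it]; exact hp⟩

lemma arcLen_spec {p : P} (hp : Real succ mu p) :
    0 < arcLen succ mu p ∧ Real succ mu (succ^[arcLen succ mu p] p) := by
  classical
  unfold arcLen
  rw [dif_pos (next_exists hp)]
  exact Nat.find_spec (next_exists hp)

lemma arcLen_le {p : P} {k : ℕ} (hk : 0 < k) (hr : Real succ mu (succ^[k] p)) :
    arcLen succ mu p ≤ k := by
  classical
  have h : ∃ k, 0 < k ∧ Real succ mu (succ^[k] p) := ⟨k, hk, hr⟩
  unfold arcLen
  rw [dif_pos h]
  exact Nat.find_min' h ⟨hk, hr⟩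

lemma arcLen_le_cyc {p : P} (hp : Real succ mu p) : arcLen succ mu p ≤ cyc succ p :=
  arcLen_le (cyc_pos p) (by rw [cyc_it]; exact hp)

lemma not_real_of_lt {p : P} {j : ℕ} (hj : 0 < j) (hl : j < arcLen succ mu p) :
    ¬ Real succ mu (succ^[j] p) := fun h => absurd (arcLen_le hj h) (not_le.2 hl)

omit [Fintype P] [DecidableEq P] in
/-- the partner runs backwards at a corner of degree two -/
lemma partner_back (hmm : ∀ p, mu (mu p) = p) {q : P} (hq : ¬ Real succ mu (succ q)) :
    succ (mu (succ q)) = mu q := by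
  unfold Real at hq
  push Not at hq
  have h1 : mu (succ (mu (succ q))) = q := succ.injective hq
  have := congrArg mu h1
  rwa [hmm] at this

lemma arc_partner (hmm : ∀ p, mu (mu p) = p) {p : P} {j : ℕ}
    (hj : j + 1 < arcLen succ mu p) :
    succ (mu (succ^[j+1] p)) = mu (succ^[j] p) := by
  have h := not_real_of_lt (succ := succ) (mu := mu) (p := p) (j := j + 1) (by omega) hj
  rw [Function.iterate_succ_apply'] at h ⊢
  exact partner_back hmm h

lemma arc_face (hmm : ∀ p, mu (mu p) = p) (hface : ∀ p, face (succ p) = face p) {p : P} {j : ℕ}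
    (hj : j < arcLen succ mu p) :
    face (mu (succ^[j] p)) = face (mu p) := by
  induction j with
  | zero => rfl
  | succ j ih =>
    rw [← ih (by omega), ← arc_partner hmm hj, hface]

omit [Fintype P] [DecidableEq P] in
lemma face_iterate (hface : ∀ p, face (succ p) = face p) (p : P) (n : ℕ) :
    face (succ^[n] p) = face p := by
  induction n with
  | zero => rfl
  | succ n ih => rw [Function.iterate_succ_apply', hface, ih]

/-- the cycle as a finset -/
noncomputable def Cyc (succ : Equiv.Perm P) (p : P) : Finset P :=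
  (range (cyc succ p)).image (fun j => succ^[j] p)

lemma card_Cyc (p : P) : (Cyc succ p).card = cyc succ p := by
  unfold Cyc
  rw [Finset.card_image_of_injOn, card_range]
  intro i hi j hj h
  have hi' : i < cyc succ p := by simpa only [coe_range, Set.mem_Iio] using hi
  have hj' : j < cyc succ p := by simpa using hj
  exact Function.iterate_injOn_Iio_minimalPeriod (f := succ) (x := p) hi' hj' h

lemma mem_Cyc_iterate (p : P) (n : ℕ) : succ^[n] p ∈ Cyc succ p := by
  unfold Cyc
  rw [mem_image]
  refine ⟨n % cyc succ p, mem_range.2 (Nat.mod_lt _ (cyc_pos p)), ?_⟩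
  exact Function.iterate_mod_minimalPeriod_eq

lemma mem_Cyc_iff (p q : P) : q ∈ Cyc succ p ↔ ∃ n, succ^[n] p = q := by
  constructor
  · intro h
    unfold Cyc at h
    rw [mem_image] at h
    obtain ⟨j, _, hj⟩ := h
    exact ⟨j, hj⟩
  · rintro ⟨n, rfl⟩
    exact mem_Cyc_iterate p n

/-- every side of a cornered cycle lies on an arc -/
lemma exists_arc {p : P} {q : P} (hq : q ∈ Cyc succ p) (hex : ∃ k, Real succ mu (succ^[k] p)) :
    ∃ c ∈ Cyc succ p, Real succ mu c ∧ ∃ k, k < arcLen succ mu c ∧ succ^[k] c = q := by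
  classical
  obtain ⟨n, hn⟩ := (mem_Cyc_iff p q).1 hq
  obtain ⟨k₀, hk₀⟩ := hex
  -- positions m with m + t = n + N * something
  -- there are m, t with succ^[m] p real, succ^[t] (succ^[m] p) = q
  have hbig : ∃ t, ∃ m, Real succ mu (succ^[m] p) ∧ succ^[t] (succ^[m] p) = q := by
    refine ⟨n + cyc succ p * k₀ - k₀, k₀, hk₀, ?_⟩
    have hpos := cyc_pos (succ := succ) p
    have hge : k₀ ≤ n + cyc succ p * k₀ := by nlinarith
    rw [← Function.iterate_add_apply, Nat.sub_add_cancel hge, Function.iterate_add_apply]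
    have : succ^[cyc succ p * k₀] p = p := by
      have := (Function.isPeriodicPt_minimalPeriod succ p).mul_const k₀
      exact this
    rw [this, hn]
  obtain ⟨t, ht, htmin⟩ : ∃ t, (∃ m, Real succ mu (succ^[m] p) ∧ succ^[t] (succ^[m] p) = q) ∧
      ∀ t' < t, ¬ ∃ m, Real succ mu (succ^[m] p) ∧ succ^[t'] (succ^[m] p) = q :=
    ⟨Nat.find hbig, Nat.find_spec hbig, fun t' h => Nat.find_min hbig h⟩
  obtain ⟨m, hm, hmq⟩ := ht
  refine ⟨succ^[m] p, mem_Cyc_iterate p m, hm, t, ?_, hmq⟩
  by_contra hle
  push Not at hle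
  obtain ⟨hpos, hreal⟩ := arcLen_spec hm
  have : t - arcLen succ mu (succ^[m] p) < t := by omega
  apply htmin _ this
  refine ⟨arcLen succ mu (succ^[m] p) + m, ?_, ?_⟩
  · rw [Function.iterate_add_apply]; exact hreal
  · rw [Function.iterate_add_apply, ← Function.iterate_add_apply, Nat.sub_add_cancel hle, hmq]

/-- cycle length is at most the sum of the lengths of the arcs -/
lemma cyc_le_sum {p : P} (hex : ∃ k, Real succ mu (succ^[k] p)) :
    cyc succ p ≤ ∑ c ∈ (Cyc succ p).filter (fun c => Real succ mu c), arcLen succ mu c := by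
  classical
  rw [← card_Cyc p]
  have hsub : Cyc succ p ⊆ ((Cyc succ p).filter (fun c => Real succ mu c)).biUnion
      (fun c => (range (arcLen succ mu c)).image (fun k => succ^[k] c)) := by
    intro q hq
    obtain ⟨c, hc, hr, k, hk, e⟩ := exists_arc (mu := mu) hq hex
    rw [mem_biUnion]
    exact ⟨c, mem_filter.2 ⟨hc, hr⟩, mem_image.2 ⟨k, mem_range.2 hk, e⟩⟩
  calc (Cyc succ p).card ≤ _ := card_le_card hsub
    _ ≤ ∑ c ∈ (Cyc succ p).filter (fun c => Real succ mu c),
        ((range (arcLen succ mu c)).image (fun k => succ^[k] c)).card := card_biUnion_le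
    _ ≤ _ := by
        apply Finset.sum_le_sum
        intro c _
        calc _ ≤ (range (arcLen succ mu c)).card := card_image_le
          _ = _ := card_range _

variable [DecidableEq V] [DecidableEq Fc]

omit [DecidableEq V] in
/-- `i_f ≥ o_f` -/
lemma oN_le_iN (hmm : ∀ p, mu (mu p) = p)
    (htau : ∀ p, tau (succ (mu p)) = tau p)
    (hface : ∀ p, face (succ p) = face p)
    (hsimple : ∀ p q, face p = out → face q = out → tau p = tau q → p = q)
    (f : Fc) : oN succ mu face out f ≤ iN succ mu face out f := by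
  classical
  -- previous real corner
  have hprev : ∀ p, Real succ mu p → face p = f → face (mu p) = out →
      ∃ c, (Real succ mu c ∧ face c = f ∧ face (mu c) ≠ out) ∧ succ^[arcLen succ mu c] c = p := by
    intro p hp hf hout
    have hq : succ.symm p ∈ Cyc succ p := by
      rw [mem_Cyc_iff]
      refine ⟨cyc succ p - 1, ?_⟩
      apply succ.injective
      rw [← Function.iterate_succ_apply' (⇑succ), Equiv.apply_symm_apply]
      have : cyc succ p - 1 + 1 = cyc succ p := Nat.sub_add_cancel (cyc_pos p)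
      rw [Nat.succ_eq_add_one, this, cyc_it]
    obtain ⟨c, hc, hr, k, hk, e⟩ := exists_arc (mu := mu) hq ⟨0, hp⟩
    have e2 : succ^[k+1] c = p := by
      rw [Function.iterate_succ_apply', e, Equiv.apply_symm_apply]
    have hk2 : arcLen succ mu c = k + 1 := by
      have := arcLen_le (p := c) (k := k + 1) (by omega)
        (by rw [e2]; exact hp)
      omega
    refine ⟨c, ⟨hr, ?_, ?_⟩, by rw [hk2, e2]⟩
    · have := face_iterate hface c (k+1)
      rw [e2] at this
      rw [← this, hf]
    · intro hco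
      have h3 : face (mu (succ.symm p)) = out := by
        rw [← e, arc_face hmm hface hk, hco]
      have t1 : tau (succ (mu p)) = tau p := htau p
      have t2 : tau p = tau (mu (succ.symm p)) := by
        have := htau (mu (succ.symm p))
        rw [hmm, Equiv.apply_symm_apply] at this
        exact this
      have h4 := hsimple (succ (mu p)) (mu (succ.symm p)) (by rw [hface]; exact hout) h3
        (by rw [t1, t2])
      apply hp
      rw [h4, hmm, Equiv.apply_symm_apply]
  choose! g hg using hprev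
  unfold oN iN
  apply Finset.card_le_card_of_injOn g
  · intro p hp
    have hp' : p ∈ univ.filter fun p => Real succ mu p ∧ face p = f ∧ face (mu p) = out := hp
    simp only [mem_filter, mem_univ, true_and] at hp'
    apply Finset.mem_coe.2
    simp only [mem_filter, mem_univ, true_and]
    exact (hg p hp'.1 hp'.2.1 hp'.2.2).1
  · intro p hp q hq h
    have hp' : p ∈ univ.filter fun p => Real succ mu p ∧ face p = f ∧ face (mu p) = out := hp
    have hq' : q ∈ univ.filter fun p => Real succ mu p ∧ face p = f ∧ face (mu p) = out := hq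
    simp only [mem_filter, mem_univ, true_and] at hp' hq'
    rw [← (hg p hp'.1 hp'.2.1 hp'.2.2).2, ← (hg q hq'.1 hq'.2.1 hq'.2.2).2, h]

/-- Final combinatorial theorem. -/
theorem good_face (hmm : ∀ p, mu (mu p) = p) (hne : ∀ p, mu p ≠ p)
    (htau : ∀ p, tau (succ (mu p)) = tau p)
    (hface : ∀ p, face (succ p) = face p)
    (hoo : ∀ p, face p = out → face (mu p) ≠ out)
    (h1 : H1 mu face out tau) [Nonempty P]
    (hred : ∀ p, succ (mu p) ≠ p)
    (hsimple : ∀ p q, face p = out → face q = out → tau p = tau q → p = q)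
    (hcorner : ∀ p, face p ≠ out → ∃ k, Real succ mu (succ^[k] p))
    (K : ℕ) (hK : 6 ≤ K)
    (hpiece : ∀ p, Real succ mu p → face p ≠ out → face (mu p) ≠ out →
      K * arcLen succ mu p < cyc succ p) (b : P) :
    ∃ p L, 0 < L ∧ L ≤ cyc succ p ∧ face p ≠ out ∧
      (∀ j, j < L → face (mu (succ^[j] p)) = out) ∧
      (∀ j, j + 1 < L → succ (mu (succ^[j+1] p)) = mu (succ^[j] p)) ∧
      (∀ j, mu (succ^[j] p) ≠ b) ∧
      K * (cyc succ p - L) ≤ 3 * cyc succ p := by
  classical
  have hcurv := curvature hmm hne htau hface hoo h1 hred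
  -- analysis of a positive face
  have key : ∀ f ∈ faces face out, iN succ mu face out f + 2 * oN succ mu face out f < 6 →
      oN succ mu face out f = 1 ∧ 1 ≤ iN succ mu face out f ∧ iN succ mu face out f ≤ 3 := by
    intro f hf hlt
    have hle := oN_le_iN (succ := succ) (mu := mu) (out := out) hmm htau hface hsimple f
    have hf' : f ≠ out := (mem_erase.1 hf).1
    have hone : 1 ≤ oN succ mu face out f := by
      by_contra h0
      have h0' : oN succ mu face out f = 0 := by omega
      obtain ⟨q, _, hq⟩ := mem_image.1 (mem_erase.1 hf).2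
      have hex := hcorner q (by rw [hq]; exact hf')
      have hsum := cyc_le_sum hex
      have hempty : ∀ c, Real succ mu c → face c = f → face (mu c) ≠ out := by
        intro c hc hcf hco
        unfold oN at h0'
        rw [card_eq_zero] at h0'
        have : c ∈ (univ.filter fun p => Real succ mu p ∧ face p = f ∧ face (mu p) = out) := by
          simp only [mem_filter, mem_univ, true_and]
          exact ⟨hc, hcf, hco⟩
        rw [h0'] at this
        exact notMem_empty _ this
      have hnum : ((Cyc succ q).filter (fun c => Real succ mu c)).card ≤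
          iN succ mu face out f := by
        unfold iN
        apply card_le_card
        intro c hc
        rw [mem_filter] at hc
        obtain ⟨n, hn⟩ := (mem_Cyc_iff q c).1 hc.1
        have hcf : face c = f := by rw [← hn, face_iterate hface, hq]
        simp only [mem_filter, mem_univ, true_and]
        exact ⟨hc.2, hcf, hempty c hc.2 hcf⟩
      have hK2 : K * cyc succ q ≤
          ∑ c ∈ (Cyc succ q).filter (fun c => Real succ mu c), cyc succ q := by
        calc K * cyc succ q ≤ K * ∑ c ∈ (Cyc succ q).filter (fun c => Real succ mu c),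
              arcLen succ mu c := Nat.mul_le_mul_left _ hsum
          _ = ∑ c ∈ (Cyc succ q).filter (fun c => Real succ mu c), K * arcLen succ mu c := by
              rw [Finset.mul_sum]
          _ ≤ _ := by
              apply Finset.sum_le_sum
              intro c hc
              rw [mem_filter] at hc
              obtain ⟨n, hn⟩ := (mem_Cyc_iff q c).1 hc.1
              have hcf : face c = f := by rw [← hn, face_iterate hface, hq]
              have hcc : cyc succ c = cyc succ q := by rw [← hn, cyc_iterate]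
              have := hpiece c hc.2 (by rw [hcf]; exact hf') (hempty c hc.2 hcf)
              rw [hcc] at this
              exact this.le
      rw [sum_const, smul_eq_mul] at hK2
      have hp := cyc_pos (succ := succ) q
      have := Nat.le_of_mul_le_mul_right hK2 hp
      omega
    omega
  -- there is a positive face different from face (mu b)
  have hex : ∃ f ∈ faces face out, f ≠ face (mu b) ∧
      iN succ mu face out f + 2 * oN succ mu face out f < 6 := by
    by_contra hno
    push Not at hno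
    have hlow : 6 * (faces face out).card ≤
        ∑ f ∈ faces face out, (iN succ mu face out f + 2 * oN succ mu face out f) + 3 := by
      by_cases hb : face (mu b) ∈ faces face out
      · rw [← Finset.add_sum_erase _ _ hb]
        have h1 : ∑ f ∈ (faces face out).erase (face (mu b)), 6 ≤
            ∑ f ∈ (faces face out).erase (face (mu b)),
              (iN succ mu face out f + 2 * oN succ mu face out f) := by
          apply Finset.sum_le_sum
          intro f hf
          exact hno f (mem_of_mem_erase hf) (ne_of_mem_erase hf)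
        rw [sum_const, smul_eq_mul, card_erase_of_mem hb] at h1
        have hc : 0 < (faces face out).card := card_pos.2 ⟨_, hb⟩
        have h3 : 3 ≤ iN succ mu face out (face (mu b)) + 2 * oN succ mu face out (face (mu b)) := by
          by_cases hlt : iN succ mu face out (face (mu b)) + 2 * oN succ mu face out (face (mu b)) < 6
          · obtain ⟨h1, h2, _⟩ := key _ hb hlt
            omega
          · omega
        omega
      · have h1 : ∑ f ∈ faces face out, 6 ≤
            ∑ f ∈ faces face out, (iN succ mu face out f + 2 * oN succ mu face out f) := by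
          apply Finset.sum_le_sum
          intro f hf
          exact hno f hf (fun h => hb (h ▸ hf))
        rw [sum_const, smul_eq_mul] at h1
        (clear * - hcurv h1; omega)
    (clear * - hcurv hlow; omega)
  obtain ⟨f, hf, hfb, hlt⟩ := hex
  obtain ⟨ho, hi1, hi3⟩ := key f hf hlt
  have hf' : f ≠ out := (mem_erase.1 hf).1
  unfold oN at ho
  obtain ⟨p, hp⟩ := card_eq_one.1 ho
  have hpmem : p ∈ (univ.filter fun p => Real succ mu p ∧ face p = f ∧ face (mu p) = out) := by
    rw [hp]; exact mem_singleton_self p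
  simp only [mem_filter, mem_univ, true_and] at hpmem
  obtain ⟨hpr, hpf, hpo⟩ := hpmem
  refine ⟨p, arcLen succ mu p, (arcLen_spec hpr).1, arcLen_le_cyc hpr, by rw [hpf]; exact hf',
    fun j hj => (arc_face hmm hface hj).trans hpo, fun j hj => arc_partner hmm hj, ?_, ?_⟩
  · intro j hj
    apply hfb
    rw [← hj, hmm, face_iterate hface, hpf]
  · have hsum := cyc_le_sum (succ := succ) (mu := mu) (p := p) ⟨0, hpr⟩
    have hpin : p ∈ (Cyc succ p).filter (fun c => Real succ mu c) :=
      mem_filter.2 ⟨mem_Cyc_iterate p 0, hpr⟩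
    rw [← Finset.add_sum_erase _ _ hpin] at hsum
    have hother : ∀ c ∈ ((Cyc succ p).filter (fun c => Real succ mu c)).erase p,
        Real succ mu c ∧ face c = f ∧ face (mu c) ≠ out ∧ cyc succ c = cyc succ p := by
      intro c hc
      rw [mem_erase, mem_filter] at hc
      obtain ⟨hcp, hcm, hcr⟩ := hc
      obtain ⟨n, hn⟩ := (mem_Cyc_iff p c).1 hcm
      have hcf : face c = f := by rw [← hn, face_iterate hface, hpf]
      refine ⟨hcr, hcf, ?_, by rw [← hn, cyc_iterate]⟩
      intro hco
      have : c ∈ (univ.filter fun p => Real succ mu p ∧ face p = f ∧ face (mu p) = out) := by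
        simp only [mem_filter, mem_univ, true_and]
        exact ⟨hcr, hcf, hco⟩
      rw [hp, mem_singleton] at this
      exact hcp this
    have hnum : (((Cyc succ p).filter (fun c => Real succ mu c)).erase p).card ≤
        iN succ mu face out f := by
      unfold iN
      apply card_le_card
      intro c hc
      obtain ⟨h1, h2, h3, _⟩ := hother c hc
      simp only [mem_filter, mem_univ, true_and]
      exact ⟨h1, h2, h3⟩
    have hbound : K * ∑ c ∈ ((Cyc succ p).filter (fun c => Real succ mu c)).erase p,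
        arcLen succ mu c ≤ 3 * cyc succ p := by
      rw [Finset.mul_sum]
      calc ∑ c ∈ ((Cyc succ p).filter (fun c => Real succ mu c)).erase p, K * arcLen succ mu c
          ≤ ∑ c ∈ ((Cyc succ p).filter (fun c => Real succ mu c)).erase p, cyc succ p := by
            apply Finset.sum_le_sum
            intro c hc
            obtain ⟨h1, h2, h3, h4⟩ := hother c hc
            have := hpiece c h1 (by rw [h2]; exact hf') h3
            rw [h4] at this
            exact this.le
        _ = (((Cyc succ p).filter (fun c => Real succ mu c)).erase p).card * cyc succ p := by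
            rw [sum_const, smul_eq_mul]
        _ ≤ 3 * cyc succ p := Nat.mul_le_mul_right _ (hnum.trans hi3)
    calc K * (cyc succ p - arcLen succ mu p)
        ≤ K * ∑ c ∈ ((Cyc succ p).filter (fun c => Real succ mu c)).erase p, arcLen succ mu c := by
          apply Nat.mul_le_mul_left
          omega
      _ ≤ _ := hbound

end Arcs

end Vale.Agent.P089.GLC
end
end

section

section

/-! # E1a: counting permutations with prescribed constraints, first moment bound -/

open Finset

namespace Vale.Agent.P089.E1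

variable {n k : ℕ}

/-- Permutations mapping `A` into `B`. -/
def PF (A B : Finset (Fin n)) : Finset (Equiv.Perm (Fin n)) :=
  univ.filter fun π => ∀ x ∈ A, π x ∈ B

theorem mem_PF {A B : Finset (Fin n)} {π : Equiv.Perm (Fin n)} :
    π ∈ PF A B ↔ ∀ x ∈ A, π x ∈ B := by
  simp only [PF, mem_filter, mem_univ, true_and]

theorem PF_empty (B : Finset (Fin n)) : (PF ∅ B).card = n.factorial := by
  have : PF (∅ : Finset (Fin n)) B = univ := by
    ext π; simp only [mem_PF, notMem_empty, IsEmpty.forall_iff, implies_true, mem_univ]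
  rw [this, card_univ, Fintype.card_perm, Fintype.card_fin]

/-- Double counting. -/
theorem PF_insert_eq {A B : Finset (Fin n)} {x : Fin n} (hx : x ∉ A) :
    (PF A B).card * (B.card - A.card) = (PF (insert x A) B).card * (n - A.card) := by
  classical
  have h1 : ((PF A B).sigma fun π => B \ A.image π).card = (PF A B).card * (B.card - A.card) := by
    rw [card_sigma]
    rw [← smul_eq_mul, ← sum_const]
    apply sum_congr rfl
    intro π hπ
    rw [mem_PF] at hπ
    rw [card_sdiff_of_subset, card_image_of_injective _ π.injective]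
    intro y hy
    rw [mem_image] at hy
    obtain ⟨z, hz, rfl⟩ := hy
    exact hπ z hz
  have h2 : ((PF (insert x A) B).sigma fun π => univ \ A.image π).card
      = (PF (insert x A) B).card * (n - A.card) := by
    rw [card_sigma]
    rw [← smul_eq_mul, ← sum_const]
    apply sum_congr rfl
    intro π hπ
    rw [card_sdiff_of_subset (subset_univ _), card_image_of_injective _ π.injective, card_univ,
      Fintype.card_fin]
  rw [← h1, ← h2]
  have key : ∀ (π : Equiv.Perm (Fin n)) (z : Fin n), z ∉ A.image π → ∀ y ∈ A,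
      (Equiv.swap (π x) z * π) y = π y := by
    intro π z hz y hy
    rw [Equiv.Perm.mul_apply]
    apply Equiv.swap_apply_of_ne_of_ne
    · intro h; exact hx (π.injective h ▸ hy)
    · intro h; exact hz (mem_image.mpr ⟨y, hy, h⟩)
  have keyx : ∀ (π : Equiv.Perm (Fin n)) (z : Fin n), (Equiv.swap (π x) z * π) x = z := by
    intro π z
    rw [Equiv.Perm.mul_apply, Equiv.swap_apply_left]
  have inv : ∀ (π : Equiv.Perm (Fin n)) (z : Fin n),
      Equiv.swap ((Equiv.swap (π x) z * π) x) (π x) * (Equiv.swap (π x) z * π) = π := by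
    intro π z
    rw [keyx, ← mul_assoc, Equiv.swap_comm z (π x), Equiv.swap_mul_self, one_mul]
  have img : ∀ (π : Equiv.Perm (Fin n)) (z : Fin n), z ∉ A.image π →
      A.image (Equiv.swap (π x) z * π) = A.image π := by
    intro π z hz
    apply image_congr
    intro y hy
    exact key π z hz y hy
  have hxim : ∀ π : Equiv.Perm (Fin n), π x ∉ A.image π := by
    intro π h
    rw [mem_image] at h
    obtain ⟨y, hy, h⟩ := h
    exact hx (π.injective h ▸ hy)
  apply card_bij' (fun p _ => (⟨Equiv.swap (p.1 x) p.2 * p.1, p.1 x⟩ : Σ _ : Equiv.Perm (Fin n), Fin n))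
    (fun p _ => (⟨Equiv.swap (p.1 x) p.2 * p.1, p.1 x⟩ : Σ _ : Equiv.Perm (Fin n), Fin n))
  · rintro ⟨π, z⟩ hp
    simp only [mem_sigma, mem_sdiff, mem_PF, mem_univ, true_and] at hp ⊢
    obtain ⟨hπ, hzB, hz⟩ := hp
    refine ⟨?_, ?_⟩
    · intro y hy
      rw [mem_insert] at hy
      rcases hy with rfl | hy
      · rw [keyx]; exact hzB
      · rw [key π z hz y hy]; exact hπ y hy
    · rw [img π z hz]; exact hxim π
  · rintro ⟨π, z⟩ hp
    simp only [mem_sigma, mem_sdiff, mem_PF, mem_univ, true_and] at hp ⊢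
    obtain ⟨hπ, hz⟩ := hp
    refine ⟨?_, hπ x (mem_insert_self _ _), ?_⟩
    · intro y hy
      rw [key π z hz y hy]; exact hπ y (mem_insert_of_mem hy)
    · rw [img π z hz]; exact hxim π
  · rintro ⟨π, z⟩ hp
    simp only
    rw [inv, keyx]
  · rintro ⟨π, z⟩ hp
    simp only
    rw [inv, keyx]

theorem PF_mono {A A' B : Finset (Fin n)} (h : A ⊆ A') : PF A' B ⊆ PF A B := by
  intro π hπ
  rw [mem_PF] at hπ ⊢
  exact fun x hx => hπ x (h hx)

theorem card_le_of_PF {A B : Finset (Fin n)} (h : (PF A B).Nonempty) : A.card ≤ B.card := by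
  classical
  obtain ⟨π, hπ⟩ := h
  rw [mem_PF] at hπ
  exact card_le_card_of_injOn π (fun x hx => hπ x hx) π.injective.injOn

/-- One more constraint costs a factor `|B| / n`. -/
theorem PF_insert_le {A B : Finset (Fin n)} {x : Fin n} (hx : x ∉ A) :
    (PF (insert x A) B).card * n ≤ (PF A B).card * B.card := by
  classical
  rcases (PF A B).eq_empty_or_nonempty with h0 | hne
  · have : PF (insert x A) B = ∅ := by
      rw [← subset_empty, ← h0]; exact PF_mono (subset_insert _ _)
    rw [this]; simp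
  have hAB := card_le_of_PF hne
  have hBn : B.card ≤ n := by simpa only [Fintype.card_fin] using card_le_univ B
  have hAn : A.card < n := by
    have : (insert x A).card ≤ n := by simpa only [Fintype.card_fin] using card_le_univ (insert x A)
    rw [card_insert_of_notMem hx] at this
    omega
  have h := PF_insert_eq (B := B) hx
  obtain ⟨p, hp⟩ := Nat.exists_eq_add_of_le hAB
  obtain ⟨q, hq⟩ := Nat.exists_eq_add_of_le hBn
  have e1 : B.card - A.card = p := by omega
  have e2 : n - A.card = p + q := by omega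
  rw [e1, e2] at h
  have hpq : 0 < p + q := by omega
  have hn : n = A.card + p + q := by omega
  have h2 : (PF (insert x A) B).card * n * (p + q) ≤ (PF A B).card * B.card * (p + q) := by
    calc (PF (insert x A) B).card * n * (p + q) = (PF (insert x A) B).card * (p + q) * n := by ring
      _ = (PF A B).card * p * n := by rw [← h]
      _ = (PF A B).card * (p * n) := by ring
      _ ≤ (PF A B).card * (B.card * (p + q)) := by
          apply Nat.mul_le_mul_left
          rw [hp]
          conv_lhs => rw [hn]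
          nlinarith only []
      _ = _ := by ring
  exact Nat.le_of_mul_le_mul_right h2 hpq

theorem PF_card_le (A B : Finset (Fin n)) :
    (PF A B).card * n ^ A.card ≤ n.factorial * B.card ^ A.card := by
  classical
  induction A using Finset.induction_on with
  | empty => simp [PF_empty]
  | insert x A hx ih =>
    rw [card_insert_of_notMem hx, pow_succ, pow_succ]
    calc (PF (insert x A) B).card * (n ^ A.card * n)
        = ((PF (insert x A) B).card * n) * n ^ A.card := by ring
      _ ≤ ((PF A B).card * B.card) * n ^ A.card := Nat.mul_le_mul_right _ (PF_insert_le hx)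
      _ = ((PF A B).card * n ^ A.card) * B.card := by ring
      _ ≤ (n.factorial * B.card ^ A.card) * B.card := Nat.mul_le_mul_right _ ih
      _ = _ := by ring

/-- The edges of the multigraph of `k` permutations inside `R`. -/
def eS (π : Fin k → Equiv.Perm (Fin n)) (R : Finset (Fin n)) : Finset (Fin k × Fin n) :=
  (univ ×ˢ R).filter fun p => π p.1 p.2 ∈ R

theorem mem_eS {π : Fin k → Equiv.Perm (Fin n)} {R : Finset (Fin n)} {p : Fin k × Fin n} :
    p ∈ eS π R ↔ p.2 ∈ R ∧ π p.1 p.2 ∈ R := by
  simp only [eS, mem_filter, mem_product, mem_univ, true_and]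

/-- Families of permutations with all the edges of `E` inside `R`. -/
def FF (E : Finset (Fin k × Fin n)) (R : Finset (Fin n)) : Finset (Fin k → Equiv.Perm (Fin n)) :=
  univ.filter fun π => ∀ p ∈ E, π p.1 p.2 ∈ R

theorem FF_card_le (E : Finset (Fin k × Fin n)) (R : Finset (Fin n)) :
    (FF E R).card * n ^ E.card ≤ n.factorial ^ k * R.card ^ E.card := by
  classical
  set Ei : Fin k → Finset (Fin n) := fun i => (E.filter fun p => p.1 = i).image Prod.snd with hEi
  have hmem : ∀ i x, x ∈ Ei i ↔ (i, x) ∈ E := by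
    intro i x
    simp only [hEi, mem_image, mem_filter, Prod.exists]
    constructor
    · rintro ⟨a, b, ⟨h1, h2⟩, h3⟩
      subst h2 h3
      exact h1
    · intro h
      exact ⟨i, x, ⟨h, rfl⟩, rfl⟩
  have h1 : FF E R = Fintype.piFinset fun i => PF (Ei i) R := by
    ext π
    simp only [FF, mem_filter, mem_univ, true_and, Fintype.mem_piFinset, mem_PF]
    constructor
    · intro h i x hx
      exact h (i, x) ((hmem i x).mp hx)
    · intro h p hp
      exact h p.1 p.2 ((hmem p.1 p.2).mpr hp)
  have h2 : E.card = ∑ i, (Ei i).card := by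
    rw [card_eq_sum_card_fiberwise (f := Prod.fst) (t := univ) (fun _ _ => mem_coe.mpr (mem_univ _))]
    apply sum_congr rfl
    intro i _
    rw [hEi]
    rw [card_image_of_injOn]
    intro p hp q hq h
    simp only [coe_filter, Set.mem_ofPred_eq] at hp hq
    exact Prod.ext (hp.2.trans hq.2.symm) h
  rw [h1, Fintype.card_piFinset, h2, ← prod_pow_eq_pow_sum, ← prod_pow_eq_pow_sum,
    ← prod_mul_distrib]
  have h3 : n.factorial ^ k = ∏ _i : Fin k, n.factorial := by
    rw [prod_const, card_univ, Fintype.card_fin]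
  rw [h3, ← prod_mul_distrib]
  exact prod_le_prod' fun i _ => PF_card_le (Ei i) R

/-- Families of permutations with at least `m` edges inside `R`. -/
def BF (k : ℕ) (R : Finset (Fin n)) (m : ℕ) : Finset (Fin k → Equiv.Perm (Fin n)) :=
  univ.filter fun π => m ≤ (eS π R).card

theorem BF_card_le (k : ℕ) (R : Finset (Fin n)) (m : ℕ) :
    (BF k R m).card * n ^ m ≤ (k * R.card).choose m * (n.factorial ^ k * R.card ^ m) := by
  classical
  have h1 : BF k R m ⊆ (powersetCard m (univ ×ˢ R : Finset (Fin k × Fin n))).biUnion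
      fun E => FF E R := by
    intro π hπ
    simp only [BF, mem_filter, mem_univ, true_and] at hπ
    obtain ⟨E, hE, hEc⟩ := exists_subset_card_eq hπ
    rw [mem_biUnion]
    refine ⟨E, mem_powersetCard.mpr ⟨hE.trans (filter_subset _ _), hEc⟩, ?_⟩
    simp only [FF, mem_filter, mem_univ, true_and]
    intro p hp
    exact (mem_eS.mp (hE hp)).2
  calc (BF k R m).card * n ^ m
      ≤ (∑ E ∈ powersetCard m (univ ×ˢ R : Finset (Fin k × Fin n)), (FF E R).card) * n ^ m :=
        Nat.mul_le_mul_right _ ((card_le_card h1).trans card_biUnion_le)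
    _ = ∑ E ∈ powersetCard m (univ ×ˢ R : Finset (Fin k × Fin n)), (FF E R).card * n ^ m := by
        rw [sum_mul]
    _ ≤ ∑ E ∈ powersetCard m (univ ×ˢ R : Finset (Fin k × Fin n)),
          n.factorial ^ k * R.card ^ m := by
        apply sum_le_sum
        intro E hE
        have := FF_card_le E R
        rwa [(mem_powersetCard.mp hE).2] at this
    _ = _ := by
        rw [sum_const, card_powersetCard, card_product, card_univ, Fintype.card_fin, smul_eq_mul]

end Vale.Agent.P089.E1
end
end

section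

section

/-! # E1b: numerical estimates for the first moment bound -/

open Finset

namespace Vale.Agent.P089.E1

theorem pow_self_le (b : ℕ) : (b : ℝ) ^ b ≤ 3 ^ b * (b.factorial : ℝ) := by
  induction b with
  | zero => simp
  | succ b ih =>
    rcases Nat.eq_zero_or_pos b with h0 | hb
    · subst h0; norm_num
    have hb' : (0 : ℝ) < b := by exact_mod_cast hb
    have h1 : ((b : ℝ) + 1) ^ b ≤ 3 * (b : ℝ) ^ b := by
      have h2 : (1 + 1 / (b : ℝ)) ^ b ≤ Real.exp 1 := by
        have h3 : 1 + 1 / (b : ℝ) ≤ Real.exp (1 / b) := by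
          have := Real.add_one_le_exp (1 / (b : ℝ))
          linarith
        calc (1 + 1 / (b : ℝ)) ^ b ≤ (Real.exp (1 / b)) ^ b :=
              pow_le_pow_left₀ (by positivity) h3 b
          _ = Real.exp 1 := by
              rw [← Real.exp_nat_mul]
              congr 1
              field_simp
      have h4 : ((b : ℝ) + 1) = b * (1 + 1 / (b : ℝ)) := by (clear * - hb; field_simp)
      rw [h4, mul_pow]
      have h5 := Real.exp_one_lt_d9
      have h6 : (0 : ℝ) < (b : ℝ) ^ b := by positivity
      nlinarith only [h6, h2, h5]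
    rw [Nat.factorial_succ]
    push_cast
    calc ((b : ℝ) + 1) ^ (b + 1) = ((b : ℝ) + 1) ^ b * (b + 1) := by ring
      _ ≤ (3 * (b : ℝ) ^ b) * (b + 1) := by gcongr
      _ ≤ (3 * (3 ^ b * (b.factorial : ℝ))) * (b + 1) := by gcongr
      _ = _ := by ring

/-- `C(a, b) ≤ (3 a / b)^b`. -/
theorem choose_le (a b : ℕ) (hb : 0 < b) : (a.choose b : ℝ) ≤ (3 * a / b) ^ b := by
  have h1 : (a.choose b : ℝ) ≤ (a : ℝ) ^ b / (b.factorial : ℝ) := Nat.choose_le_pow_div b a
  have h2 := pow_self_le b
  have hf : (0 : ℝ) < (b.factorial : ℝ) := by exact_mod_cast b.factorial_pos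
  have hb' : (0 : ℝ) < (b : ℝ) := by exact_mod_cast hb
  refine h1.trans ?_
  rw [div_pow, mul_pow, div_le_div_iff₀ hf (by positivity)]
  calc (a : ℝ) ^ b * (b : ℝ) ^ b ≤ (a : ℝ) ^ b * (3 ^ b * (b.factorial : ℝ)) := by gcongr
    _ = _ := by ring

/-- Term (A). -/
theorem termA {n s : ℕ} (hs : 0 < s) (hn : 2 * s ≤ n) :
    (n.choose s : ℝ) * (((40 * s).choose (35 * s) : ℝ) * ((s : ℝ) / n) ^ (35 * s)) ≤ (1 / 8) ^ s := by
  have hs' : (0 : ℝ) < s := by exact_mod_cast hs
  have hn0 : 0 < n := by omega
  have hn' : (0 : ℝ) < n := by exact_mod_cast hn0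
  have h1 : (n.choose s : ℝ) ≤ (3 * n / s) ^ s := choose_le n s hs
  have h2 : ((40 * s).choose (35 * s) : ℝ) ≤ (24 ^ 5) ^ s := by
    have e1 : (40 * s).choose (35 * s) = (40 * s).choose (5 * s) := by
      rw [← Nat.choose_symm (by omega : 5 * s ≤ 40 * s)]
      congr 1; omega
    rw [e1]
    refine (choose_le (40 * s) (5 * s) (by omega)).trans ?_
    rw [← pow_mul]
    apply le_of_eq
    congr 1
    push_cast
    field_simp
    norm_num
  set y : ℝ := (s : ℝ) / n with hy
  have hy0 : 0 < y := by positivity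
  have hy1 : y ≤ 1 / 2 := by
    rw [hy, div_le_div_iff₀ hn' (by norm_num)]
    have : ((2 * s : ℕ) : ℝ) ≤ n := by exact_mod_cast hn
    push_cast at this
    linarith only [this]
  have h3 : (3 * (n : ℝ) / s) = 3 * y⁻¹ := by rw [hy]; field_simp
  rw [h3] at h1
  calc (n.choose s : ℝ) * (((40 * s).choose (35 * s) : ℝ) * y ^ (35 * s))
      ≤ (3 * y⁻¹) ^ s * ((24 ^ 5) ^ s * y ^ (35 * s)) := by (clear * - h1 h2 hs hn0; gcongr)
    _ = (3 * 24 ^ 5 * y ^ 34) ^ s := by
        rw [pow_mul, ← mul_pow, ← mul_pow]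
        congr 1
        field_simp
    _ ≤ (1 / 8) ^ s := by
        apply pow_le_pow_left₀ (by positivity)
        calc 3 * 24 ^ 5 * y ^ 34 ≤ 3 * 24 ^ 5 * (1 / 2) ^ 34 := by gcongr
          _ ≤ 1 / 8 := by norm_num

/-- Term (B). -/
theorem termB {n s : ℕ} (hs : 0 < s) (hn : 294912000 * s ≤ n) :
    (n.choose s : ℝ) * (((40 * s).choose (3 * s / 2 + 1) : ℝ) * ((s : ℝ) / n) ^ (3 * s / 2 + 1))
      ≤ (1 / 8) ^ s := by
  have hs' : (0 : ℝ) < s := by exact_mod_cast hs
  have hn0 : 0 < n := by omega
  have hn' : (0 : ℝ) < n := by exact_mod_cast hn0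
  set m : ℕ := 3 * s / 2 + 1 with hm
  have hm1 : 3 * s ≤ 2 * m := by omega
  have hm0 : 0 < m := by omega
  have h1 : (n.choose s : ℝ) ≤ (3 * n / s) ^ s := choose_le n s hs
  have h2 : ((40 * s).choose m : ℝ) ≤ 80 ^ m := by
    refine (choose_le (40 * s) m hm0).trans ?_
    apply pow_le_pow_left₀ (by positivity)
    rw [div_le_iff₀ (by exact_mod_cast hm0)]
    have : ((3 * s : ℕ) : ℝ) ≤ ((2 * m : ℕ) : ℝ) := by exact_mod_cast hm1
    push_cast at this ⊢
    linarith only [this]
  set y : ℝ := (s : ℝ) / n with hy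
  have hy0 : 0 < y := by positivity
  have hy1 : 80 * y ≤ (1 / 1920) ^ 2 := by
    rw [hy, ← mul_div_assoc, div_le_iff₀ hn']
    have : ((294912000 * s : ℕ) : ℝ) ≤ n := by exact_mod_cast hn
    push_cast at this
    nlinarith only [this]
  have h3 : (3 * (n : ℝ) / s) = 3 * y⁻¹ := by rw [hy]; field_simp
  rw [h3] at h1
  have hms : m = s + (m - s) := by omega
  calc (n.choose s : ℝ) * (((40 * s).choose m : ℝ) * y ^ m)
      ≤ (3 * y⁻¹) ^ s * (80 ^ m * y ^ m) := by gcongr
    _ = (3 * y⁻¹) ^ s * ((80 * y) ^ s * (80 * y) ^ (m - s)) := by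
        rw [← mul_pow, ← pow_add, ← hms]
    _ = 240 ^ s * (80 * y) ^ (m - s) := by
        rw [← mul_assoc, ← mul_pow]
        congr 2
        field_simp
        norm_num
    _ ≤ 240 ^ s * ((1 / 1920) ^ 2) ^ (m - s) := by (clear * - hs hn0 hy1; gcongr)
    _ = 240 ^ s * (1 / 1920) ^ (2 * (m - s)) := by rw [← pow_mul]
    _ ≤ 240 ^ s * (1 / 1920) ^ s := by
        gcongr 240 ^ s * ?_
        apply pow_le_pow_of_le_one (by norm_num) (by norm_num)
        omega
    _ = (1 / 8) ^ s := by
        rw [← mul_pow]; norm_num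

/-- Term (C). -/
theorem termC {n s : ℕ} (hs : 0 < s) (hn : 0 < n) :
    (n.choose s : ℝ) * (((40 * s).choose (s + 1) : ℝ) * ((s : ℝ) / n) ^ (s + 1))
      ≤ 360 ^ (s + 1) * ((s : ℝ) / n) := by
  have hs' : (0 : ℝ) < s := by exact_mod_cast hs
  have hn' : (0 : ℝ) < n := by exact_mod_cast hn
  have h1 : (n.choose s : ℝ) ≤ (3 * n / s) ^ s := choose_le n s hs
  have h2 : ((40 * s).choose (s + 1) : ℝ) ≤ 120 ^ (s + 1) := by
    refine (choose_le (40 * s) (s + 1) (by omega)).trans ?_
    apply pow_le_pow_left₀ (by positivity)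
    rw [div_le_iff₀ (by positivity)]
    push_cast
    linarith
  set y : ℝ := (s : ℝ) / n with hy
  have hy0 : 0 < y := by positivity
  have h3 : (3 * (n : ℝ) / s) = 3 * y⁻¹ := by rw [hy]; field_simp
  rw [h3] at h1
  calc (n.choose s : ℝ) * (((40 * s).choose (s + 1) : ℝ) * y ^ (s + 1))
      ≤ (3 * y⁻¹) ^ s * (120 ^ (s + 1) * y ^ (s + 1)) := by gcongr
    _ = (3 * y⁻¹ * y) ^ s * (120 ^ (s + 1) * y) := by rw [pow_succ y]; ring
    _ = 3 ^ s * (120 ^ (s + 1) * y) := by
        congr 2
        field_simp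
    _ ≤ 3 ^ (s + 1) * (120 ^ (s + 1) * y) := by
        gcongr
        · norm_num
        · omega
    _ = 360 ^ (s + 1) * y := by
        rw [← mul_assoc, ← mul_pow]; norm_num

theorem sum_geom (N : ℕ) : ∑ s ∈ (range N).filter (fun s => 0 < s), ((1 : ℝ) / 8) ^ s ≤ 1 / 7 := by
  have h1 : ∑ s ∈ (range N).filter (fun s => 0 < s), ((1 : ℝ) / 8) ^ s
      ≤ ∑ s ∈ range N, ((1 : ℝ) / 8) ^ (s + 1) := by
    have h2 : (range N).filter (fun s => 0 < s) ⊆ (range N).image (fun s => s + 1) := by
      intro s hs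
      rw [mem_filter, mem_range] at hs
      rw [mem_image]
      exact ⟨s - 1, by rw [mem_range]; omega, by omega⟩
    calc _ ≤ ∑ s ∈ (range N).image (fun s => s + 1), ((1 : ℝ) / 8) ^ s :=
          sum_le_sum_of_subset_of_nonneg h2 (fun _ _ _ => by positivity)
      _ = _ := by
          rw [sum_image]
          intro a _ b _ h
          simpa using h
  refine h1.trans ?_
  have h3 : ∑ s ∈ range N, ((1 : ℝ) / 8) ^ (s + 1) = (1 / 8) * ∑ s ∈ range N, ((1 : ℝ) / 8) ^ s := by
    rw [mul_sum]
    apply sum_congr rfl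
    intro s _
    ring
  rw [h3, geom_sum_eq (by norm_num)]
  have h4 : (0 : ℝ) ≤ (1 / 8) ^ N := by positivity
  have h5 : ((1 / 8 : ℝ) ^ N - 1) / (1 / 8 - 1) = (1 - (1 / 8) ^ N) * (8 / 7) := by ring
  rw [h5]
  linarith only [h4]

/-- Union bound over all sets. -/
theorem union_bound {n k : ℕ} (hn : 0 < n) (m : ℕ → ℕ) (cond : ℕ → Prop) [DecidablePred cond] :
    (((univ : Finset (Fin k → Equiv.Perm (Fin n))).filter fun π =>
        ∃ R : Finset (Fin n), cond R.card ∧ m R.card ≤ (eS π R).card).card : ℝ)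
      ≤ (n.factorial ^ k : ℕ) * ∑ s ∈ (range (n + 1)).filter cond,
        (n.choose s : ℝ) * (((k * s).choose (m s) : ℝ) * ((s : ℝ) / n) ^ (m s)) := by
  classical
  have hn' : (0 : ℝ) < n := by exact_mod_cast hn
  have h1 : ((univ : Finset (Fin k → Equiv.Perm (Fin n))).filter fun π =>
        ∃ R : Finset (Fin n), cond R.card ∧ m R.card ≤ (eS π R).card) ⊆
      ((univ : Finset (Fin n)).powerset.filter fun R => cond R.card).biUnion
        fun R => BF k R (m R.card) := by
    intro π hπ
    rw [mem_filter] at hπ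
    obtain ⟨-, R, hc, hR⟩ := hπ
    rw [mem_biUnion]
    exact ⟨R, by simp only [powerset_univ, mem_filter, mem_univ, hc, and_self], by simp only [BF, mem_filter, mem_univ, true_and]; exact hR⟩
  have h2 : ∀ R : Finset (Fin n), ((BF k R (m R.card)).card : ℝ) ≤
      (n.factorial ^ k : ℕ) * (((k * R.card).choose (m R.card) : ℝ) *
        ((R.card : ℝ) / n) ^ (m R.card)) := by
    intro R
    have := BF_card_le k R (m R.card)
    have h3 : ((BF k R (m R.card)).card : ℝ) * (n : ℝ) ^ (m R.card) ≤
        ((k * R.card).choose (m R.card) : ℝ) * ((n.factorial ^ k : ℕ) * (R.card : ℝ) ^ (m R.card)) := by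
      exact_mod_cast this
    rw [div_pow]
    rw [← mul_div_assoc, ← mul_div_assoc, le_div_iff₀ (by positivity)]
    calc _ ≤ _ := h3
      _ = _ := by ring
  calc _ ≤ ((((univ : Finset (Fin n)).powerset.filter fun R => cond R.card).biUnion
        fun R => BF k R (m R.card)).card : ℝ) := by exact_mod_cast card_le_card h1
    _ ≤ ∑ R ∈ (univ : Finset (Fin n)).powerset.filter (fun R => cond R.card),
          ((BF k R (m R.card)).card : ℝ) := by exact_mod_cast card_biUnion_le
    _ ≤ ∑ R ∈ (univ : Finset (Fin n)).powerset.filter (fun R => cond R.card),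
          (n.factorial ^ k : ℕ) * (((k * R.card).choose (m R.card) : ℝ) *
        ((R.card : ℝ) / n) ^ (m R.card)) := sum_le_sum fun R _ => h2 R
    _ = ∑ R ∈ (univ : Finset (Fin n)).powerset, (fun s : ℕ => if cond s then
          (n.factorial ^ k : ℕ) * (((k * s).choose (m s) : ℝ) * ((s : ℝ) / n) ^ (m s)) else 0)
            R.card := by rw [sum_filter]
    _ = ∑ s ∈ range (n + 1), (n.choose s) • (if cond s then
          (n.factorial ^ k : ℕ) * (((k * s).choose (m s) : ℝ) * ((s : ℝ) / n) ^ (m s)) else 0) := by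
        have := sum_powerset_apply_card (fun s : ℕ => if cond s then
          ((n.factorial ^ k : ℕ) : ℝ) * (((k * s).choose (m s) : ℝ) * ((s : ℝ) / n) ^ (m s)) else 0)
          (x := (univ : Finset (Fin n)))
        rw [card_univ, Fintype.card_fin] at this
        exact this
    _ = _ := by
        rw [mul_sum, sum_filter]
        apply sum_congr rfl
        intro s _
        split_ifs
        · rw [nsmul_eq_mul]; ring
        · simp

/-- Existence of good permutations. -/
theorem exists_good {n g : ℕ} (hn : 8 * (2 * g + 80) ^ 2 * 360 ^ (2 * g + 81) ≤ n) :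
    ∃ π : Fin 40 → Equiv.Perm (Fin n),
      (∀ R : Finset (Fin n), 0 < R.card → 2 * R.card ≤ n → (eS π R).card < 35 * R.card) ∧
      (∀ R : Finset (Fin n), 0 < R.card → 294912000 * R.card ≤ n →
        2 * (eS π R).card ≤ 3 * R.card) ∧
      (∀ R : Finset (Fin n), 0 < R.card → R.card ≤ 2 * g + 80 → (eS π R).card ≤ R.card) := by
  classical
  have hn0 : 0 < n := by
    have : 0 < 8 * (2 * g + 80) ^ 2 * 360 ^ (2 * g + 81) := by positivity
    omega
  have hn' : (0 : ℝ) < n := by exact_mod_cast hn0
  by_contra hcon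
  push Not at hcon
  set T : ℝ := ((n.factorial ^ 40 : ℕ) : ℝ) with hT
  have hTpos : 0 < T := by
    rw [hT]; exact_mod_cast pow_pos n.factorial_pos 40
  have hA := union_bound (n := n) (k := 40) hn0 (fun s => 35 * s) (fun s => 0 < s ∧ 2 * s ≤ n)
  have hB := union_bound (n := n) (k := 40) hn0 (fun s => 3 * s / 2 + 1)
    (fun s => 0 < s ∧ 294912000 * s ≤ n)
  have hC := union_bound (n := n) (k := 40) hn0 (fun s => s + 1)
    (fun s => 0 < s ∧ s ≤ 2 * g + 80)
  set UA := (univ : Finset (Fin 40 → Equiv.Perm (Fin n))).filter fun π =>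
        ∃ R : Finset (Fin n), (0 < R.card ∧ 2 * R.card ≤ n) ∧ 35 * R.card ≤ (eS π R).card with hUA
  set UB := (univ : Finset (Fin 40 → Equiv.Perm (Fin n))).filter fun π =>
        ∃ R : Finset (Fin n), (0 < R.card ∧ 294912000 * R.card ≤ n) ∧
          3 * R.card / 2 + 1 ≤ (eS π R).card with hUB
  set UC := (univ : Finset (Fin 40 → Equiv.Perm (Fin n))).filter fun π =>
        ∃ R : Finset (Fin n), (0 < R.card ∧ R.card ≤ 2 * g + 80) ∧
          R.card + 1 ≤ (eS π R).card with hUC
  have hcover : (univ : Finset (Fin 40 → Equiv.Perm (Fin n))) ⊆ UA ∪ (UB ∪ UC) := by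
    intro π _
    rw [mem_union, mem_union]
    by_cases h1 : ∀ R : Finset (Fin n), 0 < R.card → 2 * R.card ≤ n → (eS π R).card < 35 * R.card
    · by_cases h2 : ∀ R : Finset (Fin n), 0 < R.card → 294912000 * R.card ≤ n →
          2 * (eS π R).card ≤ 3 * R.card
      · obtain ⟨R, h3, h4, h5⟩ := hcon π h1 h2
        right; right
        rw [hUC, mem_filter]
        exact ⟨mem_univ _, R, ⟨h3, h4⟩, h5⟩
      · push Not at h2
        obtain ⟨R, h3, h4, h5⟩ := h2
        right; left
        rw [hUB, mem_filter]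
        exact ⟨mem_univ _, R, ⟨h3, h4⟩, by (clear * - h5; omega)⟩
    · push Not at h1
      obtain ⟨R, h3, h4, h5⟩ := h1
      left
      rw [hUA, mem_filter]
      exact ⟨mem_univ _, R, ⟨h3, h4⟩, h5⟩
  have hcard : T ≤ UA.card + (UB.card + UC.card) := by
    have h1 : (univ : Finset (Fin 40 → Equiv.Perm (Fin n))).card ≤ UA.card + (UB.card + UC.card) :=
      (card_le_card hcover).trans ((card_union_le _ _).trans
        (Nat.add_le_add_left (card_union_le _ _) _))
    have h2 : (univ : Finset (Fin 40 → Equiv.Perm (Fin n))).card = n.factorial ^ 40 := by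
      rw [card_univ, Fintype.card_fun, Fintype.card_perm, Fintype.card_fin, Fintype.card_fin]
    rw [h2] at h1
    rw [hT]
    exact_mod_cast h1
  have sA : ∑ s ∈ (range (n + 1)).filter (fun s => 0 < s ∧ 2 * s ≤ n),
        (n.choose s : ℝ) * (((40 * s).choose (35 * s) : ℝ) * ((s : ℝ) / n) ^ (35 * s)) ≤ 1 / 7 := by
    calc _ ≤ ∑ s ∈ (range (n + 1)).filter (fun s => 0 < s ∧ 2 * s ≤ n), ((1 : ℝ) / 8) ^ s := by
          apply sum_le_sum
          intro s hs
          rw [mem_filter] at hs
          exact termA hs.2.1 hs.2.2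
      _ ≤ ∑ s ∈ (range (n + 1)).filter (fun s => 0 < s), ((1 : ℝ) / 8) ^ s := by
          apply sum_le_sum_of_subset_of_nonneg
          · intro s hs
            rw [mem_filter] at hs ⊢
            exact ⟨hs.1, hs.2.1⟩
          · intro _ _ _; positivity
      _ ≤ _ := sum_geom _
  have sB : ∑ s ∈ (range (n + 1)).filter (fun s => 0 < s ∧ 294912000 * s ≤ n),
        (n.choose s : ℝ) * (((40 * s).choose (3 * s / 2 + 1) : ℝ) *
          ((s : ℝ) / n) ^ (3 * s / 2 + 1)) ≤ 1 / 7 := by
    calc _ ≤ ∑ s ∈ (range (n + 1)).filter (fun s => 0 < s ∧ 294912000 * s ≤ n),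
            ((1 : ℝ) / 8) ^ s := by
          apply sum_le_sum
          intro s hs
          rw [mem_filter] at hs
          exact termB hs.2.1 hs.2.2
      _ ≤ ∑ s ∈ (range (n + 1)).filter (fun s => 0 < s), ((1 : ℝ) / 8) ^ s := by
          apply sum_le_sum_of_subset_of_nonneg
          · intro s hs
            rw [mem_filter] at hs ⊢
            exact ⟨hs.1, hs.2.1⟩
          · intro _ _ _; positivity
      _ ≤ _ := sum_geom _
  have sC : ∑ s ∈ (range (n + 1)).filter (fun s => 0 < s ∧ s ≤ 2 * g + 80),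
        (n.choose s : ℝ) * (((40 * s).choose (s + 1) : ℝ) * ((s : ℝ) / n) ^ (s + 1)) ≤ 1 / 8 := by
    set s₀ : ℕ := 2 * g + 80 with hs₀
    calc _ ≤ ∑ s ∈ (range (n + 1)).filter (fun s => 0 < s ∧ s ≤ s₀),
            (360 : ℝ) ^ (s₀ + 1) * ((s₀ : ℝ) / n) := by
          apply sum_le_sum
          intro s hs
          rw [mem_filter] at hs
          refine (termC hs.2.1 hn0).trans ?_
          have : (s : ℝ) ≤ s₀ := by exact_mod_cast hs.2.2
          gcongr
          · norm_num
          · exact hs.2.2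
      _ = (((range (n + 1)).filter (fun s => 0 < s ∧ s ≤ s₀)).card : ℝ) *
            ((360 : ℝ) ^ (s₀ + 1) * ((s₀ : ℝ) / n)) := by
          rw [sum_const, nsmul_eq_mul]
      _ ≤ (s₀ : ℝ) * ((360 : ℝ) ^ (s₀ + 1) * ((s₀ : ℝ) / n)) := by
          gcongr
          have : (range (n + 1)).filter (fun s => 0 < s ∧ s ≤ s₀) ⊆ Icc 1 s₀ := by
            intro s hs
            rw [mem_filter] at hs
            rw [mem_Icc]
            exact ⟨hs.2.1, hs.2.2⟩
          have h := card_le_card this
          simpa only [ge_iff_le, Nat.card_Icc, add_tsub_cancel_right] using h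
      _ ≤ 1 / 8 := by
          have h1 : ((8 * s₀ ^ 2 * 360 ^ (s₀ + 1) : ℕ) : ℝ) ≤ n := by exact_mod_cast hn
          push_cast at h1
          have h2 : (s₀ : ℝ) * ((360 : ℝ) ^ (s₀ + 1) * ((s₀ : ℝ) / n))
              = ((s₀ : ℝ) ^ 2 * 360 ^ (s₀ + 1)) / n := by ring
          rw [h2, div_le_div_iff₀ hn' (by norm_num)]
          linarith only [h1]
  have e1 := mul_le_mul_of_nonneg_left sA hTpos.le
  have e2 := mul_le_mul_of_nonneg_left sB hTpos.le
  have e3 := mul_le_mul_of_nonneg_left sC hTpos.le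
  have f1 : (UA.card : ℝ) ≤ T * (1 / 7) := hA.trans e1
  have f2 : (UB.card : ℝ) ≤ T * (1 / 7) := hB.trans e2
  have f3 : (UC.card : ℝ) ≤ T * (1 / 8) := hC.trans e3
  linarith only [hTpos, hA, hB, hC, hcard, e1, e2, e3]

end Vale.Agent.P089.E1
end
end

section

section

/-! Close idempotents, almost idempotents. -/

namespace Vale.Agent.P212

/-- Close idempotents are equivalent. -/
theorem mvn_of_close {A : Type} [NormedRing A] [CompleteSpace A] {e f : A}
    (he : e * e = e) (hf : f * f = f) (h : ‖2 * e - 1‖ * ‖e - f‖ < 1) :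
    ∃ x y : A, x * y = e ∧ y * x = f := by
  have ht : ‖(2 * e - 1) * (e - f)‖ < 1 := (norm_mul_le _ _).trans_lt h
  set u : Aˣ := Units.oneSub ((2 * e - 1) * (e - f)) ht with hu
  have hz : (u : A) = e * f + (1 - e) * (1 - f) := by
    rw [hu, Units.val_oneSub]
    have h1 : (2 * e - 1) * (e - f) = 2 * (e * e) - e - 2 * (e * f) + f := by noncomm_ring
    rw [h1, he]
    noncomm_ring
  have h1 : e * u = e * f := by
    rw [hz]
    have : e * (e * f + (1 - e) * (1 - f)) = (e * e) * f + (e - e * e) * (1 - f) := by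
      noncomm_ring
    rw [this, he, sub_self, zero_mul, add_zero]
  have h2 : (u : A) * f = e * f := by
    rw [hz]
    have : (e * f + (1 - e) * (1 - f)) * f = e * (f * f) + (1 - e) * (f - f * f) := by
      noncomm_ring
    rw [this, hf, sub_self, mul_zero, add_zero]
  refine ⟨e * u, (↑u⁻¹ : A) * e, ?_, ?_⟩
  · rw [mul_assoc, ← mul_assoc (u : A), Units.mul_inv, one_mul, he]
  · rw [mul_assoc, ← mul_assoc e, he, h1, ← h2, ← mul_assoc, Units.inv_mul, one_mul]

/-- one Newton step -/
def newton {A : Type} [NonUnitalRing A] (x : A) : A :=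
  x * x + x * x + x * x - x * x * x - x * x * x

theorem newton_sub {A : Type} [Ring A] (x : A) :
    newton x - x = (x * x - x) - (x * (x * x - x) + x * (x * x - x)) := by
  unfold newton
  noncomm_ring

theorem newton_idem {A : Type} [Ring A] (x : A) :
    newton x * newton x - newton x =
      (x * x - x) * (x * x - x) * ((x * x - x) + (x * x - x) + (x * x - x) + (x * x - x)) -
      ((x * x - x) * (x * x - x) + (x * x - x) * (x * x - x) + (x * x - x) * (x * x - x)) := by
  unfold newton
  noncomm_ring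

theorem norm_newton_sub_le {A : Type} [NormedRing A] (x : A) :
    ‖newton x - x‖ ≤ (2 * ‖x‖ + 1) * ‖x * x - x‖ := by
  rw [newton_sub]
  have h1 := norm_sub_le (x * x - x) (x * (x * x - x) + x * (x * x - x))
  have h2 := norm_add_le (x * (x * x - x)) (x * (x * x - x))
  have h3 := norm_mul_le x (x * x - x)
  linarith

theorem norm_newton_idem_le {A : Type} [NormedRing A] (x : A) (δ : ℝ) (hδ : δ ≤ 1 / 8)
    (hx : ‖x * x - x‖ ≤ δ) : ‖newton x * newton x - newton x‖ ≤ ‖x * x - x‖ / 2 := by
  rw [newton_idem]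
  set y := x * x - x with hy
  have h0 := norm_nonneg y
  have h1 := norm_sub_le (y * y * (y + y + y + y)) (y * y + y * y + y * y)
  have h2 := norm_mul_le (y * y) (y + y + y + y)
  have h3 := norm_mul_le y y
  have h4 : ‖y + y + y + y‖ ≤ 4 * ‖y‖ := by
    have a1 := norm_add_le (y + y + y) y
    have a2 := norm_add_le (y + y) y
    have a3 := norm_add_le y y
    (clear * - a1 a2 a3; linarith)
  have h5 : ‖y * y + y * y + y * y‖ ≤ 3 * (‖y‖ * ‖y‖) := by
    have a2 := norm_add_le (y * y + y * y) (y * y)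
    have a3 := norm_add_le (y * y) (y * y)
    linarith only [h3, a2, a3]
  have h6 : ‖y * y‖ * ‖y + y + y + y‖ ≤ (‖y‖ * ‖y‖) * (4 * ‖y‖) := by gcongr
  have h7 : ‖y‖ ≤ 1 / 8 := hx.trans hδ
  have h8 : ‖y‖ * ‖y‖ ≤ ‖y‖ * (1 / 8) := mul_le_mul_of_nonneg_left h7 h0
  have h9 : (‖y‖ * ‖y‖) * (4 * ‖y‖) ≤ (‖y‖ * (1 / 8)) * (4 * (1 / 8)) := by (clear * - h8 h7; gcongr)
  linarith only [h0, h1, h2, h5, h6, h8, h9]

/-- Almost idempotent elements are close to idempotents in any closed set which is stable under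
the Newton step. -/
theorem exists_idem_near_set {A : Type} [NormedRing A] [CompleteSpace A] (M ε : ℝ) (hM : 0 < M)
    (hε : 0 < ε) :
    ∃ δ > 0, ∀ (N : Set A), IsClosed N → (∀ z ∈ N, newton z ∈ N) → ∀ x ∈ N, ‖x‖ ≤ M →
      ‖x * x - x‖ < δ → ∃ f ∈ N, f * f = f ∧ ‖f - x‖ < ε := by
  have hm : 0 < min 1 (ε / 2) := lt_min one_pos (by positivity)
  set δ : ℝ := min (1 / 8) (min 1 (ε / 2) / (2 * (2 * M + 3))) with hδdef
  have hδ : 0 < δ := lt_min (by norm_num) (by positivity)
  have hδ8 : δ ≤ 1 / 8 := min_le_left _ _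
  have hδ2 : 2 * (2 * M + 3) * δ ≤ min 1 (ε / 2) := by
    have := min_le_right (1 / 8) (min 1 (ε / 2) / (2 * (2 * M + 3)))
    rw [← hδdef, le_div_iff₀ (by positivity)] at this
    (clear * - this; linarith)
  clear_value δ
  refine ⟨δ, hδ, fun N hN hnewt x hxN hxM hx => ?_⟩
  -- the Newton sequence
  set s : ℕ → A := fun k => newton^[k] x with hs
  have hs0 : s 0 = x := rfl
  have hs1 : ∀ k, s (k + 1) = newton (s k) := fun k => by
    rw [hs]
    exact Function.iterate_succ_apply' _ _ _
  have hmem : ∀ k, s k ∈ N := by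
    intro k
    induction k with
    | zero => exact hxN
    | succ k ih =>
      rw [hs1]
      exact hnewt _ ih
  set C : ℝ := 2 * ((2 * M + 3) * δ) with hC
  have hC1 : C ≤ 1 := by
    have := hδ2.trans (min_le_left _ _)
    rw [hC]
    linarith only [this]
  have hC2 : C ≤ ε / 2 := by
    have := hδ2.trans (min_le_right _ _)
    rw [hC]
    linarith only [this]
  have hinv : ∀ k, ‖s k * s k - s k‖ ≤ δ / 2 ^ k ∧ ‖s k - x‖ ≤ C * (1 - 1 / 2 ^ k) := by
    intro k
    induction k with
    | zero =>
      rw [hs0]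
      simp only [pow_zero, div_one, sub_self, norm_zero, mul_zero, le_refl, and_true]
      exact hx.le
    | succ k ih =>
      obtain ⟨h1, h2⟩ := ih
      have h3 : δ / 2 ^ k ≤ δ := div_le_self hδ.le (one_le_pow₀ one_le_two)
      have hCpos : 0 ≤ C := by rw [hC]; positivity
      have h4 : ‖s k‖ ≤ M + 1 := by
        have a1 : ‖s k‖ ≤ ‖s k - x‖ + ‖x‖ := by
          have := norm_add_le (s k - x) x
          rwa [sub_add_cancel] at this
        have a2 : C * (1 - 1 / 2 ^ k) ≤ C := by
          have : (0 : ℝ) ≤ 1 / 2 ^ k := by positivity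
          nlinarith only [hCpos, this]
        linarith only [hxM, hC1, h2, a1, a2]
      rw [hs1]
      constructor
      · refine (norm_newton_idem_le (s k) δ hδ8 (h1.trans h3)).trans ?_
        rw [pow_succ, ← div_div]
        exact div_le_div_of_nonneg_right h1 two_pos.le
      · have h5 := norm_newton_sub_le (s k)
        have h6 : (2 * ‖s k‖ + 1) * ‖s k * s k - s k‖ ≤ (2 * M + 3) * (δ / 2 ^ k) := by
          refine mul_le_mul (by linarith only [h4]) h1 (norm_nonneg _) (by positivity)
        have h7 : ‖newton (s k) - x‖ ≤ ‖newton (s k) - s k‖ + ‖s k - x‖ := by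
          have := norm_add_le (newton (s k) - s k) (s k - x)
          rwa [sub_add_sub_cancel] at this
        have h8 : (2 * M + 3) * (δ / 2 ^ k) = C * (1 / 2 ^ k - 1 / 2 ^ (k + 1)) := by
          rw [hC, pow_succ]
          field_simp
          ring
        have h9 : C * (1 - 1 / 2 ^ (k + 1)) =
            C * (1 / 2 ^ k - 1 / 2 ^ (k + 1)) + C * (1 - 1 / 2 ^ k) := by ring
        rw [h9]
        linarith
  have hdist : ∀ k, dist (s k) (s (k + 1)) ≤ C / 2 / 2 ^ k := by
    intro k
    obtain ⟨h1, h2⟩ := hinv k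
    have hCpos : 0 ≤ C := by rw [hC]; positivity
    have h4 : ‖s k‖ ≤ M + 1 := by
      have a1 : ‖s k‖ ≤ ‖s k - x‖ + ‖x‖ := by
        have := norm_add_le (s k - x) x
        rwa [sub_add_cancel] at this
      have a2 : C * (1 - 1 / 2 ^ k) ≤ C := by
        have : (0 : ℝ) ≤ 1 / 2 ^ k := by positivity
        nlinarith only [hCpos, this]
      linarith only [hxM, hC1, h2, a1, a2]
    rw [dist_comm, dist_eq_norm, hs1]
    refine (norm_newton_sub_le (s k)).trans ?_
    have h6 : (2 * ‖s k‖ + 1) * ‖s k * s k - s k‖ ≤ (2 * M + 3) * (δ / 2 ^ k) := by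
      refine mul_le_mul (by linarith only [h4]) h1 (norm_nonneg _) (by positivity)
    refine h6.trans (le_of_eq ?_)
    rw [hC]
    field_simp
  have hcau : CauchySeq s := cauchySeq_of_le_geometric_two hdist
  obtain ⟨f, hf⟩ := cauchySeq_tendsto_of_complete hcau
  refine ⟨f, hN.mem_of_tendsto hf (Filter.Eventually.of_forall hmem), ?_, ?_⟩
  · have h1 : Filter.Tendsto (fun k => s k * s k - s k) Filter.atTop (nhds (f * f - f)) :=
      (hf.mul hf).sub hf
    have h2 : Filter.Tendsto (fun k => s k * s k - s k) Filter.atTop (nhds 0) := by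
      refine squeeze_zero_norm (fun k => (hinv k).1) ?_
      have : Filter.Tendsto (fun k : ℕ => δ * (1 / 2 : ℝ) ^ k) Filter.atTop (nhds (δ * 0)) :=
        (tendsto_pow_atTop_nhds_zero_of_lt_one (by norm_num) (by norm_num)).const_mul δ
      rw [mul_zero] at this
      refine this.congr fun k => ?_
      rw [one_div, inv_pow, div_eq_mul_inv]
    exact sub_eq_zero.1 (tendsto_nhds_unique h1 h2)
  · have h1 := dist_le_of_le_geometric_two_of_tendsto₀ hdist hf
    rw [hs0, dist_comm, dist_eq_norm] at h1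
    linarith only [hε, hC2, h1]

end Vale.Agent.P212
end
end

section

section

/-!
# The step polynomial and its distance to a commuting idempotent (P5)
-/

namespace Vale.Agent.P089.Asm

/-- the polynomial of degree `2 m + 1`. -/
noncomputable def stepPoly {A : Type} [Ring A] (m : ℕ) (a : A) : A :=
  ∑ j ∈ Finset.range (m + 1), (2 * m + 1).choose (m + 1 + j) • (a ^ (m + 1 + j) * (1 - a) ^ (m - j))

namespace Step

theorem norm_pow_aux {A : Type} [NormedRing A] (x : A) {M B : ℝ} (h1 : ‖(1 : A)‖ ≤ M)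
    (hM : 1 ≤ M) (hx : ‖x‖ ≤ B) (k : ℕ) : ‖x ^ k‖ ≤ M * B ^ k := by
  have hB : 0 ≤ B := (norm_nonneg x).trans hx
  rcases Nat.eq_zero_or_pos k with rfl | hk
  · simpa only [pow_zero, mul_one, ge_iff_le] using h1
  · calc ‖x ^ k‖ ≤ ‖x‖ ^ k := norm_pow_le' x hk
      _ ≤ B ^ k := pow_le_pow_left₀ (norm_nonneg x) hx k
      _ ≤ M * B ^ k := by nlinarith only [hM, pow_nonneg hB k]

theorem idem_mul_pow {A : Type} [Ring A] {p x : A} (hp : p * p = p) (hc : p * x = x * p) (n : ℕ) :
    p * x ^ (n + 1) = (p * x) ^ (n + 1) := by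
  have h : Commute p x := hc
  rw [h.mul_pow, IsIdempotentElem.pow_succ_eq n hp]

/-- binomial expansion of one -/
theorem one_eq {A : Type} [Ring A] (m : ℕ) (a : A) :
    (1 : A) = ∑ k ∈ Finset.range (m + 1), (2 * m + 1).choose k • (a ^ k * (1 - a) ^ (2 * m + 1 - k))
      + stepPoly m a := by
  have hc : Commute a (1 - a) := (Commute.one_right a).sub_right (Commute.refl a)
  have h := hc.add_pow (2 * m + 1)
  rw [add_sub_cancel, one_pow] at h
  have e : 2 * m + 1 + 1 = (m + 1) + (m + 1) := by ring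
  rw [e, Finset.sum_range_add] at h
  rw [stepPoly]
  refine h.trans ?_
  congr 1
  · apply Finset.sum_congr rfl
    intro k _
    rw [nsmul_eq_mul, Nat.cast_comm]
  · apply Finset.sum_congr rfl
    intro j _
    rw [nsmul_eq_mul, Nat.cast_comm]
    have : 2 * m + 1 - (m + 1 + j) = m - j := by omega
    rw [this]

theorem sum_choose_top (m : ℕ) :
    ∑ j ∈ Finset.range (m + 1), (2 * m + 1).choose (m + 1 + j) = 4 ^ m := by
  have h1 := Nat.sum_range_choose (2 * m + 1)
  have e : 2 * m + 1 + 1 = (m + 1) + (m + 1) := by ring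
  rw [e, Finset.sum_range_add, Nat.sum_range_choose_halfway] at h1
  have e2 : 2 ^ (2 * m + 1) = 4 ^ m + 4 ^ m := by
    rw [pow_succ, pow_mul]; norm_num; ring
  rw [e2] at h1
  (clear * - h1; omega)

/-- common estimate -/
theorem sum_bound {A : Type} [NormedRing A] {M B δ' : ℝ} (h1 : ‖(1 : A)‖ ≤ M) (hM : 1 ≤ M)
    (m : ℕ) (a b y : A) (ha : ‖a‖ ≤ B) (hb : ‖b‖ ≤ B) (hy : ‖y‖ ≤ δ')
    (c : ℕ → ℕ) (hc : ∑ j ∈ Finset.range (m + 1), c j = 4 ^ m) (k l : ℕ → ℕ)
    (hkl : ∀ j ∈ Finset.range (m + 1), k j + l j = m) :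
    ‖∑ j ∈ Finset.range (m + 1), c j • (y ^ (m + 1) * (a ^ k j * b ^ l j))‖ ≤
      4 ^ m * (δ' ^ (m + 1) * (M ^ 2 * B ^ m)) := by
  have hB : 0 ≤ B := (norm_nonneg a).trans ha
  have hδ : 0 ≤ δ' := (norm_nonneg y).trans hy
  calc ‖∑ j ∈ Finset.range (m + 1), c j • (y ^ (m + 1) * (a ^ k j * b ^ l j))‖
      ≤ ∑ j ∈ Finset.range (m + 1), ‖c j • (y ^ (m + 1) * (a ^ k j * b ^ l j))‖ :=
        norm_sum_le _ _
    _ ≤ ∑ j ∈ Finset.range (m + 1), (c j : ℝ) * (δ' ^ (m + 1) * (M ^ 2 * B ^ m)) := by
        apply Finset.sum_le_sum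
        intro j hj
        refine (norm_nsmul_le ..).trans ?_
        apply mul_le_mul_of_nonneg_left _ (Nat.cast_nonneg _)
        refine (norm_mul_le _ _).trans ?_
        have e1 : ‖y ^ (m + 1)‖ ≤ δ' ^ (m + 1) :=
          (norm_pow_le' y (Nat.succ_pos m)).trans (pow_le_pow_left₀ (norm_nonneg y) hy _)
        have e2 : ‖a ^ k j * b ^ l j‖ ≤ M ^ 2 * B ^ m := by
          refine (norm_mul_le _ _).trans ?_
          calc ‖a ^ k j‖ * ‖b ^ l j‖ ≤ (M * B ^ k j) * (M * B ^ l j) :=
                mul_le_mul (norm_pow_aux a h1 hM ha _) (norm_pow_aux b h1 hM hb _)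
                  (norm_nonneg _) (mul_nonneg (by linarith only [hM]) (pow_nonneg hB _))
            _ = M ^ 2 * B ^ (k j + l j) := by rw [pow_add]; ring
            _ = M ^ 2 * B ^ m := by rw [hkl j hj]
        exact mul_le_mul e1 e2 (norm_nonneg _) (pow_nonneg hδ _)
    _ = 4 ^ m * (δ' ^ (m + 1) * (M ^ 2 * B ^ m)) := by
        rw [← Finset.sum_mul, ← Nat.cast_sum, hc]; push_cast; ring

end Step

open Step in
/-- P5: the polynomial is close to the idempotent. -/
theorem stepPoly_near {A : Type} [NormedRing A] (M : ℝ) (hM : 1 ≤ M) :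
    ∃ C : ℝ, 0 < C ∧ ∀ (e a : A), e * e = e → e * a = a * e → ‖e‖ ≤ M → ‖e - a‖ ≤ 1 →
      ‖(1 : A)‖ ≤ M → ∀ m : ℕ, ‖e - stepPoly m a‖ ≤ (C * ‖e - a‖) ^ (m + 1) := by
  refine ⟨8 * M ^ 3 * (2 * M + 1), by positivity, ?_⟩
  intro e a he hea heM hδ1 h1 m
  set δ := ‖e - a‖ with hδ
  have hδ0 : 0 ≤ δ := norm_nonneg _
  set B := 2 * M + 1 with hB
  have hB1 : 1 ≤ B := by linarith only [hM]
  have ha : ‖a‖ ≤ M + 1 := by
    calc ‖a‖ = ‖e - (e - a)‖ := by congr 1; abel
      _ ≤ ‖e‖ + ‖e - a‖ := norm_sub_le _ _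
      _ ≤ M + 1 := by linarith only [heM, hδ1]
  have haB : ‖a‖ ≤ B := by linarith
  have hbB : ‖1 - a‖ ≤ B := (norm_sub_le _ _).trans (by linarith)
  have hcomm1 : Commute a (1 - a) := (Commute.one_right a).sub_right (Commute.refl a)
  -- the part `e q`
  have hy1 : ‖e * (1 - a)‖ ≤ 2 * M * δ := by
    have : e * (1 - a) = e * (e - a) := by rw [mul_sub, mul_sub, he, mul_one]
    rw [this]
    refine (norm_mul_le _ _).trans ?_
    have := mul_le_mul_of_nonneg_right heM hδ0
    nlinarith only [hδ0, this, hM]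
  have hy2 : ‖(1 - e) * a‖ ≤ 2 * M * δ := by
    have h0 : (1 - e) * a = -((1 - e) * (e - a)) := by
      rw [mul_sub, sub_mul 1 e e, he, one_mul, sub_self, zero_sub, neg_neg]
    rw [h0, norm_neg]
    refine (norm_mul_le _ _).trans ?_
    have h2 : ‖1 - e‖ ≤ 2 * M := (norm_sub_le _ _).trans (by linarith only [heM, h1])
    exact mul_le_mul_of_nonneg_right h2 hδ0
  have he1 : (1 - e) * (1 - e) = 1 - e := by
    have h0 : (1 - e) * e = 0 := by rw [sub_mul, he, one_mul, sub_self]
    rw [mul_sub, h0, mul_one, sub_zero]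
  have hc1 : e * (1 - a) = (1 - a) * e := by rw [mul_sub, sub_mul, hea, mul_one, one_mul]
  have hc2 : (1 - e) * a = a * (1 - e) := by rw [sub_mul, mul_sub, hea, mul_one, one_mul]
  have key : e - stepPoly m a =
      (∑ k ∈ Finset.range (m + 1), (2 * m + 1).choose k •
        ((e * (1 - a)) ^ (m + 1) * (a ^ k * (1 - a) ^ (m - k)))) -
      ∑ j ∈ Finset.range (m + 1), (2 * m + 1).choose (m + 1 + j) •
        (((1 - e) * a) ^ (m + 1) * (a ^ j * (1 - a) ^ (m - j))) := by
    have h2 : e - stepPoly m a = e * (1 - stepPoly m a) - (1 - e) * stepPoly m a := by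
      rw [mul_sub, sub_mul, mul_one, one_mul]; abel
    rw [h2]
    congr 1
    · have h3 : 1 - stepPoly m a = ∑ k ∈ Finset.range (m + 1),
          (2 * m + 1).choose k • (a ^ k * (1 - a) ^ (2 * m + 1 - k)) := by
        rw [sub_eq_iff_eq_add]; exact one_eq m a
      rw [h3, Finset.mul_sum]
      apply Finset.sum_congr rfl
      intro k hk
      rw [mul_smul_comm]
      congr 1
      have h4 : 2 * m + 1 - k = (m + 1) + (m - k) := by
        have := Finset.mem_range.1 hk; omega
      rw [h4, pow_add, ← mul_assoc (a ^ k), (hcomm1.pow_pow k (m + 1)).eq,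
        mul_assoc ((1 - a) ^ (m + 1)), ← mul_assoc, idem_mul_pow he hc1]
    · rw [stepPoly, Finset.mul_sum]
      apply Finset.sum_congr rfl
      intro j hj
      rw [mul_smul_comm]
      congr 1
      rw [pow_add a (m + 1) j, mul_assoc (a ^ (m + 1)), ← mul_assoc (1 - e),
        idem_mul_pow he1 hc2]
  rw [key]
  refine (norm_sub_le _ _).trans ?_
  have b1 := sum_bound h1 hM m a (1 - a) (e * (1 - a)) haB hbB hy1
    (fun k => (2 * m + 1).choose k) (Nat.sum_range_choose_halfway m) (fun k => k)
    (fun k => m - k) (fun k hk => by have := Finset.mem_range.1 hk; omega)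
  have b2 := sum_bound h1 hM m a (1 - a) ((1 - e) * a) haB hbB hy2
    (fun j => (2 * m + 1).choose (m + 1 + j)) (sum_choose_top m) (fun k => k)
    (fun k => m - k) (fun k hk => by have := Finset.mem_range.1 hk; omega)
  refine (add_le_add b1 b2).trans ?_
  have hd : 0 ≤ (2 * M * δ) ^ (m + 1) := by (clear * - hM; positivity)
  have hM2 : M ^ 2 ≤ (M ^ 2) ^ (m + 1) := by
    have : (1 : ℝ) ≤ M ^ 2 := one_le_pow₀ hM
    exact le_self_pow₀ this (Nat.succ_ne_zero m)
  have hBm : B ^ m ≤ B ^ (m + 1) := pow_le_pow_right₀ hB1 (Nat.le_succ m)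
  have h4 : (2 : ℝ) * 4 ^ m ≤ 4 ^ (m + 1) := by
    rw [pow_succ]; nlinarith only [pow_pos (show (0 : ℝ) < 4 by norm_num) m]
  calc (4 : ℝ) ^ m * ((2 * M * δ) ^ (m + 1) * (M ^ 2 * B ^ m)) +
        4 ^ m * ((2 * M * δ) ^ (m + 1) * (M ^ 2 * B ^ m))
      = (2 * 4 ^ m) * ((2 * M * δ) ^ (m + 1) * (M ^ 2 * B ^ m)) := by ring
    _ ≤ 4 ^ (m + 1) * ((2 * M * δ) ^ (m + 1) * ((M ^ 2) ^ (m + 1) * B ^ (m + 1))) := by
        apply mul_le_mul h4 _ (by (clear * - hM; positivity)) (by positivity)
        apply mul_le_mul_of_nonneg_left _ hd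
        exact mul_le_mul hM2 hBm (by positivity) (by positivity)
    _ = (8 * M ^ 3 * (2 * M + 1) * δ) ^ (m + 1) := by
        rw [← mul_pow, ← mul_pow, ← mul_pow]
        congr 1
        rw [hB]; ring

end Vale.Agent.P089.Asm
end
end

section

section

/-!
# P089, trace estimate: filtration degree of the step polynomial
-/

namespace Vale.Agent.P089.Asm

open Matrix

/-- every entry lies in `S` and has filtration degree at most `d`. -/
def FilM {B : Type} [Ring B] [Module ℂ B] (S : Subring B) (fil : ℕ → Submodule ℂ B) {n : ℕ}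
    (d : ℕ) (x : Matrix (Fin n) (Fin n) B) : Prop :=
  ∀ i j, x i j ∈ S ∧ x i j ∈ fil d

section

variable {B : Type} [Ring B] [Module ℂ B] {S : Subring B} {fil : ℕ → Submodule ℂ B}

theorem FilM.mono (hfmono : Monotone fil) {n d d' : ℕ} {x : Matrix (Fin n) (Fin n) B}
    (h : FilM S fil d x) (hd : d ≤ d') : FilM S fil d' x :=
  fun i j => ⟨(h i j).1, hfmono hd (h i j).2⟩

theorem FilM.one (hf1 : (1 : B) ∈ fil 0) {n : ℕ} :
    FilM S fil 0 (1 : Matrix (Fin n) (Fin n) B) := by
  intro i j
  rw [Matrix.one_apply]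
  split_ifs
  · exact ⟨S.one_mem, hf1⟩
  · exact ⟨S.zero_mem, (fil 0).zero_mem⟩

theorem FilM.mul (hfmul : ∀ i j, ∀ x ∈ fil i, ∀ y ∈ fil j, x * y ∈ fil (i + j)) {n d d' : ℕ}
    {x y : Matrix (Fin n) (Fin n) B} (hx : FilM S fil d x) (hy : FilM S fil d' y) :
    FilM S fil (d + d') (x * y) := by
  intro i j
  rw [Matrix.mul_apply]
  exact ⟨S.sum_mem fun k _ => S.mul_mem (hx i k).1 (hy k j).1,
    (fil _).sum_mem fun k _ => hfmul _ _ _ (hx i k).2 _ (hy k j).2⟩

theorem FilM.pow (hf1 : (1 : B) ∈ fil 0)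
    (hfmul : ∀ i j, ∀ x ∈ fil i, ∀ y ∈ fil j, x * y ∈ fil (i + j)) {n d : ℕ}
    {x : Matrix (Fin n) (Fin n) B} (hx : FilM S fil d x) (k : ℕ) :
    FilM S fil (k * d) (x ^ k) := by
  induction k with
  | zero => rw [zero_mul, pow_zero]; exact FilM.one hf1
  | succ k ih =>
    rw [pow_succ, add_mul, one_mul]
    exact ih.mul hfmul hx

theorem FilM.sub {n d : ℕ} {x y : Matrix (Fin n) (Fin n) B} (hx : FilM S fil d x)
    (hy : FilM S fil d y) : FilM S fil d (x - y) := fun i j => by
  rw [Matrix.sub_apply]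
  exact ⟨S.sub_mem (hx i j).1 (hy i j).1, (fil d).sub_mem (hx i j).2 (hy i j).2⟩

theorem FilM.nsmul {n d : ℕ} {x : Matrix (Fin n) (Fin n) B} (hx : FilM S fil d x) (k : ℕ) :
    FilM S fil d (k • x) := fun i j => by
  rw [Matrix.smul_apply]
  exact ⟨S.nsmul_mem (hx i j).1 k, (fil d).toAddSubmonoid.nsmul_mem (hx i j).2 k⟩

theorem FilM.sum {ι : Type*} (s : Finset ι) {n d : ℕ} {x : ι → Matrix (Fin n) (Fin n) B}
    (hx : ∀ k ∈ s, FilM S fil d (x k)) : FilM S fil d (∑ k ∈ s, x k) := fun i j => by
  rw [Matrix.sum_apply]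
  exact ⟨S.sum_mem fun k hk => (hx k hk i j).1, (fil d).sum_mem fun k hk => (hx k hk i j).2⟩

end

/-- P6: filtration degree of the polynomial. -/
theorem stepPoly_mem {B : Type} [Ring B] [Module ℂ B] (S : Subring B) (fil : ℕ → Submodule ℂ B)
    (hfmono : Monotone fil) (hf1 : (1 : B) ∈ fil 0)
    (hfmul : ∀ i j, ∀ x ∈ fil i, ∀ y ∈ fil j, x * y ∈ fil (i + j)) {n : ℕ} (R m : ℕ)
    (a : Matrix (Fin n) (Fin n) B) (ha : ∀ i j, a i j ∈ S ∧ a i j ∈ fil R) :
    ∀ i j, stepPoly m a i j ∈ S ∧ stepPoly m a i j ∈ fil ((2 * m + 1) * R) := by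
  have h1 : FilM S fil R a := ha
  have h2 : FilM S fil R (1 - a) := ((FilM.one hf1).mono hfmono (Nat.zero_le R)).sub h1
  have h3 : FilM S fil ((2 * m + 1) * R) (stepPoly m a) := by
    unfold stepPoly
    refine FilM.sum _ fun j hj => FilM.nsmul ?_ _
    have hjm : j ≤ m := by
      rw [Finset.mem_range] at hj; omega
    have h4 := (h1.pow hf1 hfmul (m + 1 + j)).mul hfmul (h2.pow hf1 hfmul (m - j))
    rw [← add_mul, show m + 1 + j + (m - j) = 2 * m + 1 by omega] at h4
    exact h4
  exact h3

end Vale.Agent.P089.Asm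
end
end

section

section

/-! Definitions for the coefficient-free Baum-Connes assembly map (localization algebra
picture). -/

namespace Vale.Agent.P089

open NNReal Matrix

/-- The Hilbert space `ℓ²(I)`. -/
abbrev L2 (I : Type) : Type := lp (fun _ : I => ℂ) 2

/-- `T` is left translation by `g` on `ℓ²(G)`. -/
def IsLam {G : Type} [Group G] (g : G) (T : L2 G →L[ℂ] L2 G) : Prop :=
  ∀ (ξ : L2 G) (x : G), (T ξ : G → ℂ) x = (ξ : G → ℂ) (g⁻¹ * x)

/-- The reduced group C*-algebra: the norm closure in `B(ℓ²(G))` of the span of the left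
translations. -/
def CstarR (G : Type) [Group G] : Set (L2 G →L[ℂ] L2 G) :=
  closure (Submodule.span ℂ {T : L2 G →L[ℂ] L2 G | ∃ g, IsLam g T} : Set (L2 G →L[ℂ] L2 G))

open Classical in
/-- The matrix coefficient `⟨δ_j, T δ_k⟩`. -/
noncomputable def ent {I : Type} (T : L2 I →L[ℂ] L2 I) (j k : I) : ℂ :=
  (T (lp.single 2 k (1 : ℂ)) : I → ℂ) j

/-- `q` is a point with rational barycentric coordinates of the Rips complex `P_F(G)`, whose
simplices are the finite sets `s` with `x y⁻¹ ∈ F` for all `x, y ∈ s`. The group `G` acts on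
`P_F(G)` by right translations. -/
def InRips {G : Type} [Group G] (F : Finset G) (q : G →₀ ℚ) : Prop :=
  (∀ x, 0 ≤ q x) ∧ (q.sum fun _ a => a) = 1 ∧ ∀ x ∈ q.support, ∀ y ∈ q.support, x * y⁻¹ ∈ F

/-- The basis vector `δ_(g, n)` of `ℓ²(G × ℕ)` is placed at the point `p n · g` of the Rips
complexes; `1` is a vertex of `p n`, and each rational point of which `1` is a vertex occurs
infinitely often. (So each rational point of each of the Rips complexes occurs.) -/
def IsPlacement {G : Type} [Group G] (p : ℕ → G →₀ ℚ) : Prop :=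
  (∀ n, (∃ F, InRips F (p n)) ∧ 1 ∈ (p n).support) ∧
    ∀ F q, InRips F q → 1 ∈ q.support → {n | p n = q}.Infinite

/-- The point at which `δ_(g, n)` is placed: the translate `p n · g`. -/
noncomputable def pt {G : Type} [Group G] (p : ℕ → G →₀ ℚ) (j : G × ℕ) : G →₀ ℚ :=
  (p j.2).mapDomain (· * j.1)

/-- `T` is a `G`-equivariant, locally compact operator of finite propagation on
`ℓ²(G × ℕ) = ℓ²(G) ⊗ ℓ²(ℕ)`, where `G` acts by right translations on `G`. Their closure is
`C*_r(G) ⊗ 𝒦(ℓ²(ℕ))`. -/
structure IsRoe {G : Type} [Group G] (T : L2 (G × ℕ) →L[ℂ] L2 (G × ℕ)) : Prop where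
  equivariant : ∀ g h s m n, ent T (g * s, m) (h * s, n) = ent T (g, m) (h, n)
  propagation : ∃ E : Finset G, ∀ g h m n, ent T (g, m) (h, n) ≠ 0 → g * h⁻¹ ∈ E
  compact : ∀ h, ∃ K : L2 (G × ℕ) →L[ℂ] L2 (G × ℕ), IsCompactOperator K ∧
    ∀ j n, ent K j (h, n) = ent T j (h, n)

/-- `T` is in the unitization of the equivariant reduced Roe algebra `C*_r(G) ⊗ 𝒦(ℓ²(ℕ))`. -/
def IsU {G : Type} [Group G] (T : L2 (G × ℕ) →L[ℂ] L2 (G × ℕ)) : Prop :=
  ∃ (c : ℂ) (S : L2 (G × ℕ) →L[ℂ] L2 (G × ℕ)), S ∈ closure {S | IsRoe S} ∧ T = c • 1 + S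

/-- `T` is a bounded, uniformly continuous path of operators as above, which are supported in
the Rips complex `P_F(G)` and whose propagation, in the `ℓ¹`-metric, tends to zero. -/
structure IsLocal {G : Type} [Group G] (p : ℕ → G →₀ ℚ) (F : Finset G)
    (T : ℝ≥0 → L2 (G × ℕ) →L[ℂ] L2 (G × ℕ)) : Prop where
  roe : ∀ t, IsRoe (T t)
  carrier : ∀ t j k, ent (T t) j k ≠ 0 → InRips F (p j.2) ∧ InRips F (p k.2)
  propagation : ∀ ε > 0, ∃ t₀, ∀ t ≥ t₀, ∀ j k, ent (T t) j k ≠ 0 →
    ((pt p j - pt p k).sum fun _ a => |(a : ℝ)|) ≤ ε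
  continuous : UniformContinuous T
  bounded : ∃ C, ∀ t, ‖T t‖ ≤ C

/-- `e` is in the unitization of the equivariant localization algebra `C*_L(P_F(G))^G`, the
closure in the supremum norm of the paths as above. -/
def IsLoc {G : Type} [Group G] (p : ℕ → G →₀ ℚ) (F : Finset G)
    (e : ℝ≥0 → L2 (G × ℕ) →L[ℂ] L2 (G × ℕ)) : Prop :=
  ∃ (c : ℂ) (f : ℝ≥0 → L2 (G × ℕ) →L[ℂ] L2 (G × ℕ)), (∀ t, e t = c • 1 + f t) ∧
    ∀ ε > 0, ∃ T, IsLocal p F T ∧ ∀ t, ‖f t - T t‖ ≤ ε

/-- Two idempotent matrices with entries in the subring of `R` given by `S` define the same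
element of its `K_0`-group: they become Murray-von Neumann equivalent after adding an identity
matrix. -/
def SameK {R : Type} [Ring R] (S : R → Prop) {κ : Type} [Fintype κ] [DecidableEq κ]
    (e f : Matrix κ κ R) : Prop :=
  ∃ (m : ℕ) (x y : Matrix (κ ⊕ Fin m) (κ ⊕ Fin m) R), (∀ j k, S (x j k) ∧ S (y j k)) ∧
    x * y = fromBlocks e 0 0 1 ∧ y * x = fromBlocks f 0 0 1

/-- `S` is the operator `T ⊗ e₀₀` on `ℓ²(G) ⊗ ℓ²(ℕ)`. -/
def IsCorner {G : Type} (T : L2 G →L[ℂ] L2 G) (S : L2 (G × ℕ) →L[ℂ] L2 (G × ℕ)) : Prop :=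
  (∀ g h, ent S (g, 0) (h, 0) = ent T g h) ∧ ∀ j k, ¬ (j.2 = 0 ∧ k.2 = 0) → ent S j k = 0

/-- The class in `K_0(C*_r(G)) ≅ K_0(C*_r(G) ⊗ 𝒦)` of the idempotent matrix `q` is in the image
of the assembly map `μ_0 : K_0^G(E̲G) = colim_F K_0(C*_L(P_F(G))^G) → K_0(C*_r(G) ⊗ 𝒦)`, which
is given by evaluation at time `0`. -/
def InImage {G : Type} [Group G] (p : ℕ → G →₀ ℚ) {m : ℕ}
    (q : Matrix (Fin m) (Fin m) (L2 G →L[ℂ] L2 G)) : Prop :=
  ∃ (F : Finset G) (n : ℕ)
    (e f : Matrix (Fin n) (Fin n) (ℝ≥0 → L2 (G × ℕ) →L[ℂ] L2 (G × ℕ)))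
    (q' : Matrix (Fin m) (Fin m) (L2 (G × ℕ) →L[ℂ] L2 (G × ℕ))),
    (∀ j k, IsLoc p F (e j k) ∧ IsLoc p F (f j k)) ∧ e * e = e ∧ f * f = f ∧
    (∀ j k, IsCorner (q j k) (q' j k)) ∧
    SameK IsU (fromBlocks (e.map fun F => F 0) 0 0 0) (fromBlocks (f.map fun F => F 0) 0 0 q')

end Vale.Agent.P089
end
end

section

section

/-!
# P089: existence of placements
-/

namespace Vale.Agent.P089

theorem inRips_single {G : Type} [Group G] (F : Finset G) (hF : 1 ∈ F) :
    InRips F (Finsupp.single 1 (1 : ℚ) : G →₀ ℚ) := by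
  classical
  refine ⟨fun x => ?_, by simp, fun x hx y hy => ?_⟩
  · rw [Finsupp.single_apply]
    split_ifs <;> norm_num
  · have h1 := Finsupp.support_single_subset hx
    have h2 := Finsupp.support_single_subset hy
    rw [Finset.mem_singleton] at h1 h2
    rw [h1, h2]
    simpa only [inv_one, mul_one] using hF

/-- Placements exist for countable groups. -/
theorem exists_placement (G : Type) [Group G] [Countable G] :
    ∃ p : ℕ → G →₀ ℚ, IsPlacement p := by
  classical
  let A : Type := {q : G →₀ ℚ // (∃ F, InRips F q) ∧ 1 ∈ q.support}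
  have hA : Nonempty A := ⟨⟨Finsupp.single 1 1, ⟨{1}, inRips_single _ (by simp)⟩, by simp⟩⟩
  have hc : Countable A := inferInstance
  obtain ⟨s, hs⟩ := exists_surjective_nat (A × ℕ)
  refine ⟨fun n => (s n).1.1, fun n => (s n).1.2, fun F q hq h1 => ?_⟩
  let a : A := ⟨q, ⟨F, hq⟩, h1⟩
  choose r hr using fun k : ℕ => hs (a, k)
  have hinj : Function.Injective r := fun k l h => by
    have := (hr k).symm.trans ((congrArg s h).trans (hr l))
    exact congrArg Prod.snd this
  refine (Set.infinite_range_of_injective hinj).mono ?_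
  rintro _ ⟨k, rfl⟩
  show (s (r k)).1.1 = q
  rw [hr k]

end Vale.Agent.P089
end
end

section

section

/-! Block calculus for operators on `ℓ²(P × ℕ)` (adapted from the files for P212). -/

namespace Vale.Agent.P089.Asm

/-- The orthogonal projection of `l^2(J)` onto `l^2(S)`. -/
noncomputable def proj {J : Type} (S : Set J) : L2 J →L[ℂ] L2 J :=
  LinearMap.mkContinuous
    { toFun := fun f => ⟨S.indicator (f : J → ℂ), (lp.memℓp f).mono' (fun j => by
          by_cases h : j ∈ S <;> simp [h])⟩
      map_add' := fun f g => lp.ext (Set.indicator_add S f g)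
      map_smul' := fun c f => lp.ext (Set.indicator_const_smul S c f) } 1
    (fun f => by
      rw [one_mul]
      refine lp.norm_mono (by norm_num) (fun j => ?_)
      by_cases h : j ∈ S <;> simp [h])

section Proj

variable {J : Type}

theorem proj_apply (S : Set J) (f : L2 J) (j : J) :
    (proj S f : J → ℂ) j = S.indicator (f : J → ℂ) j := rfl

theorem proj_apply_mem {S : Set J} (f : L2 J) {j : J} (h : j ∈ S) :
    (proj S f : J → ℂ) j = (f : J → ℂ) j := by
  rw [proj_apply, Set.indicator_of_mem h]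

theorem proj_apply_not_mem {S : Set J} (f : L2 J) {j : J} (h : j ∉ S) :
    (proj S f : J → ℂ) j = 0 := by
  rw [proj_apply, Set.indicator_of_notMem h]

theorem proj_norm_le (S : Set J) : ‖proj S‖ ≤ 1 :=
  LinearMap.mkContinuous_norm_le _ zero_le_one _

theorem norm_proj_apply_le (S : Set J) (f : L2 J) : ‖proj S f‖ ≤ ‖f‖ := by
  simpa only [one_mul] using (proj S).le_of_opNorm_le (proj_norm_le S) f

theorem proj_mul_proj (S T : Set J) : proj S * proj T = proj (S ∩ T) := by
  ext f j
  change (proj S (proj T f) : J → ℂ) j = (proj (S ∩ T) f : J → ℂ) j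
  by_cases h : j ∈ S <;> by_cases h' : j ∈ T
  · rw [proj_apply_mem _ h, proj_apply_mem _ h', proj_apply_mem _ (Set.mem_inter h h')]
  · rw [proj_apply_mem _ h, proj_apply_not_mem _ h', proj_apply_not_mem _ (fun k => h' k.2)]
  · rw [proj_apply_not_mem _ h, proj_apply_not_mem _ (fun k => h k.1)]
  · rw [proj_apply_not_mem _ h, proj_apply_not_mem _ (fun k => h k.1)]

theorem star_proj (S : Set J) : star (proj S) = proj S := by
  rw [ContinuousLinearMap.star_eq_adjoint]
  refine (ContinuousLinearMap.eq_adjoint_iff _ _).2 (fun f g => ?_) |>.symm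
  rw [lp.inner_eq_tsum, lp.inner_eq_tsum]
  refine tsum_congr (fun j => ?_)
  by_cases h : j ∈ S
  · rw [proj_apply_mem _ h, proj_apply_mem _ h]
  · rw [proj_apply_not_mem _ h, proj_apply_not_mem _ h]
    simp only [RCLike.inner_apply, map_zero, mul_zero, zero_mul]

theorem proj_mul_of_subset {S T : Set J} (h : S ⊆ T) : proj S * proj T = proj S := by
  rw [proj_mul_proj, Set.inter_eq_left.2 h]

theorem proj_mul_of_superset {S T : Set J} (h : S ⊆ T) : proj T * proj S = proj S := by
  rw [proj_mul_proj, Set.inter_eq_right.2 h]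

end Proj

section Compact

/-- The adjoint of a compact operator on a Hilbert space is compact. -/
theorem isCompactOperator_star {E : Type*} [NormedAddCommGroup E] [InnerProductSpace ℂ E]
    [CompleteSpace E] {T : E →L[ℂ] E} (hT : IsCompactOperator T) :
    IsCompactOperator (star T : E →L[ℂ] E) := by
  have h1 : IsCompactOperator (T * star T : E →L[ℂ] E) := by
    change IsCompactOperator (T ∘ (star T : E →L[ℂ] E))
    exact hT.comp_clm (star T)
  change IsCompactOperator ((star T : E →L[ℂ] E) : E →ₗ[ℂ] E)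
  rw [isCompactOperator_iff_isCompact_closure_image_closedBall _ zero_lt_one]
  have h2 := h1
  change IsCompactOperator ((T * star T : E →L[ℂ] E) : E →ₗ[ℂ] E) at h2
  rw [isCompactOperator_iff_isCompact_closure_image_closedBall _ zero_lt_one] at h2
  have h3 : TotallyBounded ((T * star T : E →L[ℂ] E) '' Metric.closedBall 0 1) :=
    h2.totallyBounded.subset subset_closure
  suffices h : TotallyBounded ((star T : E →L[ℂ] E) '' Metric.closedBall 0 1) from
    h.closure.isCompact_of_isClosed isClosed_closure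
  rw [Metric.totallyBounded_iff]
  intro ε hε
  -- a finite net in the domain for `T T*` within `δ`
  obtain ⟨t, ht, hcov⟩ := Metric.totallyBounded_iff.1 h3 (ε ^ 2 / 8) (by positivity)
  have hex : ∀ y ∈ t, ∃ w : E, (∃ x ∈ Metric.closedBall (0 : E) 1,
      dist ((T * star T : E →L[ℂ] E) x) y < ε ^ 2 / 8) →
      (w ∈ Metric.closedBall (0 : E) 1 ∧ dist ((T * star T : E →L[ℂ] E) w) y < ε ^ 2 / 8) := by
    intro y _
    by_cases h : ∃ x ∈ Metric.closedBall (0 : E) 1,
      dist ((T * star T : E →L[ℂ] E) x) y < ε ^ 2 / 8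
    · obtain ⟨x, hx, hx'⟩ := h
      exact ⟨x, fun _ => ⟨hx, hx'⟩⟩
    · exact ⟨0, fun h' => absurd h' h⟩
  choose! w hw using hex
  refine ⟨(fun y => (star T : E →L[ℂ] E) (w y)) '' t, ht.image _, ?_⟩
  rintro _ ⟨x, hx, rfl⟩
  have hx' := hcov ⟨x, hx, rfl⟩
  simp only [Set.mem_iUnion, Metric.mem_ball, exists_prop] at hx' ⊢
  obtain ⟨y, hy, hxy⟩ := hx'
  obtain ⟨hw1, hw2⟩ := hw y hy ⟨x, hx, hxy⟩
  refine ⟨_, ⟨y, hy, rfl⟩, ?_⟩
  have hd : dist ((T * star T : E →L[ℂ] E) x) ((T * star T : E →L[ℂ] E) (w y)) < ε ^ 2 / 4 := by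
    calc _ ≤ dist ((T * star T : E →L[ℂ] E) x) y + dist ((T * star T : E →L[ℂ] E) (w y)) y :=
          dist_triangle_right _ _ _
      _ < ε ^ 2 / 8 + ε ^ 2 / 8 := add_lt_add hxy hw2
      _ = ε ^ 2 / 4 := by ring
  have hxw : ‖x - w y‖ ≤ 2 := by
    have := norm_sub_le x (w y)
    rw [mem_closedBall_zero_iff] at hx hw1
    linarith only [hx, hw1, this]
  have key : ‖(star T : E →L[ℂ] E) (x - w y)‖ ^ 2 ≤
      ‖(T * star T : E →L[ℂ] E) (x - w y)‖ * ‖x - w y‖ := by
    rw [← inner_self_eq_norm_sq (𝕜 := ℂ)]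
    rw [ContinuousLinearMap.star_eq_adjoint, ContinuousLinearMap.adjoint_inner_right]
    exact (re_inner_le_norm _ _)
  rw [dist_eq_norm, ← map_sub] at hd ⊢
  have : ‖(star T : E →L[ℂ] E) (x - w y)‖ ^ 2 < ε ^ 2 := by
    calc _ ≤ _ := key
      _ ≤ ‖(T * star T : E →L[ℂ] E) (x - w y)‖ * 2 := by (clear hT h1 h2 h3 ε hε t ht hcov hw hx hy hxy hw1 hw2 hd key; gcongr)
      _ < ε ^ 2 / 4 * 2 := by (clear hT h1 h2 h3 hε t ht hcov hw hx hy hxy hw1 hw2 hxw key; gcongr)
      _ ≤ ε ^ 2 := by nlinarith only []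
  exact lt_of_pow_lt_pow_left₀ 2 hε.le this

end Compact

theorem two_toReal : (2 : ENNReal).toReal = 2 := by norm_num

theorem L2.summable_sq {J : Type} (f : L2 J) : Summable (fun j => ‖(f : J → ℂ) j‖ ^ 2) := by
  have h := (lp.memℓp f).summable (by norm_num : 0 < (2 : ENNReal).toReal)
  simpa only [ENNReal.toReal_ofNat, Real.rpow_ofNat] using h

theorem L2.norm_sq {J : Type} (f : L2 J) : ‖f‖ ^ 2 = ∑' j, ‖(f : J → ℂ) j‖ ^ 2 := by
  have h := lp.norm_rpow_eq_tsum (by norm_num : 0 < (2 : ENNReal).toReal) f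
  simpa only [ENNReal.toReal_ofNat, Real.rpow_ofNat] using h

theorem L2.mem {J : Type} {f : J → ℂ} (hf : Summable (fun j => ‖f j‖ ^ 2)) :
    Memℓp f 2 := by
  refine memℓp_gen ?_
  simpa only [ENNReal.toReal_ofNat, Real.rpow_ofNat] using hf

theorem extend_zero_apply_range {J K : Type} {u : J → K} (hu : Function.Injective u) (f : J → ℂ)
    (j : J) : Function.extend u f 0 (u j) = f j := hu.extend_apply f 0 j

theorem extend_zero_apply_not_mem {J K : Type} {u : J → K} (f : J → ℂ) {k : K}
    (hk : k ∉ Set.range u) : Function.extend u f 0 k = 0 := by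
  have h := Function.extend_apply' f (0 : K → ℂ) k (fun ⟨j, hj⟩ => hk ⟨j, hj⟩)
  rw [h]
  rfl

theorem summable_extend {J K : Type} {u : J → K} (hu : Function.Injective u) {f : J → ℂ}
    (hf : Summable (fun j => ‖f j‖ ^ 2)) :
    Summable (fun k => ‖Function.extend u f 0 k‖ ^ 2) := by
  rw [← hu.summable_iff]
  · refine hf.congr (fun j => ?_)
    simp only [Function.comp_apply]
    rw [extend_zero_apply_range hu]
  · intro k hk
    rw [extend_zero_apply_not_mem f hk]
    simp

/-- The linear map underlying `pushL2`. -/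
noncomputable def pushLin {J K : Type} (u : J → K) (hu : Function.Injective u) :
    L2 J →ₗ[ℂ] L2 K where
  toFun f := ⟨Function.extend u (f : J → ℂ) 0, L2.mem (summable_extend hu (L2.summable_sq f))⟩
  map_add' f g := by
    apply lp.ext
    funext k
    change Function.extend u (((f + g : L2 J)) : J → ℂ) 0 k =
      Function.extend u (f : J → ℂ) 0 k + Function.extend u (g : J → ℂ) 0 k
    by_cases hk : k ∈ Set.range u
    · obtain ⟨j, rfl⟩ := hk
      rw [extend_zero_apply_range hu, extend_zero_apply_range hu, extend_zero_apply_range hu]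
      rfl
    · rw [extend_zero_apply_not_mem _ hk, extend_zero_apply_not_mem _ hk,
        extend_zero_apply_not_mem _ hk, add_zero]
  map_smul' c f := by
    apply lp.ext
    funext k
    change Function.extend u (((c • f : L2 J)) : J → ℂ) 0 k =
      c • Function.extend u (f : J → ℂ) 0 k
    by_cases hk : k ∈ Set.range u
    · obtain ⟨j, rfl⟩ := hk
      rw [extend_zero_apply_range hu, extend_zero_apply_range hu]
      rfl
    · rw [extend_zero_apply_not_mem _ hk, extend_zero_apply_not_mem _ hk, smul_zero]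

theorem norm_pushLin {J K : Type} (u : J → K) (hu : Function.Injective u) (f : L2 J) :
    ‖pushLin u hu f‖ = ‖f‖ := by
  have h : ‖pushLin u hu f‖ ^ 2 = ‖f‖ ^ 2 := by
    rw [L2.norm_sq, L2.norm_sq]
    change ∑' k, ‖Function.extend u (f : J → ℂ) 0 k‖ ^ 2 = _
    rw [← hu.tsum_eq]
    · refine tsum_congr (fun j => ?_)
      rw [extend_zero_apply_range hu]
    · intro k hk
      by_contra hk'
      apply hk
      simp only
      rw [extend_zero_apply_not_mem _ hk']
      simp
  exact (sq_eq_sq₀ (norm_nonneg _) (norm_nonneg _)).1 h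

/-- The isometry `l^2(J) → l^2(K)` induced by an injective map. -/
noncomputable def pushL2 {J K : Type} (u : J → K) (hu : Function.Injective u) :
    L2 J →L[ℂ] L2 K :=
  LinearMap.mkContinuous (pushLin u hu) 1 (fun f => by rw [one_mul, norm_pushLin])

theorem pushL2_apply {J K : Type} {u : J → K} (hu : Function.Injective u) (f : L2 J) (j : J) :
    (pushL2 u hu f : K → ℂ) (u j) = (f : J → ℂ) j :=
  extend_zero_apply_range hu _ j

theorem pushL2_apply_not_mem {J K : Type} {u : J → K} (hu : Function.Injective u) (f : L2 J)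
    {k : K} (hk : k ∉ Set.range u) : (pushL2 u hu f : K → ℂ) k = 0 :=
  extend_zero_apply_not_mem _ hk

theorem norm_pushL2_apply {J K : Type} {u : J → K} (hu : Function.Injective u) (f : L2 J) :
    ‖pushL2 u hu f‖ = ‖f‖ := norm_pushLin u hu f

theorem norm_pushL2_le {J K : Type} {u : J → K} (hu : Function.Injective u) :
    ‖pushL2 u hu‖ ≤ 1 :=
  LinearMap.mkContinuous_norm_le _ zero_le_one _

/-- The pull back map on functions. -/
theorem L2.mem_comp {J K : Type} {u : J → K} (hu : Function.Injective u) (f : L2 K) :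
    Memℓp (fun j => (f : K → ℂ) (u j)) 2 :=
  L2.mem ((L2.summable_sq f).comp_injective hu)

theorem inner_push {J K : Type} {u : J → K} (hu : Function.Injective u) (g : L2 K) (f : L2 J) :
    inner ℂ g (pushL2 u hu f) = inner ℂ (⟨fun j => (g : K → ℂ) (u j), L2.mem_comp hu g⟩ : L2 J) f := by
  rw [lp.inner_eq_tsum, lp.inner_eq_tsum, ← hu.tsum_eq]
  · refine tsum_congr (fun j => ?_)
    rw [pushL2_apply]
  · intro k hk
    by_contra hk'
    apply hk
    simp only
    rw [pushL2_apply_not_mem hu f hk', inner_zero_right]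

theorem adjoint_pushL2_eq {J K : Type} {u : J → K} (hu : Function.Injective u) (f : L2 K) :
    ContinuousLinearMap.adjoint (pushL2 u hu) f =
      (⟨fun j => (f : K → ℂ) (u j), L2.mem_comp hu f⟩ : L2 J) := by
  refine ext_inner_right ℂ (fun g => ?_)
  rw [ContinuousLinearMap.adjoint_inner_left, inner_push]

theorem adjoint_pushL2_apply {J K : Type} {u : J → K} (hu : Function.Injective u) (f : L2 K)
    (j : J) : (ContinuousLinearMap.adjoint (pushL2 u hu) f : J → ℂ) j = (f : K → ℂ) (u j) := by
  rw [adjoint_pushL2_eq]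

theorem adjoint_pushL2_comp {J K : Type} {u : J → K} (hu : Function.Injective u) :
    ContinuousLinearMap.adjoint (pushL2 u hu) ∘L pushL2 u hu = 1 := by
  ext f j
  change (ContinuousLinearMap.adjoint (pushL2 u hu) (pushL2 u hu f) : J → ℂ) j = (f : J → ℂ) j
  rw [adjoint_pushL2_apply, pushL2_apply]

/-- The space `l^2(P x N)`. -/
abbrev LP (P : Type) : Type := L2 (P × ℕ)

/-- Operators on `l^2(N)`. -/
abbrev OpN : Type := L2 ℕ →L[ℂ] L2 ℕ

/-- The embedding of the `p`-th summand. -/
noncomputable def inc {P : Type} (p : P) : L2 ℕ →L[ℂ] LP P :=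
  pushL2 (fun k => (p, k)) (fun _ _ h => (Prod.mk.inj h).2)

/-- The block of an operator. -/
noncomputable def bl {P Q : Type} (T : LP P →L[ℂ] LP Q) (q : Q) (p : P) : OpN :=
  ContinuousLinearMap.adjoint (inc q) ∘L T ∘L inc p

variable {P Q S : Type}

theorem inc_apply_self (p : P) (f : L2 ℕ) (k : ℕ) :
    (inc p f : P × ℕ → ℂ) (p, k) = (f : ℕ → ℂ) k :=
  pushL2_apply (u := fun k : ℕ => (p, k)) _ f k

theorem inc_apply_ne {p p' : P} (h : p' ≠ p) (f : L2 ℕ) (k : ℕ) :
    (inc p f : P × ℕ → ℂ) (p', k) = 0 :=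
  pushL2_apply_not_mem (u := fun k : ℕ => (p, k)) _ f
    (fun ⟨_, hj⟩ => h (Prod.mk.inj hj).1.symm)

theorem adjoint_inc_apply (p : P) (f : LP P) (k : ℕ) :
    (ContinuousLinearMap.adjoint (inc p) f : ℕ → ℂ) k = (f : P × ℕ → ℂ) (p, k) :=
  adjoint_pushL2_apply (u := fun k : ℕ => (p, k)) _ f k

theorem adjoint_inc_inc_self (p : P) (f : L2 ℕ) :
    ContinuousLinearMap.adjoint (inc p) (inc p f) = f := by
  apply lp.ext
  funext k
  rw [adjoint_inc_apply, inc_apply_self]

theorem adjoint_inc_inc_ne {p p' : P} (h : p' ≠ p) (f : L2 ℕ) :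
    ContinuousLinearMap.adjoint (inc p') (inc p f) = 0 := by
  apply lp.ext
  funext k
  rw [adjoint_inc_apply, inc_apply_ne h]
  rfl

theorem clm_ext_inc {E : Type*} [NormedAddCommGroup E] [NormedSpace ℂ E]
    {T T' : LP P →L[ℂ] E} (h : ∀ p f, T (inc p f) = T' (inc p f)) : T = T' := by
  classical
  ext f
  have h1 := lp.hasSum_single (E := fun _ : P × ℕ => ℂ) (p := 2) (by norm_num) f
  have h2 := T.hasSum h1
  have h3 := T'.hasSum h1
  have key : ∀ i : P × ℕ, T (lp.single 2 i ((f : P × ℕ → ℂ) i)) =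
      T' (lp.single 2 i ((f : P × ℕ → ℂ) i)) := by
    rintro ⟨p, k⟩
    have e : (lp.single 2 (p, k) ((f : P × ℕ → ℂ) (p, k)) : LP P) =
        inc p (lp.single 2 k ((f : P × ℕ → ℂ) (p, k))) := by
      apply lp.ext
      funext j
      obtain ⟨p', k'⟩ := j
      by_cases hp : p' = p
      · subst hp
        rw [inc_apply_self]
        by_cases hk : k' = k
        · subst hk
          rw [lp.single_apply_self, lp.single_apply_self]
        · rw [lp.single_apply_ne _ _ _ hk, lp.single_apply_ne]
          intro h'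
          exact hk (Prod.mk.inj h').2
      · rw [inc_apply_ne hp, lp.single_apply_ne]
        intro h'
        exact hp (Prod.mk.inj h').1
    rw [e, h]
  have h4 : HasSum (fun i : P × ℕ => T (lp.single 2 i ((f : P × ℕ → ℂ) i))) (T' f) := by
    simp only [key]
    exact h3
  exact h2.unique h4

theorem bl_apply (T : LP P →L[ℂ] LP Q) (q : Q) (p : P) (f : L2 ℕ) (k : ℕ) :
    (bl T q p f : ℕ → ℂ) k = (T (inc p f) : Q × ℕ → ℂ) (q, k) :=
  adjoint_inc_apply q _ k

theorem bl_ext {T T' : LP P →L[ℂ] LP Q} (h : ∀ q p, bl T q p = bl T' q p) : T = T' := by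
  refine clm_ext_inc (fun p f => ?_)
  apply lp.ext
  funext j
  obtain ⟨q, k⟩ := j
  rw [← bl_apply, ← bl_apply, h]

theorem bl_zero (q : Q) (p : P) : bl (0 : LP P →L[ℂ] LP Q) q p = 0 := by
  simp [bl]

theorem bl_add (T T' : LP P →L[ℂ] LP Q) (q : Q) (p : P) :
    bl (T + T') q p = bl T q p + bl T' q p := by
  simp [bl, ContinuousLinearMap.add_comp, ContinuousLinearMap.comp_add]

theorem bl_sub (T T' : LP P →L[ℂ] LP Q) (q : Q) (p : P) :
    bl (T - T') q p = bl T q p - bl T' q p := by
  simp [bl, ContinuousLinearMap.sub_comp, ContinuousLinearMap.comp_sub]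

theorem bl_smul (c : ℂ) (T : LP P →L[ℂ] LP Q) (q : Q) (p : P) :
    bl (c • T) q p = c • bl T q p := by
  simp only [bl, ContinuousLinearMap.smul_comp, ContinuousLinearMap.comp_smulₛₗ, RingHom.id_apply]

theorem bl_adjoint (T : LP P →L[ℂ] LP Q) (p : P) (q : Q) :
    bl (ContinuousLinearMap.adjoint T) p q = ContinuousLinearMap.adjoint (bl T q p) := by
  unfold bl
  rw [ContinuousLinearMap.adjoint_comp, ContinuousLinearMap.adjoint_comp,
    ContinuousLinearMap.adjoint_adjoint]
  rfl

theorem apply_inc_eq_sum (T : LP P →L[ℂ] LP Q) (p : P) (F : Finset Q)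
    (h : ∀ q, q ∉ F → bl T q p = 0) (f : L2 ℕ) :
    T (inc p f) = ∑ q ∈ F, inc q (bl T q p f) := by
  classical
  apply lp.ext
  funext j
  obtain ⟨q, k⟩ := j
  rw [← bl_apply, lp.coeFn_sum, Finset.sum_apply]
  by_cases hq : q ∈ F
  · rw [Finset.sum_eq_single q, inc_apply_self]
    · intro q' _ hq'
      rw [inc_apply_ne (Ne.symm hq')]
    · intro hq'
      exact absurd hq hq'
  · rw [h q hq, Finset.sum_eq_zero]
    · rfl
    · intro q' hq'
      rw [inc_apply_ne]
      intro h'
      exact hq (h' ▸ hq')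

theorem bl_comp_aux (T : LP Q →L[ℂ] LP S) (T' : LP P →L[ℂ] LP Q) (s : S) (p : P) (F : Finset Q)
    (h : ∀ q, q ∉ F → bl T' q p = 0) :
    bl (T ∘L T') s p = ∑ q ∈ F, bl T s q * bl T' q p := by
  refine ContinuousLinearMap.ext (fun f => ?_)
  change ContinuousLinearMap.adjoint (inc s) (T (T' (inc p f))) = _
  rw [apply_inc_eq_sum T' p F h f, map_sum, map_sum, sum_apply]
  rfl

/-- Blocks of a composition, when the middle index is confined to a finite set. -/
theorem bl_comp (T : LP Q →L[ℂ] LP S) (T' : LP P →L[ℂ] LP Q) (s : S) (p : P) (F : Finset Q)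
    (h : (∀ q, q ∉ F → bl T s q = 0) ∨ (∀ q, q ∉ F → bl T' q p = 0)) :
    bl (T ∘L T') s p = ∑ q ∈ F, bl T s q * bl T' q p := by
  rcases h with h | h
  · have h1 : bl (ContinuousLinearMap.adjoint T' ∘L ContinuousLinearMap.adjoint T) p s =
        ∑ q ∈ F, bl (ContinuousLinearMap.adjoint T') p q *
          bl (ContinuousLinearMap.adjoint T) q s :=
      bl_comp_aux _ _ p s F (fun q hq => by rw [bl_adjoint, h q hq, map_zero])
    rw [← ContinuousLinearMap.adjoint_comp, bl_adjoint] at h1
    have h2 := congrArg ContinuousLinearMap.adjoint h1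
    rw [ContinuousLinearMap.adjoint_adjoint, map_sum] at h2
    rw [h2]
    refine Finset.sum_congr rfl (fun q _ => ?_)
    rw [bl_adjoint, bl_adjoint]
    change ContinuousLinearMap.adjoint
      (ContinuousLinearMap.adjoint (bl T' q p) ∘L ContinuousLinearMap.adjoint (bl T s q)) = _
    rw [← ContinuousLinearMap.adjoint_comp, ContinuousLinearMap.adjoint_adjoint]
    rfl
  · exact bl_comp_aux T T' s p F h

/-- The slices of a vector. -/
noncomputable def slice (p : P) : LP P →L[ℂ] L2 ℕ := ContinuousLinearMap.adjoint (inc p)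

theorem slice_apply (p : P) (f : LP P) (k : ℕ) :
    (slice p f : ℕ → ℂ) k = (f : P × ℕ → ℂ) (p, k) := adjoint_inc_apply p f k

theorem norm_slice_sq (p : P) (f : LP P) :
    ‖slice p f‖ ^ 2 = ∑' k, ‖(f : P × ℕ → ℂ) (p, k)‖ ^ 2 := by
  rw [L2.norm_sq]
  exact tsum_congr (fun k => by rw [slice_apply])

theorem sum_norm_slice_sq_le (A : Finset P) (f : LP P) :
    ∑ p ∈ A, ‖slice p f‖ ^ 2 ≤ ‖f‖ ^ 2 := by
  have hs := L2.summable_sq f
  have h1 : Summable (fun p => ∑' k, ‖(f : P × ℕ → ℂ) (p, k)‖ ^ 2) := hs.prod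
  rw [L2.norm_sq f, hs.tsum_prod]
  calc ∑ p ∈ A, ‖slice p f‖ ^ 2 = ∑ p ∈ A, ∑' k, ‖(f : P × ℕ → ℂ) (p, k)‖ ^ 2 :=
        Finset.sum_congr rfl (fun p _ => norm_slice_sq p f)
    _ ≤ ∑' p, ∑' k, ‖(f : P × ℕ → ℂ) (p, k)‖ ^ 2 :=
        h1.sum_le_tsum A (fun p _ => tsum_nonneg (fun k => by (clear * -; positivity)))

/-- A square summable family of slices assembles to a vector. -/
theorem exists_assemble (g : Q → L2 ℕ) (B : ℝ) (hB : 0 ≤ B)
    (hg : ∀ A : Finset Q, ∑ q ∈ A, ‖g q‖ ^ 2 ≤ B ^ 2) :
    ∃ h : Memℓp (fun j : Q × ℕ => (g j.1 : ℕ → ℂ) j.2) 2,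
      ‖(⟨fun j : Q × ℕ => (g j.1 : ℕ → ℂ) j.2, h⟩ : LP Q)‖ ≤ B := by
  have h1 : Summable (fun q => ‖g q‖ ^ 2) :=
    summable_of_sum_le (fun q => by positivity) hg
  have h2 : ∀ q, ∑' k, ‖(g q : ℕ → ℂ) k‖ ^ 2 = ‖g q‖ ^ 2 := fun q => (L2.norm_sq (g q)).symm
  have hs : Summable (fun j : Q × ℕ => ‖(g j.1 : ℕ → ℂ) j.2‖ ^ 2) := by
    rw [summable_prod_of_nonneg (fun j => by positivity)]
    refine ⟨fun q => L2.summable_sq (g q), ?_⟩
    simp only [h2]
    exact h1
  refine ⟨L2.mem hs, ?_⟩
  rw [← abs_of_nonneg (norm_nonneg _), ← abs_of_nonneg hB, ← sq_le_sq, L2.norm_sq]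
  change ∑' j : Q × ℕ, ‖(g j.1 : ℕ → ℂ) j.2‖ ^ 2 ≤ B ^ 2
  rw [hs.tsum_prod]
  simp only [h2]
  exact Real.tsum_le_of_sum_le (fun q => by positivity) hg

/-- Existence of an operator with prescribed blocks: each row and column has at most `N`
nonzero entries, of norm at most `C`. -/
theorem exists_of_blocks (t : Q → P → OpN) (N : ℕ) (C : ℝ) (hC : 0 ≤ C)
    (hrow : ∀ q, {p | t q p ≠ 0}.encard ≤ N) (hcol : ∀ p, {q | t q p ≠ 0}.encard ≤ N)
    (hb : ∀ q p, ‖t q p‖ ≤ C) :
    ∃ T : LP P →L[ℂ] LP Q, (∀ q p, bl T q p = t q p) ∧ ‖T‖ ≤ N * C := by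
  classical
  have hrf : ∀ q, {p | t q p ≠ 0}.Finite := fun q => Set.finite_of_encard_le_coe (hrow q)
  set row : Q → Finset P := fun q => (hrf q).toFinset with hrowdef
  have hmem : ∀ q p, p ∈ row q ↔ t q p ≠ 0 := by
    intro q p
    rw [hrowdef, Set.Finite.mem_toFinset]
    rfl
  have hrc : ∀ q, (row q).card ≤ N := by
    intro q
    have := hrow q
    rw [(hrf q).encard_eq_coe_toFinset_card] at this
    exact_mod_cast this
  let g : LP P → Q → L2 ℕ := fun f q => ∑ p ∈ row q, t q p (slice p f)
  have hbound : ∀ (f : LP P) (A : Finset Q), ∑ q ∈ A, ‖g f q‖ ^ 2 ≤ ((N * C) * ‖f‖) ^ 2 := by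
    intro f A
    have h1 : ∀ q, ‖g f q‖ ^ 2 ≤ N * C ^ 2 * ∑ p ∈ row q, ‖slice p f‖ ^ 2 := by
      intro q
      have h2 : ‖g f q‖ ≤ ∑ p ∈ row q, C * ‖slice p f‖ := by
        refine (norm_sum_le _ _).trans (Finset.sum_le_sum (fun p _ => ?_))
        exact (t q p).le_of_opNorm_le (hb q p) _
      have h3 : ‖g f q‖ ^ 2 ≤ (∑ p ∈ row q, C * ‖slice p f‖) ^ 2 := by
        gcongr
      refine h3.trans ?_
      rw [← Finset.mul_sum, mul_pow]
      have h4 : (∑ p ∈ row q, ‖slice p f‖) ^ 2 ≤
          (row q).card * ∑ p ∈ row q, ‖slice p f‖ ^ 2 := sq_sum_le_card_mul_sum_sq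
      have h5 : ((row q).card : ℝ) ≤ N := by exact_mod_cast hrc q
      have h6 : 0 ≤ ∑ p ∈ row q, ‖slice p f‖ ^ 2 := Finset.sum_nonneg (fun p _ => by positivity)
      calc C ^ 2 * (∑ p ∈ row q, ‖slice p f‖) ^ 2
          ≤ C ^ 2 * ((row q).card * ∑ p ∈ row q, ‖slice p f‖ ^ 2) := by (clear * - h4; gcongr)
        _ ≤ C ^ 2 * (N * ∑ p ∈ row q, ‖slice p f‖ ^ 2) := by (clear * - h5; gcongr)
        _ = N * C ^ 2 * ∑ p ∈ row q, ‖slice p f‖ ^ 2 := by ring
    have h7 : ∑ q ∈ A, ∑ p ∈ row q, ‖slice p f‖ ^ 2 ≤ N * ‖f‖ ^ 2 := by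
      set U : Finset P := A.biUnion row with hU
      have h8 : ∑ q ∈ A, ∑ p ∈ row q, ‖slice p f‖ ^ 2 =
          ∑ p ∈ U, ∑ q ∈ A.filter (fun q => p ∈ row q), ‖slice p f‖ ^ 2 := by
        refine Finset.sum_comm' ?_
        intro q p
        rw [Finset.mem_filter, hU, Finset.mem_biUnion]
        constructor
        · rintro ⟨h1, h2⟩
          exact ⟨⟨h1, h2⟩, q, h1, h2⟩
        · rintro ⟨⟨h1, h2⟩, _⟩
          exact ⟨h1, h2⟩
      rw [h8]
      have h9 : ∀ p, ((A.filter (fun q => p ∈ row q)).card : ℝ) ≤ N := by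
        intro p
        have h10 : ((A.filter (fun q => p ∈ row q) : Finset Q) : Set Q) ⊆ {q | t q p ≠ 0} := by
          intro q hq
          rw [Finset.mem_coe, Finset.mem_filter] at hq
          exact (hmem q p).1 hq.2
        have h11 := (Set.encard_le_encard h10).trans (hcol p)
        rw [Set.encard_coe_eq_coe_finsetCard] at h11
        exact_mod_cast h11
      calc ∑ p ∈ U, ∑ q ∈ A.filter (fun q => p ∈ row q), ‖slice p f‖ ^ 2
          = ∑ p ∈ U, ((A.filter (fun q => p ∈ row q)).card : ℝ) * ‖slice p f‖ ^ 2 := by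
            refine Finset.sum_congr rfl (fun p _ => ?_)
            rw [Finset.sum_const, nsmul_eq_mul]
        _ ≤ ∑ p ∈ U, (N : ℝ) * ‖slice p f‖ ^ 2 :=
            Finset.sum_le_sum (fun p _ => mul_le_mul_of_nonneg_right (h9 p) (by positivity))
        _ = N * ∑ p ∈ U, ‖slice p f‖ ^ 2 := by rw [Finset.mul_sum]
        _ ≤ N * ‖f‖ ^ 2 := by
            gcongr
            exact sum_norm_slice_sq_le U f
    calc ∑ q ∈ A, ‖g f q‖ ^ 2 ≤ ∑ q ∈ A, N * C ^ 2 * ∑ p ∈ row q, ‖slice p f‖ ^ 2 :=
          Finset.sum_le_sum (fun q _ => h1 q)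
      _ = N * C ^ 2 * ∑ q ∈ A, ∑ p ∈ row q, ‖slice p f‖ ^ 2 := by rw [Finset.mul_sum]
      _ ≤ N * C ^ 2 * (N * ‖f‖ ^ 2) := by (clear * - h7; gcongr)
      _ = ((N * C) * ‖f‖) ^ 2 := by ring
  have hex := fun f : LP P => exists_assemble (g f) ((N * C) * ‖f‖) (by (clear * - hC; positivity)) (hbound f)
  choose hm hn using hex
  let L : LP P →ₗ[ℂ] LP Q :=
    { toFun := fun f => ⟨fun j : Q × ℕ => (g f j.1 : ℕ → ℂ) j.2, hm f⟩
      map_add' := by
        intro f f'
        apply lp.ext
        funext j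
        change (g (f + f') j.1 : ℕ → ℂ) j.2 = (g f j.1 : ℕ → ℂ) j.2 + (g f' j.1 : ℕ → ℂ) j.2
        have : g (f + f') j.1 = g f j.1 + g f' j.1 := by
          simp only [g, map_add, Finset.sum_add_distrib]
        rw [this]
        rfl
      map_smul' := by
        intro c f
        apply lp.ext
        funext j
        change (g (c • f) j.1 : ℕ → ℂ) j.2 = c • (g f j.1 : ℕ → ℂ) j.2
        have : g (c • f) j.1 = c • g f j.1 := by
          simp only [g, map_smul, Finset.smul_sum]
        rw [this]
        rfl }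
  refine ⟨LinearMap.mkContinuous L (N * C) hn, ?_, ?_⟩
  · intro q p
    refine ContinuousLinearMap.ext (fun f => ?_)
    apply lp.ext
    funext k
    rw [bl_apply]
    change ((∑ p' ∈ row q, t q p' (slice p' (inc p f)) : L2 ℕ) : ℕ → ℂ) k = _
    have h1 : ∑ p' ∈ row q, t q p' (slice p' (inc p f)) = t q p f := by
      by_cases hp : p ∈ row q
      · rw [Finset.sum_eq_single p]
        · change t q p (ContinuousLinearMap.adjoint (inc p) (inc p f)) = _
          rw [adjoint_inc_inc_self]
        · intro p' _ hp'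
          change t q p' (ContinuousLinearMap.adjoint (inc p') (inc p f)) = _
          rw [adjoint_inc_inc_ne hp', map_zero]
        · intro hp'
          exact absurd hp hp'
      · have h2 : t q p = 0 := by
          by_contra hne
          exact hp ((hmem q p).2 hne)
        rw [h2, Finset.sum_eq_zero]
        · rfl
        · intro p' hp'
          change t q p' (ContinuousLinearMap.adjoint (inc p') (inc p f)) = _
          rw [adjoint_inc_inc_ne, map_zero]
          intro h'
          exact hp (h' ▸ hp')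
    rw [h1]
  · exact LinearMap.mkContinuous_norm_le _ (by (clear * - hC; positivity)) _

/-! ### The second coordinate -/

section Second

variable {P : Type}

/-- The projection of `ℓ²(P × ℕ)` onto `ℓ²(P × {0, …, k - 1})`. -/
noncomputable def pk (k : ℕ) : LP P →L[ℂ] LP P := proj {j : P × ℕ | j.2 < k}

/-- The projection of `ℓ²(ℕ)` onto `ℓ²({0, …, k - 1})`. -/
noncomputable def pN (k : ℕ) : L2 ℕ →L[ℂ] L2 ℕ := proj {n : ℕ | n < k}

theorem Vi_inj (i : ℕ) : Function.Injective (fun g : P => (g, i)) :=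
  fun _ _ h => (Prod.mk.inj h).1

/-- The isometry `ξ ↦ ξ ⊗ δ_i`. -/
noncomputable def Vi (i : ℕ) : L2 P →L[ℂ] LP P := pushL2 (fun g => (g, i)) (Vi_inj i)

/-- The matrix coefficient in the second coordinate: `T = ∑ cmp i j T ⊗ e_ij`. -/
noncomputable def cmp (i j : ℕ) (T : LP P →L[ℂ] LP P) : L2 P →L[ℂ] L2 P :=
  ContinuousLinearMap.adjoint (Vi i) ∘L T ∘L Vi j

/-- The operator `T ⊗ e_ij`. -/
noncomputable def Ei (i j : ℕ) (T : L2 P →L[ℂ] L2 P) : LP P →L[ℂ] LP P :=
  Vi i ∘L T ∘L ContinuousLinearMap.adjoint (Vi j)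

end Second

end Vale.Agent.P089.Asm
end
end

section

section

/-! Matrix coefficients of operators. -/

namespace Vale.Agent.P089.Asm

section Ent

variable {I : Type}

open Classical in
theorem ent_def (T : L2 I →L[ℂ] L2 I) (j k : I) :
    ent T j k = (T (lp.single 2 k (1 : ℂ)) : I → ℂ) j := rfl

theorem entx_eq [i : DecidableEq I] (T : L2 I →L[ℂ] L2 I) (j k : I) :
    ent T j k = (T (lp.single 2 k (1 : ℂ)) : I → ℂ) j := by
  have h : i = fun a b => Classical.propDecidable (a = b) := Subsingleton.elim _ _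
  subst h
  rfl

theorem ent_zero (j k : I) : ent (0 : L2 I →L[ℂ] L2 I) j k = 0 := by
  classical
  rw [ent_def]
  rfl

theorem ent_add (T T' : L2 I →L[ℂ] L2 I) (j k : I) :
    ent (T + T') j k = ent T j k + ent T' j k := by
  classical
  rw [ent_def, ent_def, ent_def]
  rfl

theorem ent_sub (T T' : L2 I →L[ℂ] L2 I) (j k : I) :
    ent (T - T') j k = ent T j k - ent T' j k := by
  classical
  rw [ent_def, ent_def, ent_def]
  rfl

theorem ent_smul (c : ℂ) (T : L2 I →L[ℂ] L2 I) (j k : I) :
    ent (c • T) j k = c * ent T j k := by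
  classical
  rw [ent_def, ent_def]
  rfl

theorem ent_one_self (j : I) : ent (1 : L2 I →L[ℂ] L2 I) j j = 1 := by
  classical
  rw [ent_def]
  change (lp.single 2 j (1 : ℂ) : L2 I) j = 1
  rw [lp.single_apply_self]

theorem ent_one_ne {j k : I} (h : j ≠ k) : ent (1 : L2 I →L[ℂ] L2 I) j k = 0 := by
  classical
  rw [ent_def]
  change (lp.single 2 k (1 : ℂ) : L2 I) j = 0
  rw [lp.single_apply_ne _ _ _ h]

open Classical in
theorem norm_single_one (k : I) : ‖(lp.single 2 k (1 : ℂ) : L2 I)‖ = 1 := by
  rw [lp.norm_single (by norm_num)]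
  simp

theorem norm_ent_le (T : L2 I →L[ℂ] L2 I) (j k : I) : ‖ent T j k‖ ≤ ‖T‖ := by
  classical
  rw [ent_def]
  refine (lp.norm_apply_le_norm (by norm_num) _ _).trans ?_
  have := T.le_opNorm (lp.single 2 k (1 : ℂ))
  rwa [norm_single_one, mul_one] at this

theorem entx_ext {T T' : L2 I →L[ℂ] L2 I} (h : ∀ j k, ent T j k = ent T' j k) : T = T' := by
  classical
  ext1 f
  have h1 := lp.hasSum_single (E := fun _ : I => ℂ) (p := 2) (by norm_num) f
  have h2 := T.hasSum h1
  have h3 := T'.hasSum h1
  have key : ∀ i : I, T (lp.single 2 i ((f : I → ℂ) i)) = T' (lp.single 2 i ((f : I → ℂ) i)) := by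
    intro i
    have e : (lp.single 2 i ((f : I → ℂ) i) : L2 I) = (f : I → ℂ) i • lp.single 2 i (1 : ℂ) := by
      rw [← lp.single_smul]
      simp
    rw [e, map_smul, map_smul]
    congr 1
    apply lp.ext
    funext j
    exact h j i
  have h4 : HasSum (fun i : I => T (lp.single 2 i ((f : I → ℂ) i))) (T' f) := by
    simp only [key]
    exact h3
  exact h2.unique h4

theorem ent_ext {T T' : L2 I →L[ℂ] L2 I} (h : ∀ j k, ent T j k = ent T' j k) : T = T' :=
  entx_ext h

/-- The matrix coefficient as a continuous functional. -/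
noncomputable def entL (j k : I) : (L2 I →L[ℂ] L2 I) →L[ℂ] ℂ :=
  LinearMap.mkContinuous
    { toFun := fun T => ent T j k
      map_add' := fun T T' => ent_add T T' j k
      map_smul' := fun c T => ent_smul c T j k } 1
    (fun T => by rw [one_mul]; exact norm_ent_le T j k)

theorem continuous_ent (j k : I) : Continuous fun T : L2 I →L[ℂ] L2 I => ent T j k :=
  (entL j k).continuous

open Classical in
theorem inner_single_one (j : I) (f : L2 I) :
    inner ℂ (lp.single 2 j (1 : ℂ) : L2 I) f = (f : I → ℂ) j := by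
  rw [lp.inner_single_left]
  simp only [RCLike.inner_apply, map_one, mul_one]

theorem ent_star (T : L2 I →L[ℂ] L2 I) (j k : I) : ent (star T) j k = star (ent T k j) := by
  classical
  rw [ent_def, ent_def, ← inner_single_one, ContinuousLinearMap.star_eq_adjoint,
    ContinuousLinearMap.adjoint_inner_right, ← inner_single_one, ← inner_conj_symm]
  rfl

theorem hasSum_ent_mul (T S : L2 I →L[ℂ] L2 I) (j k : I) :
    HasSum (fun l => ent T j l * ent S l k) (ent (T * S) j k) := by
  classical
  have h1 := lp.hasSum_inner (𝕜 := ℂ) (ContinuousLinearMap.adjoint T (lp.single 2 j (1 : ℂ)))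
    (S (lp.single 2 k (1 : ℂ)))
  rw [ContinuousLinearMap.adjoint_inner_left, inner_single_one] at h1
  have h3 : (fun l => ent T j l * ent S l k) = fun l => inner ℂ
      ((ContinuousLinearMap.adjoint T (lp.single 2 j (1 : ℂ)) : I → ℂ) l)
      ((S (lp.single 2 k (1 : ℂ)) : I → ℂ) l) := by
    funext l
    have h2 := ent_star T l j
    rw [ent_def, ContinuousLinearMap.star_eq_adjoint] at h2
    rw [h2]
    simp only [ent_def, RCLike.star_def, RCLike.inner_apply, RingHomCompTriple.comp_apply, RingHom.id_apply, mul_comm]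
  rw [h3]
  exact h1

/-- A product of entries which does not vanish. -/
theorem exists_of_ent_mul_ne {T S : L2 I →L[ℂ] L2 I} {j k : I} (h : ent (T * S) j k ≠ 0) :
    ∃ l, ent T j l ≠ 0 ∧ ent S l k ≠ 0 := by
  by_contra hcon
  push Not at hcon
  apply h
  have h1 := hasSum_ent_mul T S j k
  have h2 : (fun l => ent T j l * ent S l k) = fun _ => 0 := by
    funext l
    by_cases hl : ent T j l = 0
    · rw [hl, zero_mul]
    · rw [hcon l hl, mul_zero]
  rw [h2] at h1
  exact h1.unique hasSum_zero

end Ent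

end Vale.Agent.P089.Asm
end
end

section

section

/-! Approximation of the values of elements of the localization algebra by operators whose
propagation is bounded by the Rips complex. -/

namespace Vale.Agent.P089.Asm

open NNReal

variable {G : Type} [Group G]

theorem mem_of_inRips {F : Finset G} {q : G →₀ ℚ} (h : InRips F q) (h1 : 1 ∈ q.support) {u : G}
    (hu : u ∈ q.support) : u ∈ F := by
  have := h.2.2 u hu 1 h1
  rwa [inv_one, mul_one] at this

/-- Two probability vectors with disjoint supports have `ℓ¹`-distance two. -/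
theorem sum_abs_sub_of_disjoint {X : Type} (q q' : X →₀ ℚ) (hq : ∀ x, 0 ≤ q x)
    (hq' : ∀ x, 0 ≤ q' x) (h1 : (q.sum fun _ a => a) = 1) (h1' : (q'.sum fun _ a => a) = 1)
    (hd : Disjoint q.support q'.support) :
    ((q - q').sum fun _ a => |(a : ℝ)|) = 2 := by
  classical
  have h2 : ((q - q').sum fun _ a => |(a : ℝ)|) =
      ∑ x ∈ q.support ∪ q'.support, |((q - q') x : ℝ)| := by
    rw [Finsupp.sum]
    refine Finset.sum_subset ?_ ?_
    · rw [sub_eq_add_neg]
      refine Finsupp.support_add.trans ?_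
      rw [Finsupp.support_neg]
    · intro x _ hx
      rw [Finsupp.notMem_support_iff.1 hx]
      simp
  rw [h2, Finset.sum_union hd]
  have h3 : ∑ x ∈ q.support, |((q - q') x : ℝ)| = 1 := by
    have h4 : ∀ x ∈ q.support, |((q - q') x : ℝ)| = ((q x : ℚ) : ℝ) := by
      intro x hx
      have h5 : q' x = 0 := Finsupp.notMem_support_iff.1 (Finset.disjoint_left.1 hd hx)
      rw [Finsupp.sub_apply, h5, sub_zero, abs_of_nonneg]
      exact_mod_cast hq x
    rw [Finset.sum_congr rfl h4, ← Rat.cast_sum]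
    rw [Finsupp.sum] at h1
    rw [h1, Rat.cast_one]
  have h3' : ∑ x ∈ q'.support, |((q - q') x : ℝ)| = 1 := by
    have h4 : ∀ x ∈ q'.support, |((q - q') x : ℝ)| = ((q' x : ℚ) : ℝ) := by
      intro x hx
      have h5 : q x = 0 := Finsupp.notMem_support_iff.1 (Finset.disjoint_right.1 hd hx)
      rw [Finsupp.sub_apply, h5, zero_sub, Rat.cast_neg, abs_neg, abs_of_nonneg]
      exact_mod_cast hq' x
    rw [Finset.sum_congr rfl h4, ← Rat.cast_sum]
    rw [Finsupp.sum] at h1'
    rw [h1', Rat.cast_one]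
  rw [h3, h3']
  norm_num

/-- Nearby points have a common vertex. -/
theorem exists_common {p : ℕ → G →₀ ℚ} {F : Finset G} {g h : G} {m n : ℕ}
    (hm : InRips F (p m)) (hn : InRips F (p n))
    (hd : ((pt p (g, m) - pt p (h, n)).sum fun _ a => |(a : ℝ)|) ≤ 1) :
    ∃ u ∈ (p m).support, ∃ v ∈ (p n).support, u * g = v * h := by
  classical
  by_contra hcon
  push Not at hcon
  have hinj : ∀ g : G, Function.Injective (fun x : G => x * g) := fun g => mul_left_injective g
  have hval : ∀ (q : G →₀ ℚ) (g x : G), (q.mapDomain (· * g)) x = q (x * g⁻¹) := by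
    intro q g x
    have h1 : x = (x * g⁻¹) * g := by rw [inv_mul_cancel_right]
    conv_lhs => rw [h1]
    exact Finsupp.mapDomain_apply (hinj g) q (x * g⁻¹)
  have hnn : ∀ (q : G →₀ ℚ) (g : G), (∀ x, 0 ≤ q x) → ∀ x, 0 ≤ (q.mapDomain (· * g)) x := by
    intro q g hq x
    rw [hval]
    exact hq _
  have hsum : ∀ (q : G →₀ ℚ) (g : G), ((q.mapDomain (· * g)).sum fun _ a => a) =
      q.sum fun _ a => a := by
    intro q g
    exact Finsupp.sum_mapDomain_index (fun _ => rfl) (fun _ _ _ => rfl)
  have h2 := sum_abs_sub_of_disjoint (pt p (g, m)) (pt p (h, n)) (hnn _ g hm.1) (hnn _ h hn.1)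
    ((hsum _ g).trans hm.2.1) ((hsum _ h).trans hn.2.1) (by
      rw [Finset.disjoint_left]
      intro x hx hx'
      rw [Finsupp.mem_support_iff] at hx hx'
      have hx1 : p m (x * g⁻¹) ≠ 0 := by
        rw [← hval]
        exact hx
      have hx2 : p n (x * h⁻¹) ≠ 0 := by
        rw [← hval]
        exact hx'
      refine hcon (x * g⁻¹) (Finsupp.mem_support_iff.2 hx1) (x * h⁻¹)
        (Finsupp.mem_support_iff.2 hx2) ?_
      rw [inv_mul_cancel_right, inv_mul_cancel_right])
  rw [h2] at hd
  norm_num at hd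

theorem exists_uv {p : ℕ → G →₀ ℚ} (hp : IsPlacement p) {F : Finset G} {g h : G} {m n : ℕ}
    (hm : InRips F (p m)) (hn : InRips F (p n))
    (hd : ((pt p (g, m) - pt p (h, n)).sum fun _ a => |(a : ℝ)|) ≤ 1) :
    ∃ u ∈ F, ∃ v ∈ F, g * h⁻¹ = u⁻¹ * v := by
  obtain ⟨u, hu, v, hv, huv⟩ := exists_common hm hn hd
  refine ⟨u, mem_of_inRips hm (hp.1 m).2 hu, v, mem_of_inRips hn (hp.1 n).2 hv, ?_⟩
  rw [mul_inv_eq_iff_eq_mul, mul_assoc, ← huv, inv_mul_cancel_left]

theorem loc_approx {p : ℕ → G →₀ ℚ} (hp : IsPlacement p) {F : Finset G}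
    {e : ℝ≥0 → L2 (G × ℕ) →L[ℂ] L2 (G × ℕ)} (he : IsLoc p F e) :
    ∃ c : ℂ, ∀ ε > 0, ∃ t₀ : ℝ≥0, ∀ t ≥ t₀, ∃ T, IsRoe T ∧
      (∀ g h m n, ent T (g, m) (h, n) ≠ 0 → ∃ u ∈ F, ∃ v ∈ F, g * h⁻¹ = u⁻¹ * v) ∧
      ‖e t - (c • 1 + T)‖ ≤ ε := by
  obtain ⟨c, f, hef, happ⟩ := he
  refine ⟨c, fun ε hε => ?_⟩
  obtain ⟨T, hT, hfT⟩ := happ ε hε
  obtain ⟨t₀, ht₀⟩ := hT.propagation 1 one_pos
  refine ⟨t₀, fun t ht => ⟨T t, hT.roe t, ?_, ?_⟩⟩
  · intro g h m n hne
    have h1 := hT.carrier t (g, m) (h, n) hne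
    exact exists_uv hp h1.1 h1.2 (ht₀ t ht (g, m) (h, n) hne)
  · rw [hef, add_sub_add_left_eq_sub]
    exact hfT t

theorem loc_mem {p : ℕ → G →₀ ℚ} {F : Finset G}
    {e : ℝ≥0 → L2 (G × ℕ) →L[ℂ] L2 (G × ℕ)} (he : IsLoc p F e) (t : ℝ≥0) : IsU (e t) := by
  obtain ⟨c, f, hef, happ⟩ := he
  refine ⟨c, f t, ?_, hef t⟩
  rw [Metric.mem_closure_iff]
  intro ε hε
  obtain ⟨T, hT, hfT⟩ := happ (ε / 2) (half_pos hε)
  refine ⟨T t, hT.roe t, ?_⟩
  rw [dist_eq_norm]
  exact (hfT t).trans_lt (half_lt_self hε)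

theorem loc_bounded {p : ℕ → G →₀ ℚ} {F : Finset G}
    {e : ℝ≥0 → L2 (G × ℕ) →L[ℂ] L2 (G × ℕ)} (he : IsLoc p F e) : ∃ M, ∀ t, ‖e t‖ ≤ M := by
  obtain ⟨c, f, hef, happ⟩ := he
  obtain ⟨T, hT, hfT⟩ := happ 1 one_pos
  obtain ⟨C, hC⟩ := hT.bounded
  refine ⟨‖c • (1 : L2 (G × ℕ) →L[ℂ] L2 (G × ℕ))‖ + (1 + C), fun t => ?_⟩
  rw [hef]
  refine (norm_add_le _ _).trans ?_
  have h1 : ‖f t‖ ≤ 1 + C := by
    have h2 : f t = (f t - T t) + T t := (sub_add_cancel _ _).symm
    rw [h2]
    exact (norm_add_le _ _).trans (add_le_add (hfT t) (hC t))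
  linarith only [h1]

theorem loc_uniformContinuous {p : ℕ → G →₀ ℚ} {F : Finset G}
    {e : ℝ≥0 → L2 (G × ℕ) →L[ℂ] L2 (G × ℕ)} (he : IsLoc p F e) : UniformContinuous e := by
  obtain ⟨c, f, hef, happ⟩ := he
  rw [Metric.uniformContinuous_iff]
  intro ε hε
  obtain ⟨T, hT, hfT⟩ := happ (ε / 3) (by (clear * - hε; positivity))
  obtain ⟨δ, hδ, hTδ⟩ := Metric.uniformContinuous_iff.1 hT.continuous (ε / 3) (by positivity)
  refine ⟨δ, hδ, fun {s t} hst => ?_⟩
  have h1 := hTδ hst
  rw [dist_eq_norm] at h1 ⊢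
  rw [hef, hef, add_sub_add_left_eq_sub]
  have h2 : f s - f t = (f s - T s) + (T s - T t) - (f t - T t) := by abel
  rw [h2]
  calc ‖(f s - T s) + (T s - T t) - (f t - T t)‖
      ≤ ‖(f s - T s) + (T s - T t)‖ + ‖f t - T t‖ := norm_sub_le _ _
    _ ≤ (‖f s - T s‖ + ‖T s - T t‖) + ‖f t - T t‖ := by
        gcongr
        exact norm_add_le _ _
    _ < (ε / 3 + ε / 3) + ε / 3 := by
        have h3 := hfT s
        have h4 := hfT t
        linarith
    _ = ε := by ring

theorem loc_continuous {p : ℕ → G →₀ ℚ} {F : Finset G}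
    {e : ℝ≥0 → L2 (G × ℕ) →L[ℂ] L2 (G × ℕ)} (he : IsLoc p F e) : Continuous e :=
  (loc_uniformContinuous he).continuous

end Vale.Agent.P089.Asm
end
end

section

section

/-!
# P089: transport of projections to an arbitrary Hilbert space with basis indexed by `G`
-/

namespace Vale.Agent.P089.BC

open scoped InnerProductSpace

variable {G H : Type} [Group G] [NormedAddCommGroup H] [InnerProductSpace ℂ H] [CompleteSpace H]

open Classical in
theorem isLam_single {g : G} {T : L2 G →L[ℂ] L2 G} (hT : Vale.Agent.P089.IsLam g T) (x : G) :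
    T (lp.single 2 x (1 : ℂ)) = lp.single 2 (g * x) (1 : ℂ) := by
  ext y
  have h := hT (lp.single 2 x (1 : ℂ)) y
  rw [h, lp.single_apply, lp.single_apply, Pi.single_apply, Pi.single_apply]
  by_cases hy : y = g * x
  · subst hy
    simp only [inv_mul_cancel_left, ↓reduceIte]
  · have h2 : g⁻¹ * y ≠ x := fun h3 => hy (by rw [← h3, mul_inv_cancel_left])
    rw [if_neg h2, if_neg hy]

/-- conjugation by the coordinate isometry. -/
noncomputable def toH (b : HilbertBasis G ℂ H) : (L2 G →L[ℂ] L2 G) ≃⋆ₐ[ℂ] (H →L[ℂ] H) :=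
  b.repr.symm.conjStarAlgEquiv

omit [Group G] in
theorem toH_apply (b : HilbertBasis G ℂ H) (T : L2 G →L[ℂ] L2 G) (v : H) :
    toH b T v = b.repr.symm (T (b.repr v)) := rfl

open Classical in
omit [Group G] in
theorem toH_basis (b : HilbertBasis G ℂ H) (T : L2 G →L[ℂ] L2 G) (x : G) :
    toH b T (b x) = b.repr.symm (T (lp.single 2 x (1 : ℂ))) := by
  rw [toH_apply, b.repr_self]

omit [Group G] in
theorem toH_continuous (b : HilbertBasis G ℂ H) : Continuous (toH b) := by
  refine AddMonoidHomClass.continuous_of_bound (toH b) 1 fun T => ?_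
  rw [one_mul]
  refine ContinuousLinearMap.opNorm_le_bound _ (norm_nonneg _) fun v => ?_
  rw [toH_apply, LinearIsometryEquiv.norm_map]
  refine (T.le_opNorm _).trans ?_
  rw [LinearIsometryEquiv.norm_map]

theorem toH_mem (b : HilbertBasis G ℂ H) {P : L2 G →L[ℂ] L2 G}
    (hP : P ∈ Vale.Agent.P089.CstarR G) : toH b P ∈ CstarR b := by
  classical
  refine map_mem_closure (toH_continuous b) hP ?_
  intro T hT
  refine Submodule.span_induction (p := fun T _ => toH b T ∈
    {T : H →L[ℂ] H | ∃ a : G →₀ ℂ, ∀ x, T (b x) = a.sum fun g z => z • b (g * x)}) ?_ ?_ ?_ ?_ hT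
  · rintro S ⟨g, hS⟩
    refine ⟨Finsupp.single g 1, fun x => ?_⟩
    rw [toH_basis, isLam_single hS, b.repr_symm_single]
    rw [Finsupp.sum_single_index (h := fun g z => z • b (g * x)) (zero_smul _ _), one_smul]
  · refine ⟨0, fun x => ?_⟩
    rw [map_zero, Finsupp.sum_zero_index]
    rfl
  · rintro S T _ _ ⟨a, ha⟩ ⟨a', ha'⟩
    refine ⟨a + a', fun x => ?_⟩
    rw [map_add, Finsupp.sum_add_index' (h := fun g z => z • b (g * x))
      (fun g => zero_smul _ _) (fun g z w => add_smul _ _ _), ← ha, ← ha']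
    rfl
  · rintro z S _ ⟨a, ha⟩
    refine ⟨z • a, fun x => ?_⟩
    rw [map_smul, Finsupp.sum_smul_index' (h := fun g z => z • b (g * x))
      fun g => zero_smul _ _]
    show z • toH b S (b x) = _
    rw [ha, Finsupp.smul_sum]
    refine Finsupp.sum_congr fun g _ => ?_
    rw [smul_assoc]

theorem irrationalTrace_of (b : HilbertBasis G ℂ H) {P : L2 G →L[ℂ] L2 G}
    (hP : P ∈ Vale.Agent.P089.CstarR G) (hPP : P * P = P) (hPs : IsSelfAdjoint P)
    (hx : ∃ x : ℝ, Irrational x ∧ ent P 1 1 = x) : IrrationalTrace b := by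
  classical
  obtain ⟨x, hx, hx1⟩ := hx
  refine ⟨toH b P, toH_mem b hP, by rw [← map_mul, hPP], hPs.map (toH b), x, hx, ?_⟩
  rw [toH_basis, ← hx1, ent]
  have h1 : ⟪b 1, b.repr.symm (P (lp.single 2 1 (1 : ℂ)))⟫_ℂ =
      ⟪b.repr (b 1), P (lp.single 2 1 (1 : ℂ))⟫_ℂ := by
    rw [← LinearIsometryEquiv.inner_map_map b.repr, LinearIsometryEquiv.apply_symm_apply]
  rw [h1, b.repr_self, lp.inner_single_left]
  simp only [RCLike.inner_apply, map_one, mul_one]

end Vale.Agent.P089.BC
end
end

section

section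

/-!
# P089: transport of the image of the assembly map to the concrete Hilbert spaces
-/

namespace Vale.Agent.P089.BC

open scoped InnerProductSpace
open NNReal Matrix

section conj

variable {I E : Type} [NormedAddCommGroup E] [InnerProductSpace ℂ E] [CompleteSpace E]

/-- conjugation by the coordinate isometry. -/
noncomputable def frE (c : HilbertBasis I ℂ E) : (E →L[ℂ] E) ≃⋆ₐ[ℂ] (L2 I →L[ℂ] L2 I) :=
  c.repr.conjStarAlgEquiv

theorem frE_apply (c : HilbertBasis I ℂ E) (T : E →L[ℂ] E) (v : L2 I) :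
    frE c T v = c.repr (T (c.repr.symm v)) := rfl

theorem ent_frE (c : HilbertBasis I ℂ E) (T : E →L[ℂ] E) (j k : I) :
    ent (frE c T) j k = ⟪c j, T (c k)⟫_ℂ := by
  classical
  rw [← c.repr_apply_apply, ← c.repr_symm_single k]
  unfold ent
  rw [frE_apply]

theorem frE_norm (c : HilbertBasis I ℂ E) (T : E →L[ℂ] E) : ‖frE c T‖ = ‖T‖ := by
  apply le_antisymm
  · refine ContinuousLinearMap.opNorm_le_bound _ (norm_nonneg _) fun v => ?_
    rw [frE_apply, LinearIsometryEquiv.norm_map]
    refine (T.le_opNorm _).trans ?_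
    rw [LinearIsometryEquiv.norm_map]
  · refine ContinuousLinearMap.opNorm_le_bound _ (norm_nonneg _) fun v => ?_
    have h : T v = c.repr.symm (frE c T (c.repr v)) := by
      rw [frE_apply, LinearIsometryEquiv.symm_apply_apply, LinearIsometryEquiv.symm_apply_apply]
    rw [h, LinearIsometryEquiv.norm_map]
    refine ((frE c T).le_opNorm _).trans ?_
    rw [LinearIsometryEquiv.norm_map]

theorem frE_isometry (c : HilbertBasis I ℂ E) : Isometry (frE c) :=
  AddMonoidHomClass.isometry_of_norm _ (frE_norm c)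

theorem frE_smul_one_add (c : HilbertBasis I ℂ E) (z : ℂ) {T S : E →L[ℂ] E}
    (h : ∀ v, T v = z • v + S v) : frE c T = z • 1 + frE c S := by
  have h1 : T = z • 1 + S := ContinuousLinearMap.ext h
  rw [h1, map_add, map_smul, map_one]

end conj

variable {G H E : Type} [Group G] [NormedAddCommGroup H] [InnerProductSpace ℂ H]
  [CompleteSpace H] [NormedAddCommGroup E] [InnerProductSpace ℂ E] [CompleteSpace E]

theorem isRoe_frE {c : HilbertBasis (G × ℕ) ℂ E} {T : E →L[ℂ] E} (h : IsRoe c T) :
    Vale.Agent.P089.IsRoe (frE c T) := by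
  refine ⟨fun g h' s m n => ?_, ?_, fun h' => ?_⟩
  · rw [ent_frE, ent_frE]
    exact h.equivariant g h' s m n
  · obtain ⟨S, hS⟩ := h.propagation
    refine ⟨S, fun g h' m n => ?_⟩
    rw [ent_frE]
    exact hS g h' m n
  · obtain ⟨K, hK, hK'⟩ := h.compact h'
    refine ⟨frE c K, ?_, fun j n => ?_⟩
    · have h1 : IsCompactOperator ((K : E → E) ∘ (c.repr.symm : L2 (G × ℕ) → E)) :=
        hK.comp_clm (c.repr.symm.toContinuousLinearEquiv : L2 (G × ℕ) →L[ℂ] E)
      exact h1.clm_comp (c.repr.toContinuousLinearEquiv : E →L[ℂ] L2 (G × ℕ))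
    · rw [ent_frE, ent_frE, hK' n]

theorem isU_frE {c : HilbertBasis (G × ℕ) ℂ E} {T : E →L[ℂ] E} (h : IsU c T) :
    Vale.Agent.P089.IsU (frE c T) := by
  obtain ⟨z, S, hS, hT⟩ := h
  refine ⟨z, frE c S, ?_, frE_smul_one_add c z hT⟩
  exact map_mem_closure (frE_isometry c).continuous hS fun S hS => isRoe_frE hS

theorem isLocal_frE {c : HilbertBasis (G × ℕ) ℂ E} {p : ℕ → G →₀ ℚ} {F : Finset G}
    {T : ℝ≥0 → E →L[ℂ] E} (h : IsLocal c p F T) :
    Vale.Agent.P089.IsLocal p F (fun t => frE c (T t)) := by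
  refine ⟨fun t => isRoe_frE (h.roe t), fun t j k => ?_, fun ε hε => ?_, ?_, ?_⟩
  · rw [ent_frE]
    exact h.carrier t j k
  · obtain ⟨t₀, ht⟩ := h.propagation ε hε
    refine ⟨t₀, fun t ht' j k => ?_⟩
    rw [ent_frE]
    exact ht t ht' j k
  · exact (frE_isometry c).uniformContinuous.comp h.continuous
  · obtain ⟨C, hC⟩ := h.bounded
    exact ⟨C, fun t => by rw [frE_norm]; exact hC t⟩

theorem isLoc_frE {c : HilbertBasis (G × ℕ) ℂ E} {p : ℕ → G →₀ ℚ} {F : Finset G}
    {e : ℝ≥0 → E →L[ℂ] E} (h : IsLoc c p F e) :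
    Vale.Agent.P089.IsLoc p F (fun t => frE c (e t)) := by
  obtain ⟨z, f, hf, hT⟩ := h
  refine ⟨z, fun t => frE c (f t), fun t => frE_smul_one_add c z (hf t), fun ε hε => ?_⟩
  obtain ⟨T, hT1, hT2⟩ := hT ε hε
  refine ⟨fun t => frE c (T t), isLocal_frE hT1, fun t => ?_⟩
  rw [← map_sub, frE_norm, ← dist_eq_norm]
  exact hT2 t

omit [Group G] in
theorem idem_frE {c : HilbertBasis (G × ℕ) ℂ E} {n : ℕ}
    {e : ℝ≥0 → Matrix (Fin n) (Fin n) (E →L[ℂ] E)} (h : ∀ t, e t * e t = e t) :
    (Matrix.of fun j k t => frE c (e t j k)) * (Matrix.of fun j k t => frE c (e t j k)) =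
      (Matrix.of fun j k t => frE c (e t j k) :
        Matrix (Fin n) (Fin n) (ℝ≥0 → L2 (G × ℕ) →L[ℂ] L2 (G × ℕ))) := by
  ext1 j k
  funext t
  have h3 := congrFun (congrFun (h t) j) k
  rw [Matrix.mul_apply] at h3
  rw [Matrix.mul_apply, Finset.sum_apply, Matrix.of_apply, ← h3, map_sum]
  refine Finset.sum_congr rfl fun i _ => ?_
  exact (map_mul (frE c) _ _).symm

theorem inImage_frE (b : HilbertBasis G ℂ H) (c : HilbertBasis (G × ℕ) ℂ E)
    (p : ℕ → G →₀ ℚ) {m : ℕ} {q : Matrix (Fin m) (Fin m) (H →L[ℂ] H)} (h : InImage b c p q) :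
    Vale.Agent.P089.InImage p (q.map (frE b)) := by
  obtain ⟨F, n, e, f, q', he, hf, hcor, r, x, y, hxy, h1, h2⟩ := h
  have hone : (1 : Matrix (Fin r) (Fin r) (E →L[ℂ] E)).map (frE c) = 1 :=
    Matrix.map_one _ (map_zero _) (map_one _)
  refine ⟨F, n, Matrix.of fun j k t => frE c (e t j k), Matrix.of fun j k t => frE c (f t j k),
    q'.map (frE c), fun j k => ⟨isLoc_frE (he.1 j k), isLoc_frE (hf.1 j k)⟩, idem_frE he.2,
    idem_frE hf.2, fun j k => ⟨?_, ?_⟩, r, x.map (frE c), y.map (frE c),
    fun j k => ⟨isU_frE (hxy j k).1, isU_frE (hxy j k).2⟩, ?_, ?_⟩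
  · intro g h'
    rw [Matrix.map_apply, Matrix.map_apply, ent_frE, ent_frE]
    exact (hcor j k).1 g h'
  · intro i l hil
    rw [Matrix.map_apply, ent_frE]
    exact (hcor j k).2 i l hil
  · have h3 := congrArg (fun M => M.map (frE c)) h1
    simp only [Matrix.map_mul, fromBlocks_map, Matrix.map_zero, map_zero, hone] at h3
    exact h3
  · have h3 := congrArg (fun M => M.map (frE c)) h2
    simp only [Matrix.map_mul, fromBlocks_map, map_zero, Matrix.map_zero, hone] at h3
    exact h3

end Vale.Agent.P089.BC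
end
end
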