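import Vale.Agent.P089.MathlibUsed
import Vale.Agent.P089.Bdl.B2
import Vale.Agent.P089.Bdl.B1

set_option linter.all false

section

section

/-!
# Greendlinger's lemma for labelled graphs (graphical small cancellation), planar-free

Definitions: labelled graphs `LG`, words, the generated congruence `Eqv`, and diagrams `Dg`.
-/

namespace Vale.Agent.P089.GL

/-- A labelled graph over the alphabet `L`: `inv` is an involution of the letters,
`Om` the positions, `step` the partial deterministic action of the letters, compatible with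
inverses and without loops. -/
structure LG (L : Type) where
  inv : L → L
  inv_inv : ∀ s, inv (inv s) = s
  Om : Type
  step : Om → L → Option Om
  step_inv : ∀ x s y, step x s = some y → step y (inv s) = some x
  step_ne : ∀ x s, step x s ≠ some x

variable {L : Type}

/-- read a word starting at a position -/
def LG.run (A : LG L) : A.Om → List L → Option A.Om
  | x, [] => some x
  | x, s :: w => (A.step x s).bind fun y => A.run y w

/-- reduced words -/
def LG.Red (A : LG L) (w : List L) : Prop := List.IsChain (fun s t => t ≠ A.inv s) w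

/-- the inverse word -/
def LG.wInv (A : LG L) (w : List L) : List L := (w.map A.inv).reverse

/-- The congruence generated by insertion of `s s⁻¹` and of labels of closed walks. -/
inductive LG.Eqv (A : LG L) : List L → List L → Prop
  | refl (w : List L) : LG.Eqv A w w
  | symm {w w' : List L} : LG.Eqv A w w' → LG.Eqv A w' w
  | trans {w w' w'' : List L} : LG.Eqv A w w' → LG.Eqv A w' w'' → LG.Eqv A w w''
  | spur (u v : List L) (s : L) : LG.Eqv A (u ++ v) (u ++ [s, A.inv s] ++ v)
  | rel (u v r : List L) (x : A.Om) : A.run x r = some x → LG.Eqv A (u ++ v) (u ++ r ++ v)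

/-- `l` is a path of sides from the vertex `b` to the vertex `c`
(`tau p` = start of the side `p`, `tau (mu p)` = end of `p`). -/
def Path (tau mu : ℕ → ℕ) : ℕ → List ℕ → ℕ → Prop
  | b, [], c => b = c
  | b, p :: l, c => tau p = b ∧ Path tau mu (tau (mu p)) l c

/-- A diagram with outer word `w`. Sides are natural numbers in the finite set `P`; `mu` matches
each side with the opposite side of the same edge; `lbl` are the labels, `tau p` is the start
vertex of `p`, `h` the developing map to the group; `pos p = none` for the outer sides and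
`pos p = some x` for inner sides (`x` = start of the lift of `p`); `succ` is the next side for inner
sides; `out` lists the outer sides, a closed path at `base`. `H1` : every cycle mod 2 is a
sum of boundaries of faces. -/
structure Dg (A : LG L) {G : Type} [Group G] (lab : L → G) (w : List L) where
  P : Finset ℕ
  mu : ℕ → ℕ
  lbl : ℕ → L
  tau : ℕ → ℕ
  h : ℕ → G
  pos : ℕ → Option A.Om
  succ : ℕ → ℕ
  out : List ℕ
  base : ℕ
  mu_mem : ∀ p ∈ P, mu p ∈ P
  mu_mu : ∀ p ∈ P, mu (mu p) = p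
  mu_ne : ∀ p ∈ P, mu p ≠ p
  lbl_mu : ∀ p ∈ P, lbl (mu p) = A.inv (lbl p)
  h_mu : ∀ p ∈ P, h (tau (mu p)) = h (tau p) * lab (lbl p)
  out_nodup : out.Nodup
  out_mem : ∀ p, p ∈ out ↔ p ∈ P ∧ pos p = none
  out_path : Path tau mu base out base
  out_lbl : out.map lbl = w
  succ_mem : ∀ p ∈ P, pos p ≠ none → succ p ∈ P
  succ_pos : ∀ p ∈ P, ∀ x, pos p = some x → ∃ y, A.step x (lbl p) = some y ∧ pos (succ p) = some y
  succ_inj : ∀ p ∈ P, ∀ q ∈ P, pos p ≠ none → pos q ≠ none → succ p = succ q → p = q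
  succ_tau : ∀ p ∈ P, pos p ≠ none → tau (succ p) = tau (mu p)
  H1 : ∀ z : ℕ → ZMod 2, (∀ p ∈ P, z (mu p) = z p) →
    (∀ x : ℕ, ∑ p ∈ P with tau p = x, z p = 0) →
    ∃ y : ℕ → ZMod 2, (∀ p ∈ P, pos p ≠ none → y (succ p) = y p) ∧
      (∀ p ∈ P, pos p = none → y p = 0) ∧ ∀ p ∈ P, z p = y p + y (mu p)

/-- A diagram is reduced: no two consecutive sides of a face have inverse labels, and no inner
edge whose two sides lift to the same edge. -/
structure Dg.Reduced {A : LG L} {G : Type} [Group G] {lab : L → G} {w : List L}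
    (D : Dg A lab w) : Prop where
  noFold : ∀ p ∈ D.P, D.pos p ≠ none → D.lbl (D.succ p) ≠ A.inv (D.lbl p)
  noMirror : ∀ p ∈ D.P, ∀ x, D.pos p = some x → A.step x (D.lbl p) ≠ D.pos (D.mu p)

/-- the outer path is simple -/
def Dg.Simple {A : LG L} {G : Type} [Group G] {lab : L → G} {w : List L}
    (D : Dg A lab w) : Prop :=
  ∀ p ∈ D.out, ∀ q ∈ D.out, D.tau p = D.tau q → p = q

/-- A reduced polygon gluing (the abstract data of a reduced diagram with simple outer path used in
the curvature argument). `σ` = next side in the polygon (outer polygon included, cyclically),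
`μ` = opposite side, `pos p = none` = outer side. -/
structure Pol (A : LG L) where
  α : Type
  fin : Fintype α
  dec : DecidableEq α
  σ : Equiv.Perm α
  μ : Equiv.Perm α
  pos : α → Option A.Om
  lbl : α → L
  μμ : ∀ p, μ (μ p) = p
  μne : ∀ p, μ p ≠ p
  lblμ : ∀ p, lbl (μ p) = A.inv (lbl p)
  σout : ∀ p, pos p = none → pos (σ p) = none
  σin : ∀ p x, pos p = some x → ∃ y, A.step x (lbl p) = some y ∧ pos (σ p) = some y
  noFold : ∀ p, pos p ≠ none → lbl (σ p) ≠ A.inv (lbl p)
  noMirror : ∀ p x, pos p = some x → A.step x (lbl p) ≠ pos (μ p)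
  outInner : ∀ p, pos p = none → pos (μ p) ≠ none
  corner : ∀ p, pos p ≠ none → pos (μ p) = none → pos (μ (σ p)) = none → σ (μ (σ p)) = μ p

attribute [instance] Pol.fin Pol.dec

/-- degree of the start corner of `p` -/
noncomputable def Pol.deg {A : LG L} (Q : Pol A) (p : Q.α) : ℕ :=
  Function.minimalPeriod (fun q => Q.σ (Q.μ q)) p

/-- length of the polygon of `p` -/
noncomputable def Pol.len {A : LG L} (Q : Pol A) (p : Q.α) : ℕ :=
  Function.minimalPeriod Q.σ p

open Classical in
/-- the Euler inequality `V - E + F ≥ 1` (`F` = number of faces without the outer polygon) -/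
def Pol.Euler {A : LG L} (Q : Pol A) : Prop :=
  (Fintype.card Q.α : ℚ) / 2 + 1 ≤ ∑ p : Q.α, (1 : ℚ) / Q.deg p +
    ∑ p ∈ Finset.univ.filter (fun p : Q.α => Q.pos p ≠ none), (1 : ℚ) / Q.len p

/-- Small cancellation: `g` is constant along steps, reduced closed walks are long, and words
readable at two different positions are short. -/
structure SC (A : LG L) (g : A.Om → ℕ) (N : ℕ) : Prop where
  gstep : ∀ x s y, A.step x s = some y → g y = g x
  girth : ∀ x w, w ≠ [] → A.Red w → A.run x w = some x → g x ≤ w.length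
  piece : ∀ x y w, x ≠ y → A.Red w → (A.run x w).isSome → (A.run y w).isSome →
    N * w.length < g x ∧ N * w.length < g y

/-! The next facts only fix the module in which the equations of `LG.run` and `Path` are
generated. -/

end Vale.Agent.P089.GL
end
end

section

section

/-!
Operations on diagrams: insertion of a spur, fold of two consecutive outer sides, fold of two
consecutive sides of a face.
-/

namespace Vale.Agent.P089.GL

variable {L : Type} {A : LG L} {G : Type} [Group G] {lab : L → G}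

theorem path_append {tau mu : ℕ → ℕ} {b c : ℕ} {l l' : List ℕ} :
    Path tau mu b (l ++ l') c ↔ ∃ a, Path tau mu b l a ∧ Path tau mu a l' c := by
  induction l generalizing b with
  | nil =>
    constructor
    · intro h; exact ⟨b, rfl, h⟩
    · rintro ⟨a, h, h'⟩
      have : b = a := h
      subst this; exact h'
  | cons p l ih =>
    constructor
    · rintro ⟨h1, h2⟩
      obtain ⟨a, ha, ha'⟩ := ih.1 h2
      exact ⟨a, ⟨h1, ha⟩, ha'⟩
    · rintro ⟨a, ⟨h1, h2⟩, h3⟩
      exact ⟨h1, ih.2 ⟨a, h2, h3⟩⟩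

/-- transport of paths along a vertex map `m` -/
theorem path_map {tau mu tau' mu' : ℕ → ℕ} (m : ℕ → ℕ) {b c : ℕ} {l : List ℕ}
    (h1 : ∀ p ∈ l, tau' p = m (tau p)) (h2 : ∀ p ∈ l, tau' (mu' p) = m (tau (mu p)))
    (h : Path tau mu b l c) : Path tau' mu' (m b) l (m c) := by
  induction l generalizing b with
  | nil =>
    have : b = c := h
    subst this; rfl
  | cons p l ih =>
    obtain ⟨h3, h4⟩ := h
    refine ⟨by rw [h1 p (by simp), h3], ?_⟩
    rw [h2 p (by simp)]
    exact ih (fun q hq => h1 q (by simp [hq])) (fun q hq => h2 q (by simp [hq])) h4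

/-- mod 2 computation behind all folds -/
theorem glueH1 (P : Finset ℕ) (mu tau : ℕ → ℕ) (Y : (ℕ → ZMod 2) → Prop) (p1 p2 q1 q2 : ℕ)
    (hp1 : p1 ∈ P) (hp2 : p2 ∈ P) (hq1 : q1 ∈ P) (hq2 : q2 ∈ P)
    (mumem : ∀ p ∈ P, mu p ∈ P)
    (mumu : ∀ p ∈ P, mu (mu p) = p)
    (e1 : mu p1 = q1) (e2 : mu p2 = q2)
    (n12 : p1 ≠ p2) (n1 : p1 ≠ q1) (n2 : p1 ≠ q2) (n3 : p2 ≠ q1) (n4 : p2 ≠ q2) (n5 : q1 ≠ q2)
    (ht : tau p2 = tau q1)
    (hY : ∀ y, Y y → y p1 = y p2)
    (H : ∀ z : ℕ → ZMod 2, (∀ p ∈ P, z (mu p) = z p) →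
      (∀ x : ℕ, ∑ p ∈ P with tau p = x, z p = 0) →
      ∃ y : ℕ → ZMod 2, Y y ∧ ∀ p ∈ P, z p = y p + y (mu p))
    (z : ℕ → ZMod 2)
    (hz : ∀ p ∈ (P.erase p1).erase p2,
      z (if p = q1 then q2 else if p = q2 then q1 else mu p) = z p)
    (hs : ∀ x : ℕ, ∑ p ∈ (P.erase p1).erase p2 with
      (if tau p = tau q2 then tau p1 else tau p) = x, z p = 0) :
    ∃ y : ℕ → ZMod 2, Y y ∧ ∀ p ∈ (P.erase p1).erase p2,
      z p = y p + y (if p = q1 then q2 else if p = q2 then q1 else mu p) := by
  classical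
  set R0 : Finset ℕ := (((P.erase p1).erase p2).erase q1).erase q2 with hR0
  have hP2 : (P.erase p1).erase p2 = insert q1 (insert q2 R0) := by
    ext p
    simp only [hR0, Finset.mem_erase, Finset.mem_insert]
    constructor
    · rintro ⟨h1, h2, h3⟩
      by_cases h4 : p = q1
      · exact Or.inl h4
      · by_cases h5 : p = q2
        · exact Or.inr (Or.inl h5)
        · exact Or.inr (Or.inr ⟨h5, h4, h1, h2, h3⟩)
    · rintro (h | h | h)
      · subst h; exact ⟨n3.symm, n1.symm, hq1⟩
      · subst h; exact ⟨n4.symm, n2.symm, hq2⟩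
      · exact ⟨h.2.2.1, h.2.2.2.1, h.2.2.2.2⟩
  have hP : P = insert p1 (insert p2 (insert q1 (insert q2 R0))) := by
    rw [← hP2, Finset.insert_erase, Finset.insert_erase hp1]
    exact Finset.mem_erase.2 ⟨n12.symm, hp2⟩
  have m1 : q2 ∉ R0 := by simp only [hR0, Finset.mem_erase, ne_eq, not_true_eq_false, false_and, not_false_eq_true]
  have m2 : q1 ∉ insert q2 R0 := by simp only [hR0, Finset.mem_insert, n5, Finset.mem_erase, ne_eq, not_false_eq_true, not_true_eq_false, false_and, and_false, or_self]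
  have m3 : p2 ∉ insert q1 (insert q2 R0) := by simp only [hR0, Finset.mem_insert, n3, n4, Finset.mem_erase, ne_eq, not_false_eq_true, not_true_eq_false, false_and, and_false, or_self]
  have m4 : p1 ∉ insert p2 (insert q1 (insert q2 R0)) := by simp only [hR0, Finset.mem_insert, n12, n1, n2, Finset.mem_erase, ne_eq, not_false_eq_true, not_true_eq_false, false_and, and_false, or_self]
  have r1 : p1 ∉ R0 := by simp only [hR0, Finset.mem_erase, ne_eq, not_true_eq_false, false_and, and_false, not_false_eq_true]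
  have r2 : p2 ∉ R0 := by simp only [hR0, Finset.mem_erase, ne_eq, not_true_eq_false, false_and, and_false, not_false_eq_true]
  have r3 : q1 ∉ R0 := by simp only [hR0, Finset.mem_erase, ne_eq, not_true_eq_false, false_and, and_false, not_false_eq_true]
  have r4 : q2 ∉ R0 := m1
  have hζ : z q2 = z q1 := by
    have := hz q1 (Finset.mem_erase.2 ⟨n3.symm, Finset.mem_erase.2 ⟨n1.symm, hq1⟩⟩)
    simpa using this
  -- the sums over the rest
  set R : ℕ → ZMod 2 := fun v => ∑ p ∈ R0, if tau p = v then z p else 0 with hR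
  set a := tau p1 with ha
  set c := tau q2 with hc
  set t := tau q1 with htt
  set α : ZMod 2 := R a + (if t = a then z q1 else 0) with hα
  set β : ZMod 2 := z q1 - α with hβ
  set Z : ℕ → ZMod 2 := fun p => if p = p1 ∨ p = q1 then α else
    if p = p2 ∨ p = q2 then β else z p with hZ
  have Zp1 : Z p1 = α := by simp [hZ]
  have Zq1 : Z q1 = α := by simp [hZ]
  have Zp2 : Z p2 = β := by simp [hZ, n12.symm, n3]
  have Zq2 : Z q2 = β := by simp [hZ, n2.symm, n5.symm]
  have ZR : ∀ p ∈ R0, Z p = z p := by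
    intro p hp
    have h1 : p ≠ p1 := fun h => r1 (h ▸ hp)
    have h2 : p ≠ p2 := fun h => r2 (h ▸ hp)
    have h3 : p ≠ q1 := fun h => r3 (h ▸ hp)
    have h4 : p ≠ q2 := fun h => r4 (h ▸ hp)
    simp [hZ, h1, h2, h3, h4]
  have hmuR : ∀ p ∈ R0, mu p ∈ R0 := by
    intro p hp
    have hpP : p ∈ P := by rw [hP]; simp only [Finset.mem_insert, hp, or_true]
    have h1 : mu p ≠ p1 := fun h => by
      have := mumu p hpP; rw [h, e1] at this; exact r3 (this ▸ hp)
    have h2 : mu p ≠ p2 := fun h => by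
      have := mumu p hpP; rw [h, e2] at this; exact r4 (this ▸ hp)
    have h3 : mu p ≠ q1 := fun h => by
      have := mumu p hpP; rw [h, ← e1, mumu p1 hp1] at this; exact r1 (this ▸ hp)
    have h4 : mu p ≠ q2 := fun h => by
      have := mumu p hpP; rw [h, ← e2, mumu p2 hp2] at this; exact r2 (this ▸ hp)
    simp only [hR0, Finset.mem_erase]
    exact ⟨h4, h3, h2, h1, mumem p hpP⟩
  have two : ∀ x : ZMod 2, x + x = 0 := fun x => by
    have := CharTwo.add_self_eq_zero x; exact this
  -- the cycle property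
  have hsum : ∀ x : ℕ, ∑ p ∈ P with tau p = x, Z p = 0 := by
    intro x
    have key := hs x
    rw [hP2, Finset.sum_filter, Finset.sum_insert m2, Finset.sum_insert m1] at key
    rw [hP, Finset.sum_filter, Finset.sum_insert m4, Finset.sum_insert m3, Finset.sum_insert m2,
      Finset.sum_insert m1, Zp1, Zp2, Zq1, Zq2]
    have hRR : ∑ p ∈ R0, (if tau p = x then Z p else 0) = R x := by
      apply Finset.sum_congr rfl
      intro p hp
      rw [ZR p hp]
    rw [hRR, ht]
    change (if a = x then α else 0) + ((if t = x then β else 0) + ((if t = x then α else 0) +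
      ((if c = x then β else 0) + R x))) = 0
    have hαβ : α + β = z q1 := by rw [hβ]; ring
    rw [hζ, if_pos (rfl : c = c)] at key
    by_cases hac : a = c
    · -- no identification
      have hm : ∀ v : ℕ, (if v = c then a else v) = v := by
        intro v; split_ifs with h
        · rw [h, hac]
        · rfl
      simp only [hm] at key
      change (if t = x then z q1 else 0) + ((if a = x then z q1 else 0) + R x) = 0 at key
      rw [← hac]
      refine Eq.trans ?_ key
      rw [← hαβ]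
      by_cases h1 : a = x <;> by_cases h2 : t = x <;> simp only [h1, h2, if_true, if_false] <;>
        ring
    · -- identification of a and c
      by_cases hxa : x = a
      · subst hxa
        have : c ≠ a := fun h => hac h.symm
        rw [if_pos rfl, if_neg this]
        by_cases h2 : t = a
        · simp only [h2, if_true] at hα ⊢
          have : α + (β + (α + (0 + R a))) = (α + β) + (α + R a) := by ring
          rw [this, hαβ, hα]
          have : z q1 + (R a + z q1 + R a) = (z q1 + z q1) + (R a + R a) := by ring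
          rw [this, two, two, add_zero]
        · simp only [h2, if_false] at hα ⊢
          rw [hα]
          have : R a + 0 + (0 + (0 + (0 + R a))) = R a + R a := by ring
          rw [this, two]
      · by_cases hxc : x = c
        · subst hxc
          have keya := hs a
          rw [hP2, Finset.sum_filter, Finset.sum_insert m2, Finset.sum_insert m1] at keya
          rw [hζ, if_pos (rfl : c = c), if_pos (rfl : a = a)] at keya
          have hRac : ∑ p ∈ R0, (if (if tau p = c then a else tau p) = a then z p else 0)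
              = R a + R c := by
            rw [hR, ← Finset.sum_add_distrib]
            apply Finset.sum_congr rfl
            intro p hp
            by_cases h1 : tau p = c
            · have h2 : ¬ (c = a) := fun h => hac h.symm
              simp [h1, h2]
            · by_cases h2 : tau p = a
              · simp [h2, hac]
              · simp [h1, h2]
          rw [hRac] at keya
          rw [if_neg hac, if_pos rfl]
          have h3 : (if (if t = c then a else t) = a then z q1 else 0) =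
              (if t = a then z q1 else 0) + (if t = c then z q1 else 0) := by
            by_cases h1 : t = c
            · have h2 : ¬ (c = a) := fun h => hac h.symm
              simp [h1, h2]
            · by_cases h2 : t = a
              · simp [h2, hac]
              · simp [h1, h2]
          change (if (if t = c then a else t) = a then z q1 else 0) + (z q1 + (R a + R c)) = 0
            at keya
          rw [h3] at keya
          have h4 : (if t = c then β else 0) + (if t = c then α else 0) =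
              (if t = c then z q1 else 0) := by
            split_ifs
            · rw [← hαβ]; ring
            · ring
          have h5 : β = z q1 - R a - (if t = a then z q1 else 0) := by
            rw [hβ, hα]; ring
          have : (0 : ZMod 2) + ((if t = c then β else 0) + ((if t = c then α else 0) + (β + R c)))
            = ((if t = c then β else 0) + (if t = c then α else 0)) + β + R c := by ring
          rw [this, h4, h5]
          have h6 : (if t = c then z q1 else 0) + (z q1 - R a - (if t = a then z q1 else 0)) + R c =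
            ((if t = a then z q1 else 0) + (if t = c then z q1 else 0) + (z q1 + (R a + R c))) -
            (R a + R a) - ((if t = a then z q1 else 0) + (if t = a then z q1 else 0)) := by ring
          rw [h6, keya, two, two]; ring
        · -- other vertices
          have hax : a ≠ x := fun h => hxa h.symm
          have hcx : c ≠ x := fun h => hxc h.symm
          rw [if_neg hax, if_neg hcx]
          have hRx : ∑ p ∈ R0, (if (if tau p = c then a else tau p) = x then z p else 0) = R x := by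
            apply Finset.sum_congr rfl
            intro p hp
            by_cases h1 : tau p = c
            · simp [h1, hax, hcx]
            · simp [h1]
          rw [hRx] at key
          have h3 : (if (if t = c then a else t) = x then z q1 else 0) =
              (if t = x then z q1 else 0) := by
            by_cases h1 : t = c
            · simp [h1, hax, hcx]
            · simp [h1]
          change (if (if t = c then a else t) = x then z q1 else 0) + ((if a = x then z q1 else 0)
            + R x) = 0 at key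
          rw [h3, if_neg hax] at key
          refine Eq.trans ?_ key
          rw [← hαβ]
          by_cases h2 : t = x
          · simp only [h2, if_true]; ring
          · simp only [h2, if_false]; ring
  have hZmu : ∀ p ∈ P, Z (mu p) = Z p := by
    intro p hp
    rw [hP] at hp
    simp only [Finset.mem_insert] at hp
    rcases hp with h | h | h | h | h
    · rw [h, e1, Zp1, Zq1]
    · rw [h, e2, Zp2, Zq2]
    · rw [h, ← e1, mumu p1 hp1, e1, Zp1, Zq1]
    · rw [h, ← e2, mumu p2 hp2, e2, Zp2, Zq2]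
    · rw [ZR _ (hmuR p h), ZR p h]
      have h1 : p ≠ q1 := fun h' => r3 (h' ▸ h)
      have h2 : p ≠ q2 := fun h' => r4 (h' ▸ h)
      have h3 : p ≠ p1 := fun h' => r1 (h' ▸ h)
      have h4 : p ≠ p2 := fun h' => r2 (h' ▸ h)
      have hpP : p ∈ P := by rw [hP]; simp only [Finset.mem_insert, h, or_true]
      have := hz p (by simp [h3, h4, hpP])
      simpa [h1, h2] using this
  obtain ⟨y, hy, hy'⟩ := H Z hZmu hsum
  refine ⟨y, hy, ?_⟩
  have hαβ : α + β = z q1 := by rw [hβ]; ring
  have y1 := hy' q1 hq1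
  have y2 := hy' q2 hq2
  rw [← e1, mumu p1 hp1, e1, Zq1] at y1
  rw [← e2, mumu p2 hp2, e2, Zq2] at y2
  have hyy := hY y hy
  have yz : z q1 = y q1 + y q2 := by
    rw [← hαβ, y1, y2, hyy]
    have : y q1 + y p2 + (y q2 + y p2) = y q1 + y q2 + (y p2 + y p2) := by ring
    rw [this, two, add_zero]
  intro p hp
  rw [hP2] at hp
  simp only [Finset.mem_insert] at hp
  rcases hp with h | h | h
  · rw [h, if_pos rfl]; exact yz
  · rw [h, if_neg n5.symm, if_pos rfl, hζ, yz]; ring
  · have h1 : p ≠ q1 := fun h' => r3 (h' ▸ h)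
    have h2 : p ≠ q2 := fun h' => r4 (h' ▸ h)
    rw [if_neg h1, if_neg h2, ← ZR p h]
    exact hy' p (by rw [hP]; simp only [Finset.mem_insert, h, or_true])

end Vale.Agent.P089.GL
end
end

section

section

namespace Vale.Agent.P089.GL

variable {L : Type} {A : LG L} {G : Type} [Group G] {lab : L → G}

/-- (H1) is preserved when both sides of an edge are removed. -/
theorem removeH1 (P : Finset ℕ) (mu tau : ℕ → ℕ) (Y : (ℕ → ZMod 2) → Prop) (p q : ℕ)
    (hp : p ∈ P) (e : mu p = q) (mumu : ∀ p ∈ P, mu (mu p) = p)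
    (H : ∀ z : ℕ → ZMod 2, (∀ p ∈ P, z (mu p) = z p) →
      (∀ x : ℕ, ∑ p ∈ P with tau p = x, z p = 0) →
      ∃ y : ℕ → ZMod 2, Y y ∧ ∀ p ∈ P, z p = y p + y (mu p))
    (z : ℕ → ZMod 2)
    (hz : ∀ r ∈ (P.erase p).erase q, z (mu r) = z r)
    (hs : ∀ x : ℕ, ∑ r ∈ (P.erase p).erase q with tau r = x, z r = 0) :
    ∃ y : ℕ → ZMod 2, Y y ∧ y p + y q = 0 ∧ ∀ r ∈ (P.erase p).erase q, z r = y r + y (mu r) := by
  classical
  set Z : ℕ → ZMod 2 := fun r => if r = p ∨ r = q then 0 else z r with hZ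
  have hmem : ∀ r, r ∈ (P.erase p).erase q ↔ r ≠ q ∧ r ≠ p ∧ r ∈ P := by
    intro r; simp only [Finset.mem_erase, ne_eq]
  obtain ⟨y, hy, hy'⟩ := H Z (by
    intro r hr
    by_cases h1 : r = p
    · subst h1; simp [hZ, e]
    · by_cases h2 : r = q
      · subst h2
        have : mu r = p := by rw [← e]; exact mumu p hp
        simp [hZ, this]
      · have h3 : mu r ≠ p := fun h => h2 (by rw [← mumu r hr, h, e])
        have h4 : mu r ≠ q := fun h => h1 (by rw [← mumu r hr, h, ← e, mumu p hp])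
        simp only [hZ, h1, h2, h3, h4, or_self, if_false]
        exact hz r ((hmem r).2 ⟨h2, h1, hr⟩)) (by
    intro x
    rw [← hs x, Finset.sum_filter, Finset.sum_filter]
    symm
    apply Finset.sum_subset_zero_on_sdiff
      (Finset.erase_subset _ _ |>.trans (Finset.erase_subset _ _))
    · intro r hr
      rw [Finset.mem_sdiff, hmem] at hr
      by_cases h1 : r = p
      · simp [hZ, h1]
      · by_cases h2 : r = q
        · simp [hZ, h2]
        · exact absurd ⟨h2, h1, hr.1⟩ hr.2
    · intro r hr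
      rw [hmem] at hr
      simp [hZ, hr.1, hr.2.1])
  refine ⟨y, hy, ?_, ?_⟩
  · have := hy' p hp
    rw [e] at this
    rw [← this]; simp [hZ]
  · intro r hr
    rw [← hy' r ((hmem r).1 hr).2.2]
    have := (hmem r).1 hr
    simp [hZ, this.1, this.2.1]

/-- A1 -/
theorem spur_insert (hinv : ∀ s, lab (A.inv s) = (lab s)⁻¹) {u v : List L} (s : L)
    (D : Dg A lab (u ++ v)) : Nonempty (Dg A lab (u ++ [s, A.inv s] ++ v)) := by
  classical
  obtain ⟨ou, ov, hout, hou, hov⟩ := List.map_eq_append_iff.1 D.out_lbl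
  have hpath := D.out_path
  rw [hout, path_append] at hpath
  obtain ⟨a, hpa, hpb⟩ := hpath
  obtain ⟨N, hN⟩ : ∃ N, ∀ p ∈ D.P, p < N :=
    ⟨D.P.sup id + 1, fun p hp => Nat.lt_succ_of_le (Finset.le_sup (f := id) hp)⟩
  obtain ⟨t, ht⟩ : ∃ t, (∀ p ∈ D.P, D.tau p < t) ∧ a < t ∧ D.base < t :=
    ⟨D.P.sup D.tau + a + D.base + 1, fun p hp => by
      have := Finset.le_sup (f := D.tau) hp; omega, by omega, by omega⟩
  obtain ⟨ht, hat, hbt⟩ := ht
  have n1 : ∀ p ∈ D.P, p ≠ N := fun p hp => (hN p hp).ne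
  have n2 : ∀ p ∈ D.P, p ≠ N + 1 := fun p hp => by have := hN p hp; omega
  have hNN : N + 1 ≠ N := by omega
  have hNP : N ∉ D.P := fun h => n1 N h rfl
  have hNP' : N + 1 ∉ D.P := fun h => n2 _ h rfl
  have hoP : ∀ p ∈ D.out, p ∈ D.P := fun p hp => ((D.out_mem p).1 hp).1
  refine ⟨{
    P := insert N (insert (N + 1) D.P)
    mu := fun p => if p = N then N + 1 else if p = N + 1 then N else D.mu p
    lbl := fun p => if p = N then s else if p = N + 1 then A.inv s else D.lbl p
    tau := fun p => if p = N then a else if p = N + 1 then t else D.tau p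
    h := fun x => if x = t then D.h a * lab s else D.h x
    pos := fun p => if p = N then none else if p = N + 1 then none else D.pos p
    succ := D.succ
    out := ou ++ [N, N + 1] ++ ov
    base := D.base
    mu_mem := ?_
    mu_mu := ?_
    mu_ne := ?_
    lbl_mu := ?_
    h_mu := ?_
    out_nodup := ?_
    out_mem := ?_
    out_path := ?_
    out_lbl := ?_
    succ_mem := ?_
    succ_pos := ?_
    succ_inj := ?_
    succ_tau := ?_
    H1 := ?_ }⟩
  · intro p hp
    simp only [Finset.mem_insert] at hp ⊢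
    rcases hp with h | h | h
    · simp [h]
    · simp [h]
    · rw [if_neg (n1 p h), if_neg (n2 p h)]
      exact Or.inr (Or.inr (D.mu_mem p h))
  · intro p hp
    simp only [Finset.mem_insert] at hp
    rcases hp with h | h | h
    · simp [h]
    · simp [h]
    · have h' := D.mu_mem p h
      simp only [if_neg (n1 p h), if_neg (n2 p h), if_neg (n1 _ h'), if_neg (n2 _ h')]
      exact D.mu_mu p h
  · intro p hp
    simp only [Finset.mem_insert] at hp
    rcases hp with h | h | h
    · simp [h]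
    · simp [h]
    · simp only [if_neg (n1 p h), if_neg (n2 p h)]
      exact D.mu_ne p h
  · intro p hp
    simp only [Finset.mem_insert] at hp
    rcases hp with h | h | h
    · simp [h]
    · simp [h, A.inv_inv]
    · have h' := D.mu_mem p h
      simp only [if_neg (n1 p h), if_neg (n2 p h), if_neg (n1 _ h'), if_neg (n2 _ h')]
      exact D.lbl_mu p h
  · intro p hp
    simp only [Finset.mem_insert] at hp
    rcases hp with h | h | h
    · simp [h, hat.ne]
    · simp only [h, Nat.add_eq_left, one_ne_zero, ↓reduceIte, Nat.add_left_cancel_iff, hat.ne, hinv, mul_inv_cancel_right]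
    · have h' := D.mu_mem p h
      simp only [if_neg (n2 p h), if_neg (n1 p h), if_neg (n2 _ h'), if_neg (n1 _ h'), if_neg (ht _ h').ne, if_neg (ht p h).ne]
      exact D.h_mu p h
  · have hnd := D.out_nodup
    rw [hout] at hnd
    have h1 : N ∉ D.out := fun h => hNP (hoP _ h)
    have h2 : N + 1 ∉ D.out := fun h => hNP' (hoP _ h)
    rw [hout, List.mem_append, not_or] at h1 h2
    rw [List.append_assoc, List.nodup_append] at *
    refine ⟨hnd.1, ?_, ?_⟩
    · simp only [List.cons_append, List.nil_append, List.nodup_cons, List.mem_cons, not_or]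
      exact ⟨⟨by omega, h1.2⟩, h2.2, hnd.2.1⟩
    · intro x hx y hy
      simp only [List.cons_append, List.nil_append, List.mem_cons] at hy
      rcases hy with rfl | rfl | hy
      · exact fun h => h1.1 (h ▸ hx)
      · exact fun h => h2.1 (h ▸ hx)
      · exact hnd.2.2 x hx y hy
  · intro p
    have := D.out_mem p
    rw [hout] at this
    simp only [List.mem_append, Finset.mem_insert, List.mem_cons] at this ⊢
    by_cases h1 : p = N
    · simp [h1]
    · by_cases h2 : p = N + 1
      · simp [h2]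
      · simp only [h1, h2, false_or, if_false]
        simpa using this
  · rw [List.append_assoc, path_append]
    refine ⟨a, ?_, ?_⟩
    · refine path_map id (fun p hp => ?_) (fun p hp => ?_) hpa
      · have hp' : p ∈ D.P := hoP p (by rw [hout]; simp [hp])
        simp only [n1 p hp', ↓reduceIte, n2 p hp', id_eq]
      · have hp' : p ∈ D.P := hoP p (by rw [hout]; simp [hp])
        have hp'' := D.mu_mem p hp'
        simp [n1 p hp', n2 p hp', n1 _ hp'', n2 _ hp'']
    · refine ⟨by simp, ?_⟩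
      refine ⟨by simp, ?_⟩
      have : Path (fun p => if p = N then a else if p = N + 1 then t else D.tau p)
          (fun p => if p = N then N + 1 else if p = N + 1 then N else D.mu p) (id a) ov
          (id D.base) := by
        refine path_map id (fun p hp => ?_) (fun p hp => ?_) hpb
        · have hp' : p ∈ D.P := hoP p (by rw [hout]; simp [hp])
          simp [n1 p hp', n2 p hp']
        · have hp' : p ∈ D.P := hoP p (by rw [hout]; simp [hp])
          have hp'' := D.mu_mem p hp'
          simp [n1 p hp', n2 p hp', n1 _ hp'', n2 _ hp'']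
      simpa only [Nat.add_eq_left, one_ne_zero, ↓reduceIte, Nat.add_left_cancel_iff, List.append_eq,     List.nil_append, id_eq] using this
  · have h1 : ∀ l : List ℕ, (∀ p ∈ l, p ∈ D.P) →
        l.map (fun p => if p = N then s else if p = N + 1 then A.inv s else D.lbl p) =
        l.map D.lbl := by
      intro l hl
      apply List.map_congr_left
      intro p hp
      simp [n1 p (hl p hp), n2 p (hl p hp)]
    rw [List.map_append, List.map_append, h1 ou (fun p hp => hoP p (by rw [hout]; simp [hp])),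
      h1 ov (fun p hp => hoP p (by rw [hout]; simp [hp])), hou, hov]
    simp
  · intro p hp hpos
    simp only [Finset.mem_insert] at hp ⊢
    rcases hp with h | h | h
    · simp [h] at hpos
    · simp [h] at hpos
    · rw [if_neg (n1 p h), if_neg (n2 p h)] at hpos
      exact Or.inr (Or.inr (D.succ_mem p h hpos))
  · intro p hp x hpos
    simp only [Finset.mem_insert] at hp
    rcases hp with h | h | h
    · simp [h] at hpos
    · simp [h] at hpos
    · rw [if_neg (n1 p h), if_neg (n2 p h)] at hpos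
      have h' := D.succ_mem p h (by rw [hpos]; simp)
      rw [if_neg (n1 p h), if_neg (n2 p h), if_neg (n1 _ h'), if_neg (n2 _ h')]
      exact D.succ_pos p h x hpos
  · intro p hp q hq hpp hqq hpq
    simp only [Finset.mem_insert] at hp hq
    rcases hp with h | h | h
    · simp [h] at hpp
    · simp [h] at hpp
    · rcases hq with h2 | h2 | h2
      · simp [h2] at hqq
      · simp [h2] at hqq
      · rw [if_neg (n1 p h), if_neg (n2 p h)] at hpp
        rw [if_neg (n1 q h2), if_neg (n2 q h2)] at hqq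
        exact D.succ_inj p h q h2 hpp hqq hpq
  · intro p hp hpos
    simp only [Finset.mem_insert] at hp
    rcases hp with h | h | h
    · simp [h] at hpos
    · simp [h] at hpos
    · rw [if_neg (n1 p h), if_neg (n2 p h)] at hpos
      have h' := D.succ_mem p h hpos
      have h'' := D.mu_mem p h
      simp only [if_neg (n1 p h), if_neg (n2 p h), if_neg (n1 _ h'), if_neg (n2 _ h'),
        if_neg (n1 _ h''), if_neg (n2 _ h'')]
      exact D.succ_tau p h hpos
  · intro z hz hs
    have hmN : N ∉ insert (N + 1) D.P := by simp [hNP]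
    have zt : z (N + 1) = 0 := by
      have := hs t
      rw [Finset.sum_filter, Finset.sum_insert hmN, Finset.sum_insert hNP'] at this
      simp only [if_true, hNN, if_false] at this
      rw [if_neg hat.ne] at this
      have h0 : ∑ x ∈ D.P, (if (if x = N then a else if x = N + 1 then t else D.tau x) = t
          then z x else 0) = 0 := by
        apply Finset.sum_eq_zero
        intro p hp
        rw [if_neg (n1 p hp), if_neg (n2 p hp), if_neg (ht p hp).ne]
      rw [h0] at this
      simpa using this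
    have zN : z N = 0 := by
      have := hz N (by simp only [Finset.mem_insert, Nat.left_eq_add, one_ne_zero, false_or, true_or])
      simp only [if_true] at this
      rw [← this, zt]
    obtain ⟨y, hy1, hy2, hy3⟩ := D.H1 z (by
      intro p hp
      have := hz p (by simp only [Finset.mem_insert, hp, or_true])
      simpa [n1 p hp, n2 p hp] using this) (by
      intro x
      have := hs x
      rw [Finset.sum_filter, Finset.sum_insert hmN, Finset.sum_insert hNP', zN, zt] at this
      simp only [ite_self, zero_add] at this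
      rw [Finset.sum_filter]
      refine Eq.trans ?_ this
      apply Finset.sum_congr rfl
      intro p hp
      rw [if_neg (n1 p hp), if_neg (n2 p hp)])
    refine ⟨fun p => if p = N then 0 else if p = N + 1 then 0 else y p, ?_, ?_, ?_⟩
    · intro p hp hpos
      simp only [Finset.mem_insert] at hp
      rcases hp with h | h | h
      · simp [h] at hpos
      · simp [h] at hpos
      · rw [if_neg (n1 p h), if_neg (n2 p h)] at hpos
        have h' := D.succ_mem p h hpos
        simp only [if_neg (n1 p h), if_neg (n2 p h), if_neg (n1 _ h'), if_neg (n2 _ h')]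
        exact hy1 p h hpos
    · intro p hp hpos
      simp only [Finset.mem_insert] at hp
      rcases hp with h | h | h
      · simp [h]
      · simp only [h, Nat.add_eq_left, one_ne_zero, ↓reduceIte, Nat.add_left_cancel_iff]
      · rw [if_neg (n1 p h), if_neg (n2 p h)] at hpos
        simp only [if_neg (n1 p h), if_neg (n2 p h)]
        exact hy2 p h hpos
    · intro p hp
      simp only [Finset.mem_insert] at hp
      rcases hp with h | h | h
      · simp only [h, zN, ↓reduceIte, Nat.add_eq_left, one_ne_zero, Nat.add_left_cancel_iff, add_zero]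
      · simp [h, zt]
      · have h' := D.mu_mem p h
        simp only [if_neg (n1 p h), if_neg (n2 p h), if_neg (n1 _ h'), if_neg (n2 _ h')]
        exact hy3 p h

/-- A3, case of a spur: both sides are removed -/
theorem fold_spur {u v : List L} (s : L) (D : Dg A lab (u ++ [s, A.inv s] ++ v))
    (ou ov : List ℕ) (p1 p2 : ℕ) (hout : D.out = ou ++ [p1, p2] ++ ov)
    (hou : ou.map D.lbl = u) (hov : ov.map D.lbl = v) (hmu : D.mu p1 = p2) :
    Nonempty (Dg A lab (u ++ v)) := by
  classical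
  have hnd := D.out_nodup
  rw [hout, List.append_assoc, List.nodup_append] at hnd
  obtain ⟨hnd1, hnd2, hnd3⟩ := hnd
  simp only [List.cons_append, List.nil_append, List.nodup_cons, List.mem_cons, not_or] at hnd2
  obtain ⟨⟨n12, hp1v⟩, hp2v, hndv⟩ := hnd2
  have hp1u : p1 ∉ ou := fun h => hnd3 p1 h p1 (by simp) rfl
  have hp2u : p2 ∉ ou := fun h => hnd3 p2 h p2 (by simp) rfl
  have hm1 := (D.out_mem p1).1 (by rw [hout]; simp)
  have hm2 := (D.out_mem p2).1 (by rw [hout]; simp)
  have hmu2 : D.mu p2 = p1 := by rw [← hmu, D.mu_mu p1 hm1.1]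
  have hpath := D.out_path
  rw [hout, path_append] at hpath
  obtain ⟨a', h12, hpc⟩ := hpath
  rw [path_append] at h12
  obtain ⟨a, hpa, ht1, ht2, ht3⟩ := h12
  rw [← ht3, hmu2, ht1] at hpc
  have hP : ∀ p, p ∈ (D.P.erase p1).erase p2 ↔ p ≠ p2 ∧ p ≠ p1 ∧ p ∈ D.P := by
    intro p; simp [Finset.mem_erase]
  have hmumem : ∀ p, p ∈ (D.P.erase p1).erase p2 → D.mu p ∈ (D.P.erase p1).erase p2 := by
    intro p hp
    rw [hP] at hp ⊢
    refine ⟨fun h => hp.2.1 ?_, fun h => hp.1 ?_, D.mu_mem p hp.2.2⟩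
    · rw [← D.mu_mu p hp.2.2, h, hmu2]
    · rw [← D.mu_mu p hp.2.2, h, hmu]
  have hsmem : ∀ p, p ∈ (D.P.erase p1).erase p2 → D.pos p ≠ none →
      D.succ p ∈ (D.P.erase p1).erase p2 := by
    intro p hp hpos
    rw [hP] at hp ⊢
    have h1 := D.succ_mem p hp.2.2 hpos
    obtain ⟨x, hx⟩ := Option.ne_none_iff_exists'.1 hpos
    obtain ⟨y, -, hy⟩ := D.succ_pos p hp.2.2 x hx
    refine ⟨fun h => ?_, fun h => ?_, h1⟩
    · rw [h, hm2.2] at hy; simp at hy
    · rw [h, hm1.2] at hy; simp at hy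
  refine ⟨{
    P := (D.P.erase p1).erase p2
    mu := D.mu
    lbl := D.lbl
    tau := D.tau
    h := D.h
    pos := D.pos
    succ := D.succ
    out := ou ++ ov
    base := D.base
    mu_mem := hmumem
    mu_mu := fun p hp => D.mu_mu p ((hP p).1 hp).2.2
    mu_ne := fun p hp => D.mu_ne p ((hP p).1 hp).2.2
    lbl_mu := fun p hp => D.lbl_mu p ((hP p).1 hp).2.2
    h_mu := fun p hp => D.h_mu p ((hP p).1 hp).2.2
    out_nodup := ?_
    out_mem := ?_
    out_path := ?_
    out_lbl := by rw [List.map_append, hou, hov]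
    succ_mem := hsmem
    succ_pos := fun p hp => D.succ_pos p ((hP p).1 hp).2.2
    succ_inj := fun p hp q hq => D.succ_inj p ((hP p).1 hp).2.2 q ((hP q).1 hq).2.2
    succ_tau := fun p hp => D.succ_tau p ((hP p).1 hp).2.2
    H1 := ?_ }⟩
  · rw [List.nodup_append]
    exact ⟨hnd1, hndv, fun x hx y hy => hnd3 x hx y (by simp [hy])⟩
  · intro p
    rw [hP]
    have := D.out_mem p
    rw [hout] at this
    simp only [List.mem_append, List.mem_cons, List.not_mem_nil, or_false] at this ⊢
    constructor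
    · intro h
      have h1 : p ≠ p1 := by
        rintro rfl; exact h.elim hp1u hp1v
      have h2 : p ≠ p2 := by
        rintro rfl; exact h.elim hp2u hp2v
      have h3 := this.1 (h.elim (fun h => Or.inl (Or.inl h)) Or.inr)
      exact ⟨⟨h2, h1, h3.1⟩, h3.2⟩
    · rintro ⟨⟨h2, h1, h3⟩, h4⟩
      rcases this.2 ⟨h3, h4⟩ with (h | h | h) | h
      · exact Or.inl h
      · exact absurd h h1
      · exact absurd h h2
      · exact Or.inr h
  · rw [path_append]
    exact ⟨a, hpa, hpc⟩
  · intro z hz hs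
    obtain ⟨y, hy1, -, hy2⟩ := removeH1 D.P D.mu D.tau
      (fun y => (∀ p ∈ D.P, D.pos p ≠ none → y (D.succ p) = y p) ∧
        (∀ p ∈ D.P, D.pos p = none → y p = 0)) p1 p2 hm1.1 hmu D.mu_mu
      (fun z hz hs => by
        obtain ⟨y, h1, h2, h3⟩ := D.H1 z hz hs
        exact ⟨y, ⟨h1, h2⟩, h3⟩) z hz hs
    exact ⟨y, fun p hp => hy1.1 p ((hP p).1 hp).2.2, fun p hp => hy1.2 p ((hP p).1 hp).2.2, hy2⟩

/-- the facts common to all folds -/
theorem glue_basic {w : List L} (hinv : ∀ s, lab (A.inv s) = (lab s)⁻¹) (D : Dg A lab w)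
    (p1 p2 q1 q2 : ℕ) (hp1 : p1 ∈ D.P) (hp2 : p2 ∈ D.P) (e1 : D.mu p1 = q1) (e2 : D.mu p2 = q2)
    (n12 : p1 ≠ p2) (n3 : p2 ≠ q1) (ht : D.tau p2 = D.tau q1)
    (hl : D.lbl p2 = A.inv (D.lbl p1)) :
    (q1 ∈ D.P ∧ q2 ∈ D.P ∧ p1 ≠ q1 ∧ p1 ≠ q2 ∧ p2 ≠ q2 ∧ q1 ≠ q2 ∧ D.mu q1 = p1 ∧
      D.mu q2 = p2) ∧
    (∀ p ∈ (D.P.erase p1).erase p2,
      (if p = q1 then q2 else if p = q2 then q1 else D.mu p) ∈ (D.P.erase p1).erase p2) ∧
    (∀ p ∈ (D.P.erase p1).erase p2,
      (if (if p = q1 then q2 else if p = q2 then q1 else D.mu p) = q1 then q2 else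
        if (if p = q1 then q2 else if p = q2 then q1 else D.mu p) = q2 then q1 else
          D.mu (if p = q1 then q2 else if p = q2 then q1 else D.mu p)) = p) ∧
    (∀ p ∈ (D.P.erase p1).erase p2,
      (if p = q1 then q2 else if p = q2 then q1 else D.mu p) ≠ p) ∧
    (∀ p ∈ (D.P.erase p1).erase p2,
      D.lbl (if p = q1 then q2 else if p = q2 then q1 else D.mu p) = A.inv (D.lbl p)) ∧
    (∀ p ∈ (D.P.erase p1).erase p2,
      D.h (if D.tau (if p = q1 then q2 else if p = q2 then q1 else D.mu p) = D.tau q2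
        then D.tau p1 else D.tau (if p = q1 then q2 else if p = q2 then q1 else D.mu p)) =
      D.h (if D.tau p = D.tau q2 then D.tau p1 else D.tau p) * lab (D.lbl p)) ∧
    (∀ p ∈ (D.P.erase p1).erase p2,
      (if D.tau (if p = q1 then q2 else if p = q2 then q1 else D.mu p) = D.tau q2
        then D.tau p1 else D.tau (if p = q1 then q2 else if p = q2 then q1 else D.mu p)) =
      (if D.tau (D.mu p) = D.tau q2 then D.tau p1 else D.tau (D.mu p))) := by
  have hq1 : q1 ∈ D.P := e1 ▸ D.mu_mem p1 hp1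
  have hq2 : q2 ∈ D.P := e2 ▸ D.mu_mem p2 hp2
  have hq1' : D.mu q1 = p1 := by rw [← e1, D.mu_mu p1 hp1]
  have hq2' : D.mu q2 = p2 := by rw [← e2, D.mu_mu p2 hp2]
  have n1 : p1 ≠ q1 := fun h => D.mu_ne p1 hp1 (e1.trans h.symm)
  have n4 : p2 ≠ q2 := fun h => D.mu_ne p2 hp2 (e2.trans h.symm)
  have n2 : p1 ≠ q2 := fun h => n3 (by rw [← e1, h, hq2'])
  have n5 : q1 ≠ q2 := fun h => n12 (by rw [← hq1', ← hq2', h])
  have hP : ∀ p, p ∈ (D.P.erase p1).erase p2 ↔ p ≠ p2 ∧ p ≠ p1 ∧ p ∈ D.P := by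
    intro p; simp only [Finset.mem_erase, ne_eq]
  have hother : ∀ p, p ∈ D.P → p ≠ p1 → p ≠ p2 → p ≠ q1 → p ≠ q2 →
      D.mu p ≠ p1 ∧ D.mu p ≠ p2 ∧ D.mu p ≠ q1 ∧ D.mu p ≠ q2 := by
    intro p hp h1 h2 h3 h4
    refine ⟨fun h => h3 ?_, fun h => h4 ?_, fun h => h1 ?_, fun h => h2 ?_⟩
    · rw [← D.mu_mu p hp, h, e1]
    · rw [← D.mu_mu p hp, h, e2]
    · rw [← D.mu_mu p hp, h, hq1']
    · rw [← D.mu_mu p hp, h, hq2']
  have hh : D.h (D.tau q2) = D.h (D.tau p1) := by
    have h1 := D.h_mu p1 hp1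
    have h2 := D.h_mu p2 hp2
    rw [e1] at h1
    rw [e2, ht, h1, hl, hinv] at h2
    rw [h2, mul_inv_cancel_right]
  have hm : ∀ v, D.h (if v = D.tau q2 then D.tau p1 else v) = D.h v := by
    intro v
    split_ifs with h
    · rw [h, hh]
    · rfl
  have hl1 : D.lbl q1 = A.inv (D.lbl p1) := by rw [← e1, D.lbl_mu p1 hp1]
  have hl2 : D.lbl q2 = D.lbl p1 := by rw [← e2, D.lbl_mu p2 hp2, hl, A.inv_inv]
  refine ⟨⟨hq1, hq2, n1, n2, n4, n5, hq1', hq2'⟩, ?_, ?_, ?_, ?_, ?_, ?_⟩
  · intro p hp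
    rw [hP] at hp
    by_cases h1 : p = q1
    · rw [if_pos h1, hP]; exact ⟨n4.symm, n2.symm, hq2⟩
    · by_cases h2 : p = q2
      · rw [if_neg h1, if_pos h2, hP]; exact ⟨n3.symm, n1.symm, hq1⟩
      · rw [if_neg h1, if_neg h2, hP]
        obtain ⟨h3, h4, -, -⟩ := hother p hp.2.2 hp.2.1 hp.1 h1 h2
        exact ⟨h4, h3, D.mu_mem p hp.2.2⟩
  · intro p hp
    rw [hP] at hp
    by_cases h1 : p = q1
    · simp [h1, n5.symm]
    · by_cases h2 : p = q2
      · simp [h2, n5.symm]
      · simp only [if_neg h1, if_neg h2]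
        obtain ⟨-, -, h3, h4⟩ := hother p hp.2.2 hp.2.1 hp.1 h1 h2
        rw [if_neg h3, if_neg h4, D.mu_mu p hp.2.2]
  · intro p hp
    rw [hP] at hp
    by_cases h1 : p = q1
    · rw [if_pos h1, h1]; exact n5.symm
    · by_cases h2 : p = q2
      · rw [if_neg h1, if_pos h2, h2]; exact n5
      · rw [if_neg h1, if_neg h2]; exact D.mu_ne p hp.2.2
  · intro p hp
    rw [hP] at hp
    by_cases h1 : p = q1
    · rw [if_pos h1, h1, hl1, hl2, A.inv_inv]
    · by_cases h2 : p = q2
      · rw [if_neg h1, if_pos h2, h2, hl1, hl2]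
      · rw [if_neg h1, if_neg h2]; exact D.lbl_mu p hp.2.2
  · intro p hp
    rw [hP] at hp
    rw [hm, hm]
    by_cases h1 : p = q1
    · have := D.h_mu q1 hq1
      rw [hq1'] at this
      rw [if_pos h1, h1, hh, this]
    · by_cases h2 : p = q2
      · have := D.h_mu q2 hq2
        rw [hq2', ht] at this
        rw [if_neg h1, if_pos h2, h2, this]
      · rw [if_neg h1, if_neg h2]; exact D.h_mu p hp.2.2
  · intro p hp
    rw [hP] at hp
    by_cases h1 : p = q1
    · rw [if_pos h1, h1, hq1', if_pos rfl]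
      split_ifs <;> rfl
    · by_cases h2 : p = q2
      · rw [if_neg h1, if_pos h2, h2, hq2', ht]
      · rw [if_neg h1, if_neg h2]

/-- A3 -/
theorem fold {u v : List L} (hinv : ∀ s, lab (A.inv s) = (lab s)⁻¹) (s : L)
    (D : Dg A lab (u ++ [s, A.inv s] ++ v)) : Nonempty (Dg A lab (u ++ v)) := by
  classical
  obtain ⟨o1, ov, hout', ho1, hov⟩ := List.map_eq_append_iff.1 D.out_lbl
  obtain ⟨ou, om, ho1', hou, hom⟩ := List.map_eq_append_iff.1 ho1
  obtain ⟨p1, om', rfl, hl1, hom'⟩ := List.map_eq_cons_iff.1 hom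
  obtain ⟨p2, om'', rfl, hl2, hom''⟩ := List.map_eq_cons_iff.1 hom'
  have : om'' = [] := List.map_eq_nil_iff.1 hom''
  subst this
  subst ho1'
  by_cases hmu : D.mu p1 = p2
  · exact fold_spur s D ou ov p1 p2 hout' hou hov hmu
  have hnd := D.out_nodup
  rw [hout', List.append_assoc, List.nodup_append] at hnd
  obtain ⟨hnd1, hnd2, hnd3⟩ := hnd
  simp only [List.cons_append, List.nil_append, List.nodup_cons, List.mem_cons, not_or] at hnd2
  obtain ⟨⟨n12, hp1v⟩, hp2v, hndv⟩ := hnd2
  have hp1u : p1 ∉ ou := fun h => hnd3 p1 h p1 (by simp) rfl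
  have hp2u : p2 ∉ ou := fun h => hnd3 p2 h p2 (by simp) rfl
  have hm1 := (D.out_mem p1).1 (by rw [hout']; simp)
  have hm2 := (D.out_mem p2).1 (by rw [hout']; simp)
  have hoP : ∀ p ∈ D.out, p ∈ D.P := fun p hp => ((D.out_mem p).1 hp).1
  have hpath := D.out_path
  rw [hout', path_append] at hpath
  obtain ⟨a', h12, hpc⟩ := hpath
  rw [path_append] at h12
  obtain ⟨a, hpa, ht1, ht2, ht3⟩ := h12
  have ht3 : D.tau (D.mu p2) = a' := ht3
  -- the four sides
  obtain ⟨q1, hq1⟩ : ∃ q1, D.mu p1 = q1 := ⟨_, rfl⟩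
  obtain ⟨q2, hq2⟩ : ∃ q2, D.mu p2 = q2 := ⟨_, rfl⟩
  rw [hq1] at ht2
  rw [hq2] at ht3
  have n3 : p2 ≠ q1 := fun h => hmu (hq1.trans h.symm)
  obtain ⟨⟨hq1m, hq2m, n1, n2, n4, n5, hq1', hq2'⟩, b1, b2, b3, b4, b5, b6⟩ :=
    glue_basic hinv D p1 p2 q1 q2 hm1.1 hm2.1 hq1 hq2 n12 n3 ht2 (by rw [hl1, hl2])
  have hP : ∀ p, p ∈ (D.P.erase p1).erase p2 ↔ p ≠ p2 ∧ p ≠ p1 ∧ p ∈ D.P := by
    intro p; simp [Finset.mem_erase]
  have hsmem : ∀ p, p ∈ (D.P.erase p1).erase p2 → D.pos p ≠ none →
      D.succ p ∈ (D.P.erase p1).erase p2 := by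
    intro p hp hpos
    rw [hP] at hp ⊢
    have h1 := D.succ_mem p hp.2.2 hpos
    obtain ⟨x, hx⟩ := Option.ne_none_iff_exists'.1 hpos
    obtain ⟨y, -, hy⟩ := D.succ_pos p hp.2.2 x hx
    refine ⟨fun h => ?_, fun h => ?_, h1⟩
    · rw [h, hm2.2] at hy; simp at hy
    · rw [h, hm1.2] at hy; simp at hy
  refine ⟨{
    P := (D.P.erase p1).erase p2
    mu := fun p => if p = q1 then q2 else if p = q2 then q1 else D.mu p
    lbl := D.lbl
    tau := fun p => if D.tau p = D.tau q2 then D.tau p1 else D.tau p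
    h := D.h
    pos := D.pos
    succ := D.succ
    out := ou ++ ov
    base := if D.base = D.tau q2 then D.tau p1 else D.base
    mu_mem := b1
    mu_mu := b2
    mu_ne := b3
    lbl_mu := b4
    h_mu := b5
    out_nodup := ?_
    out_mem := ?_
    out_path := ?_
    out_lbl := by rw [List.map_append, hou, hov]
    succ_mem := hsmem
    succ_pos := fun p hp => D.succ_pos p ((hP p).1 hp).2.2
    succ_inj := fun p hp q hq => D.succ_inj p ((hP p).1 hp).2.2 q ((hP q).1 hq).2.2
    succ_tau := ?_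
    H1 := ?_ }⟩
  · rw [List.nodup_append]
    exact ⟨hnd1, hndv, fun x hx y hy => hnd3 x hx y (by simp [hy])⟩
  · intro p
    rw [hP]
    have := D.out_mem p
    rw [hout'] at this
    simp only [List.mem_append, List.mem_cons, List.not_mem_nil, or_false] at this ⊢
    constructor
    · intro h
      have h1 : p ≠ p1 := by
        rintro rfl; exact h.elim hp1u hp1v
      have h2 : p ≠ p2 := by
        rintro rfl; exact h.elim hp2u hp2v
      have h3 := this.1 (h.elim (fun h => Or.inl (Or.inl h)) Or.inr)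
      exact ⟨⟨h2, h1, h3.1⟩, h3.2⟩
    · rintro ⟨⟨h2, h1, h3⟩, h4⟩
      rcases this.2 ⟨h3, h4⟩ with (h | h | h) | h
      · exact Or.inl h
      · exact absurd h h1
      · exact absurd h h2
      · exact Or.inr h
  · rw [path_append]
    have hmem1 : ∀ p ∈ ou, p ∈ (D.P.erase p1).erase p2 := by
      intro p hp
      rw [hP]
      exact ⟨fun h => hp2u (h ▸ hp), fun h => hp1u (h ▸ hp), hoP p (by rw [hout']; simp [hp])⟩
    have hmem2 : ∀ p ∈ ov, p ∈ (D.P.erase p1).erase p2 := by
      intro p hp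
      rw [hP]
      exact ⟨fun h => hp2v (h ▸ hp), fun h => hp1v (h ▸ hp), hoP p (by rw [hout']; simp [hp])⟩
    have haa : (if a = D.tau q2 then D.tau p1 else a) =
        (if a' = D.tau q2 then D.tau p1 else a') := by
      rw [← ht3, ← ht1, if_pos rfl]
      split_ifs <;> rfl
    refine ⟨if a = D.tau q2 then D.tau p1 else a, ?_, ?_⟩
    · exact path_map (fun v => if v = D.tau q2 then D.tau p1 else v) (fun p hp => rfl)
        (fun p hp => b6 p (hmem1 p hp)) hpa
    · rw [haa]
      exact path_map (fun v => if v = D.tau q2 then D.tau p1 else v) (fun p hp => rfl)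
        (fun p hp => b6 p (hmem2 p hp)) hpc
  · intro p hp hpos
    rw [b6 p hp, D.succ_tau p ((hP p).1 hp).2.2 hpos]
  · intro z hz hs
    obtain ⟨y, hy1, hy2⟩ := glueH1 D.P D.mu D.tau
      (fun y => (∀ p ∈ D.P, D.pos p ≠ none → y (D.succ p) = y p) ∧
        (∀ p ∈ D.P, D.pos p = none → y p = 0)) p1 p2 q1 q2 hm1.1 hm2.1 hq1m hq2m
      D.mu_mem D.mu_mu hq1 hq2 n12 n1 n2 n3 n4 n5 ht2
      (fun y hy => by rw [hy.2 p1 hm1.1 hm1.2, hy.2 p2 hm2.1 hm2.2])
      (fun z hz hs => by
        obtain ⟨y, h1, h2, h3⟩ := D.H1 z hz hs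
        exact ⟨y, ⟨h1, h2⟩, h3⟩) z hz hs
    exact ⟨y, fun p hp => hy1.1 p ((hP p).1 hp).2.2, fun p hp => hy1.2 p ((hP p).1 hp).2.2, hy2⟩

/-- B1 -/
theorem inner_fold (hinv : ∀ s, lab (A.inv s) = (lab s)⁻¹) {w : List L} (D : Dg A lab w) (p : ℕ)
    (hp : p ∈ D.P) (hpos : D.pos p ≠ none)
    (hl : D.lbl (D.succ p) = A.inv (D.lbl p)) (hmu : D.mu p ≠ D.succ p) :
    ∃ D' : Dg A lab w, D'.P.card < D.P.card := by
  classical
  obtain ⟨p1, hp1e⟩ : ∃ p1, p1 = p := ⟨p, rfl⟩
  obtain ⟨p2, hp2e⟩ : ∃ p2, D.succ p = p2 := ⟨_, rfl⟩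
  rw [hp2e] at hl hmu
  subst hp1e
  obtain ⟨x1, hx1⟩ := Option.ne_none_iff_exists'.1 hpos
  obtain ⟨x2, hx12, hx2⟩ := D.succ_pos p1 hp x1 hx1
  rw [hp2e] at hx2
  have hp2 : p2 ∈ D.P := hp2e ▸ D.succ_mem p1 hp hpos
  have hpos2 : D.pos p2 ≠ none := by rw [hx2]; simp
  obtain ⟨x3, hx23, hx3⟩ := D.succ_pos p2 hp2 x2 hx2
  have hx31 : x3 = x1 := by
    have := A.step_inv _ _ _ hx12
    rw [← hl, hx23] at this
    simpa using this
  subst hx31
  have n12 : p1 ≠ p2 := by
    intro h
    rw [← h, hx1] at hx2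
    have : x3 = x2 := by simpa using hx2
    exact A.step_ne _ _ (this ▸ hx12)
  obtain ⟨q1, hq1⟩ : ∃ q1, D.mu p1 = q1 := ⟨_, rfl⟩
  obtain ⟨q2, hq2⟩ : ∃ q2, D.mu p2 = q2 := ⟨_, rfl⟩
  have n3 : p2 ≠ q1 := fun h => hmu (hq1.trans h.symm)
  have ht2 : D.tau p2 = D.tau q1 := by rw [← hp2e, D.succ_tau p1 hp hpos, hq1]
  obtain ⟨⟨hq1m, hq2m, n1, n2, n4, n5, hq1', hq2'⟩, b1, b2, b3, b4, b5, b6⟩ :=
    glue_basic hinv D p1 p2 q1 q2 hp hp2 hq1 hq2 n12 n3 ht2 hl
  have hP : ∀ p, p ∈ (D.P.erase p1).erase p2 ↔ p ≠ p2 ∧ p ≠ p1 ∧ p ∈ D.P := by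
    intro p; simp only [Finset.mem_erase, ne_eq]
  have hs2 : D.succ p2 ≠ p2 := by
    intro h
    rw [h, hx2] at hx3
    have : x2 = x3 := by simpa using hx3
    exact A.step_ne _ _ (this ▸ hx12)
  -- the new successor
  have hsA : ∀ r ∈ (D.P.erase p1).erase p2, D.pos r ≠ none → D.succ r = p1 →
      D.succ p2 ∈ (D.P.erase p1).erase p2 := by
    intro r hr hrpos h
    rw [hP] at hr ⊢
    refine ⟨hs2, fun h' => hr.1 ?_, D.succ_mem p2 hp2 hpos2⟩
    exact D.succ_inj r hr.2.2 p2 hp2 hrpos hpos2 (by rw [h, h'])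
  have hsB : ∀ r ∈ (D.P.erase p1).erase p2, D.pos r ≠ none → D.succ r ≠ p1 →
      D.succ r ∈ (D.P.erase p1).erase p2 := by
    intro r hr hrpos h
    rw [hP] at hr ⊢
    refine ⟨fun h' => hr.2.1 ?_, h, D.succ_mem r hr.2.2 hrpos⟩
    exact D.succ_inj r hr.2.2 p1 hp hrpos hpos (by rw [h', hp2e])
  refine ⟨{
    P := (D.P.erase p1).erase p2
    mu := fun p => if p = q1 then q2 else if p = q2 then q1 else D.mu p
    lbl := D.lbl
    tau := fun p => if D.tau p = D.tau q2 then D.tau p1 else D.tau p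
    h := D.h
    pos := D.pos
    succ := fun r => if D.succ r = p1 then D.succ p2 else D.succ r
    out := D.out
    base := if D.base = D.tau q2 then D.tau p1 else D.base
    mu_mem := b1
    mu_mu := b2
    mu_ne := b3
    lbl_mu := b4
    h_mu := b5
    out_nodup := D.out_nodup
    out_mem := ?_
    out_path := ?_
    out_lbl := D.out_lbl
    succ_mem := ?_
    succ_pos := ?_
    succ_inj := ?_
    succ_tau := ?_
    H1 := ?_ }, ?_⟩
  · intro r
    rw [D.out_mem r, hP]
    constructor
    · rintro ⟨h1, h2⟩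
      exact ⟨⟨fun h => hpos2 (h ▸ h2), fun h => hpos (h ▸ h2), h1⟩, h2⟩
    · rintro ⟨h1, h2⟩
      exact ⟨h1.2.2, h2⟩
  · have hmem : ∀ r ∈ D.out, r ∈ (D.P.erase p1).erase p2 := by
      intro r hr
      have h := (D.out_mem r).1 hr
      rw [hP]
      exact ⟨fun h' => hpos2 (h' ▸ h.2), fun h' => hpos (h' ▸ h.2), h.1⟩
    exact path_map (fun v => if v = D.tau q2 then D.tau p1 else v) (fun p hp => rfl)
      (fun p hp => b6 p (hmem p hp)) D.out_path
  · intro r hr hrpos
    by_cases h : D.succ r = p1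
    · simp only [h, if_true]; exact hsA r hr hrpos h
    · simp only [h, if_false]; exact hsB r hr hrpos h
  · intro r hr x hx
    have hr' := (hP r).1 hr
    obtain ⟨y, hy1, hy2⟩ := D.succ_pos r hr'.2.2 x hx
    refine ⟨y, hy1, ?_⟩
    by_cases h : D.succ r = p1
    · simp only [h, if_true]
      rw [h, hx1] at hy2
      rw [hx3]; exact hy2
    · simp only [h, if_false]; exact hy2
  · intro r hr r' hr' hrpos hrpos' hrr
    have h1 := (hP r).1 hr
    have h2 := (hP r').1 hr'
    by_cases h : D.succ r = p1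
    · by_cases h' : D.succ r' = p1
      · exact D.succ_inj r h1.2.2 r' h2.2.2 hrpos hrpos' (by rw [h, h'])
      · simp only [h, h', if_true, if_false] at hrr
        exact absurd (D.succ_inj p2 hp2 r' h2.2.2 hpos2 hrpos' hrr).symm h2.1
    · by_cases h' : D.succ r' = p1
      · simp only [h, h', if_true, if_false] at hrr
        exact absurd (D.succ_inj p2 hp2 r h1.2.2 hpos2 hrpos hrr.symm).symm h1.1
      · simp only [h, h', if_false] at hrr
        exact D.succ_inj r h1.2.2 r' h2.2.2 hrpos hrpos' hrr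
  · intro r hr hrpos
    have hr' := (hP r).1 hr
    rw [b6 r hr]
    have h0 := D.succ_tau r hr'.2.2 hrpos
    by_cases h : D.succ r = p1
    · rw [if_pos h, D.succ_tau p2 hp2 hpos2, hq2, if_pos rfl, ← h0, h]
      split_ifs <;> rfl
    · rw [if_neg h, h0]
  · intro z hz hs
    obtain ⟨y, hy1, hy2⟩ := glueH1 D.P D.mu D.tau
      (fun y => (∀ p ∈ D.P, D.pos p ≠ none → y (D.succ p) = y p) ∧
        (∀ p ∈ D.P, D.pos p = none → y p = 0)) p1 p2 q1 q2 hp hp2 hq1m hq2m
      D.mu_mem D.mu_mu hq1 hq2 n12 n1 n2 n3 n4 n5 ht2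
      (fun y hy => by rw [← hy.1 p1 hp hpos, hp2e])
      (fun z hz hs => by
        obtain ⟨y, h1, h2, h3⟩ := D.H1 z hz hs
        exact ⟨y, ⟨h1, h2⟩, h3⟩) z hz hs
    refine ⟨y, fun r hr hrpos => ?_, fun p hp => hy1.2 p ((hP p).1 hp).2.2, hy2⟩
    have hr' := (hP r).1 hr
    by_cases h : D.succ r = p1
    · simp only [h, if_true]
      rw [hy1.1 p2 hp2 hpos2, ← hp2e, hy1.1 p1 hp hpos, ← h, hy1.1 r hr'.2.2 hrpos]
    · simp only [h, if_false]; exact hy1.1 r hr'.2.2 hrpos
  · change ((D.P.erase p1).erase p2).card < D.P.card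
    calc ((D.P.erase p1).erase p2).card ≤ (D.P.erase p1).card := Finset.card_erase_le
      _ < D.P.card := Finset.card_erase_lt_of_mem hp

end Vale.Agent.P089.GL
end
end

section

section

/-!
# Capping off a closed subword of the outer word by a new face (helper205)
-/

namespace Vale.Agent.P089.GL

variable {L : Type} {A : LG L} {G : Type} [Group G] {lab : L → G}

namespace Cap

theorem path_append {tau mu : ℕ → ℕ} {b c : ℕ} {l m : List ℕ} :
    Path tau mu b (l ++ m) c ↔ ∃ d, Path tau mu b l d ∧ Path tau mu d m c := by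
  induction l generalizing b with
  | nil => simp only [List.nil_append, Path, exists_eq_left']
  | cons p l ih => simp [Path, ih, and_assoc]

theorem path_map {tau mu : ℕ → ℕ} (φ : ℕ → ℕ) {b c : ℕ} {l : List ℕ}
    (h : Path tau mu b l c) : Path (fun p => φ (tau p)) mu (φ b) l (φ c) := by
  induction l generalizing b with
  | nil => exact congrArg φ h
  | cons p l ih => exact ⟨congrArg φ h.1, ih h.2⟩

theorem run_append (x : A.Om) (u v : List L) :
    A.run x (u ++ v) = (A.run x u).bind fun y => A.run y v := by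
  induction u generalizing x with
  | nil => rfl
  | cons s u ih =>
    simp only [List.cons_append, LG.run]
    cases h : A.step x s with
    | none => rfl
    | some y => simp only [Option.bind_some, ih]

theorem run_one (x : A.Om) (s : L) : A.run x [s] = A.step x s := by
  simp only [LG.run]
  cases h : A.step x s <;> rfl

theorem run_take_some {x z : A.Om} {r : List L} (h : A.run x r = some z) (j : ℕ) :
    ∃ y, A.run x (r.take j) = some y := by
  rw [← List.take_append_drop j r, run_append] at h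
  cases h' : A.run x (r.take j) with
  | none => rw [h'] at h; simp at h
  | some y => exact ⟨y, rfl⟩

theorem run_take_succ {x : A.Om} {r : List L} {j : ℕ} (hj : j < r.length) :
    A.run x (r.take (j + 1)) = (A.run x (r.take j)).bind fun y => A.step y r[j] := by
  rw [List.take_succ_eq_append_getElem hj, run_append]
  simp only [run_one]

/-- developing map along a path -/
theorem h_path {P : Finset ℕ} {mu : ℕ → ℕ} {lbl : ℕ → L} {tau : ℕ → ℕ} {h : ℕ → G}
    (hm : ∀ p ∈ P, h (tau (mu p)) = h (tau p) * lab (lbl p)) {b c : ℕ} {l : List ℕ}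
    (hl : ∀ p ∈ l, p ∈ P) (hp : Path tau mu b l c) :
    h c = h b * ((l.map lbl).map lab).prod := by
  induction l generalizing b with
  | nil => simp [show b = c from hp]
  | cons p l ih =>
    have h1 : h b * lab (lbl p) = h (tau (mu p)) := by rw [hm p (hl p (by simp)), hp.1]
    rw [ih (fun q hq => hl q (by simp [hq])) hp.2]
    simp only [List.map_cons, List.prod_cons, ← mul_assoc, h1]

/-- boundary of a path mod 2 -/
theorem bd_path {P : Finset ℕ} {mu tau : ℕ → ℕ} (mu_mem : ∀ p ∈ P, mu p ∈ P)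
    (mu_mu : ∀ p ∈ P, mu (mu p) = p) (v : ℕ) {b c : ℕ} {l : List ℕ}
    (hl : ∀ p ∈ l, p ∈ P) (hn : l.Nodup) (hp : Path tau mu b l c) :
    ∑ p ∈ P with tau p = v, ((if p ∈ l then 1 else 0) + (if mu p ∈ l then 1 else 0) : ZMod 2) =
      (if b = v then 1 else 0) + (if c = v then 1 else 0) := by
  induction l generalizing b with
  | nil =>
    have : b = c := hp
    subst this
    simp only [List.not_mem_nil, if_false, add_zero, Finset.sum_const_zero]
    split_ifs
    · decide
    · decide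
  | cons q l ih =>
    have hq : q ∈ P := hl q (by simp)
    have hql : q ∉ l := (List.nodup_cons.1 hn).1
    have e := ih (fun p hp => hl p (by simp [hp])) (List.nodup_cons.1 hn).2 hp.2
    have e1 : ∀ p ∈ P, ((if p ∈ q :: l then 1 else 0) + (if mu p ∈ q :: l then 1 else 0) : ZMod 2)
        = ((if p ∈ l then 1 else 0) + (if mu p ∈ l then 1 else 0)) +
          ((if p = q then 1 else 0) + (if p = mu q then 1 else 0)) := by
      intro p hpP
      have a1 : ((if p ∈ q :: l then 1 else 0) : ZMod 2) =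
          (if p ∈ l then 1 else 0) + (if p = q then 1 else 0) := by
        by_cases h1 : p = q
        · subst h1; simp [hql]
        · simp [h1]
      have a2 : ((if mu p ∈ q :: l then 1 else 0) : ZMod 2) =
          (if mu p ∈ l then 1 else 0) + (if p = mu q then 1 else 0) := by
        by_cases h1 : mu p = q
        · have h2 : p = mu q := by rw [← h1, mu_mu p hpP]
          rw [if_pos h2, h1]; simp [hql]
        · have h2 : p ≠ mu q := fun h => h1 (by rw [h, mu_mu q hq])
          simp [h1, h2]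
      rw [a1, a2]; ring
    rw [Finset.sum_congr rfl fun p hp => e1 p (Finset.mem_filter.1 hp).1,
      Finset.sum_add_distrib, e, Finset.sum_add_distrib]
    have s1 : (∑ p ∈ P with tau p = v, (if p = q then 1 else 0) : ZMod 2) =
        if b = v then 1 else 0 := by
      rw [Finset.sum_ite_eq' (Finset.filter (fun p => tau p = v) P) q (fun _ => (1 : ZMod 2))]
      simp only [Finset.mem_filter, hq, true_and, hp.1]
    have s2 : (∑ p ∈ P with tau p = v, (if p = mu q then 1 else 0) : ZMod 2) =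
        if tau (mu q) = v then 1 else 0 := by
      rw [Finset.sum_ite_eq' (Finset.filter (fun p => tau p = v) P) (mu q) (fun _ => (1 : ZMod 2))]
      simp only [Finset.mem_filter, mu_mem q hq, true_and]
    rw [s1, s2]
    have h2 : ∀ a : ZMod 2, a + a = 0 := by decide
    linear_combination h2 (if tau (mu q) = v then 1 else 0)

end Cap

open Cap in
/-- A2: cap off a closed subword of the outer word by a new face. -/
theorem cap (hrel : ∀ x r, A.run x r = some x → (r.map lab).prod = 1) {u r v : List L}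
    (hr : r ≠ []) (x : A.Om) (hx : A.run x r = some x) (D : Dg A lab (u ++ r ++ v)) :
    Nonempty (Dg A lab (u ++ v)) := by
  classical
  -- splitting of the list of outer sides
  obtain ⟨U, l, V, hout, hU, hl, hV⟩ : ∃ U l V, D.out = U ++ l ++ V ∧ U.map D.lbl = u ∧
      l.map D.lbl = r ∧ V.map D.lbl = v := by
    obtain ⟨W, V, h1, h2, h3⟩ := List.map_eq_append_iff.1 D.out_lbl
    obtain ⟨U, l, h4, h5, h6⟩ := List.map_eq_append_iff.1 h2
    exact ⟨U, l, V, by rw [h1, h4], h5, h6, h3⟩
  have hnd : (U ++ l ++ V).Nodup := hout ▸ D.out_nodup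
  have hlout : ∀ p ∈ l, p ∈ D.out := by
    intro p hp; rw [hout]; simp only [List.append_assoc, List.mem_append, hp, true_or, or_true]
  have hlP : ∀ p ∈ l, p ∈ D.P := fun p hp => ((D.out_mem p).1 (hlout p hp)).1
  have hlpos : ∀ p ∈ l, D.pos p = none := fun p hp => ((D.out_mem p).1 (hlout p hp)).2
  have hln : l.Nodup := (List.nodup_append.1 (List.nodup_append.1 hnd).1).2.1
  have hl0 : l ≠ [] := by
    rintro rfl
    exact hr (by rw [← hl]; rfl)
  have hlen : 0 < l.length := List.length_pos_iff.2 hl0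
  -- the path
  obtain ⟨b, hpW, hpV⟩ := Cap.path_append.1 (hout ▸ D.out_path)
  obtain ⟨a, hpU, hpl⟩ := Cap.path_append.1 hpW
  -- identification of `b` with `a`
  set φ : ℕ → ℕ := fun c => if c = b then a else c with hφ
  have φab : φ b = φ a := by
    simp only [hφ, if_true]
    split_ifs <;> rfl
  have hab : D.h b = D.h a := by
    rw [h_path D.h_mu hlP hpl, hl, hrel x r hx, mul_one]
  have hhφ : ∀ c, D.h (φ c) = D.h c := by
    intro c
    simp only [hφ]
    split_ifs with h
    · rw [h, hab]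
    · rfl
  -- new functions
  set pos' : ℕ → Option A.Om := fun p =>
    if p ∈ l then A.run x ((l.map D.lbl).take (l.idxOf p)) else D.pos p with hpos'
  set succ' : ℕ → ℕ := fun p => if p ∈ l then l.formPerm p else D.succ p with hsucc'
  have pos_l : ∀ (j : ℕ) (hj : j < l.length), pos' l[j] = A.run x (r.take j) := by
    intro j hj
    simp only [hpos', List.getElem_mem, if_true, hl]
    rw [List.Nodup.idxOf_getElem hln]
  have pos_o : ∀ p, p ∉ l → pos' p = D.pos p := by
    intro p hp; simp only [hpos', hp, if_false]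
  have succ_l : ∀ (j : ℕ) (hj : j < l.length),
      succ' l[j] = l[(j + 1) % l.length]'(Nat.mod_lt _ hlen) := by
    intro j hj
    simp only [hsucc', List.getElem_mem, if_true]
    exact List.formPerm_apply_getElem _ hln j hj
  have succ_o : ∀ p, p ∉ l → succ' p = D.succ p := by
    intro p hp; simp only [hsucc', hp, if_false]
  have rlen : r.length = l.length := by rw [← hl, List.length_map]
  have relt : ∀ (j : ℕ) (hj : j < l.length), r[j]'(by rw [rlen]; exact hj) = D.lbl l[j] := by
    intro j hj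
    have : ∀ (r' : List L) (h : l.map D.lbl = r') (h' : j < r'.length), r'[j] = D.lbl l[j] := by
      rintro r' rfl h'
      simp
    exact this r hl _
  have pos_l_ne : ∀ p ∈ l, pos' p ≠ none := by
    intro p hp
    obtain ⟨j, hj, rfl⟩ := List.getElem_of_mem hp
    rw [pos_l j hj]
    obtain ⟨y, hy⟩ := Cap.run_take_some hx j
    rw [hy]; simp
  have succ_l_mem : ∀ p ∈ l, succ' p ∈ l := by
    intro p hp
    obtain ⟨j, hj, rfl⟩ := List.getElem_of_mem hp
    rw [succ_l j hj]
    exact List.getElem_mem _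
  have succ_o_mem : ∀ p ∈ D.P, D.pos p ≠ none → D.succ p ∉ l := by
    intro p hp hpp hs
    obtain ⟨y, hy⟩ := Option.ne_none_iff_exists'.1 hpp
    obtain ⟨z, -, hz⟩ := D.succ_pos p hp y hy
    rw [hlpos _ hs] at hz
    cases hz
  -- tau along `l`
  have tau_l : ∀ (j : ℕ) (hj : j + 1 < l.length), D.tau (l[j + 1]) =
      D.tau (D.mu (l[j]'(Nat.lt_of_succ_lt hj))) := by
    intro j hj
    have h1 : l = l.take j ++ l[j]'(Nat.lt_of_succ_lt hj) :: (l[j + 1] :: l.drop (j + 2)) := by
      rw [← List.drop_eq_getElem_cons hj, ← List.drop_eq_getElem_cons, List.take_append_drop]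
    have h2 := hpl
    rw [h1] at h2
    obtain ⟨d, -, h3⟩ := Cap.path_append.1 h2
    exact h3.2.1
  have tau_0 : D.tau (l[0]'hlen) = a := by
    cases l with
    | nil => exact absurd rfl hl0
    | cons p l => exact hpl.1
  have tau_last : D.tau (D.mu (l[l.length - 1]'(Nat.sub_one_lt hlen.ne'))) = b := by
    have h1 : l = l.take (l.length - 1) ++ [l[l.length - 1]'(Nat.sub_one_lt hlen.ne')] := by
      rw [← List.take_succ_eq_append_getElem, Nat.sub_add_cancel hlen, List.take_length]
    have h2 := hpl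
    rw [h1] at h2
    obtain ⟨d, -, h3⟩ := Cap.path_append.1 h2
    exact h3.2
  have hUV : ∀ p, p ∈ l → p ∉ U ++ V := by
    intro p hp h
    rw [List.nodup_append] at hnd
    rcases List.mem_append.1 h with h | h
    · exact (List.nodup_append.1 hnd.1).2.2 p h p hp rfl
    · exact hnd.2.2 p (List.mem_append_right _ hp) p h rfl
  refine ⟨{
    P := D.P
    mu := D.mu
    lbl := D.lbl
    tau := fun p => φ (D.tau p)
    h := D.h
    pos := pos'
    succ := succ'
    out := U ++ V
    base := φ D.base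
    mu_mem := D.mu_mem
    mu_mu := D.mu_mu
    mu_ne := D.mu_ne
    lbl_mu := D.lbl_mu
    h_mu := fun p hp => by rw [hhφ, hhφ, D.h_mu p hp]
    out_nodup := ?_
    out_mem := ?_
    out_path := ?_
    out_lbl := by rw [List.map_append, hU, hV]
    succ_mem := ?_
    succ_pos := ?_
    succ_inj := ?_
    succ_tau := ?_
    H1 := ?_ }⟩
  · rw [List.append_assoc] at hnd
    rw [List.nodup_append] at hnd ⊢
    refine ⟨hnd.1, (List.nodup_append.1 hnd.2.1).2.1, fun p hp q hq => hnd.2.2 p hp q ?_⟩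
    exact List.mem_append_right _ hq
  · intro p
    by_cases hp : p ∈ l
    · constructor
      · intro h; exact absurd h (hUV p hp)
      · intro h; exact absurd h.2 (pos_l_ne p hp)
    · rw [pos_o p hp, ← D.out_mem p, hout]
      simp [hp]
  · exact Cap.path_append.2 ⟨φ a, Cap.path_map φ hpU, φab ▸ Cap.path_map φ hpV⟩
  · intro p hp hpp
    by_cases hpl : p ∈ l
    · exact hlP _ (succ_l_mem p hpl)
    · rw [succ_o p hpl]
      rw [pos_o p hpl] at hpp
      exact D.succ_mem p hp hpp
  · intro p hp y hy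
    by_cases hpl : p ∈ l
    · obtain ⟨j, hj, rfl⟩ := List.getElem_of_mem hpl
      rw [pos_l j hj] at hy
      have hj' : j < r.length := by rw [rlen]; exact hj
      obtain ⟨y', hy'⟩ := Cap.run_take_some hx (j + 1)
      have h1 := run_take_succ (A := A) (x := x) hj'
      rw [hy', hy, Option.bind_some, relt j hj] at h1
      refine ⟨y', h1.symm, ?_⟩
      rw [succ_l j hj]
      by_cases h2 : j + 1 < l.length
      · have h3 : (j + 1) % l.length = j + 1 := Nat.mod_eq_of_lt h2
        simp only [h3]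
        rw [pos_l _ h2, hy']
      · have h3 : j + 1 = l.length := by omega
        have h4 : (j + 1) % l.length = 0 := by rw [h3, Nat.mod_self]
        simp only [h4]
        rw [pos_l 0 hlen]
        rw [h3, ← rlen, List.take_length, hx] at hy'
        simpa [LG.run] using hy'
    · rw [pos_o p hpl] at hy
      obtain ⟨y', h1, h2⟩ := D.succ_pos p hp y hy
      refine ⟨y', h1, ?_⟩
      rw [succ_o p hpl, pos_o _ (succ_o_mem p hp (by rw [hy]; simp)), h2]
  · intro p hp q hq hpp hqp h
    by_cases h1 : p ∈ l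
    · by_cases h2 : q ∈ l
      · simp only [hsucc', h1, h2, if_true] at h
        exact (List.formPerm l).injective h
      · exfalso
        rw [succ_o q h2] at h
        rw [pos_o q h2] at hqp
        exact succ_o_mem q hq hqp (h ▸ succ_l_mem p h1)
    · by_cases h2 : q ∈ l
      · exfalso
        rw [succ_o p h1] at h
        rw [pos_o p h1] at hpp
        exact succ_o_mem p hp hpp (h ▸ succ_l_mem q h2)
      · rw [succ_o q h2, succ_o p h1] at h
        rw [pos_o p h1] at hpp
        rw [pos_o q h2] at hqp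
        exact D.succ_inj p hp q hq hpp hqp h
  · intro p hp hpp
    by_cases hpl : p ∈ l
    · obtain ⟨j, hj, rfl⟩ := List.getElem_of_mem hpl
      simp only [succ_l j hj]
      by_cases h2 : j + 1 < l.length
      · have h3 : (j + 1) % l.length = j + 1 := Nat.mod_eq_of_lt h2
        simp only [h3]
        rw [tau_l j h2]
      · have h3 : j + 1 = l.length := by omega
        have h4 : (j + 1) % l.length = 0 := by rw [h3, Nat.mod_self]
        have h5 : j = l.length - 1 := by omega
        simp only [h4, tau_0]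
        subst h5
        rw [tau_last, φab]
    · rw [pos_o p hpl] at hpp
      simp only [succ_o p hpl]
      rw [D.succ_tau p hp hpp]
  · intro z hz hs
    set S : ℕ → ZMod 2 := fun c => ∑ p ∈ D.P with D.tau p = c, z p with hS
    -- closedness for the coarser identification
    have h2 : ∀ a : ZMod 2, a + a = 0 := by decide
    have hSo : ∀ c, c ≠ a → c ≠ b → S c = 0 := by
      intro c hca hcb
      rw [← hs c]
      refine Finset.sum_congr (Finset.filter_congr fun p _ => ?_) fun _ _ => rfl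
      simp only [hφ]
      split_ifs with h
      · constructor
        · intro h'; exact absurd (h'.symm.trans h) hcb
        · intro h'; exact absurd h'.symm hca
      · rfl
    have hSab : a ≠ b → S b = S a := by
      intro hne
      have h3 : S a + S b = 0 := by
        rw [← hs a, hS]
        simp only
        rw [← Finset.sum_union]
        · refine Finset.sum_congr ?_ fun _ _ => rfl
          rw [← Finset.filter_or]
          refine Finset.filter_congr fun p _ => ?_
          simp only [hφ]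
          split_ifs with h
          · simp [h]
          · simp [h]
        · rw [Finset.disjoint_filter]
          intro p _ h4 h5
          exact hne (h4.symm.trans h5)
      have h4 := h2 (S a)
      exact (add_left_cancel (h4.trans h3.symm)).symm
    have hSaa : a = b → S a = 0 := by
      intro heq
      rw [← hs a]
      refine Finset.sum_congr (Finset.filter_congr fun p _ => ?_) fun _ _ => rfl
      simp only [hφ]
      split_ifs with h
      · simp [h, heq]
      · rfl
    set ζ := S a with hζ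
    obtain ⟨y, hy1, hy2, hy3⟩ := D.H1
      (fun p => z p + ζ * ((if p ∈ l then 1 else 0) + (if D.mu p ∈ l then 1 else 0)))
      (by
        intro p hp
        simp only [hz p hp, D.mu_mu p hp]
        ring) (by
        intro c
        rw [Finset.sum_add_distrib, ← Finset.mul_sum,
          bd_path D.mu_mem D.mu_mu c hlP hln hpl]
        change S c + _ = 0
        by_cases hab' : a = b
        · rw [hSaa hab', zero_mul, add_zero]
          by_cases hc : c = a
          · rw [hc, ← hζ, hSaa hab']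
          · exact hSo c hc (fun h => hc (h.trans hab'.symm))
        · by_cases hc : c = a
          · subst hc
            rw [if_pos rfl, if_neg (fun h => hab' h.symm), add_zero, mul_one, ← hζ]
            exact h2 _
          · by_cases hc' : c = b
            · subst hc'
              rw [if_pos rfl, if_neg hab', zero_add, mul_one, hSab hab']
              exact h2 _
            · rw [if_neg (fun h => hc h.symm), if_neg (fun h => hc' h.symm), hSo c hc hc']
              ring)
    refine ⟨fun p => y p + ζ * (if p ∈ l then 1 else 0), ?_, ?_, ?_⟩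
    · intro p hp hpp
      by_cases h1 : p ∈ l
      · have h3 := succ_l_mem p h1
        simp only [h1, h3, if_true]
        rw [hy2 _ (hlP _ h3) (hlpos _ h3), hy2 p hp (hlpos _ h1)]
      · rw [pos_o p h1] at hpp
        have h3 : D.succ p ∉ l := succ_o_mem p hp hpp
        simp only [succ_o p h1, h1, h3, if_false]
        rw [hy1 p hp hpp]
    · intro p hp hpp
      have h1 : p ∉ l := fun h => pos_l_ne p h hpp
      rw [pos_o p h1] at hpp
      simp only [h1, if_false, mul_zero, add_zero]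
      exact hy2 p hp hpp
    · intro p hp
      have h3 := hy3 p hp
      linear_combination h3 - h2 (ζ * (if p ∈ l then 1 else 0)) -
        h2 (ζ * (if D.mu p ∈ l then 1 else 0))

end Vale.Agent.P089.GL
end
end

section

section

/-!
# Existence of diagrams (helper205)

`exists_dg_of` : a word congruent to the empty word has a diagram, given the operations
`spur_insert` and `fold`.
-/

namespace Vale.Agent.P089.GL

variable {L : Type} {A : LG L} {G : Type} [Group G] {lab : L → G}

namespace Exists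

open Cap

theorem wInv_cons (s : L) (r : List L) : A.wInv (s :: r) = A.wInv r ++ [A.inv s] := by
  simp [LG.wInv]

/-- the inverse word is read backwards -/
theorem run_wInv {x y : A.Om} {r : List L} (h : A.run x r = some y) :
    A.run y (A.wInv r) = some x := by
  induction r generalizing x with
  | nil =>
    simp only [LG.run, Option.some.injEq] at h
    subst h
    rfl
  | cons s r ih =>
    simp only [LG.run] at h
    cases h1 : A.step x s with
    | none => rw [h1] at h; simp at h
    | some z =>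
      rw [h1, Option.bind_some] at h
      rw [wInv_cons, run_append, ih h, Option.bind_some, run_one]
      exact A.step_inv _ _ _ h1

/-- the empty diagram -/
theorem nil_dg [Nonempty L] : Nonempty (Dg A lab []) :=
  ⟨{
    P := ∅
    mu := id
    lbl := fun _ => Classical.arbitrary L
    tau := id
    h := fun _ => 1
    pos := fun _ => none
    succ := id
    out := []
    base := 0
    mu_mem := by simp
    mu_mu := by simp
    mu_ne := by simp
    lbl_mu := by simp
    h_mu := by simp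
    out_nodup := by simp
    out_mem := by simp
    out_path := rfl
    out_lbl := rfl
    succ_mem := by simp
    succ_pos := by simp only [Finset.notMem_empty, reduceCtorEq, and_false, exists_false, imp_self, implies_true]
    succ_inj := by simp
    succ_tau := by simp
    H1 := fun z _ _ => ⟨fun _ => 0, by simp, by simp, by simp⟩ }⟩

/-- nested spurs: insertion of `r r⁻¹` -/
theorem insert_nested
    (hspur : ∀ (u v : List L) (s : L), Dg A lab (u ++ v) →
      Nonempty (Dg A lab (u ++ [s, A.inv s] ++ v))) (r u v : List L) (D : Dg A lab (u ++ v)) :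
    Nonempty (Dg A lab (u ++ r ++ A.wInv r ++ v)) := by
  induction r generalizing u v with
  | nil => simpa [LG.wInv] using ⟨D⟩
  | cons s r ih =>
    obtain ⟨D1⟩ := hspur u v s D
    have e1 : u ++ [s, A.inv s] ++ v = (u ++ [s]) ++ ([A.inv s] ++ v) := by simp
    obtain ⟨D2⟩ := ih (u ++ [s]) ([A.inv s] ++ v) (e1 ▸ D1)
    have e2 : u ++ [s] ++ r ++ A.wInv r ++ ([A.inv s] ++ v) =
        u ++ (s :: r) ++ A.wInv (s :: r) ++ v := by
      simp [wInv_cons]
    exact ⟨e2 ▸ D2⟩

/-- A4, given A1 and A3 -/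
theorem exists_dg_of [Nonempty L]
    (hspur : ∀ (u v : List L) (s : L), Dg A lab (u ++ v) →
      Nonempty (Dg A lab (u ++ [s, A.inv s] ++ v)))
    (hfold : ∀ (u v : List L) (s : L), Dg A lab (u ++ [s, A.inv s] ++ v) →
      Nonempty (Dg A lab (u ++ v)))
    (hrel : ∀ x r, A.run x r = some x → (r.map lab).prod = 1) {w : List L} (h : A.Eqv w []) :
    Nonempty (Dg A lab w) := by
  have key : ∀ w w' : List L, A.Eqv w w' → (Nonempty (Dg A lab w) ↔ Nonempty (Dg A lab w')) := by
    intro w w' h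
    induction h with
    | refl w => exact Iff.rfl
    | symm _ ih => exact ih.symm
    | trans _ _ ih1 ih2 => exact ih1.trans ih2
    | spur u v s => exact ⟨fun ⟨D⟩ => hspur u v s D, fun ⟨D⟩ => hfold u v s D⟩
    | rel u v r x hx =>
      by_cases hr : r = []
      · subst hr; simp
      constructor
      · rintro ⟨D⟩
        obtain ⟨D1⟩ := insert_nested hspur r u v D
        have hr' : A.wInv r ≠ [] := by
          simpa [LG.wInv] using hr
        exact cap hrel hr' x (run_wInv hx) D1
      · rintro ⟨D⟩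
        exact cap hrel hr x hx D
  exact (key w [] h).2 nil_dg

end Exists

end Vale.Agent.P089.GL
end
end

section

section

/-!
# The outer path of a minimal word is simple (block B4 of Greendlinger's lemma)
-/

namespace Vale.Agent.P089.GL

variable {L : Type} {A : LG L} {G : Type} [Group G] {lab : L → G}

/-- the developing map along a path -/
theorem simple_path_h {w : List L} (D : Dg A lab w) {b c : ℕ} {l : List ℕ}
    (hl : ∀ p ∈ l, p ∈ D.P) (h : Path D.tau D.mu b l c) :
    D.h c = D.h b * ((l.map D.lbl).map lab).prod := by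
  induction l generalizing b with
  | nil =>
    have : b = c := h
    subst this; simp
  | cons p l ih =>
    obtain ⟨h1, h2⟩ := h
    rw [ih (fun q hq => hl q (by simp [hq])) h2, D.h_mu p (hl p (by simp)), h1]
    simp [mul_assoc]

/-- B4 -/
theorem simple_of_min {w : List L} (D : Dg A lab w)
    (hw : ∀ u a v, w = u ++ a ++ v → a ≠ [] → (a.map lab).prod = 1 → a = w) : D.Simple := by
  classical
  -- two sides in this order
  have key : ∀ (u l v : List ℕ) (p q : ℕ), D.out = u ++ (p :: l) ++ (q :: v) →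
      D.tau p = D.tau q → False := by
    intro u l v p q hout ht
    have hpath := D.out_path
    rw [hout, path_append] at hpath
    obtain ⟨a, h1, h2, h3⟩ := hpath
    rw [path_append] at h1
    obtain ⟨b, h4, h5⟩ := h1
    have hb : D.tau p = b := h5.1
    have hP : ∀ r ∈ p :: l, r ∈ D.P := by
      intro r hr
      refine ((D.out_mem r).1 ?_).1
      rw [hout]
      simp only [List.mem_append]
      exact Or.inl (Or.inr hr)
    have h6 := simple_path_h D hP h5
    rw [← h2, ← hb, ← ht] at h6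
    have h7 : (((p :: l).map D.lbl).map lab).prod = 1 := by
      have : D.h (D.tau p) * 1 = D.h (D.tau p) * (((p :: l).map D.lbl).map lab).prod := by
        rw [mul_one]; exact h6
      exact (mul_left_cancel this).symm
    have hww : w = u.map D.lbl ++ (p :: l).map D.lbl ++ (q :: v).map D.lbl := by
      have h0 := D.out_lbl
      rw [hout, List.map_append, List.map_append] at h0
      exact h0.symm
    have h8 := hw _ _ _ hww (by simp) h7
    have h9 : ((p :: l).map D.lbl).length = w.length := by rw [h8]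
    have h10 : w.length = (u.map D.lbl ++ (p :: l).map D.lbl ++ (q :: v).map D.lbl).length :=
      congrArg List.length hww
    simp only [List.length_append, List.length_map, List.length_cons] at h9 h10
    omega
  intro p hp q hq ht
  by_contra hne
  obtain ⟨u, v, hout⟩ := List.append_of_mem hp
  rw [hout] at hq
  rcases List.mem_append.1 hq with hqu | hqv
  · obtain ⟨u1, u2, hu⟩ := List.append_of_mem hqu
    refine key u1 u2 v q p ?_ ht.symm
    rw [hout, hu]
  · rcases List.mem_cons.1 hqv with h | h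
    · exact hne h.symm
    · obtain ⟨v1, v2, hv⟩ := List.append_of_mem h
      refine key u v1 v2 p q ?_ ht
      rw [hout, hv]
      simp

end Vale.Agent.P089.GL
end
end

section

section

/-! Glue: a reduced diagram with simple outer path gives Greendlinger's conclusion. -/

set_option autoImplicit false

namespace Vale.Agent.P089.GL

open GLC

variable {L : Type} {A : LG L}

namespace Gl

lemma run_append (A : LG L) (x : A.Om) (u v : List L) :
    A.run x (u ++ v) = (A.run x u).bind fun y => A.run y v := by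
  induction u generalizing x with
  | nil => simp [LG.run]
  | cons s u ih =>
    simp only [List.cons_append, LG.run]
    cases h : A.step x s with
    | none => simp
    | some y => simp [ih]

lemma wInv_cons (A : LG L) (s : L) (u : List L) : A.wInv (s :: u) = A.wInv u ++ [A.inv s] := by
  simp [LG.wInv]

lemma run_wInv (A : LG L) {x y : A.Om} {u : List L} (h : A.run x u = some y) :
    A.run y (A.wInv u) = some x := by
  induction u generalizing x with
  | nil =>
    simp only [LG.run, Option.some.injEq] at h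
    subst h
    simp [LG.wInv, LG.run]
  | cons s u ih =>
    simp only [LG.run] at h
    cases hs : A.step x s with
    | none => rw [hs] at h; simp at h
    | some z =>
      rw [hs] at h
      simp only [Option.bind_some] at h
      rw [wInv_cons, run_append, ih h]
      simp [LG.run, A.step_inv x s z hs]

lemma g_run {A : LG L} {g : A.Om → ℕ} (hg : ∀ x s y, A.step x s = some y → g y = g x)
    {x y : A.Om} {u : List L} (h : A.run x u = some y) : g y = g x := by
  induction u generalizing x with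
  | nil =>
    simp only [LG.run, Option.some.injEq] at h
    rw [h]
  | cons s u ih =>
    simp only [LG.run] at h
    cases hs : A.step x s with
    | none => rw [hs] at h; simp at h
    | some z =>
      rw [hs] at h
      simp only [Option.bind_some] at h
      rw [ih h, hg x s z hs]

section Words

variable {α : Type} (σ : α → α) (lbl : α → L)

/-- the word along a polygon -/
def fw : ℕ → α → List L
  | 0, _ => []
  | m + 1, p => lbl p :: fw m (σ p)

lemma fw_length (m : ℕ) (p : α) : (fw σ lbl m p).length = m := by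
  induction m generalizing p with
  | zero => rfl
  | succ m ih => simp [fw, ih]

lemma fw_getElem (m : ℕ) (p : α) (j : ℕ) (h : j < (fw σ lbl m p).length) :
    (fw σ lbl m p)[j] = lbl (σ^[j] p) := by
  induction m generalizing p j with
  | zero => simp [fw] at h
  | succ m ih =>
    cases j with
    | zero => simp [fw]
    | succ j =>
      simp only [fw, List.getElem_cons_succ]
      rw [ih]
      rfl

variable {σ lbl} (pos : α → Option A.Om)

lemma run_fw (hσin : ∀ p x, pos p = some x → ∃ y, A.step x (lbl p) = some y ∧ pos (σ p) = some y)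
    (m : ℕ) (p : α) (x : A.Om) (hx : pos p = some x) :
    ∃ y, A.run x (fw σ lbl m p) = some y ∧ pos (σ^[m] p) = some y := by
  induction m generalizing p x with
  | zero => exact ⟨x, rfl, hx⟩
  | succ m ih =>
    obtain ⟨y, hy, hy2⟩ := hσin p x hx
    obtain ⟨z, hz, hz2⟩ := ih (σ p) y hy2
    refine ⟨z, ?_, hz2⟩
    simp only [fw, LG.run, hy, Option.bind_some]
    exact hz

lemma fw_red (hσin : ∀ p x, pos p = some x → ∃ y, A.step x (lbl p) = some y ∧ pos (σ p) = some y)
    (hnf : ∀ p, pos p ≠ none → lbl (σ p) ≠ A.inv (lbl p)) (m : ℕ) (p : α) (hp : pos p ≠ none) :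
    A.Red (fw σ lbl m p) := by
  induction m generalizing p with
  | zero => exact List.isChain_nil
  | succ m ih =>
    have hp' : pos (σ p) ≠ none := by
      obtain ⟨x, hx⟩ := Option.ne_none_iff_exists'.1 hp
      obtain ⟨y, _, hy⟩ := hσin p x hx
      rw [hy]; simp
    cases m with
    | zero => exact List.isChain_singleton _
    | succ m =>
      have := ih (σ p) hp'
      unfold LG.Red at this ⊢
      simp only [fw] at this ⊢
      rw [List.isChain_cons_cons]
      exact ⟨hnf p hp, this⟩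

/-- reading along the partners -/
lemma run_back (μ : α → α)
    (hμμ : ∀ p, μ (μ p) = p) (hlblμ : ∀ p, lbl (μ p) = A.inv (lbl p))
    (hσin : ∀ p x, pos p = some x → ∃ y, A.step x (lbl p) = some y ∧ pos (σ p) = some y)
    (m : ℕ) (p : α) (Y : A.Om) (hm : 0 < m) (hY : pos (σ (μ p)) = some Y)
    (hin : ∀ j, j < m → pos (μ (σ^[j] p)) ≠ none)
    (hback : ∀ j, j + 1 < m → σ (μ (σ^[j+1] p)) = μ (σ^[j] p)) :
    ∃ Z, A.run Y (fw σ lbl m p) = some Z := by
  induction m generalizing p Y with
  | zero => (clear * - hm; omega)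
  | succ m ih =>
    have h0 : pos (μ p) ≠ none := hin 0 (by omega)
    obtain ⟨x, hx⟩ := Option.ne_none_iff_exists'.1 h0
    obtain ⟨y, hy, hy2⟩ := hσin (μ p) x hx
    have hyY : y = Y := by
      rw [hy2] at hY
      exact Option.some.inj hY
    subst hyY
    have hstep : A.step y (lbl p) = some x := by
      have := A.step_inv x _ y hy
      rwa [← hlblμ, hμμ] at this
    rcases Nat.eq_zero_or_pos m with rfl | hm'
    · refine ⟨x, ?_⟩
      simp [fw, LG.run, hstep]
    · obtain ⟨Z, hZ⟩ := ih (σ p) x hm'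
        (by
          have := hback 0 (by omega)
          simp only [zero_add, Function.iterate_one, Function.iterate_zero, id_eq] at this
          rw [this, hx])
        (fun j hj => hin (j+1) (by omega))
        (fun j hj => hback (j+1) (by omega))
      refine ⟨Z, ?_⟩
      simp only [fw, LG.run, hstep, Option.bind_some]
      exact hZ

end Words

end Gl

open Gl

/-- the core extraction theorem on an abstract polygon gluing -/
theorem green_core {α : Type} [Fintype α] [DecidableEq α] (σ μ : Equiv.Perm α)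
    (pos : α → Option A.Om) (lbl : α → L) (tau : α → ℕ) (o : List α) (ho : 0 < o.length)
    (hmem : ∀ p, p ∈ o ↔ pos p = none)
    (hσo : ∀ i (h : i + 1 < o.length), σ (o[i]'(by omega)) = o[i+1])
    (hσl : σ (o[o.length - 1]'(by omega)) = o[0])
    (hσpos : ∀ p, pos p = none → pos (σ p) = none)
    (μμ : ∀ p, μ (μ p) = p) (μne : ∀ p, μ p ≠ p) (lblμ : ∀ p, lbl (μ p) = A.inv (lbl p))
    (σin : ∀ p x, pos p = some x → ∃ y, A.step x (lbl p) = some y ∧ pos (σ p) = some y)
    (noFold : ∀ p, pos p ≠ none → lbl (σ p) ≠ A.inv (lbl p))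
    (noMirror : ∀ p, pos p ≠ none → pos (μ p) ≠ none → pos (σ (μ p)) ≠ pos p)
    (hoo : ∀ p, pos p = none → pos (μ p) ≠ none)
    (htau : ∀ p, tau (σ (μ p)) = tau p)
    (hsimple : ∀ p q, pos p = none → pos q = none → tau p = tau q → p = q)
    (hH1 : ∀ z : α → ZMod 2, (∀ p, z (μ p) = z p) →
      (∀ x : ℕ, ∑ p with tau p = x, z p = 0) →
      ∃ y : α → ZMod 2, (∀ p, y (σ p) = y p) ∧ (∀ p, pos p = none → y p = 0) ∧
        ∀ p, z p = y p + y (μ p))
    (g : A.Om → ℕ) (N : ℕ) (hN : 13 ≤ N) (h : SC A g N)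
    (hred : A.Red (o.map lbl)) :
    ∃ u a v x y b, o.map lbl = u ++ a ++ v ∧ A.run x a = some y ∧ A.run y b = some x ∧
      g x ≤ a.length + b.length ∧ N * b.length ≤ 3 * (a.length + b.length) := by
  classical
  have σpos' : ∀ p, pos p ≠ none → pos (σ p) ≠ none := by
    intro p hp
    obtain ⟨x, hx⟩ := Option.ne_none_iff_exists'.1 hp
    obtain ⟨y, _, hy⟩ := σin p x hx
    rw [hy]; simp
  have hit : ∀ p, pos p ≠ none → ∀ n, pos (σ^[n] p) ≠ none := by
    intro p hp n
    induction n with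
    | zero => exact hp
    | succ n ih => rw [Function.iterate_succ_apply']; exact σpos' _ ih
  have hred2 : ∀ p, σ (μ p) ≠ p := by
    intro p hp
    by_cases hq : pos (μ p) = none
    · have : pos p = none := by rw [← hp]; exact hσpos _ hq
      exact hoo p this hq
    · have h1 := noFold (μ p) hq
      rw [hp] at h1
      apply h1
      rw [lblμ, A.inv_inv]
  -- face map
  let face : α → Option (Orb σ) := fun p => if pos p = none then none else some (cls σ p)
  have hface_none : ∀ p, face p = none ↔ pos p = none := by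
    intro p
    by_cases hp : pos p = none <;> simp [face, hp]
  have hface : ∀ p, face (σ p) = face p := by
    intro p
    by_cases hp : pos p = none
    · have h1 := hσpos p hp
      simp [face, hp, h1]
    · have h1 := σpos' p hp
      simp [face, hp, h1, cls_apply]
  have hH1' : GLC.H1 μ face none tau := by
    intro z hz hz2
    obtain ⟨y, hy1, hy2, hy3⟩ := hH1 z hz hz2
    have hyc : ∀ p q : α, σ.SameCycle p q → y p = y q := by
      intro p q hpq
      obtain ⟨i, rfl⟩ := hpq.exists_pow_eq'.imp (fun i hi => hi.2)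
      have : ∀ n p, y ((σ ^ n) p) = y p := by
        intro n
        induction n with
        | zero => intro p; simp only [pow_zero, Equiv.Perm.coe_one, id_eq]
        | succ n ih => intro p; rw [pow_succ', Equiv.Perm.mul_apply, hy1, ih]
      rw [this]
    let Y : Option (Orb σ) → ZMod 2 := fun c =>
      match c with
      | none => 0
      | some c => Quotient.lift y (fun a b hab => hyc a b hab) c
    have hY : ∀ p, Y (face p) = y p := by
      intro p
      by_cases hp : pos p = none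
      · have : face p = none := (hface_none p).2 hp
        rw [this, hy2 p hp]
      · have : face p = some (cls σ p) := by simp [face, hp]
        rw [this]
        rfl
    exact ⟨Y, rfl, fun p => by rw [hY, hY]; exact hy3 p⟩
  have : Nonempty α := ⟨o[0]⟩
  -- inner words
  have hcycrun : ∀ p x, pos p = some x → A.run x (fw σ lbl (cyc σ p) p) = some x := by
    intro p x hx
    obtain ⟨y, hy1, hy2⟩ := run_fw pos σin (cyc σ p) p x hx
    rw [cyc_it, hx] at hy2
    rw [hy1, ← hy2]
  have hgcyc : ∀ p x, pos p = some x → g x ≤ cyc σ p := by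
    intro p x hx
    have := h.girth x (fw σ lbl (cyc σ p) p) (by
      intro h0
      have h1 := fw_length σ lbl (cyc σ p) p
      rw [h0] at h1
      have := cyc_pos (succ := σ) p
      simp at h1
      omega) (fw_red pos σin noFold _ p (by rw [hx]; simp)) (hcycrun p x hx)
    rwa [fw_length] at this
  -- pieces
  have hpc : ∀ p m, 0 < m → pos p ≠ none → (∀ j, j < m → pos (μ (σ^[j] p)) ≠ none) →
      (∀ j, j + 1 < m → σ (μ (σ^[j+1] p)) = μ (σ^[j] p)) → N * m < cyc σ p := by
    intro p m hm hp hin hback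
    obtain ⟨x, hx⟩ := Option.ne_none_iff_exists'.1 hp
    have h0 : pos (μ p) ≠ none := hin 0 hm
    obtain ⟨x', hx'⟩ := Option.ne_none_iff_exists'.1 h0
    obtain ⟨Y, _, hY⟩ := σin (μ p) x' hx'
    have hne : x ≠ Y := by
      intro e
      apply noMirror p hp h0
      rw [hY, hx, e]
    obtain ⟨Z, hZ⟩ := run_back pos μ μμ lblμ σin m p Y hm hY hin hback
    obtain ⟨y, hy1, _⟩ := run_fw pos σin m p x hx
    have := (h.piece x Y (fw σ lbl m p) hne (fw_red pos σin noFold m p hp)
      (by rw [hy1]; rfl) (by rw [hZ]; rfl)).1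
    rw [fw_length] at this
    exact lt_of_lt_of_le this (hgcyc p x hx)
  -- case distinction
  by_cases hcorner : ∀ p, face p ≠ none → ∃ k, Real σ μ (σ^[k] p)
  · -- main case
    obtain ⟨p, m, hm0, hmc, hpin, hout, hback, hb, hK⟩ := good_face (succ := σ) (mu := μ)
      (face := face) (out := none) (tau := tau) μμ μne htau hface
      (fun p hp => by
        rw [Ne, hface_none]; exact hoo p ((hface_none p).1 hp))
      hH1' hred2
      (fun p q hp hq => hsimple p q ((hface_none p).1 hp) ((hface_none q).1 hq))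
      hcorner N (by omega)
      (by
        intro p hp hpi hmi
        have hpi' : pos p ≠ none := fun e => hpi ((hface_none p).2 e)
        apply hpc p (arcLen σ μ p) (arcLen_spec hp).1 hpi'
        · intro j hj e
          have h1 := arc_face (face := face) μμ hface hj
          rw [(hface_none _).2 e] at h1
          exact hmi h1.symm
        · intro j hj
          exact arc_partner μμ hj)
      o[0]
    have hpi : pos p ≠ none := fun e => hpin ((hface_none p).2 e)
    obtain ⟨x, hx⟩ := Option.ne_none_iff_exists'.1 hpi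
    obtain ⟨y, hy1, hy2⟩ := run_fw pos σin m p x hx
    -- position in the outer list
    have hq0 : μ (σ^[m-1] p) ∈ o := by
      rw [hmem, ← hface_none]
      exact hout (m-1) (by omega)
    obtain ⟨k, hk, hk2⟩ := List.getElem_of_mem hq0
    have hidx : ∀ i, i < m → ∃ hlt : k + i < o.length, o[k+i] = μ (σ^[m-1-i] p) := by
      intro i
      induction i with
      | zero => intro _; exact ⟨hk, hk2⟩
      | succ i ih =>
        intro hi
        obtain ⟨hlt, he⟩ := ih (by omega)
        have hs : σ (μ (σ^[m-1-i] p)) = μ (σ^[m-1-(i+1)] p) := by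
          have := hback (m-1-(i+1)) (by omega)
          have e1 : m - 1 - (i+1) + 1 = m - 1 - i := by omega
          rw [e1] at this
          exact this
        rw [← he] at hs
        by_cases hlast : k + i + 1 < o.length
        · refine ⟨by omega, ?_⟩
          rw [← hs]
          exact (hσo (k+i) hlast).symm
        · exfalso
          have e1 : k + i = o.length - 1 := by omega
          have e2 : o[k+i] = o[o.length - 1]'(by omega) := by
            congr 1
          rw [e2, hσl] at hs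
          exact hb _ hs.symm
    have hkm : k + m ≤ o.length := by
      obtain ⟨h1, _⟩ := hidx (m-1) (by omega)
      omega
    have ha : ((o.map lbl).drop k).take m = A.wInv (fw σ lbl m p) := by
      apply List.ext_getElem
      · simp only [List.length_take, List.length_drop, List.length_map, LG.wInv, List.length_reverse, fw_length, inf_eq_left]
        omega
      · intro i h1 h2
        have hi : i < m := by
          simp [LG.wInv, fw_length] at h2
          exact h2
        obtain ⟨hlt, he⟩ := hidx i hi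
        simp only [List.getElem_take, List.getElem_drop, List.getElem_map, LG.wInv,
          List.getElem_reverse, List.length_map, fw_length]
        rw [he, lblμ, fw_getElem]
    have hy3 := hcycrun p x hx
    -- the rest of the cycle
    obtain ⟨x2, hx2, hx3⟩ := run_fw pos σin (cyc σ p - m) (σ^[m] p) y hy2
    have hx4 : x2 = x := by
      rw [← Function.iterate_add_apply, Nat.sub_add_cancel hmc, cyc_it, hx] at hx3
      exact (Option.some.inj hx3).symm
    subst hx4
    refine ⟨(o.map lbl).take k, A.wInv (fw σ lbl m p), ((o.map lbl).drop k).drop m, y, x2,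
      A.wInv (fw σ lbl (cyc σ p - m) (σ^[m] p)), ?_, run_wInv A hy1, run_wInv A hx2, ?_, ?_⟩
    · rw [← ha, List.append_assoc, List.take_append_drop, List.take_append_drop]
    · have h1 : (A.wInv (fw σ lbl m p)).length = m := by simp [LG.wInv, fw_length]
      have h2 : (A.wInv (fw σ lbl (cyc σ p - m) (σ^[m] p))).length = cyc σ p - m := by
        simp only [LG.wInv, List.length_reverse, List.length_map, fw_length]
      rw [h1, h2]
      have := hgcyc p x2 hx
      rw [g_run h.gstep hy1]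
      omega
    · have h1 : (A.wInv (fw σ lbl m p)).length = m := by simp [LG.wInv, fw_length]
      have h2 : (A.wInv (fw σ lbl (cyc σ p - m) (σ^[m] p))).length = cyc σ p - m := by
        simp only [LG.wInv, List.length_reverse, List.length_map, fw_length]
      rw [h1, h2]
      have e : m + (cyc σ p - m) = cyc σ p := by omega
      rw [e]
      exact hK
  · -- a cornerless face
    push Not at hcorner
    obtain ⟨p, hp, hk⟩ := hcorner
    have hpi : pos p ≠ none := fun e => hp ((hface_none p).2 e)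
    have hback : ∀ j, σ (μ (σ^[j+1] p)) = μ (σ^[j] p) := by
      intro j
      have := hk (j+1)
      rw [Function.iterate_succ_apply'] at this ⊢
      exact partner_back μμ this
    by_cases hmu : pos (μ p) = none
    · -- w is a closed walk
      have hout : ∀ j, pos (μ (σ^[j] p)) = none := by
        intro j
        by_contra hj
        have : ∀ i, i ≤ j → pos (μ (σ^[j-i] p)) ≠ none := by
          intro i
          induction i with
          | zero => intro _; exact hj
          | succ i ih =>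
            intro hi
            have h1 := ih (by omega)
            have h2 := hback (j-(i+1))
            have e1 : j - (i+1) + 1 = j - i := by omega
            rw [e1] at h2
            rw [← h2]
            exact σpos' _ h1
        have h3 := this j le_rfl
        rw [Nat.sub_self] at h3
        exact h3 hmu
      -- find index with partner the last outer side
      have hfirst : ∃ j, μ (σ^[j] p) = o[0] := by
        have hq0 : μ p ∈ o := (hmem _).2 hmu
        obtain ⟨k, hk1, hk2⟩ := List.getElem_of_mem hq0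
        have : ∀ i (hi : i ≤ k), μ (σ^[i] p) = o[k-i]'(by omega) := by
          intro i
          induction i with
          | zero => intro _; exact hk2.symm
          | succ i ih =>
            intro hi
            have h1 := ih (by omega)
            have h2 := hback i
            rw [h1] at h2
            have h3 := hσo (k-(i+1)) (by omega)
            have e1 : k - (i+1) + 1 = k - i := by omega
            have h4 : o[k-(i+1)+1]'(by omega) = o[k-i]'(by omega) := by congr 1
            rw [h4, ← h2] at h3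
            exact (σ.injective h3).symm
        refine ⟨k, ?_⟩
        rw [this k le_rfl]
        congr 1
        omega
      obtain ⟨j₀, hj₀⟩ := hfirst
      set p1 := σ^[j₀+1] p with hp1
      have hback1 : ∀ j, σ (μ (σ^[j+1] p1)) = μ (σ^[j] p1) := by
        intro j
        rw [hp1, ← Function.iterate_add_apply, ← Function.iterate_add_apply]
        have := hback (j + (j₀+1))
        have e : j + (j₀+1) + 1 = j + 1 + (j₀+1) := by ring
        rw [e] at this
        exact this
      have hl0 : μ p1 = o[o.length - 1]'(by omega) := by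
        apply σ.injective
        rw [hσl, hp1, hback, hj₀]
      have hidx : ∀ i (hi : i < o.length), μ (σ^[i] p1) = o[o.length - 1 - i]'(by omega) := by
        intro i
        induction i with
        | zero => intro _; exact hl0
        | succ i ih =>
          intro hi
          have h1 := ih (by omega)
          have h2 := hback1 i
          rw [h1] at h2
          have h3 := hσo (o.length - 1 - (i+1)) (by omega)
          have h4 : o[o.length - 1 - (i+1) + 1]'(by omega) = o[o.length - 1 - i]'(by omega) := by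
            congr 1
            omega
          rw [h4, ← h2] at h3
          exact (σ.injective h3).symm
      have hper : σ^[o.length] p1 = p1 := by
        apply μ.injective
        rw [hl0]
        apply σ.injective
        rw [hσl]
        have h1 := hback1 (o.length - 1)
        rw [Nat.sub_add_cancel ho] at h1
        rw [h1, hidx (o.length - 1) (by omega)]
        congr 1
        omega
      have hp1i : pos p1 ≠ none := hit p hpi _
      obtain ⟨x, hx⟩ := Option.ne_none_iff_exists'.1 hp1i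
      obtain ⟨y, hy1, hy2⟩ := run_fw pos σin o.length p1 x hx
      rw [hper, hx] at hy2
      have hxy : y = x := (Option.some.inj hy2).symm
      rw [hxy] at hy1
      have ha : o.map lbl = A.wInv (fw σ lbl o.length p1) := by
        apply List.ext_getElem
        · simp [LG.wInv, fw_length]
        · intro i h1 h2
          have hi : i < o.length := by simpa using h1
          simp only [List.getElem_map, LG.wInv, List.getElem_reverse, List.length_map, fw_length]
          have e : o[o.length - 1 - (o.length - 1 - i)]'(by omega) = o[i] := by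
            congr 1
            omega
          rw [fw_getElem, ← lblμ, hidx _ (by omega), e]
      refine ⟨[], o.map lbl, [], x, x, [], by simp, ?_, rfl, ?_, by simp only [List.length_nil, mul_zero, List.length_map, add_zero, zero_le]⟩
      · rw [ha]; exact run_wInv A hy1
      · have := h.girth x (o.map lbl) (by
          intro h0
          have := congrArg List.length h0
          rw [List.length_map, List.length_nil] at this
          omega) hred (by rw [ha]; exact run_wInv A hy1)
        simpa only [List.length_map, List.length_nil, add_zero, ge_iff_le] using this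
    · -- closed piece: impossible
      exfalso
      have hin : ∀ j, pos (μ (σ^[j] p)) ≠ none := by
        intro j
        induction j with
        | zero => exact hmu
        | succ j ih =>
          intro e
          have h1 := hσpos _ e
          rw [hback j] at h1
          exact ih h1
      have := hpc p (cyc σ p) (cyc_pos p) hpi (fun j _ => hin j) (fun j _ => hback j)
      nlinarith only [hN, this]

/-! ### From diagrams -/

section Dgs

variable {G : Type} [Group G] {lab : L → G} {w : List L} (D : Dg A lab w)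

lemma path_mid {tau mu : ℕ → ℕ} : ∀ (l : List ℕ) (b c : ℕ), Path tau mu b l c →
    ∀ i (h : i + 1 < l.length), tau (l[i+1]) = tau (mu (l[i]'(by omega)))
  | [], _, _, _, i, h => by simp at h
  | p :: l, b, c, hp, i, h => by
    cases i with
    | zero =>
      cases l with
      | nil => simp at h
      | cons q l =>
        have := hp.2.1
        simpa using this
    | succ i =>
      have := path_mid l _ c hp.2 i (by simpa only [List.length_cons, Order.lt_add_one_iff, Order.add_one_le_iff] using h)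
      simpa using this

lemma path_first {tau mu : ℕ → ℕ} : ∀ (l : List ℕ) (b c : ℕ), Path tau mu b l c →
    ∀ (h : 0 < l.length), tau (l[0]) = b
  | [], _, _, _, h => by simp at h
  | p :: l, b, c, hp, h => by simpa using hp.1

lemma path_last {tau mu : ℕ → ℕ} : ∀ (l : List ℕ) (b c : ℕ), Path tau mu b l c →
    ∀ (h : 0 < l.length), tau (mu (l[l.length - 1]'(by omega))) = c
  | [], _, _, _, h => by simp at h
  | [p], b, c, hp, h => by
    have := hp.2
    simpa only [List.length_cons, List.length_nil, zero_add, tsub_self, List.getElem_cons_zero, Path] using this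
  | p :: q :: l, b, c, hp, h => by
    have := path_last (q :: l) _ c hp.2 (by simp only [List.length_cons, lt_add_iff_pos_left, Order.lt_add_one_iff, zero_le])
    simpa only [List.length_cons, add_tsub_cancel_right, List.getElem_cons_succ] using this

open Classical in
/-- next side of the polygon -/
noncomputable def nx (p : ℕ) : ℕ := if D.pos p = none then D.out.formPerm p else D.succ p

lemma nx_out {p : ℕ} (h : D.pos p = none) : nx D p = D.out.formPerm p := if_pos h
lemma nx_in {p : ℕ} (h : D.pos p ≠ none) : nx D p = D.succ p := if_neg h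

lemma nx_mem {p : ℕ} (hp : p ∈ D.P) : nx D p ∈ D.P := by
  by_cases h : D.pos p = none
  · rw [nx_out D h]
    exact ((D.out_mem _).1 (List.formPerm_apply_mem_of_mem ((D.out_mem p).2 ⟨hp, h⟩))).1
  · rw [nx_in D h]
    exact D.succ_mem p hp h

lemma nx_pos_out {p : ℕ} (hp : p ∈ D.P) (h : D.pos p = none) : D.pos (nx D p) = none := by
  rw [nx_out D h]
  exact ((D.out_mem _).1 (List.formPerm_apply_mem_of_mem ((D.out_mem p).2 ⟨hp, h⟩))).2

lemma nx_pos_in {p : ℕ} (hp : p ∈ D.P) (h : D.pos p ≠ none) : D.pos (nx D p) ≠ none := by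
  rw [nx_in D h]
  obtain ⟨x, hx⟩ := Option.ne_none_iff_exists'.1 h
  obtain ⟨y, _, hy⟩ := D.succ_pos p hp x hx
  rw [hy]; simp

lemma nx_inj {p q : ℕ} (hp : p ∈ D.P) (hq : q ∈ D.P) (h : nx D p = nx D q) : p = q := by
  by_cases h1 : D.pos p = none
  · by_cases h2 : D.pos q = none
    · rw [nx_out D h1, nx_out D h2] at h
      exact (D.out.formPerm).injective h
    · exfalso
      apply nx_pos_in D hq h2
      rw [← h]; exact nx_pos_out D hp h1
  · by_cases h2 : D.pos q = none
    · exfalso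
      apply nx_pos_in D hp h1
      rw [h]; exact nx_pos_out D hq h2
    · rw [nx_in D h1, nx_in D h2] at h
      exact D.succ_inj p hp q hq h1 h2 h

/-- the permutation of the sides -/
noncomputable def sig : Equiv.Perm {p // p ∈ D.P} :=
  Equiv.ofBijective (fun p => ⟨nx D p.1, nx_mem D p.2⟩)
    (Finite.injective_iff_bijective.1 (fun p q h =>
      Subtype.ext (nx_inj D p.2 q.2 (congrArg Subtype.val h))))

lemma sig_val (p : {p // p ∈ D.P}) : (sig D p).1 = nx D p.1 := rfl

/-- the matching -/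
def muE : Equiv.Perm {p // p ∈ D.P} where
  toFun p := ⟨D.mu p.1, D.mu_mem p.1 p.2⟩
  invFun p := ⟨D.mu p.1, D.mu_mem p.1 p.2⟩
  left_inv p := Subtype.ext (D.mu_mu p.1 p.2)
  right_inv p := Subtype.ext (D.mu_mu p.1 p.2)

lemma muE_val (p : {p // p ∈ D.P}) : (muE D p).1 = D.mu p.1 := rfl

/-- A reduced diagram with simple outer path gives Greendlinger's conclusion. -/
theorem green_of_dg (hD : D.Reduced) (hS : D.Simple) (g : A.Om → ℕ) (N : ℕ) (hN : 13 ≤ N)
    (h : SC A g N) (hw : w ≠ []) (hred : A.Red w) :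
    ∃ u a v x y b, w = u ++ a ++ v ∧ A.run x a = some y ∧ A.run y b = some x ∧
      g x ≤ a.length + b.length ∧ N * b.length ≤ 3 * (a.length + b.length) := by
  classical
  have hout : ∀ p ∈ D.out, p ∈ D.P := fun p hp => ((D.out_mem p).1 hp).1
  obtain ⟨o, ho⟩ : ∃ o : List {p // p ∈ D.P},
    o = D.out.attach.map (fun p => ⟨p.1, hout p.1 p.2⟩) := ⟨_, rfl⟩
  have holen : o.length = D.out.length := by simp only [ho, List.length_map, List.length_attach]
  have hoget : ∀ i (h : i < o.length), (o[i]).1 = D.out[i]'(by omega) := by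
    intro i h
    subst ho
    simp only [List.getElem_map, List.getElem_attach]
  have holbl : o.map (fun p => D.lbl p.1) = w := by
    conv_rhs => rw [← D.out_lbl]
    apply List.ext_getElem
    · simp only [List.map_subtype, List.length_map, List.length_unattach, holen]
    · intro i h1 h2
      rw [List.getElem_map, List.getElem_map, hoget i (by simpa only [List.map_subtype, List.length_map, List.length_unattach] using h1)]
  have hopos : 0 < o.length := by
    rcases Nat.eq_zero_or_pos o.length with h0 | h0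
    · exfalso
      apply hw
      rw [← holbl, List.length_eq_zero_iff.1 h0]
      rfl
    · exact h0
  have hmem : ∀ p : {p // p ∈ D.P}, p ∈ o ↔ D.pos p.1 = none := by
    intro p
    constructor
    · intro hp
      rw [ho, List.mem_map] at hp
      obtain ⟨q, _, hq⟩ := hp
      rw [← hq]
      exact ((D.out_mem q.1).1 q.2).2
    · intro hp
      rw [ho, List.mem_map]
      exact ⟨⟨p.1, (D.out_mem p.1).2 ⟨p.2, hp⟩⟩, List.mem_attach _ _, rfl⟩
  have houtpos : ∀ i (h : i < D.out.length), D.pos (D.out[i]) = none := by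
    intro i h
    exact ((D.out_mem _).1 (List.getElem_mem h)).2
  have hσo : ∀ i (h : i + 1 < o.length), sig D (o[i]'(by omega)) = o[i+1] := by
    intro i h
    apply Subtype.ext
    rw [sig_val, hoget, hoget, nx_out D (houtpos _ _)]
    exact List.formPerm_apply_lt_getElem D.out D.out_nodup i (by omega)
  have hσl : sig D (o[o.length - 1]'(by omega)) = o[0] := by
    apply Subtype.ext
    rw [sig_val, hoget, hoget, nx_out D (houtpos _ _),
      List.formPerm_apply_getElem D.out D.out_nodup (o.length - 1) (by omega)]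
    congr 1
    rw [← holen, Nat.sub_add_cancel hopos, Nat.mod_self]
  have htau : ∀ p : {p // p ∈ D.P}, D.tau (sig D p).1 = D.tau (D.mu p.1) := by
    intro p
    by_cases hp : D.pos p.1 = none
    · have hp' := (hmem p).2 hp
      obtain ⟨i, hi, hi2⟩ := List.getElem_of_mem hp'
      by_cases hlast : i + 1 < o.length
      · rw [← hi2, hσo i hlast, hoget, hoget]
        exact path_mid D.out _ _ D.out_path i (by omega)
      · have e : i = o.length - 1 := by omega
        subst e
        rw [← hi2, hσl, hoget, hoget, path_first D.out _ _ D.out_path (by omega)]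
        have := path_last D.out _ _ D.out_path (by omega)
        rw [← this]
        congr 3
        rw [holen]
    · rw [sig_val, nx_in D hp]
      exact D.succ_tau p.1 p.2 hp
  have hsimple : ∀ p q : {p // p ∈ D.P}, D.pos p.1 = none → D.pos q.1 = none →
      D.tau p.1 = D.tau q.1 → p = q := by
    intro p q hp hq e
    exact Subtype.ext (hS p.1 ((D.out_mem _).2 ⟨p.2, hp⟩) q.1 ((D.out_mem _).2 ⟨q.2, hq⟩) e)
  have hσpos : ∀ p : {p // p ∈ D.P}, D.pos p.1 = none → D.pos (sig D p).1 = none := by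
    intro p hp
    rw [sig_val]; exact nx_pos_out D p.2 hp
  have hoo : ∀ p : {p // p ∈ D.P}, D.pos p.1 = none → D.pos (muE D p).1 ≠ none := by
    intro p hp hq
    -- next of mu p is p and next of p is mu p
    have h1 : sig D (muE D p) = p := by
      apply hsimple _ _ (hσpos _ hq) hp
      rw [htau, muE_val, D.mu_mu p.1 p.2]
    have h2 : sig D p = muE D p := by
      apply hsimple _ _ (hσpos _ hp) hq
      rw [htau, muE_val]
    obtain ⟨i, hi, hi2⟩ := List.getElem_of_mem ((hmem p).2 hp)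
    obtain ⟨j, hj, hj2⟩ := List.getElem_of_mem ((hmem _).2 hq)
    have hnd : o.Nodup := by
      rw [ho]
      apply List.Nodup.map _ (List.nodup_attach.2 D.out_nodup)
      intro a b hab
      exact Subtype.ext (congrArg (fun z => z.1) hab)
    have hne : p ≠ muE D p := by
      intro e
      exact D.mu_ne p.1 p.2 (congrArg Subtype.val e).symm
    have hkey : ∀ (p q : {p // p ∈ D.P}) (i : ℕ) (hi : i + 1 < o.length),
        o[i]'(by omega) = p → sig D p = q → q = muE D p → False := by
      intro p q i hi h1 h2 h3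
      have h4 := hσo i hi
      rw [h1, h2, h3] at h4
      -- labels of consecutive outer sides
      have h5 : (o.map (fun p => D.lbl p.1))[i+1]'(by simpa only [List.map_subtype, List.length_map, List.length_unattach] using hi) =
          A.inv ((o.map (fun p => D.lbl p.1))[i]'(by simp only [List.map_subtype, List.length_map, List.length_unattach]; omega)) := by
        rw [List.getElem_map, List.getElem_map, ← h4, h1, muE_val, D.lbl_mu p.1 p.2]
      have hr : A.Red (o.map (fun p => D.lbl p.1)) := by rw [holbl]; exact hred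
      have := (List.isChain_iff_getElem.1 hr) i (by simpa only [List.map_subtype, List.length_map, List.length_unattach] using hi)
      exact this h5
    by_cases hi' : i + 1 < o.length
    · exact hkey p (muE D p) i hi' hi2 h2 rfl
    · by_cases hj' : j + 1 < o.length
      · apply hkey (muE D p) p j hj' hj2 h1
        apply Subtype.ext
        rw [muE_val, muE_val, D.mu_mu p.1 p.2]
      · apply hne
        calc p = o[i] := hi2.symm
          _ = o[j] := by
            congr 1
            (clear * - holen hi hj hi' hj'; omega)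
          _ = muE D p := hj2
  have hnm : ∀ p : {p // p ∈ D.P}, D.pos p.1 ≠ none → D.pos (muE D p).1 ≠ none →
      D.pos (sig D (muE D p)).1 ≠ D.pos p.1 := by
    intro p hp hq
    obtain ⟨x, hx⟩ := Option.ne_none_iff_exists'.1 hq
    have h1 := hD.noMirror (muE D p).1 (muE D p).2 x hx
    obtain ⟨y, hy, hy2⟩ := D.succ_pos (muE D p).1 (muE D p).2 x hx
    rw [hy, muE_val, D.mu_mu p.1 p.2] at h1
    rw [sig_val, nx_in D hq, hy2]
    exact h1
  have hH1 : ∀ z : {p // p ∈ D.P} → ZMod 2, (∀ p, z (muE D p) = z p) →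
      (∀ x : ℕ, ∑ p with D.tau p.1 = x, z p = 0) →
      ∃ y : {p // p ∈ D.P} → ZMod 2, (∀ p, y (sig D p) = y p) ∧
        (∀ p, D.pos p.1 = none → y p = 0) ∧ ∀ p, z p = y p + y (muE D p) := by
    intro z hz hz2
    let Z : ℕ → ZMod 2 := fun n => if h : n ∈ D.P then z ⟨n, h⟩ else 0
    have hZ : ∀ p : {p // p ∈ D.P}, Z p.1 = z p := by
      intro p
      simp only [Z]
      rw [dif_pos p.2]
    obtain ⟨y, hy1, hy2, hy3⟩ := D.H1 Z (by
      intro p hp
      have := hz ⟨p, hp⟩
      rw [← hZ, ← hZ] at this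
      exact this) (by
      intro x
      rw [← hz2 x]
      have e : ∀ (F : ℕ → Prop) [DecidablePred F], ∑ p ∈ D.P with F p, Z p =
          ∑ p : {p // p ∈ D.P} with F p.1, z p := by
        intro F _
        rw [Finset.sum_filter, Finset.sum_filter, ← Finset.sum_coe_sort]
        apply Finset.sum_congr rfl
        intro p _
        rw [hZ]
      exact e _)
    refine ⟨fun p => y p.1, ?_, fun p hp => hy2 p.1 p.2 hp, ?_⟩
    · intro p
      by_cases hp : D.pos p.1 = none
      · have h1 := hσpos p hp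
        show y (sig D p).1 = y p.1
        rw [hy2 _ (sig D p).2 h1, hy2 _ p.2 hp]
      · show y (sig D p).1 = y p.1
        rw [sig_val, nx_in D hp]
        exact hy1 p.1 p.2 hp
    · intro p
      rw [← hZ]
      exact hy3 p.1 p.2
  have := green_core (A := A) (sig D) (muE D) (fun p => D.pos p.1) (fun p => D.lbl p.1)
    (fun p => D.tau p.1) o hopos hmem hσo hσl hσpos
    (fun p => Subtype.ext (D.mu_mu p.1 p.2))
    (fun p e => D.mu_ne p.1 p.2 (congrArg Subtype.val e))
    (fun p => D.lbl_mu p.1 p.2)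
    (by
      intro p x hx
      obtain ⟨y, h1, h2⟩ := D.succ_pos p.1 p.2 x hx
      refine ⟨y, h1, ?_⟩
      rw [sig_val, nx_in D (by rw [hx]; simp)]
      exact h2)
    (by
      intro p hp
      rw [sig_val, nx_in D hp]
      exact hD.noFold p.1 p.2 hp)
    hnm hoo
    (by
      intro p
      rw [htau, muE_val, D.mu_mu p.1 p.2])
    hsimple hH1 g N hN h (by rw [holbl]; exact hred)
  rw [holbl] at this
  exact this

end Dgs

end Vale.Agent.P089.GL
end
end

section

section

/-! Greendlinger's lemma from existence of reduced diagrams (subword minimality). -/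

set_option autoImplicit false

namespace Vale.Agent.P089.GL

variable {L : Type} {A : LG L} {G : Type} [Group G] {lab : L → G}

/-- Greendlinger's lemma, given existence of reduced diagrams and simplicity for minimal words. -/
theorem greendlinger_of
    (hex : ∀ w : List L, A.Eqv w [] → ∃ D : Dg A lab w, D.Reduced)
    (hsm : ∀ (w : List L) (D : Dg A lab w),
      (∀ u a v, w = u ++ a ++ v → a ≠ [] → (a.map lab).prod = 1 → a = w) → D.Simple)
    (huniv : ∀ w, (w.map lab).prod = 1 → A.Eqv w [])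
    (g : A.Om → ℕ) (N : ℕ) (hN : 13 ≤ N) (h : SC A g N)
    (w : List L) (hw : w ≠ []) (hred : A.Red w) (h1 : (w.map lab).prod = 1) :
    ∃ u a v x y b, w = u ++ a ++ v ∧ A.run x a = some y ∧ A.run y b = some x ∧
      g x ≤ a.length + b.length ∧ N * b.length ≤ 3 * (a.length + b.length) := by
  classical
  have hne : ∃ n, ∃ u a v, w = u ++ a ++ v ∧ a ≠ [] ∧ (a.map lab).prod = 1 ∧ a.length = n :=
    ⟨w.length, [], w, [], by simp, hw, h1, rfl⟩
  obtain ⟨⟨u, a, v, e, ha, ha1, hn⟩, hmin⟩ :
      (∃ u a v, w = u ++ a ++ v ∧ a ≠ [] ∧ (a.map lab).prod = 1 ∧ a.length = Nat.find hne) ∧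
      (∀ m, m < Nat.find hne →
        ¬ ∃ u a v, w = u ++ a ++ v ∧ a ≠ [] ∧ (a.map lab).prod = 1 ∧ a.length = m) :=
    ⟨Nat.find_spec hne, fun m hm => Nat.find_min hne hm⟩
  obtain ⟨D, hD⟩ := hex a (huniv a ha1)
  have hS : D.Simple := by
    apply hsm a D
    intro u' a' v' e' ha' ha1'
    have hlen : a'.length ≤ a.length := by rw [e']; simp only [List.append_assoc, List.length_append]; omega
    by_cases hlt : a'.length < a.length
    · exfalso
      apply hmin a'.length (by omega)
      exact ⟨u ++ u', a', v' ++ v, by rw [e, e']; simp, ha', ha1', rfl⟩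
    · have h2 : a'.length = a.length := by omega
      have h3 : u' = [] ∧ v' = [] := by
        have := congrArg List.length e'
        simp at this
        constructor
        · apply List.length_eq_zero_iff.1; omega
        · apply List.length_eq_zero_iff.1; (clear * - hne hn hlen hlt this; omega)
      rw [e', h3.1, h3.2]
      simp
  have hreda : A.Red a := by
    have hw2 : A.Red (u ++ a ++ v) := by rw [← e]; exact hred
    exact (List.IsChain.left_of_append hw2).right_of_append
  obtain ⟨u', a', v', x, y, b, e', h2, h3, h4, h5⟩ := green_of_dg D hD hS g N hN h ha hreda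
  exact ⟨u ++ u', a', v' ++ v, x, y, b, by rw [e, e']; simp, h2, h3, h4, h5⟩

end Vale.Agent.P089.GL
end
end

section

section

/-! P1, P1', P2 of the abstract trace estimate (P089). -/

set_option autoImplicit false

namespace Vale.Agent.P089.Asm

open Matrix NNReal

/-- P1': equivalence is transitive. -/
theorem mvn_trans {A : Type} [Ring A] {e f g : A} (he : e * e = e) (hf : f * f = f)
    (hg : g * g = g) (h1 : ∃ x y : A, x * y = e ∧ y * x = f)
    (h2 : ∃ x y : A, x * y = f ∧ y * x = g) : ∃ x y : A, x * y = e ∧ y * x = g := by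
  obtain ⟨x, y, hxy, hyx⟩ := h1
  obtain ⟨x', y', hxy', hyx'⟩ := h2
  have _ := hf
  refine ⟨x * x', y' * y, ?_, ?_⟩
  · calc x * x' * (y' * y) = x * (x' * y') * y := by noncomm_ring
      _ = x * (y * x) * y := by rw [hxy', hyx]
      _ = (x * y) * (x * y) := by noncomm_ring
      _ = e := by rw [hxy, he]
  · calc y' * y * (x * x') = y' * (y * x) * x' := by noncomm_ring
      _ = y' * (x' * y') * x' := by rw [hxy', hyx]
      _ = (y' * x') * (y' * x') := by noncomm_ring
      _ = g := by rw [hyx', hg]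

/-- P1: the values of a path of idempotents are equivalent. -/
theorem path_equiv {A : Type} [NormedRing A] [CompleteSpace A] (e : ℝ≥0 → A)
    (he : ∀ t, e t * e t = e t) (hc : Continuous e) (t : ℝ≥0) :
    ∃ x y : A, x * y = e 0 ∧ y * x = e t := by
  have hnear : ∀ t : ℝ≥0, ∀ᶠ s in nhds t, ∃ x y : A, x * y = e t ∧ y * x = e s := by
    intro t
    have hcont : Continuous fun s => ‖2 * e t - 1‖ * ‖e t - e s‖ := by fun_prop
    have h0 : (fun s => ‖2 * e t - 1‖ * ‖e t - e s‖) t < 1 := by simp only [sub_self, norm_zero, mul_zero, zero_lt_one]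
    filter_upwards [hcont.continuousAt.eventually (gt_mem_nhds h0)] with s hs
    exact Vale.Agent.P212.mvn_of_close (he t) (he s) hs
  set U : Set ℝ≥0 := {t | ∃ x y : A, x * y = e 0 ∧ y * x = e t} with hU
  have hopen : IsOpen U := by
    rw [isOpen_iff_mem_nhds]
    intro t ht
    filter_upwards [hnear t] with s hs
    exact mvn_trans (he 0) (he t) (he s) ht hs
  have hclosed : IsClosed U := by
    rw [← isOpen_compl_iff, isOpen_iff_mem_nhds]
    intro t ht
    filter_upwards [hnear t] with s hs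
    intro hs'
    apply ht
    obtain ⟨x, y, h1, h2⟩ := hs
    exact mvn_trans (he 0) (he s) (he t) hs' ⟨y, x, h2, h1⟩
  have h0 : (0 : ℝ≥0) ∈ U := ⟨e 0, e 0, he 0, he 0⟩
  have huniv : U = Set.univ := by
    rcases isClopen_iff.1 ⟨hclosed, hopen⟩ with h | h
    · rw [h] at h0
      exact absurd h0 (Set.notMem_empty _)
    · exact h
  have : t ∈ U := by rw [huniv]; trivial
  exact this

/-- P2: near an idempotent, every element of a closed subring is near an idempotent of the
subring which commutes with it and is equivalent to the first one. -/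
theorem exists_idem_comm {A : Type} [NormedRing A] [CompleteSpace A] (M ε : ℝ) (hM : 0 < M)
    (hε : 0 < ε) :
    ∃ δ > 0, ∀ (N : Subring A), IsClosed (N : Set A) → ∀ e : A, e * e = e → ‖e‖ ≤ M →
      ∀ a ∈ N, ‖e - a‖ < δ → ∃ e' ∈ N, e' * e' = e' ∧ e' * a = a * e' ∧ ‖e' - a‖ < ε ∧
        ‖e' - e‖ < ε ∧ ∃ x y : A, x * y = e' ∧ y * x = e := by
  set C : ℝ := 2 * M + ‖(1 : A)‖ + 1 with hC
  have hCpos : 0 < C := by have := norm_nonneg (1 : A); linarith only [hM, this]
  set ε' : ℝ := min (ε / 2) (1 / (2 * C)) with hε'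
  have hε'pos : 0 < ε' := lt_min (by linarith only [hε]) (by positivity)
  obtain ⟨δ₀, hδ₀, H⟩ := Vale.Agent.P212.exists_idem_near_set (A := A) (M + 1) ε' (by linarith only [hM])
    hε'pos
  set δ : ℝ := min (δ₀ / (2 * M + 2)) (min ε' 1) with hδ
  have hδpos : 0 < δ := lt_min (by positivity) (lt_min hε'pos one_pos)
  have d1 : δ ≤ δ₀ / (2 * M + 2) := min_le_left _ _
  have d2 : δ ≤ ε' := (min_le_right _ _).trans (min_le_left _ _)
  have d3 : δ ≤ 1 := (min_le_right _ _).trans (min_le_right _ _)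
  have d4 : ε' ≤ ε / 2 := min_le_left _ _
  have d5 : ε' ≤ 1 / (2 * C) := min_le_right _ _
  refine ⟨δ, hδpos, fun N hN e he heM a haN hea => ?_⟩
  have hae : ‖a - e‖ < δ := by rw [norm_sub_rev]; exact hea
  have haM : ‖a‖ ≤ M + 1 := by
    have : ‖a‖ ≤ ‖a - e‖ + ‖e‖ := by
      have := norm_add_le (a - e) e
      rwa [sub_add_cancel] at this
    linarith only [d3, heM, hae, this]
  have hidem : ‖a * a - a‖ < δ₀ := by
    have h1 : a * a - a = (a - e) * a + e * (a - e) - (a - e) := by
      have : (a - e) * a + e * (a - e) - (a - e) = a * a - e * e - a + e := by noncomm_ring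
      rw [this, he]; abel
    have h2 : ‖a * a - a‖ ≤ ‖a - e‖ * ‖a‖ + ‖e‖ * ‖a - e‖ + ‖a - e‖ := by
      rw [h1]
      calc _ ≤ ‖(a - e) * a + e * (a - e)‖ + ‖a - e‖ := norm_sub_le _ _
        _ ≤ (‖(a - e) * a‖ + ‖e * (a - e)‖) + ‖a - e‖ := by gcongr; exact norm_add_le _ _
        _ ≤ _ := by gcongr <;> exact norm_mul_le _ _
    have h3 : ‖a - e‖ * ‖a‖ + ‖e‖ * ‖a - e‖ + ‖a - e‖ ≤ ‖a - e‖ * (2 * M + 2) := by
      have := norm_nonneg (a - e)
      nlinarith only [heM, this, haM]
    have h4 : ‖a - e‖ * (2 * M + 2) < δ₀ := by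
      have : ‖a - e‖ < δ₀ / (2 * M + 2) := lt_of_lt_of_le hae d1
      rwa [lt_div_iff₀ (by linarith only [hM])] at this
    linarith only [h2, h3, h4]
  obtain ⟨e', he'N, he', he'a⟩ := H ((N : Set A) ∩ {z | z * a = a * z})
    (hN.inter (isClosed_eq (by fun_prop) (by fun_prop)))
    (by
      rintro z ⟨hz1, hz2⟩
      have hz2' : z * a = a * z := hz2
      refine ⟨?_, ?_⟩
      · unfold Vale.Agent.P212.newton
        have h2 := N.mul_mem hz1 hz1
        have h3 := N.mul_mem h2 hz1
        exact N.sub_mem (N.sub_mem (N.add_mem (N.add_mem h2 h2) h2) h3) h3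
      · have hc : Commute z a := hz2'
        show Commute (Vale.Agent.P212.newton z) a
        unfold Vale.Agent.P212.newton
        have c2 : Commute (z * z) a := hc.mul_left hc
        have c3 : Commute (z * z * z) a := c2.mul_left hc
        exact (((c2.add_left c2).add_left c2).sub_left c3).sub_left c3)
    a ⟨haN, rfl⟩ haM hidem
  have hdist : ‖e' - e‖ < ε' + δ := by
    calc ‖e' - e‖ = ‖(e' - a) + (a - e)‖ := by congr 1; abel
      _ ≤ ‖e' - a‖ + ‖a - e‖ := norm_add_le _ _
      _ < ε' + δ := by linarith only [hae, he'a]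
  refine ⟨e', he'N.1, he', he'N.2, by linarith only [hε'pos, d4, he'a], by linarith only [d2, d4, hdist], ?_⟩
  have hclose : ‖2 * e - 1‖ * ‖e - e'‖ < 1 := by
    have h1 : ‖2 * e - 1‖ ≤ C := by
      have h2 : (2 : A) * e = e + e := by rw [two_mul]
      calc ‖2 * e - 1‖ ≤ ‖2 * e‖ + ‖(1 : A)‖ := norm_sub_le _ _
        _ ≤ (‖e‖ + ‖e‖) + ‖(1 : A)‖ := by rw [h2]; gcongr; exact norm_add_le _ _
        _ ≤ C := by rw [hC]; linarith only [heM]
    have h3 : ‖e - e'‖ < 1 / C := by
      rw [norm_sub_rev]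
      have : 1 / (2 * C) + 1 / (2 * C) = 1 / C := by field_simp; norm_num
      linarith only [d2, d5, hdist, this]
    calc ‖2 * e - 1‖ * ‖e - e'‖ ≤ C * ‖e - e'‖ := by gcongr
      _ < C * (1 / C) := by (clear * - h3 hM; gcongr)
      _ = 1 := by field_simp
  obtain ⟨x, y, h1, h2⟩ := Vale.Agent.P212.mvn_of_close he he' hclose
  exact ⟨y, x, h2, h1⟩

end Vale.Agent.P089.Asm
end
end

section

section

/-! Murray-von Neumann equivalence of idempotent matrices. -/

namespace Vale.Agent.P212

open Matrix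

section MvN

variable {R : Type} [Ring R] {ι κ ι' κ' μ : Type} [Fintype ι] [Fintype κ] [Fintype ι'] [Fintype κ']
  [Fintype μ]

theorem MvN.refl {e : Matrix ι ι R} (h : e * e = e) : MvN e e := ⟨e, e, h, h⟩

theorem MvN.symm {e : Matrix ι ι R} {f : Matrix κ κ R} (h : MvN e f) : MvN f e := by
  obtain ⟨x, y, h1, h2⟩ := h
  exact ⟨y, x, h2, h1⟩

theorem MvN.trans {e : Matrix ι ι R} {f : Matrix κ κ R} {g : Matrix μ μ R}
    (he : e * e = e) (hg : g * g = g) (h : MvN e f) (h' : MvN f g) : MvN e g := by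
  obtain ⟨x, y, h1, h2⟩ := h
  obtain ⟨z, w, h3, h4⟩ := h'
  refine ⟨x * z, w * y, ?_, ?_⟩
  · rw [Matrix.mul_assoc, ← Matrix.mul_assoc z, h3, ← h2, Matrix.mul_assoc y x y,
      ← Matrix.mul_assoc x, h1, he]
  · rw [Matrix.mul_assoc, ← Matrix.mul_assoc y, h2, ← h3, Matrix.mul_assoc z w z,
      ← Matrix.mul_assoc w, h4, hg]

theorem MvN.submatrix {e : Matrix ι ι R} (he : e * e = e) (σ : κ ≃ ι) :
    MvN (e.submatrix σ σ) e := by
  classical
  refine ⟨e.submatrix σ id, e.submatrix id σ, ?_, ?_⟩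
  · have := submatrix_mul_equiv e e (σ : κ → ι) (Equiv.refl ι) (σ : κ → ι)
    rw [he] at this
    exact this
  · have := submatrix_mul_equiv e e (id : ι → ι) σ (id : ι → ι)
    rw [he] at this
    simpa only [submatrix_mul_equiv, submatrix_id_id] using this

theorem IdemMat.of_mvn (e : Matrix ι ι R) (h : e * e = e) : MvN (IdemMat.of e h).mat e :=
  MvN.submatrix h _

theorem IdemMat.mvn_refl (e : IdemMat R) : MvN e.mat e.mat := MvN.refl e.idem

theorem IdemMat.mvn_symm {e f : IdemMat R} (h : MvN e.mat f.mat) : MvN f.mat e.mat := h.symm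

theorem IdemMat.mvn_trans {e f g : IdemMat R} (h : MvN e.mat f.mat) (h' : MvN f.mat g.mat) :
    MvN e.mat g.mat := h.trans e.idem g.idem h'

end MvN

section Map

variable {R S : Type} [Ring R] [Ring S] {ι κ : Type} [Fintype ι] [Fintype κ]

end Map

end Vale.Agent.P212
end
end

section

section

/-! Algebraic K_0 of a ring. -/

namespace Vale.Agent.P212

/-- Equivalence of idempotent matrices. -/
instance idemSetoid (R : Type) [Ring R] : Setoid (IdemMat R) where
  r e f := MvN e.mat f.mat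
  iseqv := ⟨IdemMat.mvn_refl, IdemMat.mvn_symm, IdemMat.mvn_trans⟩

/-- The monoid of equivalence classes of idempotent matrices. -/
def V (R : Type) [Ring R] : Type := Quotient (idemSetoid R)

/-- The class of an idempotent matrix. -/
noncomputable def V.cls {R : Type} [Ring R] {ι : Type} [Fintype ι]
    (e : Matrix ι ι R) (h : e * e = e) : V R := Quotient.mk (idemSetoid R) (IdemMat.of e h)

end Vale.Agent.P212
end
end

section

section

/-! Algebraic K_0 of a ring: basic properties. -/

namespace Vale.Agent.P212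

open Matrix

section MvN

variable {R : Type} [Ring R] {ι κ ι' κ' μ : Type} [Fintype ι] [Fintype κ] [Fintype ι'] [Fintype κ']
  [Fintype μ]

theorem V.cls_mk (e : IdemMat R) : V.cls e.mat e.idem = Quotient.mk (idemSetoid R) e :=
  Quotient.sound (IdemMat.of_mvn e.mat e.idem)

theorem V.ind {P : V R → Prop} (h : ∀ (n : ℕ) (e : Matrix (Fin n) (Fin n) R) (he : e * e = e),
    P (V.cls e he)) (x : V R) : P x := by
  induction x using Quotient.inductionOn with
  | h e =>
    rw [← V.cls_mk]
    exact h _ _ _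

end MvN

section Toolkit

variable {R S T : Type} [Ring R] [Ring S] [Ring T] {ι κ ι' κ' μ : Type} [Fintype ι] [Fintype κ]
  [Fintype ι'] [Fintype κ'] [Fintype μ]

end Toolkit

end Vale.Agent.P212
end
end

section

section

/-! Reduction of `K_0` of an ideal with an approximate unit of idempotents to idempotent
matrices over the ideal. -/

namespace Vale.Agent.P212

open Matrix

section MatNorm

attribute [local instance] Matrix.linftyOpNormedRing

variable {A : Type} [NormedRing A] {ι : Type} [Fintype ι] [DecidableEq ι]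

theorem mat_norm_entry_le (M : Matrix ι ι A) (i j : ι) : ‖M i j‖ ≤ ‖M‖ := by
  have h : ‖M‖ = ((Finset.univ : Finset ι).sup fun i : ι => ∑ j : ι, ‖M i j‖₊ : NNReal) :=
    linfty_opNorm_def M
  rw [h, ← coe_nnnorm, NNReal.coe_le_coe]
  refine le_trans ?_ (Finset.le_sup (f := fun i : ι => ∑ j : ι, ‖M i j‖₊) (Finset.mem_univ i))
  exact Finset.single_le_sum (f := fun j => ‖M i j‖₊) (fun _ _ => zero_le)
    (Finset.mem_univ j)

theorem mat_norm_le_sum (M : Matrix ι ι A) : ‖M‖ ≤ ∑ i, ∑ j, ‖M i j‖ := by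
  have h : ‖M‖ = ((Finset.univ : Finset ι).sup fun i : ι => ∑ j : ι, ‖M i j‖₊ : NNReal) :=
    linfty_opNorm_def M
  have h2 : ((Finset.univ : Finset ι).sup fun i : ι => ∑ j : ι, ‖M i j‖₊ : NNReal) ≤
      ∑ i, ∑ j, ‖M i j‖₊ := by
    refine Finset.sup_le fun i _ => ?_
    exact Finset.single_le_sum (f := fun i => ∑ j : ι, ‖M i j‖₊) (fun _ _ => zero_le)
      (Finset.mem_univ i)
  rw [h]
  calc (((Finset.univ : Finset ι).sup fun i : ι => ∑ j : ι, ‖M i j‖₊ : NNReal) : ℝ)
      ≤ ((∑ i, ∑ j, ‖M i j‖₊ : NNReal) : ℝ) := NNReal.coe_le_coe.2 h2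
    _ = ∑ i, ∑ j, ‖M i j‖ := by push_cast; rfl

theorem mat_complete [CompleteSpace A] : @CompleteSpace (Matrix ι ι A)
    (@PseudoMetricSpace.toUniformSpace _ SeminormedRing.toPseudoMetricSpace) := by
  refine Metric.complete_of_cauchySeq_tendsto fun u hu => ?_
  have h : ∀ i j, ∃ a, Filter.Tendsto (fun n => u n i j) Filter.atTop (nhds a) := by
    intro i j
    apply cauchySeq_tendsto_of_complete
    rw [Metric.cauchySeq_iff] at hu ⊢
    intro ε hε
    obtain ⟨N, hN⟩ := hu ε hε
    refine ⟨N, fun m hm n hn => ?_⟩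
    refine lt_of_le_of_lt ?_ (hN m hm n hn)
    rw [dist_eq_norm, dist_eq_norm]
    exact mat_norm_entry_le (u m - u n) i j
  choose a ha using h
  refine ⟨Matrix.of a, ?_⟩
  rw [tendsto_iff_norm_sub_tendsto_zero]
  have h1 : Filter.Tendsto (fun n => ∑ i, ∑ j, ‖u n i j - a i j‖) Filter.atTop (nhds 0) := by
    have h2 : (0 : ℝ) = ∑ _i : ι, ∑ _j : ι, 0 := by simp only [Finset.sum_const_zero]
    rw [h2]
    refine tendsto_finsetSum _ fun i _ => tendsto_finsetSum _ fun j _ => ?_
    exact tendsto_iff_norm_sub_tendsto_zero.1 (ha i j)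
  refine squeeze_zero (fun _ => norm_nonneg _) (fun n => ?_) h1
  exact mat_norm_le_sum (u n - Matrix.of a)

end MatNorm

section Main

attribute [local instance] Matrix.linftyOpNormedRing

end Main

section Reduce

end Reduce

end Vale.Agent.P212
end
end

section

section

/-!
# P089, assembly layer: the abstract trace estimate
-/

namespace Vale.Agent.P089.Asm

open Matrix NNReal Vale.Agent.P212

section MatNorm

attribute [local instance] Matrix.linftyOpNormedRing

variable {B : Type} [NormedRing B] {κ : Type} [Fintype κ] [DecidableEq κ]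

/-- Matrices with entries in a subring. -/
def matS (S : Subring B) : Subring (Matrix κ κ B) where
  carrier := {x | ∀ i j, x i j ∈ S}
  mul_mem' := by
    intro x y hx hy i j
    rw [Matrix.mul_apply]
    exact sum_mem fun k _ => S.mul_mem (hx i k) (hy k j)
  one_mem' := by
    intro i j
    rw [Matrix.one_apply]
    split_ifs
    · exact S.one_mem
    · exact S.zero_mem
  add_mem' := by
    intro x y hx hy i j
    exact S.add_mem (hx i j) (hy i j)
  zero_mem' := fun i j => S.zero_mem
  neg_mem' := by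
    intro x hx i j
    exact S.neg_mem (hx i j)

theorem mem_matS {S : Subring B} {x : Matrix κ κ B} : x ∈ matS S ↔ ∀ i j, x i j ∈ S := Iff.rfl

theorem matS_mono {S T : Subring B} (h : S ≤ T) : (matS S : Subring (Matrix κ κ B)) ≤ matS T :=
  fun _ hx i j => h (hx i j)

theorem mat_entry_continuous (i j : κ) : Continuous fun x : Matrix κ κ B => x i j := by
  refine LipschitzWith.continuous (K := 1) (LipschitzWith.of_dist_le_mul fun x y => ?_)
  rw [dist_eq_norm, dist_eq_norm, NNReal.coe_one, one_mul]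
  exact mat_norm_entry_le (x - y) i j

theorem matS_closed (S : Subring B) (h : IsClosed (S : Set B)) :
    IsClosed ((matS S : Subring (Matrix κ κ B)) : Set (Matrix κ κ B)) := by
  have h1 : ((matS S : Subring (Matrix κ κ B)) : Set (Matrix κ κ B)) =
      ⋂ i, ⋂ j, (fun x : Matrix κ κ B => x i j) ⁻¹' (S : Set B) := by
    ext x
    simp only [Set.mem_iInter, Set.mem_preimage, SetLike.mem_coe, mem_matS]
  rw [h1]
  exact isClosed_iInter fun i => isClosed_iInter fun j => h.preimage (mat_entry_continuous i j)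

theorem mat_continuous_of {X : Type} [TopologicalSpace X] (e : X → Matrix κ κ B)
    (h : ∀ i j, Continuous fun t => e t i j) :
    @Continuous X (Matrix κ κ B) _ (@UniformSpace.toTopologicalSpace _
      (@PseudoMetricSpace.toUniformSpace _ SeminormedRing.toPseudoMetricSpace)) e := by
  refine continuous_iff_continuousAt.2 fun t => ?_
  refine tendsto_iff_norm_sub_tendsto_zero.2 ?_
  have h1 : Filter.Tendsto (fun s => ∑ i, ∑ j, ‖e s i j - e t i j‖) (nhds t) (nhds 0) := by
    have h2 : (0 : ℝ) = ∑ _i : κ, ∑ _j : κ, 0 := by simp only [Finset.sum_const_zero]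
    rw [h2]
    refine tendsto_finsetSum _ fun i _ => tendsto_finsetSum _ fun j _ => ?_
    exact tendsto_iff_norm_sub_tendsto_zero.1 ((h i j).tendsto t)
  refine squeeze_zero (fun _ => norm_nonneg _) (fun s => ?_) h1
  exact mat_norm_le_sum (e s - e t)

theorem mat_norm_le_const (M : Matrix κ κ B) (c : ℝ) (h : ∀ i j, ‖M i j‖ ≤ c) :
    ‖M‖ ≤ Fintype.card κ * (Fintype.card κ * c) := by
  refine (mat_norm_le_sum M).trans ?_
  refine (Finset.sum_le_sum fun i _ => Finset.sum_le_sum fun j _ => h i j).trans ?_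
  rw [Finset.sum_const, Finset.sum_const, Finset.card_univ, nsmul_eq_mul, nsmul_eq_mul]

theorem matS_dense (S : ℕ → Subring B) (hmono : Monotone S)
    (hd : ∀ x : B, ∀ ε > 0, ∃ k, ∃ y ∈ S k, ‖x - y‖ < ε) (x : Matrix κ κ B) (ε : ℝ)
    (hε : 0 < ε) : ∃ k, ∃ y ∈ (matS (S k) : Subring (Matrix κ κ B)), ‖x - y‖ < ε := by
  classical
  set c : ℝ := ε / (2 * (Fintype.card κ * Fintype.card κ + 1)) with hc
  have hc0 : 0 < c := by positivity
  choose k y hy hxy using fun p : κ × κ => hd (x p.1 p.2) c hc0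
  refine ⟨Finset.univ.sup k, Matrix.of fun i j => y (i, j), fun i j => ?_, ?_⟩
  · exact hmono (Finset.le_sup (Finset.mem_univ (i, j))) (hy (i, j))
  · refine (mat_norm_le_const _ c fun i j => (hxy (i, j)).le).trans_lt ?_
    have h1 : (Fintype.card κ : ℝ) * (Fintype.card κ * c) =
        (Fintype.card κ * Fintype.card κ) * c := by ring
    rw [h1, hc, mul_div_assoc', div_lt_iff₀ (by (clear * -; positivity))]
    have h2 : (0 : ℝ) ≤ (Fintype.card κ * Fintype.card κ : ℝ) := by positivity
    nlinarith only [hε]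

/-- Adding blocks to an equivalence. -/
theorem mvn_blocks {n : ℕ} {e f : Matrix (Fin n) (Fin n) B} (c : Matrix (Fin 1) (Fin 1) B)
    (hc : c * c = c) (m : ℕ) (h : ∃ x y, x * y = e ∧ y * x = f) :
    ∃ x y : Matrix ((Fin n ⊕ Fin 1) ⊕ Fin m) ((Fin n ⊕ Fin 1) ⊕ Fin m) B,
      x * y = fromBlocks (fromBlocks e 0 0 c) 0 0 1 ∧
      y * x = fromBlocks (fromBlocks f 0 0 c) 0 0 1 := by
  obtain ⟨x, y, h1, h2⟩ := h
  refine ⟨fromBlocks (fromBlocks x 0 0 c) 0 0 1, fromBlocks (fromBlocks y 0 0 c) 0 0 1, ?_, ?_⟩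
  · simp only [fromBlocks_multiply, h1, Matrix.mul_zero, add_zero, Matrix.zero_mul, hc, zero_add, Matrix.mul_one, mul_one]
  · simp only [fromBlocks_multiply, h2, Matrix.mul_zero, add_zero, Matrix.zero_mul, hc, zero_add, Matrix.mul_one, mul_one]

theorem idem_blocks {n : ℕ} {e : Matrix (Fin n) (Fin n) B} (he : e * e = e)
    (c : Matrix (Fin 1) (Fin 1) B) (hc : c * c = c) (m : ℕ) :
    (fromBlocks (fromBlocks e 0 0 c) 0 0 1 :
      Matrix ((Fin n ⊕ Fin 1) ⊕ Fin m) ((Fin n ⊕ Fin 1) ⊕ Fin m) B) *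
      fromBlocks (fromBlocks e 0 0 c) 0 0 1 = fromBlocks (fromBlocks e 0 0 c) 0 0 1 := by
  simp only [fromBlocks_multiply, he, Matrix.mul_zero, add_zero, Matrix.zero_mul, hc, zero_add, Matrix.mul_one, mul_one]

theorem blocks_mem {n : ℕ} {e : Matrix (Fin n) (Fin n) B} {c : Matrix (Fin 1) (Fin 1) B}
    (S : Subring B) (he : e ∈ (matS S : Subring (Matrix (Fin n) (Fin n) B)))
    (hc : ∀ i j, c i j ∈ S) (m : ℕ) :
    (fromBlocks (fromBlocks e 0 0 c) 0 0 1 :
      Matrix ((Fin n ⊕ Fin 1) ⊕ Fin m) ((Fin n ⊕ Fin 1) ⊕ Fin m) B) ∈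
      (matS S : Subring (Matrix ((Fin n ⊕ Fin 1) ⊕ Fin m) ((Fin n ⊕ Fin 1) ⊕ Fin m) B)) := by
  rintro ((i | i) | i) ((j | j) | j)
  · exact he i j
  · exact S.zero_mem
  · exact S.zero_mem
  · exact S.zero_mem
  · exact hc i j
  · exact S.zero_mem
  · exact S.zero_mem
  · exact S.zero_mem
  · show (1 : Matrix (Fin m) (Fin m) B) i j ∈ S
    rw [Matrix.one_apply]
    split_ifs
    · exact S.one_mem
    · exact S.zero_mem

/-- The trace property on matrices. -/
theorem tr_comm (S : Subring B) (τ : B →+ ℂ)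
    (hτ : ∀ x ∈ S, ∀ y ∈ S, τ (x * y) = τ (y * x)) (x y : Matrix κ κ B)
    (hx : x ∈ (matS S : Subring (Matrix κ κ B))) (hy : y ∈ (matS S : Subring (Matrix κ κ B))) :
    ∑ i, τ ((x * y) i i) = ∑ i, τ ((y * x) i i) := by
  simp only [Matrix.mul_apply, map_sum]
  rw [Finset.sum_comm]
  refine Finset.sum_congr rfl fun i _ => Finset.sum_congr rfl fun j _ => ?_
  exact hτ _ (hx j i) _ (hy i j)

theorem tr_blocks {n : ℕ} (e : Matrix (Fin n) (Fin n) B) (c : Matrix (Fin 1) (Fin 1) B) (m : ℕ)
    (τ : B →+ ℂ) (h1 : τ 1 = 0) :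
    ∑ i, τ ((fromBlocks (fromBlocks e 0 0 c) 0 0 1 :
      Matrix ((Fin n ⊕ Fin 1) ⊕ Fin m) ((Fin n ⊕ Fin 1) ⊕ Fin m) B) i i) =
      ∑ i, τ (e i i) + τ (c 0 0) := by
  rw [Fintype.sum_sum_type, Fintype.sum_sum_type]
  simp only [fromBlocks_apply₁₁, Finset.univ_unique, Fin.default_eq_zero, Fin.isValue, fromBlocks_apply₂₂, Finset.sum_singleton, one_apply_eq, h1, Finset.sum_const_zero, add_zero]

/-- One half of the estimate: a path of idempotents which is approximated by elements of bounded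
filtration degree has small traces. -/
theorem half_estimate [NormedAlgebra ℂ B] [CompleteSpace B]
    (S : ℕ → Subring B) (hScl : ∀ k, IsClosed (S k : Set B))
    (fil : ℕ → Submodule ℂ B) (hfmono : Monotone fil) (hf1 : (1 : B) ∈ fil 0)
    (hfmul : ∀ i j, ∀ x ∈ fil i, ∀ y ∈ fil j, x * y ∈ fil (i + j))
    {n : ℕ} (e : ℝ≥0 → Matrix (Fin n) (Fin n) B) (he : ∀ t, e t * e t = e t)
    (hec : ∀ i j, Continuous fun t => e t i j)
    (M : ℝ) (hM : 1 ≤ M) (hbd : ∀ t, ‖e t‖ ≤ M) (h1M : ‖(1 : Matrix (Fin n) (Fin n) B)‖ ≤ M + 1)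
    (R : ℕ)
    (heR : ∀ ε > 0, ∃ t k, ∃ a : Matrix (Fin n) (Fin n) B,
      ∀ i j, a i j ∈ S k ∧ a i j ∈ fil R ∧ ‖e t i j - a i j‖ < ε) (η : ℝ) (hη : 0 < η) :
    ∃ k, ∃ e' ∈ (matS (S k) : Subring (Matrix (Fin n) (Fin n) B)), e' * e' = e' ∧
      (∃ x y, x * y = e' ∧ y * x = e 0) ∧ ∀ (τ : B →L[ℂ] ℂ) (k' L : ℕ), k ≤ k' → Monotone S →
        (∀ x ∈ S k', x ∈ fil L → τ x = 0) → ∀ m : ℕ, (2 * m + 1) * R ≤ L →
        ‖∑ i, τ (e' i i)‖ ≤ n * (‖τ‖ * η ^ (m + 1)) := by
  classical
  have hcomplete := mat_complete (A := B) (ι := Fin n)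
  obtain ⟨C, hC, hstep⟩ := stepPoly_near (A := Matrix (Fin n) (Fin n) B) (M + 1) (by linarith only [hM])
  set ε : ℝ := min 1 (η / C) with hε
  have hε0 : 0 < ε := lt_min one_pos (by (clear * - hη hC; positivity))
  obtain ⟨δ, hδ, hidem⟩ := exists_idem_comm (A := Matrix (Fin n) (Fin n) B) M ε (by linarith only [hM]) hε0
  set δ' : ℝ := δ / (2 * (n * n + 1)) with hδ'
  obtain ⟨t, k, a, ha⟩ := heR δ' (by (clear * - hδ; positivity))
  have hea : ‖e t - a‖ < δ := by
    refine (mat_norm_le_const _ δ' fun i j => (ha i j).2.2.le).trans_lt ?_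
    rw [Fintype.card_fin, hδ', mul_div_assoc', mul_div_assoc', div_lt_iff₀ (by positivity)]
    have h2 : (0 : ℝ) ≤ (n * n : ℝ) := by (clear * -; positivity)
    nlinarith only [hδ]
  obtain ⟨e', he'S, he'i, he'c, he'a, he'e, x, y, hxy, hyx⟩ :=
    hidem (matS (S k)) (matS_closed _ (hScl k)) (e t) (he t) (hbd t) a (fun i j => (ha i j).1) hea
  refine ⟨k, e', he'S, he'i, ?_, ?_⟩
  · obtain ⟨u, v, huv, hvu⟩ := path_equiv e he (mat_continuous_of e hec) t
    exact mvn_trans he'i (he t) (he 0) ⟨x, y, hxy, hyx⟩ ⟨v, u, hvu, huv⟩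
  · intro τ k' L hk hmono hvan m hm
    have hmem := stepPoly_mem (S k) fil hfmono hf1 hfmul R m a fun i j => ⟨(ha i j).1, (ha i j).2.1⟩
    have hz : ∀ i, τ (stepPoly m a i i) = 0 := fun i =>
      hvan _ (hmono hk (hmem i i).1) (hfmono hm (hmem i i).2)
    have he'M : ‖e'‖ ≤ M + 1 := by
      have h1 := norm_add_le (e' - e t) (e t)
      rw [sub_add_cancel] at h1
      have h2 : ε ≤ 1 := min_le_left _ _
      linarith only [he'e, h1, h2, hbd t]
    have h3 := hstep e' a he'i he'c he'M (he'a.le.trans (min_le_left _ _)) h1M m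
    have h4 : C * ‖e' - a‖ ≤ η := by
      have h5 : ‖e' - a‖ ≤ η / C := he'a.le.trans (min_le_right _ _)
      calc C * ‖e' - a‖ ≤ C * (η / C) := by (clear * - h5 hC; gcongr)
        _ = η := by field_simp
    have h6 : ‖e' - stepPoly m a‖ ≤ η ^ (m + 1) :=
      h3.trans (pow_le_pow_left₀ (by (clear * - hC; positivity)) h4 _)
    have h7 : ∑ i, τ (e' i i) = ∑ i, τ ((e' - stepPoly m a) i i) := by
      refine Finset.sum_congr rfl fun i _ => ?_
      rw [Matrix.sub_apply, map_sub, hz i, sub_zero]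
    rw [h7]
    refine (norm_sum_le _ _).trans ?_
    refine (Finset.sum_le_sum fun i _ => (?_ : _ ≤ ‖τ‖ * η ^ (m + 1))).trans ?_
    · refine (τ.le_opNorm _).trans ?_
      gcongr
      exact (mat_norm_entry_le _ i i).trans h6
    · rw [Finset.sum_const, Finset.card_univ, Fintype.card_fin, nsmul_eq_mul]

theorem exp_contra (K : ℝ) (R : ℕ) (hR : 0 < R) :
    ∃ η : ℝ, 0 < η ∧ ∀ A : ℝ, ∃ L₀ : ℕ, ∀ L ≥ L₀, ∃ m : ℕ, (2 * m + 1) * R ≤ L ∧
      A * η ^ (m + 1) < Real.exp (-K * L) := by
  refine ⟨Real.exp (-(4 * R * (|K| + 1))), Real.exp_pos _, fun A => ?_⟩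
  obtain ⟨L₁, hL₁⟩ := exists_nat_ge (2 * (|K| + 1) * R + |A|)
  refine ⟨max R L₁, fun L hL => ?_⟩
  have hLR : R ≤ L := (le_max_left _ _).trans hL
  have hL1 : L₁ ≤ L := (le_max_right _ _).trans hL
  set u : ℕ := L / R with hu
  have hu1 : 1 ≤ u := (Nat.one_le_div_iff hR).mpr hLR
  have huR : u * R ≤ L := Nat.div_mul_le_self L R
  have huR' : L < (u + 1) * R := by
    rw [hu, Nat.add_mul, one_mul]
    exact Nat.lt_div_mul_add hR
  refine ⟨(u - 1) / 2, ?_, ?_⟩
  · have h1 : 2 * ((u - 1) / 2) + 1 ≤ u := by omega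
    exact (Nat.mul_le_mul_right R h1).trans huR
  · set m : ℕ := (u - 1) / 2 with hm
    have h1 : u ≤ 2 * (m + 1) := by omega
    have h2 : (L : ℝ) - R ≤ 2 * (m + 1) * R := by
      have h3 : L < (2 * (m + 1) + 1) * R :=
        huR'.trans_le (Nat.mul_le_mul_right R (by omega))
      have h4 : (L : ℝ) < (2 * (m + 1) + 1) * R := by exact_mod_cast h3
      linarith only [h4]
    have hK : 0 ≤ |K| := abs_nonneg K
    have h5 : Real.exp (-(4 * R * (|K| + 1))) ^ (m + 1) ≤
        Real.exp (-(2 * (|K| + 1) * (L - R))) := by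
      rw [← Real.exp_nat_mul, Real.exp_le_exp]
      push_cast
      nlinarith only [h2, hK]
    have h6 : A ≤ |A| := le_abs_self A
    have h7 : |A| < Real.exp (2 * (|K| + 1) * (L - R) - K * L) := by
      have h8 := Real.add_one_le_exp (2 * (|K| + 1) * (L - R) - K * L)
      have h9 : K * L ≤ |K| * L := mul_le_mul_of_nonneg_right (le_abs_self K) (Nat.cast_nonneg L)
      have h10 : (2 * (|K| + 1) * R + |A|) ≤ L := hL₁.trans (by exact_mod_cast hL1)
      have h11 : 0 ≤ (|K| + 1) * (L : ℝ) := by (clear * -; positivity)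
      nlinarith only [h8, h9, h10, h11]
    have h8 : 0 < Real.exp (-(2 * (|K| + 1) * (L - R))) := Real.exp_pos _
    calc A * Real.exp (-(4 * R * (|K| + 1))) ^ (m + 1)
        ≤ |A| * Real.exp (-(4 * R * (|K| + 1))) ^ (m + 1) := by (clear * - h6; gcongr)
      _ ≤ |A| * Real.exp (-(2 * (|K| + 1) * (L - R))) := by (clear * - h5; gcongr)
      _ < Real.exp (2 * (|K| + 1) * (L - R) - K * L) * Real.exp (-(2 * (|K| + 1) * (L - R))) := by
          (clear * - h7; gcongr)
      _ = Real.exp (-K * L) := by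
          rw [← Real.exp_add]
          congr 1
          ring

/-- Abstract form of the trace estimate. `B` is the unitization of `C*_r(G) ⊗ 𝒦`, `S k` the
matrices of size `k` over `C*_r(G)` (plus scalars), `fil R` the elements of propagation at most
`R`; `e`, `f` are paths of idempotents coming from the localization algebra. -/
theorem abstract_trace_estimate {B : Type} [NormedRing B] [NormedAlgebra ℂ B] [CompleteSpace B]
    (S : ℕ → Subalgebra ℂ B) (hScl : ∀ k, IsClosed (S k : Set B)) (hSmono : Monotone S)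
    (hSdense : ∀ x : B, ∀ ε > 0, ∃ k, ∃ y ∈ S k, ‖x - y‖ < ε)
    (fil : ℕ → Submodule ℂ B) (hfmono : Monotone fil) (hf1 : (1 : B) ∈ fil 0)
    (hfmul : ∀ i j, ∀ x ∈ fil i, ∀ y ∈ fil j, x * y ∈ fil (i + j))
    (P : B) (k₀ : ℕ) (hP : P ∈ S k₀) (hPP : P * P = P)
    {n : ℕ} (e f : ℝ≥0 → Matrix (Fin n) (Fin n) B)
    (he : ∀ t, e t * e t = e t) (hf : ∀ t, f t * f t = f t)
    (hec : ∀ i j, Continuous fun t => e t i j) (hfc : ∀ i j, Continuous fun t => f t i j)
    (hbd : ∃ M : ℝ, ∀ t i j, ‖e t i j‖ ≤ M ∧ ‖f t i j‖ ≤ M)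
    (R : ℕ)
    (heR : ∀ ε > 0, ∃ t k, ∃ a : Matrix (Fin n) (Fin n) B,
      ∀ i j, a i j ∈ S k ∧ a i j ∈ fil R ∧ ‖e t i j - a i j‖ < ε)
    (hfR : ∀ ε > 0, ∃ t k, ∃ a : Matrix (Fin n) (Fin n) B,
      ∀ i j, a i j ∈ S k ∧ a i j ∈ fil R ∧ ‖f t i j - a i j‖ < ε)
    (hsame : ∃ (m : ℕ) (x y : Matrix ((Fin n ⊕ Fin 1) ⊕ Fin m) ((Fin n ⊕ Fin 1) ⊕ Fin m) B),
      x * y = fromBlocks (fromBlocks (e 0) 0 0 0) 0 0 1 ∧
      y * x = fromBlocks (fromBlocks (f 0) 0 0 (of fun _ _ => P)) 0 0 1)
    (C : ℕ → ℝ) (K : ℝ)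
    (htr : ∀ L₀ : ℕ, ∃ L ≥ L₀, ∃ τ : ℕ → B →L[ℂ] ℂ, (∀ k, ‖τ k‖ ≤ C k) ∧
      (∀ k, ∀ x ∈ S k, ∀ y ∈ S k, τ k (x * y) = τ k (y * x)) ∧
      (∀ k, ∀ x ∈ S k, x ∈ fil L → τ k x = 0) ∧
      ∀ k ≥ k₀, Real.exp (-K * L) ≤ ‖τ k P‖) : False := by
  classical
  obtain ⟨M₀, hM₀⟩ := hbd
  set M : ℝ := max 1 (max ‖(1 : Matrix (Fin n) (Fin n) B)‖ (n * (n * M₀))) with hMdef
  have hM1 : 1 ≤ M := le_max_left _ _
  have hMone : ‖(1 : Matrix (Fin n) (Fin n) B)‖ ≤ M + 1 := by
    have h1 : ‖(1 : Matrix (Fin n) (Fin n) B)‖ ≤ M :=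
      (le_max_left _ _).trans (le_max_right _ _)
    linarith
  have heM : ∀ t, ‖e t‖ ≤ M := fun t => by
    refine (mat_norm_le_const _ M₀ fun i j => (hM₀ t i j).1).trans ?_
    rw [Fintype.card_fin]
    exact (le_max_right _ _).trans (le_max_right _ _)
  have hfM : ∀ t, ‖f t‖ ≤ M := fun t => by
    refine (mat_norm_le_const _ M₀ fun i j => (hM₀ t i j).2).trans ?_
    rw [Fintype.card_fin]
    exact (le_max_right _ _).trans (le_max_right _ _)
  set T : ℕ → Subring B := fun k => (S k).toSubring with hT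
  have hTcl : ∀ k, IsClosed (T k : Set B) := hScl
  have hTmono : Monotone T := fun i j h x hx => hSmono h hx
  obtain ⟨η, hη, hexp⟩ := exp_contra K (R + 1) (Nat.succ_pos R)
  have hup : ∀ {g : ℝ≥0 → Matrix (Fin n) (Fin n) B}, (∀ ε > 0, ∃ t k,
      ∃ a : Matrix (Fin n) (Fin n) B, ∀ i j, a i j ∈ S k ∧ a i j ∈ fil R ∧
        ‖g t i j - a i j‖ < ε) → ∀ ε > 0, ∃ t k, ∃ a : Matrix (Fin n) (Fin n) B,
      ∀ i j, a i j ∈ T k ∧ a i j ∈ fil (R + 1) ∧ ‖g t i j - a i j‖ < ε := by
    intro g hg ε hε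
    obtain ⟨t, k, a, ha⟩ := hg ε hε
    exact ⟨t, k, a, fun i j => ⟨(ha i j).1, hfmono (Nat.le_succ R) (ha i j).2.1, (ha i j).2.2⟩⟩
  obtain ⟨k₁, e', he'S, he'i, he'e, hest1⟩ := half_estimate T hTcl fil hfmono hf1 hfmul e he hec
    M hM1 heM hMone (R + 1) (hup heR) η hη
  obtain ⟨k₂, f', hf'S, hf'i, hf'f, hest2⟩ := half_estimate T hTcl fil hfmono hf1 hfmul f hf hfc
    M hM1 hfM hMone (R + 1) (hup hfR) η hη
  obtain ⟨m, x, y, hxy, hyx⟩ := hsame
  -- equivalences over `B`
  set c : Matrix (Fin 1) (Fin 1) B := of fun _ _ => P with hc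
  have hcc : c * c = c := by
    ext i j
    rw [Matrix.mul_apply, Fin.sum_univ_one]
    exact hPP
  have h00 : (0 : Matrix (Fin 1) (Fin 1) B) * 0 = 0 := by simp
  have hE := mvn_blocks 0 h00 m he'e
  have hF := mvn_blocks c hcc m hf'f
  have hiE := idem_blocks he'i 0 h00 m
  have hiF := idem_blocks hf'i c hcc m
  have hiE0 := idem_blocks (he 0) 0 h00 m
  have hiF0 := idem_blocks (hf 0) c hcc m
  have hEF := mvn_trans hiE hiF0 hiF (mvn_trans hiE hiE0 hiF0 hE ⟨x, y, hxy, hyx⟩)
    (by obtain ⟨u, v, h1, h2⟩ := hF; exact ⟨v, u, h2, h1⟩)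
  -- descent to a subalgebra
  have hcomplete := mat_complete (A := B) (ι := (Fin n ⊕ Fin 1) ⊕ Fin m)
  set k₃ : ℕ := max (max k₁ k₂) k₀ with hk₃
  have hk1 : k₁ ≤ k₃ := (le_max_left _ _).trans (le_max_left _ _)
  have hk2 : k₂ ≤ k₃ := (le_max_right _ _).trans (le_max_left _ _)
  have hk0 : k₀ ≤ k₃ := le_max_right _ _
  obtain ⟨k', hk', x', hx', y', hy', hxy', hyx'⟩ := mvn_descend
    (fun k => (matS (T k) : Subring (Matrix ((Fin n ⊕ Fin 1) ⊕ Fin m) _ B)))
    (fun k => matS_closed _ (hTcl k)) (fun i j h => matS_mono (hTmono h))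
    (fun z ε hε => matS_dense T hTmono hSdense z ε hε) _ _ hiE hiF k₃
    (blocks_mem (T k₃) (fun i j => hTmono hk1 (he'S i j)) (fun _ _ => (T k₃).zero_mem) m)
    (blocks_mem (T k₃) (fun i j => hTmono hk2 (hf'S i j)) (fun _ _ => hSmono hk0 hP) m) hEF
  -- the numerical contradiction
  obtain ⟨L₀, hL₀⟩ := hexp (2 * (n * (C k')) + 0)
  obtain ⟨L, hL, τ, hτC, hτtr, hτvan, hτP⟩ := htr L₀
  obtain ⟨j, hjL, hj⟩ := hL₀ L hL
  have hτ1 : (τ k' : B →L[ℂ] ℂ) 1 = 0 :=
    hτvan k' 1 (S k').one_mem (hfmono (Nat.zero_le L) hf1)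
  have htrace := tr_comm (T k') ((τ k' : B →L[ℂ] ℂ) : B →+ ℂ) (fun a ha b hb => hτtr k' a ha b hb)
    x' y' hx' hy'
  rw [hxy', hyx', tr_blocks _ _ _ _ hτ1, tr_blocks _ _ _ _ hτ1] at htrace
  have hPval : (τ k' P : ℂ) = ∑ i, τ k' (e' i i) - ∑ i, τ k' (f' i i) := by
    have h1 : ∑ i, τ k' (e' i i) + τ k' 0 = ∑ i, τ k' (f' i i) + τ k' P := htrace
    rw [map_zero, add_zero] at h1
    rw [h1]
    ring
  have h1 := hest1 (τ k') k' L (hk1.trans hk') hTmono (hτvan k') j hjL
  have h2 := hest2 (τ k') k' L (hk2.trans hk') hTmono (hτvan k') j hjL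
  have h3 := hτP k' (hk0.trans hk')
  rw [hPval] at h3
  have h4 := norm_sub_le (∑ i, τ k' (e' i i)) (∑ i, τ k' (f' i i))
  have h5 : (n : ℝ) * (‖τ k'‖ * η ^ (j + 1)) ≤ n * (C k' * η ^ (j + 1)) := by
    gcongr
    exact hτC k'
  linarith only [hj, h1, h2, h3, h4, h5]

end MatNorm

end Vale.Agent.P089.Asm
end
end

section

section

/-!
# P089, block 2: the hypotheses A1, A3, A4, PP of part B (helper482)
-/

namespace Vale.Agent.P089

variable {q : ℕ} {F : Fam q} {K : ℕ}

theorem Monster.a1 (M : Monster F K) (hK : 20 ≤ K) (hc : F.Coloured K) {D c e : ℕ}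
    (he : F.Expander D c e) : M.A1 :=
  fun _ _ _ hy hz => M.exists_geo hK hc he hy hz

theorem Monster.a4 (M : Monster F K) (hK : 20 ≤ K) (hc : F.Coloured K) {D c e : ℕ}
    (he : F.Expander D c e) : M.A4 := by
  classical
  intro x β w L hP hnd hcount
  refine M.closed_chain hK hc he hP hnd fun m h => ?_
  have h1 := hcount m h
  have h2 : ((β :: L.map Prod.fst).filter (fun β' => M.Touch m h β')).length =
      M.ntouch m h ((β, w) :: L) := by
    have h3 : β :: L.map Prod.fst = ((β, w) :: L).map Prod.fst := rfl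
    rw [h3, List.filter_map, List.length_map]
    rfl
  rw [← h2]
  exact h1

end Vale.Agent.P089
end
end

section

section

/-! The trace formula for the group `Gam M C` (P089, Op3): final statements for the glue. -/

open scoped InnerProductSpace

namespace Vale.Agent.P089.Op

open Vale.Agent.P086 Module Filter Topology

section tfin

variable {q : ℕ} {F : Fam q} {K k : ℕ} (M : Monster F K) {C' C : Codes k F}

/-- Final form of the trace formula: the value of the trace attached to the quotient by the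
relations of `C'` at the limit `Q` is `∑ m, 2 ^ (- dim C' m)`. -/
theorem trace_conf (hqk : q ≤ k) {D c e : ℕ} (hK : 0 < K) (hC : F.Coloured K)
    (hE : F.Expander D c e) (hmono : StrictMono F.n)
    (hCC : ∀ m, C' m ≤ C m) (hpat : ∀ m, F.pat k m ∈ C' m)
    (hr1 : ∀ v ∈ M.Conf C', ∀ m h, (fun y => v (h * M.pos m y)) ∈ C' m)
    (hr2 : ∀ m h, ∀ u ∈ C' m, ∃ v ∈ M.Conf C', ∀ y, v (h * M.pos m y) = u y)
    (Φ : (Ell2 (Gam M C) →L[ℂ] Ell2 (Gam M C)) →L[ℂ] ℂ)
    (hΦ : IsTr (actN M C) (KK M C' C) Φ)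
    (a : ℕ → MonoidAlgebra ℂ (Gam M C))
    (Q : Ell2 (Gam M C) →L[ℂ] Ell2 (Gam M C))
    (hQ : Tendsto (fun j => lamA (a j)) atTop (𝓝 Q))
    (w : (NN M C →+ ZMod 2) → ℂ) (r : ℕ → ℝ) (hr0 : Tendsto r atTop (𝓝 0))
    (hr : ∀ (χ : NN M C →+ ZMod 2) (j : ℕ),
      ‖⟪dl (1 : M.G), fibA (actN M C) χ (a j) (dl 1)⟫_ℂ - w χ‖ ≤ r j)
    (hw1 : ∀ (χ : NN M C →+ ZMod 2) m h y, (1 : M.G) = h * M.pos m y →
      M.Perfect (fun x => decode (conf M C χ x)) m h → w χ = (F.n m : ℂ)⁻¹)
    (hw0 : ∀ χ : NN M C →+ ZMod 2, (∀ m h y, (1 : M.G) = h * M.pos m y →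
      ¬ M.Perfect (fun x => decode (conf M C χ x)) m h) → w χ = 0) :
    Tendsto (fun N => ∑ m ∈ Finset.range N, ((2 : ℂ) ^ finrank (ZMod 2) (C' m))⁻¹) atTop
      (𝓝 (Φ Q)) := by
  classical
  have hperf : ∀ (χ : NN M C →+ ZMod 2) m h,
      M.Perfect (fun x => decode (conf M C χ x)) m h ↔
        (fun y => conf M C χ (h * M.pos m y)) = F.pat k m := by
    intro χ m h
    rw [funext_iff]
    exact forall_congr' fun y => decode_pat_iff hqk F m y _
  have hiff : ∀ (v : Dual (ZMod 2) (NN M C)) m h,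
      v ∘ₗ placeN M C m h = dotL k q (F.n m) (F.pat k m) ↔
        M.Perfect (fun x => decode (conf M C v.toAddMonoidHom x)) m h := by
    intro v m h
    rw [comp_placeN, hperf]
    exact (dotL_injective (F.n m)).eq_iff
  refine trace_formula (actN M C) (KK M C' C) Φ hΦ F.n (fun m => by have := hE.two m; omega) hmono
    (fun m => Fin (F.n m) → Alph k q) (fun m y => placeN M C m (M.pos m y)⁻¹)
    (fun m => dotL k q (F.n m) (F.pat k m)) (fun m => finrank (ZMod 2) (C' m)) ?_ ?_ a Q hQ
    (fun v => w v.toAddMonoidHom) r hr0 (fun v _ j => hr _ j) ?_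
  · intro m y
    rw [patt_placeN M hCC hr1 hr2 m]
    exact Submodule.mem_map_of_mem (hpat m)
  · intro m y
    exact finrank_patt M hCC hr1 hr2 m _
  · intro v _
    by_cases hex : ∃ m y, M.Perfect (fun x => decode (conf M C v.toAddMonoidHom x)) m
        (M.pos m y)⁻¹
    · right
      obtain ⟨m, y, hmy⟩ := hex
      refine ⟨m, y, (hiff _ _ _).2 hmy, ?_, hw1 _ m _ y (inv_mul_cancel _).symm hmy⟩
      intro m' y' hmy'
      have h1 := (hiff _ _ _).1 hmy'
      exact perfect_unique hK hC hE h1 hmy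
        (by rw [inv_mul_cancel, inv_mul_cancel])
    · left
      push Not at hex
      refine ⟨fun m y h => hex m y ((hiff _ _ _).1 h), hw0 _ ?_⟩
      intro m h y h1 hp
      have h2 : h = (M.pos m y)⁻¹ := eq_inv_of_mul_eq_one_left h1.symm
      rw [h2] at hp
      exact hex m y hp

/-- The difference of two traces at `Q`, when only the code of type `m₁` is changed. -/
theorem trdiff_conf (hqk : q ≤ k) {D c e : ℕ} (hK : 0 < K) (hC : F.Coloured K)
    (hE : F.Expander D c e) (hmono : StrictMono F.n)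
    (hCC : ∀ m, C' m ≤ C m) (m₁ : ℕ) (hm₁ : ∀ m, m ≠ m₁ → C' m = C m)
    (hpat : ∀ m, F.pat k m ∈ C' m)
    (hr1 : ∀ v ∈ M.Conf C', ∀ m h, (fun y => v (h * M.pos m y)) ∈ C' m)
    (hr2 : ∀ m h, ∀ u ∈ C' m, ∃ v ∈ M.Conf C', ∀ y, v (h * M.pos m y) = u y)
    (hs1 : ∀ v ∈ M.Conf C, ∀ m h, (fun y => v (h * M.pos m y)) ∈ C m)
    (hs2 : ∀ m h, ∀ u ∈ C m, ∃ v ∈ M.Conf C, ∀ y, v (h * M.pos m y) = u y)
    (Φ' Φ : (Ell2 (Gam M C) →L[ℂ] Ell2 (Gam M C)) →L[ℂ] ℂ)
    (hΦ' : IsTr (actN M C) (KK M C' C) Φ') (hΦ : IsTr (actN M C) ⊥ Φ)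
    (a : ℕ → MonoidAlgebra ℂ (Gam M C))
    (Q : Ell2 (Gam M C) →L[ℂ] Ell2 (Gam M C))
    (hQ : Tendsto (fun j => lamA (a j)) atTop (𝓝 Q))
    (w : (NN M C →+ ZMod 2) → ℂ) (r : ℕ → ℝ) (hr0 : Tendsto r atTop (𝓝 0))
    (hr : ∀ (χ : NN M C →+ ZMod 2) (j : ℕ),
      ‖⟪dl (1 : M.G), fibA (actN M C) χ (a j) (dl 1)⟫_ℂ - w χ‖ ≤ r j)
    (hw1 : ∀ (χ : NN M C →+ ZMod 2) m h y, (1 : M.G) = h * M.pos m y →
      M.Perfect (fun x => decode (conf M C χ x)) m h → w χ = (F.n m : ℂ)⁻¹)
    (hw0 : ∀ χ : NN M C →+ ZMod 2, (∀ m h y, (1 : M.G) = h * M.pos m y →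
      ¬ M.Perfect (fun x => decode (conf M C χ x)) m h) → w χ = 0) :
    Φ' Q - Φ Q = ((2 : ℂ) ^ finrank (ZMod 2) (C' m₁))⁻¹ - ((2 : ℂ) ^ finrank (ZMod 2) (C m₁))⁻¹ := by
  have h1 := trace_conf M hqk hK hC hE hmono hCC hpat hr1 hr2 Φ' hΦ' a Q hQ w r hr0 hr hw1 hw0
  have hΦ0 : IsTr (actN M C) (KK M C C) Φ := by rw [KK_self]; exact hΦ
  have h2 := trace_conf M hqk hK hC hE hmono (fun m => le_refl (C m))
    (fun m => hCC m (hpat m)) hs1 hs2 Φ hΦ0 a Q hQ w r hr0 hr hw1 hw0
  have h3 := h1.sub h2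
  refine tendsto_nhds_unique h3 (tendsto_const_nhds.congr' ?_)
  filter_upwards [eventually_gt_atTop m₁] with N hN
  rw [← Finset.sum_sub_distrib, Finset.sum_eq_single m₁]
  · intro m _ hm
    rw [hm₁ m hm, sub_self]
  · intro h
    exact absurd (Finset.mem_range.2 hN) h

/-- The canonical trace at `Q` as the sum of a real series. -/
theorem trace_conf_real (hqk : q ≤ k) {D c e : ℕ} (hK : 0 < K) (hC : F.Coloured K)
    (hE : F.Expander D c e) (hmono : StrictMono F.n) (hpat : ∀ m, F.pat k m ∈ C m)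
    (hs1 : ∀ v ∈ M.Conf C, ∀ m h, (fun y => v (h * M.pos m y)) ∈ C m)
    (hs2 : ∀ m h, ∀ u ∈ C m, ∃ v ∈ M.Conf C, ∀ y, v (h * M.pos m y) = u y)
    (hdim : ∀ m, m ≤ finrank (ZMod 2) (C m))
    (a : ℕ → MonoidAlgebra ℂ (Gam M C))
    (Q : Ell2 (Gam M C) →L[ℂ] Ell2 (Gam M C))
    (hQ : Tendsto (fun j => lamA (a j)) atTop (𝓝 Q))
    (w : (NN M C →+ ZMod 2) → ℂ) (r : ℕ → ℝ) (hr0 : Tendsto r atTop (𝓝 0))
    (hr : ∀ (χ : NN M C →+ ZMod 2) (j : ℕ),
      ‖⟪dl (1 : M.G), fibA (actN M C) χ (a j) (dl 1)⟫_ℂ - w χ‖ ≤ r j)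
    (hw1 : ∀ (χ : NN M C →+ ZMod 2) m h y, (1 : M.G) = h * M.pos m y →
      M.Perfect (fun x => decode (conf M C χ x)) m h → w χ = (F.n m : ℂ)⁻¹)
    (hw0 : ∀ χ : NN M C →+ ZMod 2, (∀ m h y, (1 : M.G) = h * M.pos m y →
      ¬ M.Perfect (fun x => decode (conf M C χ x)) m h) → w χ = 0) :
    trc Q = ((∑' m, (1 / 2 : ℝ) ^ finrank (ZMod 2) (C m) : ℝ) : ℂ) := by
  classical
  let Φ : (Ell2 (Gam M C) →L[ℂ] Ell2 (Gam M C)) →L[ℂ] ℂ :=
    (innerSL ℂ (dl (1 : Gam M C))).comp
      (ContinuousLinearMap.apply ℂ (Ell2 (Gam M C)) (dl (1 : Gam M C)))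
  have hΦ : ∀ T, Φ T = trc T := fun T => rfl
  have hΦ0 : IsTr (actN M C) (KK M C C) Φ := by
    rw [KK_self]
    constructor
    · intro γ h1 h2
      have h3 : γ = 1 := by
        refine SemidirectProduct.ext ?_ h1
        rw [Submodule.mem_bot] at h2
        exact h2
      rw [hΦ, trc, h3, lam_dl, mul_one, inner_dl, dl_apply, if_pos rfl]
    · intro γ h1
      have h3 : γ ≠ 1 := by
        rintro rfl
        exact h1 ⟨rfl, (Submodule.mem_bot _).2 rfl⟩
      rw [hΦ, trc, lam_dl, mul_one, inner_dl, dl_apply, if_neg (fun h => h3 h.symm)]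
  have h2 := trace_conf M hqk hK hC hE hmono (fun m => le_refl (C m))
    hpat hs1 hs2 Φ hΦ0 a Q hQ w r hr0 hr hw1 hw0
  rw [hΦ] at h2
  have hsum : Summable fun m : ℕ => (1 / 2 : ℝ) ^ finrank (ZMod 2) (C m) := by
    refine Summable.of_nonneg_of_le (fun m => by positivity) (fun m => ?_)
      (summable_geometric_two)
    exact pow_le_pow_of_le_one (by norm_num) (by norm_num) (hdim m)
  have h3 := (Complex.continuous_ofReal.tendsto _).comp hsum.hasSum.tendsto_sum_nat
  refine tendsto_nhds_unique h2 (h3.congr fun N => ?_)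
  rw [Function.comp_apply, Complex.ofReal_sum]
  refine Finset.sum_congr rfl fun m _ => ?_
  push_cast
  rw [one_div, inv_pow]

/-- Two functionals with the same values on the group agree at limits of group ring elements. -/
theorem eq_of_lam_eq {Γ : Type} [Group Γ] (Φ Ψ : (Ell2 Γ →L[ℂ] Ell2 Γ) →L[ℂ] ℂ)
    (h : ∀ γ : Γ, Φ (lam γ) = Ψ (lam γ)) (a : ℕ → MonoidAlgebra ℂ Γ)
    (Q : Ell2 Γ →L[ℂ] Ell2 Γ) (hQ : Tendsto (fun j => lamA (a j)) atTop (𝓝 Q)) :
    Φ Q = Ψ Q := by
  have h1 : ∀ b : MonoidAlgebra ℂ Γ, Φ (lamA b) = Ψ (lamA b) := by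
    intro b
    rw [lamA, repAlg_apply, map_sum, map_sum]
    refine Finset.sum_congr rfl fun γ _ => ?_
    rw [map_smul, map_smul, lamU_coe, h]
  exact tendsto_nhds_unique ((Φ.continuous.tendsto Q).comp hQ)
    (((Ψ.continuous.tendsto Q).comp hQ).congr fun j => (h1 (a j)).symm)

end tfin

end Vale.Agent.P089.Op
end
end

section

section

/-! Equivariant Roe operators: algebra structure. -/

namespace Vale.Agent.P089.Asm

section Blocks

variable {P : Type}

theorem inc_single {i1 : DecidableEq ℕ} {i2 : DecidableEq (P × ℕ)} (h : P) (n : ℕ) (c : ℂ) :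
    inc h (lp.single 2 n c) = (lp.single 2 (h, n) c : L2 (P × ℕ)) := by
  classical
  apply lp.ext
  funext j
  obtain ⟨g, m⟩ := j
  by_cases hg : g = h
  · subst hg
    rw [inc_apply_self]
    by_cases hm : m = n
    · subst hm
      rw [lp.single_apply_self, lp.single_apply_self]
    · rw [lp.single_apply_ne _ _ _ hm, lp.single_apply_ne]
      intro h'
      exact hm (Prod.mk.inj h').2
  · rw [inc_apply_ne hg, lp.single_apply_ne]
    intro h'
    exact hg (Prod.mk.inj h').1

theorem ent_bl (T : LP P →L[ℂ] LP P) (g h : P) (m n : ℕ) :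
    ent (bl T g h) m n = ent T (g, m) (h, n) := by
  classical
  rw [ent_def, ent_def, bl_apply]
  exact congrArg (fun f : L2 (P × ℕ) => (T f : P × ℕ → ℂ) (g, m)) (inc_single h n 1)

/-- The projection onto the summand of `h`, as a composition. -/
noncomputable def pinc (h : P) : LP P →L[ℂ] LP P := inc h ∘L ContinuousLinearMap.adjoint (inc h)

theorem comp_inc_eq (T : LP P →L[ℂ] LP P) (h : P) (F : Finset P)
    (hF : ∀ g, g ∉ F → bl T g h = 0) : T ∘L inc h = ∑ g ∈ F, inc g ∘L bl T g h := by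
  ext1 f
  rw [sum_apply]
  exact apply_inc_eq_sum T h F hF f

theorem isCompactOperator_sum {E E' : Type*} [NormedAddCommGroup E] [NormedSpace ℂ E]
    [NormedAddCommGroup E'] [NormedSpace ℂ E']
    {ι : Type*} (F : Finset ι) (T : ι → E →L[ℂ] E') (h : ∀ i ∈ F, IsCompactOperator (T i)) :
    IsCompactOperator (∑ i ∈ F, T i : E →L[ℂ] E') := by
  classical
  induction F using Finset.induction_on with
  | empty =>
    rw [Finset.sum_empty]
    exact isCompactOperator_zero
  | insert a F ha ih =>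
    rw [Finset.sum_insert ha]
    exact (h a (Finset.mem_insert_self _ _)).add
      (ih (fun i hi => h i (Finset.mem_insert_of_mem hi)))

end Blocks

variable {G : Type} [Group G]

/-- Equivariant Roe operators in terms of blocks. -/
structure RoeB (T : L2 (G × ℕ) →L[ℂ] L2 (G × ℕ)) : Prop where
  eqv : ∀ g h s, bl T (g * s) (h * s) = bl T g h
  prop : ∃ E : Finset G, ∀ g h, g * h⁻¹ ∉ E → bl T g h = 0
  cpt : ∀ g h, IsCompactOperator (bl T g h)

theorem RoeB.of_isRoe {T : L2 (G × ℕ) →L[ℂ] L2 (G × ℕ)} (hT : IsRoe T) : RoeB T where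
  eqv g h s := entx_ext fun m n => by rw [ent_bl, ent_bl, hT.equivariant]
  prop := by
    obtain ⟨E, hE⟩ := hT.propagation
    refine ⟨E, fun g h hgh => entx_ext fun m n => ?_⟩
    rw [ent_bl, ent_zero]
    by_contra hne
    exact hgh (hE _ _ _ _ hne)
  cpt g h := by
    obtain ⟨K, hK, hK'⟩ := hT.compact h
    have h1 : bl T g h = ContinuousLinearMap.adjoint (inc g) ∘L K ∘L inc h := by
      refine entx_ext fun m n => ?_
      have h2 : ent (ContinuousLinearMap.adjoint (inc g) ∘L K ∘L inc h) m n =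
          ent (bl K g h) m n := rfl
      rw [h2, ent_bl, ent_bl, hK']
    rw [h1]
    exact (hK.comp_clm (inc h)).clm_comp (ContinuousLinearMap.adjoint (inc g))

theorem RoeB.exists_finset {T : L2 (G × ℕ) →L[ℂ] L2 (G × ℕ)} (hT : RoeB T) (h : G) :
    ∃ F : Finset G, ∀ g, g ∉ F → bl T g h = 0 := by
  obtain ⟨E, hE⟩ := hT.prop
  refine ⟨E.map (Equiv.mulRight h).toEmbedding, fun g hg => hE g h (fun hm => hg ?_)⟩
  rw [Finset.mem_map]
  exact ⟨g * h⁻¹, hm, by simp⟩

theorem RoeB.isRoe {T : L2 (G × ℕ) →L[ℂ] L2 (G × ℕ)} (hT : RoeB T) : IsRoe T where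
  equivariant g h s m n := by rw [← ent_bl, hT.eqv, ent_bl]
  propagation := by
    obtain ⟨E, hE⟩ := hT.prop
    refine ⟨E, fun g h m n hne => ?_⟩
    by_contra hgh
    apply hne
    rw [← ent_bl, hE g h hgh, ent_zero]
  compact h := by
    classical
    obtain ⟨F, hF⟩ := hT.exists_finset h
    refine ⟨T ∘L pinc h, ?_, fun j n => ?_⟩
    · have h1 : T ∘L pinc h = (T ∘L inc h) ∘L ContinuousLinearMap.adjoint (inc h) := rfl
      rw [h1, comp_inc_eq T h F hF]
      have h2 : IsCompactOperator (∑ g ∈ F, inc g ∘L bl T g h : L2 ℕ →L[ℂ] LP G) :=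
        isCompactOperator_sum F _ (fun g _ => (hT.cpt g h).clm_comp (inc g))
      exact h2.comp_clm (ContinuousLinearMap.adjoint (inc h))
    · rw [entx_eq, entx_eq]
      have h3 : inc h (ContinuousLinearMap.adjoint (inc h) (lp.single 2 (h, n) (1 : ℂ))) =
          (lp.single 2 (h, n) (1 : ℂ) : L2 (G × ℕ)) := by
        have h4 : (lp.single 2 (h, n) (1 : ℂ) : L2 (G × ℕ)) = inc h (lp.single 2 n (1 : ℂ)) :=
          (inc_single h n 1).symm
        rw [h4, adjoint_inc_inc_self]
      have h5 : pinc h (lp.single 2 (h, n) (1 : ℂ)) =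
          (lp.single 2 (h, n) (1 : ℂ) : L2 (G × ℕ)) := h3
      exact congrArg (fun f : L2 (G × ℕ) => (T f : G × ℕ → ℂ) j) h5

theorem RoeB.zero : RoeB (0 : L2 (G × ℕ) →L[ℂ] L2 (G × ℕ)) where
  eqv g h s := by rw [bl_zero, bl_zero]
  prop := ⟨∅, fun g h _ => bl_zero _ _⟩
  cpt g h := by
    rw [bl_zero]
    exact isCompactOperator_zero

theorem RoeB.add {T S : L2 (G × ℕ) →L[ℂ] L2 (G × ℕ)} (hT : RoeB T) (hS : RoeB S) :
    RoeB (T + S) where
  eqv g h s := by rw [bl_add, bl_add, hT.eqv, hS.eqv]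
  prop := by
    classical
    obtain ⟨E, hE⟩ := hT.prop
    obtain ⟨E', hE'⟩ := hS.prop
    refine ⟨E ∪ E', fun g h hgh => ?_⟩
    rw [Finset.mem_union, not_or] at hgh
    rw [bl_add, hE g h hgh.1, hE' g h hgh.2, add_zero]
  cpt g h := by
    rw [bl_add]
    exact (hT.cpt g h).add (hS.cpt g h)

theorem RoeB.smul {T : L2 (G × ℕ) →L[ℂ] L2 (G × ℕ)} (c : ℂ) (hT : RoeB T) : RoeB (c • T) where
  eqv g h s := by rw [bl_smul, bl_smul, hT.eqv]
  prop := by
    obtain ⟨E, hE⟩ := hT.prop
    exact ⟨E, fun g h hgh => by rw [bl_smul, hE g h hgh, smul_zero]⟩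
  cpt g h := by
    rw [bl_smul]
    exact (hT.cpt g h).smul c

theorem bl_mul_eq {T S : L2 (G × ℕ) →L[ℂ] L2 (G × ℕ)} {E : Finset G}
    (hE : ∀ g h, g * h⁻¹ ∉ E → bl S g h = 0) (g h : G) :
    bl (T * S) g h = ∑ x ∈ E, bl T g (x * h) * bl S (x * h) h := by
  have h1 := bl_comp T S g h (E.map (Equiv.mulRight h).toEmbedding) (Or.inr (fun q hq =>
    hE q h (fun hm => hq (by rw [Finset.mem_map]; exact ⟨q * h⁻¹, hm, by simp⟩))))
  rw [Finset.sum_map] at h1
  exact h1

theorem RoeB.mul {T S : L2 (G × ℕ) →L[ℂ] L2 (G × ℕ)} (hT : RoeB T) (hS : RoeB S) :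
    RoeB (T * S) where
  eqv g h s := by
    obtain ⟨E, hE⟩ := hS.prop
    rw [bl_mul_eq hE, bl_mul_eq hE]
    refine Finset.sum_congr rfl (fun x _ => ?_)
    rw [← mul_assoc, hT.eqv, hS.eqv]
  prop := by
    classical
    obtain ⟨E, hE⟩ := hS.prop
    obtain ⟨E', hE'⟩ := hT.prop
    refine ⟨(E' ×ˢ E).image (fun x => x.1 * x.2), fun g h hgh => ?_⟩
    rw [bl_mul_eq hE]
    refine Finset.sum_eq_zero (fun x hx => ?_)
    rw [hE' g (x * h), zero_mul]
    intro hm
    apply hgh
    rw [Finset.mem_image]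
    exact ⟨(g * (x * h)⁻¹, x), Finset.mem_product.2 ⟨hm, hx⟩, by group⟩
  cpt g h := by
    obtain ⟨E, hE⟩ := hS.prop
    rw [bl_mul_eq hE]
    refine isCompactOperator_sum _ _ (fun x _ => ?_)
    exact (hS.cpt (x * h) h).clm_comp (bl T g (x * h))

end Vale.Agent.P089.Asm
end
end

section

section

/-! Cutting down Roe operators to finite matrices over the group algebra. -/

namespace Vale.Agent.P089.Asm

section Proj

variable {I : Type}

theorem ent_proj_mul_mem {S : Set I} (T : L2 I →L[ℂ] L2 I) {j : I} (k : I) (h : j ∈ S) :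
    ent (proj S * T) j k = ent T j k := by
  classical
  rw [entx_eq, entx_eq]
  exact proj_apply_mem _ h

theorem ent_proj_mul_not_mem {S : Set I} (T : L2 I →L[ℂ] L2 I) {j : I} (k : I) (h : j ∉ S) :
    ent (proj S * T) j k = 0 := by
  classical
  rw [entx_eq]
  exact proj_apply_not_mem _ h

theorem ent_mul_proj_mem {S : Set I} (T : L2 I →L[ℂ] L2 I) (j : I) {k : I} (h : k ∈ S) :
    ent (T * proj S) j k = ent T j k := by
  have h2 := ent_star (T * proj S) k j
  rw [star_mul, star_proj, ent_proj_mul_mem _ _ h, ent_star] at h2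
  exact (star_injective h2).symm

theorem ent_mul_proj_not_mem {S : Set I} (T : L2 I →L[ℂ] L2 I) (j : I) {k : I} (h : k ∉ S) :
    ent (T * proj S) j k = 0 := by
  have h2 := ent_star (T * proj S) k j
  rw [star_mul, star_proj, ent_proj_mul_not_mem _ _ h] at h2
  exact (star_eq_zero.1 h2.symm)

theorem proj_add_compl (S : Set I) : proj S + proj Sᶜ = 1 := by
  ext f j
  change (proj S f : I → ℂ) j + (proj Sᶜ f : I → ℂ) j = (f : I → ℂ) j
  by_cases h : j ∈ S
  · rw [proj_apply_mem _ h, proj_apply_not_mem (S := Sᶜ) _ (fun k => k h), add_zero]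
  · rw [proj_apply_not_mem _ h, proj_apply_mem (S := Sᶜ) _ h, zero_add]

end Proj

section Tail

/-- The tail projections of `ℓ²(ℕ)`. -/
noncomputable def tailN (k : ℕ) : L2 ℕ →L[ℂ] L2 ℕ := proj {n : ℕ | k ≤ n}

theorem pN_add_tailN (k : ℕ) : pN k + tailN k = 1 := by
  have h : {n : ℕ | k ≤ n} = {n : ℕ | n < k}ᶜ := by
    ext n
    simp only [Set.mem_ofPred_eq, Set.mem_compl_iff, not_lt]
  rw [pN, tailN, h, proj_add_compl]

theorem tailN_tendsto (f : L2 ℕ) {δ : ℝ} (hδ : 0 < δ) :
    ∃ k : ℕ, ∀ l, k ≤ l → ‖tailN l f‖ < δ := by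
  have h : Filter.Tendsto (fun s : Finset ℕ =>
      ∑ i ∈ s, (lp.single 2 i ((f : ℕ → ℂ) i) : L2 ℕ)) Filter.atTop (nhds f) :=
    lp.hasSum_single (E := fun _ : ℕ => ℂ) (p := 2) (by simp) f
  obtain ⟨s, hs⟩ := Metric.tendsto_atTop.1 h δ hδ
  have hs' := hs s le_rfl
  refine ⟨(s.sup id) + 1, fun l hl => ?_⟩
  have hg : tailN l (∑ i ∈ s, lp.single 2 i ((f : ℕ → ℂ) i)) = 0 := by
    ext j
    by_cases hj : l ≤ j
    · rw [tailN, proj_apply_mem (S := {n : ℕ | l ≤ n}) _ hj, lp.coeFn_sum,
        Finset.sum_apply]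
      refine Finset.sum_eq_zero (fun i hi => ?_)
      rw [lp.single_apply_ne]
      · rintro rfl
        have := Finset.le_sup (f := id) hi
        simp only [id] at this
        omega
    · rw [tailN, proj_apply_not_mem (S := {n : ℕ | l ≤ n}) _ hj]
      rfl
  have h2 : tailN l f = tailN l (f - ∑ i ∈ s, lp.single 2 i ((f : ℕ → ℂ) i)) := by
    rw [map_sub, hg, sub_zero]
  rw [h2]
  refine (norm_proj_apply_le _ _).trans_lt ?_
  rw [← dist_eq_norm, dist_comm]
  exact hs'

theorem tailN_mul_compact {K : L2 ℕ →L[ℂ] L2 ℕ} (hK : IsCompactOperator K)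
    {δ : ℝ} (hδ : 0 < δ) : ∃ k : ℕ, ∀ l, k ≤ l → ‖tailN l * K‖ ≤ δ := by
  have h1 := hK
  change IsCompactOperator (K : L2 ℕ →ₗ[ℂ] L2 ℕ) at h1
  rw [isCompactOperator_iff_isCompact_closure_image_closedBall _ zero_lt_one] at h1
  have h3 : TotallyBounded (K '' Metric.closedBall 0 1) :=
    h1.totallyBounded.subset subset_closure
  obtain ⟨t, ht, hcov⟩ := Metric.totallyBounded_iff.1 h3 (δ / 2) (by positivity)
  have hex : ∀ y : L2 ℕ, ∃ k : ℕ, ∀ l, k ≤ l → ‖tailN l y‖ < δ / 2 :=
    fun y => tailN_tendsto y (by positivity)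
  choose k hk using hex
  refine ⟨ht.toFinset.sup k, fun l hl => ?_⟩
  refine ContinuousLinearMap.opNorm_le_of_unit_norm hδ.le (fun f hf => ?_)
  have hf' := hcov ⟨f, by rw [mem_closedBall_zero_iff, hf], rfl⟩
  simp only [Set.mem_iUnion, Metric.mem_ball, exists_prop] at hf'
  obtain ⟨y, hy, hfy⟩ := hf'
  have hl' : k y ≤ l := (Finset.le_sup (f := k) (ht.mem_toFinset.2 hy)).trans hl
  have h4 := hk y l hl'
  have h5 : ‖tailN l (K f - y)‖ < δ / 2 := by
    refine (norm_proj_apply_le _ _).trans_lt ?_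
    rwa [← dist_eq_norm]
  change ‖tailN l (K f)‖ ≤ δ
  have h6 : tailN l (K f) = tailN l (K f - y) + tailN l y := by
    rw [map_sub]; abel
  rw [h6]
  refine (norm_add_le _ _).trans ?_
  linarith only [h4, h5]

theorem norm_pN_le (k : ℕ) : ‖pN k‖ ≤ 1 := proj_norm_le _

/-- Compact operators are approximated by their corners. -/
theorem exists_corner {K : L2 ℕ →L[ℂ] L2 ℕ} (hK : IsCompactOperator K) {δ : ℝ} (hδ : 0 < δ) :
    ∃ k : ℕ, ∀ l, k ≤ l → ‖K - pN l * K * pN l‖ ≤ δ := by
  obtain ⟨k1, hk1⟩ := tailN_mul_compact hK (half_pos hδ)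
  obtain ⟨k2, hk2⟩ := tailN_mul_compact (isCompactOperator_star hK) (half_pos hδ)
  refine ⟨max k1 k2, fun l hl => ?_⟩
  have h1 := hk1 l ((le_max_left _ _).trans hl)
  have h2 := hk2 l ((le_max_right _ _).trans hl)
  rw [← norm_star, star_mul, star_star, tailN, star_proj] at h2
  change ‖K * tailN l‖ ≤ δ / 2 at h2
  have h3 : pN l = 1 - tailN l := eq_sub_of_add_eq (pN_add_tailN l)
  have h : K - pN l * K * pN l = tailN l * K + pN l * (K * tailN l) := by
    rw [h3]
    noncomm_ring
  rw [h]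
  have h4 : ‖pN l * (K * tailN l)‖ ≤ 1 * (δ / 2) :=
    (norm_mul_le _ _).trans (mul_le_mul (norm_pN_le _) h2 (norm_nonneg _) zero_le_one)
  calc _ ≤ ‖tailN l * K‖ + ‖pN l * (K * tailN l)‖ := norm_add_le _ _
    _ ≤ δ / 2 + 1 * (δ / 2) := add_le_add h1 h4
    _ = δ := by ring

end Tail

variable {P : Type}

theorem bl_pk_mul (k : ℕ) (T : LP P →L[ℂ] LP P) (g h : P) :
    bl (pk k * T) g h = pN k * bl T g h := by
  refine entx_ext fun m n => ?_
  rw [ent_bl]
  by_cases hm : m < k
  · rw [pk, ent_proj_mul_mem (S := {j : P × ℕ | j.2 < k}) _ _ hm, pN,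
      ent_proj_mul_mem (S := {n : ℕ | n < k}) _ _ hm, ent_bl]
  · rw [pk, ent_proj_mul_not_mem (S := {j : P × ℕ | j.2 < k}) _ _ hm, pN,
      ent_proj_mul_not_mem (S := {n : ℕ | n < k}) _ _ hm]

theorem bl_mul_pk (k : ℕ) (T : LP P →L[ℂ] LP P) (g h : P) :
    bl (T * pk k) g h = bl T g h * pN k := by
  refine entx_ext fun m n => ?_
  rw [ent_bl]
  by_cases hm : n < k
  · rw [pk, ent_mul_proj_mem (S := {j : P × ℕ | j.2 < k}) _ _ hm, pN,
      ent_mul_proj_mem (S := {n : ℕ | n < k}) _ _ hm, ent_bl]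
  · rw [pk, ent_mul_proj_not_mem (S := {j : P × ℕ | j.2 < k}) _ _ hm, pN,
      ent_mul_proj_not_mem (S := {n : ℕ | n < k}) _ _ hm]

variable {G : Type} [Group G]

theorem RoeB.cut {T : L2 (G × ℕ) →L[ℂ] L2 (G × ℕ)} (hT : RoeB T) (k : ℕ) :
    RoeB (pk k * T * pk k) where
  eqv g h s := by rw [bl_mul_pk, bl_pk_mul, bl_mul_pk, bl_pk_mul, hT.eqv]
  prop := by
    obtain ⟨E, hE⟩ := hT.prop
    refine ⟨E, fun g h hgh => ?_⟩
    rw [bl_mul_pk, bl_pk_mul, hE g h hgh, mul_zero, zero_mul]
  cpt g h := by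
    rw [bl_mul_pk, bl_pk_mul]
    have h1 : IsCompactOperator (pN k ∘L bl T g h : L2 ℕ →L[ℂ] L2 ℕ) :=
      (hT.cpt g h).clm_comp (pN k)
    exact h1.comp_clm (pN k)

theorem norm_le_of_blocks {T : L2 (G × ℕ) →L[ℂ] L2 (G × ℕ)} {E : Finset G}
    (hE : ∀ g h, g * h⁻¹ ∉ E → bl T g h = 0) {C : ℝ} (hC : 0 ≤ C)
    (hb : ∀ g h, ‖bl T g h‖ ≤ C) : ‖T‖ ≤ E.card * C := by
  classical
  have hrow : ∀ q, {p | bl T q p ≠ 0}.encard ≤ (E.card : ℕ) := by
    intro q
    have h1 : {p | bl T q p ≠ 0} ⊆ ((E.image fun x => x⁻¹ * q : Finset G) : Set G) := by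
      intro p hp
      rw [Finset.mem_coe, Finset.mem_image]
      refine ⟨q * p⁻¹, ?_, by group⟩
      by_contra hcon
      exact hp (hE q p hcon)
    refine (Set.encard_le_encard h1).trans ?_
    rw [Set.encard_coe_eq_coe_finsetCard]
    exact_mod_cast Finset.card_image_le
  have hcol : ∀ p, {q | bl T q p ≠ 0}.encard ≤ (E.card : ℕ) := by
    intro p
    have h1 : {q | bl T q p ≠ 0} ⊆ ((E.image fun x => x * p : Finset G) : Set G) := by
      intro q hq
      rw [Finset.mem_coe, Finset.mem_image]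
      refine ⟨q * p⁻¹, ?_, by group⟩
      by_contra hcon
      exact hq (hE q p hcon)
    refine (Set.encard_le_encard h1).trans ?_
    rw [Set.encard_coe_eq_coe_finsetCard]
    exact_mod_cast Finset.card_image_le
  obtain ⟨T', hT', hn⟩ := exists_of_blocks (fun q p => bl T q p) E.card C hC hrow hcol hb
  have : T = T' := bl_ext fun q p => (hT' q p).symm
  rw [this]
  exact hn

/-- Roe operators are approximated by their corners. -/
theorem RoeB.exists_cut {T : L2 (G × ℕ) →L[ℂ] L2 (G × ℕ)} (hT : RoeB T) {ε : ℝ} (hε : 0 < ε) :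
    ∃ k : ℕ, ∀ l, k ≤ l → ‖T - pk l * T * pk l‖ ≤ ε := by
  classical
  obtain ⟨E, hE⟩ := hT.prop
  have hδ : 0 < ε / (E.card + 1) := by (clear * - hε; positivity)
  choose k hk using fun s : G => exists_corner (hT.cpt s 1) hδ
  refine ⟨E.sup k, fun l hl => ?_⟩
  have h1 : ‖T - pk l * T * pk l‖ ≤ E.card * (ε / (E.card + 1)) := by
    refine norm_le_of_blocks (E := E) (fun g h hgh => ?_) hδ.le (fun g h => ?_)
    · rw [bl_sub, bl_mul_pk, bl_pk_mul, hE g h hgh, mul_zero, zero_mul, sub_zero]
    · rw [bl_sub, bl_mul_pk, bl_pk_mul]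
      by_cases hgh : g * h⁻¹ ∈ E
      · have h2 : bl T g h = bl T (g * h⁻¹) 1 := by
          have := hT.eqv (g * h⁻¹) 1 h
          rwa [inv_mul_cancel_right, one_mul] at this
        rw [h2]
        exact hk _ l ((Finset.le_sup (f := k) hgh).trans hl)
      · rw [hE g h hgh, mul_zero, zero_mul, sub_zero, norm_zero]
        exact hδ.le
  refine h1.trans ?_
  rw [mul_div_assoc', div_le_iff₀ (by (clear * -; positivity))]
  nlinarith only [hε]

end Vale.Agent.P089.Asm
end
end

section

section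

/-! The closed algebra of equivariant Roe operators with scalars, its corner subalgebras and
its filtration by propagation. -/

namespace Vale.Agent.P089.Asm

variable (G : Type) [Group G]

/-- Scalars plus equivariant Roe operators. -/
noncomputable def roeU : Subalgebra ℂ (L2 (G × ℕ) →L[ℂ] L2 (G × ℕ)) where
  carrier := {T | ∃ c : ℂ, RoeB (T - c • 1)}
  mul_mem' := by
    rintro T S ⟨c, hc⟩ ⟨d, hd⟩
    refine ⟨c * d, ?_⟩
    have h : T * S - (c * d) • (1 : L2 (G × ℕ) →L[ℂ] L2 (G × ℕ)) =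
        (T - c • 1) * (S - d • 1) + c • (S - d • 1) + d • (T - c • 1) := by
      simp only [mul_sub, sub_mul, smul_mul_assoc, mul_smul_comm, one_mul, mul_one, smul_sub,
        smul_smul]
      rw [mul_comm d c]
      abel
    rw [h]
    exact ((hc.mul hd).add (hd.smul c)).add (hc.smul d)
  add_mem' := by
    rintro T S ⟨c, hc⟩ ⟨d, hd⟩
    refine ⟨c + d, ?_⟩
    have h : T + S - (c + d) • (1 : L2 (G × ℕ) →L[ℂ] L2 (G × ℕ)) =
        (T - c • 1) + (S - d • 1) := by
      rw [add_smul]
      abel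
    rw [h]
    exact hc.add hd
  algebraMap_mem' c := ⟨c, by rw [Algebra.algebraMap_eq_smul_one, sub_self]; exact RoeB.zero⟩

/-- The closed algebra generated by scalars and equivariant Roe operators. -/
noncomputable def UU : Subalgebra ℂ (L2 (G × ℕ) →L[ℂ] L2 (G × ℕ)) := (roeU G).topologicalClosure

theorem isClosed_UU : IsClosed (UU G : Set (L2 (G × ℕ) →L[ℂ] L2 (G × ℕ))) :=
  (roeU G).isClosed_topologicalClosure

noncomputable instance : NormedRing (UU G) := inferInstance
noncomputable instance : NormedAlgebra ℂ (UU G) := inferInstance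
instance : CompleteSpace (UU G) := (isClosed_UU G).completeSpace_coe

variable {G}

theorem RoeB.mem_roeU {T : L2 (G × ℕ) →L[ℂ] L2 (G × ℕ)} (hT : RoeB T) : T ∈ roeU G :=
  ⟨0, by rwa [zero_smul, sub_zero]⟩

theorem roeU_le_UU : roeU G ≤ UU G := (roeU G).le_topologicalClosure

theorem smul_one_mem_UU (c : ℂ) : c • (1 : L2 (G × ℕ) →L[ℂ] L2 (G × ℕ)) ∈ UU G := by
  rw [← Algebra.algebraMap_eq_smul_one]
  exact (UU G).algebraMap_mem c

theorem IsU.mem_UU {T : L2 (G × ℕ) →L[ℂ] L2 (G × ℕ)} (hT : IsU T) : T ∈ UU G := by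
  obtain ⟨c, S, hS, rfl⟩ := hT
  refine (UU G).add_mem (smul_one_mem_UU c) ?_
  have h : closure {S : L2 (G × ℕ) →L[ℂ] L2 (G × ℕ) | IsRoe S} ⊆ UU G := by
    refine closure_minimal (fun S hS => ?_) (isClosed_UU G)
    exact roeU_le_UU (RoeB.of_isRoe hS).mem_roeU
  exact h hS

/-- The subalgebra of the matrices of size `k` plus scalars. -/
noncomputable def SkA (P : Type) (k : ℕ) : Subalgebra ℂ (L2 (P × ℕ) →L[ℂ] L2 (P × ℕ)) where
  carrier := {x | ∃ c : ℂ, (1 - pk k) * x = c • (1 - pk k) ∧ x * (1 - pk k) = c • (1 - pk k)}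
  mul_mem' := by
    rintro x y ⟨c, hc, hc'⟩ ⟨d, hd, hd'⟩
    refine ⟨c * d, ?_, ?_⟩
    · rw [← mul_assoc, hc, smul_mul_assoc, hd, smul_smul]
    · rw [mul_assoc, hd', mul_smul_comm, hc', smul_smul, mul_comm d c]
  add_mem' := by
    rintro x y ⟨c, hc, hc'⟩ ⟨d, hd, hd'⟩
    exact ⟨c + d, by rw [mul_add, hc, hd, add_smul], by rw [add_mul, hc', hd', add_smul]⟩
  algebraMap_mem' c := ⟨c, by rw [Algebra.algebraMap_eq_smul_one, mul_smul_comm, mul_one],
    by rw [Algebra.algebraMap_eq_smul_one, smul_mul_assoc, one_mul]⟩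

theorem one_sub_pk {P : Type} (k : ℕ) : (1 - pk k : L2 (P × ℕ) →L[ℂ] L2 (P × ℕ)) =
    proj {j : P × ℕ | j.2 < k}ᶜ :=
  (eq_sub_of_add_eq' (proj_add_compl {j : P × ℕ | j.2 < k})).symm

theorem mem_SkA_iff {P : Type} (p : P) {k : ℕ} {x : L2 (P × ℕ) →L[ℂ] L2 (P × ℕ)} :
    x ∈ SkA P k ↔ (1 - pk k) * x = ent x (p, k) (p, k) • (1 - pk k) ∧
      x * (1 - pk k) = ent x (p, k) (p, k) • (1 - pk k) := by
  constructor
  · rintro ⟨c, hc, hc'⟩
    have h : ent x (p, k) (p, k) = c := by
      have h1 := congrArg (fun y => ent y (p, k) (p, k)) hc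
      simp only [ent_smul] at h1
      have hk : (p, k) ∈ ({j : P × ℕ | j.2 < k}ᶜ : Set (P × ℕ)) := by simp
      have h2 : ent (1 - pk k : L2 (P × ℕ) →L[ℂ] L2 (P × ℕ)) (p, k) (p, k) = 1 := by
        have h3 := ent_proj_mul_mem (1 : L2 (P × ℕ) →L[ℂ] L2 (P × ℕ)) (p, k) hk
        rw [mul_one, ent_one_self] at h3
        rw [one_sub_pk, h3]
      rw [h2, mul_one, one_sub_pk, ent_proj_mul_mem _ _ hk] at h1
      exact h1
    rw [h]
    exact ⟨hc, hc'⟩
  · rintro ⟨h1, h2⟩
    exact ⟨_, h1, h2⟩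

theorem isClosed_SkA {P : Type} [Nonempty P] (k : ℕ) :
    IsClosed (SkA P k : Set (L2 (P × ℕ) →L[ℂ] L2 (P × ℕ))) := by
  obtain ⟨p⟩ := ‹Nonempty P›
  have h : (SkA P k : Set (L2 (P × ℕ) →L[ℂ] L2 (P × ℕ))) =
      {x | (1 - pk k) * x = ent x (p, k) (p, k) • (1 - pk k)} ∩
      {x | x * (1 - pk k) = ent x (p, k) (p, k) • (1 - pk k)} := by
    ext x
    exact mem_SkA_iff p
  rw [h]
  refine IsClosed.inter ?_ ?_
  · exact isClosed_eq (continuous_const.mul continuous_id)
      ((continuous_ent _ _).smul continuous_const)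
  · exact isClosed_eq (continuous_id.mul continuous_const)
      ((continuous_ent _ _).smul continuous_const)

theorem pk_mul_pk {P : Type} {k l : ℕ} (h : k ≤ l) :
    (pk k * pk l : L2 (P × ℕ) →L[ℂ] L2 (P × ℕ)) = pk k :=
  proj_mul_of_subset (fun j (hj : j.2 < k) => (hj.trans_le h : j.2 < l))

theorem pk_mul_pk' {P : Type} {k l : ℕ} (h : k ≤ l) :
    (pk l * pk k : L2 (P × ℕ) →L[ℂ] L2 (P × ℕ)) = pk k :=
  proj_mul_of_superset (fun j (hj : j.2 < k) => (hj.trans_le h : j.2 < l))

theorem SkA_mono {P : Type} : Monotone (SkA P) := by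
  rintro k l hkl x ⟨c, hc, hc'⟩
  have h1 : (1 - pk l : L2 (P × ℕ) →L[ℂ] L2 (P × ℕ)) * (1 - pk k) = 1 - pk l := by
    rw [mul_sub, mul_one, sub_mul, one_mul, pk_mul_pk' hkl, sub_self, sub_zero]
  have h2 : (1 - pk k : L2 (P × ℕ) →L[ℂ] L2 (P × ℕ)) * (1 - pk l) = 1 - pk l := by
    rw [sub_mul, one_mul, mul_sub, mul_one, pk_mul_pk hkl, sub_self, sub_zero]
  refine ⟨c, ?_, ?_⟩
  · rw [← h1, mul_assoc, hc, mul_smul_comm]
  · rw [← h2, ← mul_assoc, hc', smul_mul_assoc]

theorem SkA_comm {P : Type} {k : ℕ} {x : L2 (P × ℕ) →L[ℂ] L2 (P × ℕ)} (hx : x ∈ SkA P k) :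
    pk k * x = x * pk k := by
  obtain ⟨c, hc, hc'⟩ := hx
  rw [sub_mul, one_mul] at hc
  rw [mul_sub, mul_one] at hc'
  have := hc.trans hc'.symm
  exact sub_right_injective this

theorem cut_mem_SkA {P : Type} (k : ℕ) (c : ℂ) (x : L2 (P × ℕ) →L[ℂ] L2 (P × ℕ)) :
    c • 1 + pk k * x * pk k ∈ SkA P k := by
  have h0 : (1 - pk k : L2 (P × ℕ) →L[ℂ] L2 (P × ℕ)) * pk k = 0 := by
    rw [sub_mul, one_mul, pk_mul_pk le_rfl, sub_self]
  have h1 : (pk k : L2 (P × ℕ) →L[ℂ] L2 (P × ℕ)) * (1 - pk k) = 0 := by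
    rw [mul_sub, mul_one, pk_mul_pk le_rfl, sub_self]
  refine ⟨c, ?_, ?_⟩
  · rw [mul_add, mul_smul_comm, mul_one, ← mul_assoc, ← mul_assoc, h0, zero_mul, zero_mul,
      add_zero]
  · rw [add_mul, smul_mul_assoc, one_mul, mul_assoc, h1, mul_zero, add_zero]

variable (G) in
/-- The matrices of size `k` plus scalars, in `UU G`. -/
noncomputable def Sk (k : ℕ) : Subalgebra ℂ (UU G) := (SkA G k).comap (UU G).val

theorem isClosed_Sk (k : ℕ) : IsClosed (Sk G k : Set (UU G)) :=
  (isClosed_SkA (P := G) k).preimage continuous_subtype_val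

theorem Sk_mono : Monotone (Sk G) := fun _ _ h _ hx => SkA_mono h hx

theorem Sk_dense (x : UU G) (ε : ℝ) (hε : 0 < ε) : ∃ k, ∃ y ∈ Sk G k, ‖x - y‖ < ε := by
  have hx : (x : L2 (G × ℕ) →L[ℂ] L2 (G × ℕ)) ∈ closure (roeU G : Set _) := x.2
  obtain ⟨y, ⟨c, hc⟩, hy⟩ := Metric.mem_closure_iff.1 hx (ε / 2) (half_pos hε)
  obtain ⟨k, hk⟩ := hc.exists_cut (show 0 < ε / 3 by positivity)
  have h1 := hk k le_rfl
  have hmem : c • (1 : L2 (G × ℕ) →L[ℂ] L2 (G × ℕ)) + pk k * (y - c • 1) * pk k ∈ UU G :=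
    (UU G).add_mem (smul_one_mem_UU c) (roeU_le_UU (hc.cut k).mem_roeU)
  refine ⟨k, ⟨_, hmem⟩, cut_mem_SkA k c _, ?_⟩
  change ‖(x : L2 (G × ℕ) →L[ℂ] L2 (G × ℕ)) - (c • 1 + pk k * (y - c • 1) * pk k)‖ < ε
  have h2 : (x : L2 (G × ℕ) →L[ℂ] L2 (G × ℕ)) - (c • 1 + pk k * (y - c • 1) * pk k) =
      ((x : L2 (G × ℕ) →L[ℂ] L2 (G × ℕ)) - y) +
        ((y - c • 1) - pk k * (y - c • 1) * pk k) := by abel
  rw [h2]
  rw [dist_eq_norm] at hy
  have := norm_add_le ((x : L2 (G × ℕ) →L[ℂ] L2 (G × ℕ)) - y)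
    ((y - c • 1) - pk k * (y - c • 1) * pk k)
  linarith

/-- The entries of `x` are supported in the set `E`. -/
def SuppIn (E : Finset G) (x : L2 (G × ℕ) →L[ℂ] L2 (G × ℕ)) : Prop :=
  ∀ g h m n, ent x (g, m) (h, n) ≠ 0 → g * h⁻¹ ∈ E

theorem SuppIn.mono {E E' : Finset G} (hE : E ⊆ E') {x : L2 (G × ℕ) →L[ℂ] L2 (G × ℕ)}
    (hx : SuppIn E x) : SuppIn E' x := fun g h m n hne => hE (hx g h m n hne)

theorem SuppIn.add {E : Finset G} {x y : L2 (G × ℕ) →L[ℂ] L2 (G × ℕ)} (hx : SuppIn E x)
    (hy : SuppIn E y) : SuppIn E (x + y) := by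
  intro g h m n hne
  by_contra hcon
  apply hne
  rw [ent_add, by_contra fun h1 => hcon (hx g h m n h1), by_contra fun h1 => hcon (hy g h m n h1),
    add_zero]

theorem SuppIn.smul {E : Finset G} {x : L2 (G × ℕ) →L[ℂ] L2 (G × ℕ)} (c : ℂ)
    (hx : SuppIn E x) : SuppIn E (c • x) := by
  intro g h m n hne
  by_contra hcon
  apply hne
  rw [ent_smul, by_contra fun h1 => hcon (hx g h m n h1), mul_zero]

theorem SuppIn.mul [DecidableEq G] {E E' : Finset G} {x y : L2 (G × ℕ) →L[ℂ] L2 (G × ℕ)}
    (hx : SuppIn E x) (hy : SuppIn E' y) :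
    SuppIn ((E ×ˢ E').image fun a => a.1 * a.2) (x * y) := by
  intro g h m n hne
  obtain ⟨⟨l, i⟩, h1, h2⟩ := exists_of_ent_mul_ne hne
  rw [Finset.mem_image]
  exact ⟨(g * l⁻¹, l * h⁻¹), Finset.mem_product.2 ⟨hx _ _ _ _ h1, hy _ _ _ _ h2⟩, by group⟩

theorem SuppIn.one : SuppIn {1} (1 : L2 (G × ℕ) →L[ℂ] L2 (G × ℕ)) := by
  intro g h m n hne
  by_contra hcon
  apply hne
  refine ent_one_ne (fun heq => hcon ?_)
  rw [(Prod.mk.inj heq).1, mul_inv_cancel]
  exact Finset.mem_singleton_self 1

/-- Elements of propagation at most `R`. -/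
noncomputable def fil (len : G → ℕ) (R : ℕ) : Submodule ℂ (UU G) where
  carrier := {x | ∃ E : Finset G, (∀ s ∈ E, len s ≤ R) ∧ SuppIn E x.1}
  add_mem' := by
    classical
    rintro x y ⟨E, hE, hx⟩ ⟨E', hE', hy⟩
    refine ⟨E ∪ E', fun s hs => ?_, ?_⟩
    · rcases Finset.mem_union.1 hs with h | h
      · exact hE s h
      · exact hE' s h
    · exact (hx.mono Finset.subset_union_left).add (hy.mono Finset.subset_union_right)
  zero_mem' := ⟨∅, by simp, fun g h m n hne => absurd (ent_zero _ _) hne⟩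
  smul_mem' := by
    rintro c x ⟨E, hE, hx⟩
    exact ⟨E, hE, hx.smul c⟩

theorem fil_mono (len : G → ℕ) : Monotone (fil len) := by
  rintro R R' h x ⟨E, hE, hx⟩
  exact ⟨E, fun s hs => (hE s hs).trans h, hx⟩

theorem one_mem_fil {len : G → ℕ} (h1 : len 1 = 0) : (1 : UU G) ∈ fil len 0 :=
  ⟨{1}, by simp only [Finset.mem_singleton, nonpos_iff_eq_zero, forall_eq, h1], SuppIn.one⟩

theorem fil_mul {len : G → ℕ} (hlen : ∀ g h, len (g * h) ≤ len g + len h) (i j : ℕ)
    (x : UU G) (hx : x ∈ fil len i) (y : UU G) (hy : y ∈ fil len j) :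
    x * y ∈ fil len (i + j) := by
  classical
  obtain ⟨E, hE, hx⟩ := hx
  obtain ⟨E', hE', hy⟩ := hy
  refine ⟨_, fun s hs => ?_, hx.mul hy⟩
  rw [Finset.mem_image] at hs
  obtain ⟨a, ha, rfl⟩ := hs
  rw [Finset.mem_product] at ha
  exact (hlen _ _).trans (add_le_add (hE _ ha.1) (hE' _ ha.2))

/-- Elements of `UU G` are equivariant. -/
theorem UU_equivariant {x : L2 (G × ℕ) →L[ℂ] L2 (G × ℕ)} (hx : x ∈ UU G) (g h s : G) (m n : ℕ) :
    ent x (g * s, m) (h * s, n) = ent x (g, m) (h, n) := by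
  have h1 : IsClosed {x : L2 (G × ℕ) →L[ℂ] L2 (G × ℕ) |
      ent x (g * s, m) (h * s, n) = ent x (g, m) (h, n)} :=
    isClosed_eq (continuous_ent _ _) (continuous_ent _ _)
  have h2 : (roeU G : Set (L2 (G × ℕ) →L[ℂ] L2 (G × ℕ))) ⊆
      {x | ent x (g * s, m) (h * s, n) = ent x (g, m) (h, n)} := by
    rintro y ⟨c, hc⟩
    have h3 := hc.isRoe.equivariant g h s m n
    rw [ent_sub, ent_sub, ent_smul, ent_smul] at h3
    have h4 : ent (1 : L2 (G × ℕ) →L[ℂ] L2 (G × ℕ)) (g * s, m) (h * s, n) =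
        ent (1 : L2 (G × ℕ) →L[ℂ] L2 (G × ℕ)) (g, m) (h, n) := by
      by_cases heq : (g, m) = (h, n)
      · obtain ⟨rfl, rfl⟩ := Prod.mk.inj heq
        rw [ent_one_self, ent_one_self]
      · rw [ent_one_ne heq, ent_one_ne]
        intro h'
        obtain ⟨h5, h6⟩ := Prod.mk.inj h'
        exact heq (by rw [mul_right_cancel h5, h6])
    rw [h4] at h3
    exact sub_left_injective h3
  exact closure_minimal h2 h1 hx

end Vale.Agent.P089.Asm
end
end

section

section

namespace Vale.Agent.P089.GL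

variable {L : Type} {A : LG L} {G : Type} [Group G] {lab : L → G}

/-- B3: a diagram with the minimal number of sides is reduced. -/
theorem exists_reduced_of [Nonempty L] (hinv : ∀ s, lab (A.inv s) = (lab s)⁻¹)
    (hrel : ∀ x r, A.run x r = some x → (r.map lab).prod = 1)
    (hdel : ∀ (w : List L) (D : Dg A lab w) (p : ℕ), p ∈ D.P → ∀ x : A.Om,
      D.pos p = some x → A.step x (D.lbl p) = D.pos (D.mu p) →
      ∃ D' : Dg A lab w, D'.P.card < D.P.card)
    {w : List L} (h : A.Eqv w []) :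
    ∃ D : Dg A lab w, D.Reduced := by
  classical
  have hne : Nonempty (Dg A lab w) :=
    Exists.exists_dg_of (fun u v s D => spur_insert hinv s D) (fun u v s D => fold hinv s D)
      hrel h
  obtain ⟨D, hD⟩ : ∃ D : Dg A lab w, ∀ D' : Dg A lab w, D.P.card ≤ D'.P.card := by
    obtain ⟨D₀⟩ := hne
    have hex : ∃ n, ∃ D : Dg A lab w, D.P.card = n := ⟨_, D₀, rfl⟩
    obtain ⟨D, hD⟩ := Nat.find_spec hex
    exact ⟨D, fun D' => hD ▸ Nat.find_min' hex ⟨D', rfl⟩⟩
  have hmir : ∀ p ∈ D.P, ∀ x, D.pos p = some x → A.step x (D.lbl p) ≠ D.pos (D.mu p) := by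
    intro p hp x hx hm
    obtain ⟨D', hD'⟩ := hdel w D p hp x hx hm
    exact absurd (hD D') (by omega)
  refine ⟨D, ?_, hmir⟩
  intro p hp hpos hl
  by_cases hmu : D.mu p = D.succ p
  · obtain ⟨x, hx⟩ := Option.ne_none_iff_exists'.1 hpos
    obtain ⟨y, hy1, hy2⟩ := D.succ_pos p hp x hx
    exact hmir p hp x hx (by rw [hmu, hy1, hy2])
  · obtain ⟨D', hD'⟩ := inner_fold hinv D p hp hpos hl hmu
    exact absurd (hD D') (by omega)

end Vale.Agent.P089.GL
end
end

section

section

/-!
# Deletion of a mirror pair (block B2 of Greendlinger's lemma)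

If the two sides of an inner edge lift to the same edge of the labelled graph, both sides can be
deleted and the two faces are joined.
-/

namespace Vale.Agent.P089.GL

variable {L : Type} {A : LG L} {G : Type} [Group G] {lab : L → G}

/-- B2 -/
theorem delete_mirror {w : List L} (D : Dg A lab w) (p : ℕ) (hp : p ∈ D.P) (x : A.Om)
    (hx : D.pos p = some x) (hm : A.step x (D.lbl p) = D.pos (D.mu p)) :
    ∃ D' : Dg A lab w, D'.P.card < D.P.card := by
  classical
  obtain ⟨q, hq⟩ : ∃ q, D.mu p = q := ⟨_, rfl⟩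
  have hqP : q ∈ D.P := hq ▸ D.mu_mem p hp
  have hqp : D.mu q = p := by rw [← hq]; exact D.mu_mu p hp
  have hne : q ≠ p := by rw [← hq]; exact D.mu_ne p hp
  obtain ⟨y, hy, hsp⟩ := D.succ_pos p hp x hx
  have hposq : D.pos q = some y := by rw [← hq, ← hm, hy]
  have hstep : A.step y (D.lbl q) = some x := by
    rw [← hq, D.lbl_mu p hp]; exact A.step_inv x _ y hy
  have hsq : D.pos (D.succ q) = some x := by
    obtain ⟨x', h1, h2⟩ := D.succ_pos q hqP y hposq
    rw [hstep] at h1
    rw [h2, ← h1]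
  have hxy : x ≠ y := by
    rintro rfl; exact A.step_ne _ _ hy
  have hpn : D.pos p ≠ none := by rw [hx]; simp
  have hqn : D.pos q ≠ none := by rw [hposq]; simp
  have hpp : D.succ p ≠ p := fun h => by rw [h, hx] at hsp; exact hxy (Option.some.inj hsp)
  have hqq : D.succ q ≠ q := fun h => by rw [h, hposq] at hsq; exact hxy (Option.some.inj hsq).symm
  have hmem : ∀ r, r ∈ (D.P.erase p).erase q ↔ r ≠ q ∧ r ≠ p ∧ r ∈ D.P := by
    intro r; simp [Finset.mem_erase]
  have hmumem : ∀ r, r ∈ (D.P.erase p).erase q → D.mu r ∈ (D.P.erase p).erase q := by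
    intro r hr
    rw [hmem] at hr ⊢
    refine ⟨fun h => hr.2.1 ?_, fun h => hr.1 ?_, D.mu_mem r hr.2.2⟩
    · rw [← D.mu_mu r hr.2.2, h, hqp]
    · rw [← D.mu_mu r hr.2.2, h, hq]
  -- facts about the new successor
  have key : ∀ t, t ∈ (D.P.erase p).erase q → D.pos t ≠ none →
      (D.succ t = p ∧ D.succ q ≠ p) ∨ (D.succ t = q ∧ D.succ p ≠ q ∧ D.succ t ≠ p) ∨
        (D.succ t ≠ p ∧ D.succ t ≠ q) := by
    intro t ht hpos
    rw [hmem] at ht
    by_cases h1 : D.succ t = p
    · left
      refine ⟨h1, fun h => ht.1 ?_⟩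
      exact D.succ_inj t ht.2.2 q hqP hpos hqn (by rw [h1, h])
    · by_cases h2 : D.succ t = q
      · right; left
        refine ⟨h2, fun h => ht.2.1 ?_, h1⟩
        exact D.succ_inj t ht.2.2 p hp hpos hpn (by rw [h2, h])
      · right; right
        exact ⟨h1, h2⟩
  refine ⟨{
    P := (D.P.erase p).erase q
    mu := D.mu
    lbl := D.lbl
    tau := D.tau
    h := D.h
    pos := D.pos
    succ := fun t => if D.succ t = p then D.succ q else if D.succ t = q then D.succ p
      else D.succ t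
    out := D.out
    base := D.base
    mu_mem := hmumem
    mu_mu := fun r hr => D.mu_mu r ((hmem r).1 hr).2.2
    mu_ne := fun r hr => D.mu_ne r ((hmem r).1 hr).2.2
    lbl_mu := fun r hr => D.lbl_mu r ((hmem r).1 hr).2.2
    h_mu := fun r hr => D.h_mu r ((hmem r).1 hr).2.2
    out_nodup := D.out_nodup
    out_mem := ?_
    out_path := D.out_path
    out_lbl := D.out_lbl
    succ_mem := ?_
    succ_pos := ?_
    succ_inj := ?_
    succ_tau := ?_
    H1 := ?_ }, ?_⟩
  · intro r
    rw [hmem, D.out_mem]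
    constructor
    · rintro ⟨h1, h2⟩
      exact ⟨⟨fun h => hqn (h ▸ h2), fun h => hpn (h ▸ h2), h1⟩, h2⟩
    · rintro ⟨⟨-, -, h1⟩, h2⟩
      exact ⟨h1, h2⟩
  · intro t ht hpos
    have ht' := ht
    rw [hmem] at ht'
    rcases key t ht hpos with ⟨h1, h2⟩ | ⟨h1, h2, h3⟩ | ⟨h1, h2⟩
    · simp only [h1, if_true]
      exact (hmem _).2 ⟨hqq, h2, D.succ_mem q hqP hqn⟩
    · simp only [h1, hne, if_false, if_true]
      exact (hmem _).2 ⟨h2, hpp, D.succ_mem p hp hpn⟩
    · simp only [h1, h2, if_false]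
      exact (hmem _).2 ⟨h2, h1, D.succ_mem t ht'.2.2 hpos⟩
  · intro t ht z hz
    have hpos : D.pos t ≠ none := by rw [hz]; simp
    have ht' := ht
    rw [hmem] at ht'
    obtain ⟨u, hu1, hu2⟩ := D.succ_pos t ht'.2.2 z hz
    refine ⟨u, hu1, ?_⟩
    rcases key t ht hpos with ⟨h1, h2⟩ | ⟨h1, h2, h3⟩ | ⟨h1, h2⟩
    · simp only [h1, if_true]
      rw [hsq, ← hu2, h1, hx]
    · simp only [h1, hne, if_false, if_true]
      rw [hsp, ← hu2, h1, hposq]
    · simp only [h1, h2, if_false]
      exact hu2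
  · intro t ht t' ht' hpos hpos' h
    have ht1 := (hmem t).1 ht
    have ht1' := (hmem t').1 ht'
    rcases key t ht hpos with ⟨h1, h2⟩ | ⟨h1, h2, h3⟩ | ⟨h1, h2⟩ <;>
    rcases key t' ht' hpos' with ⟨h1', h2'⟩ | ⟨h1', h2', h3'⟩ | ⟨h1', h2'⟩
    · exact D.succ_inj t ht1.2.2 t' ht1'.2.2 hpos hpos' (by rw [h1, h1'])
    · simp only [h1, h1', hne, if_true, if_false] at h
      exact absurd (D.succ_inj q hqP p hp hqn hpn h) hne
    · simp only [h1, h1', h2', if_true, if_false] at h
      exact absurd (D.succ_inj q hqP t' ht1'.2.2 hqn hpos' h).symm ht1'.1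
    · simp only [h1, h1', hne, if_true, if_false] at h
      exact absurd (D.succ_inj p hp q hqP hpn hqn h).symm hne
    · exact D.succ_inj t ht1.2.2 t' ht1'.2.2 hpos hpos' (by rw [h1, h1'])
    · simp only [h1, hne, h1', h2', if_true, if_false] at h
      exact absurd (D.succ_inj p hp t' ht1'.2.2 hpn hpos' h).symm ht1'.2.1
    · simp only [h1, h2, h1', if_true, if_false] at h
      exact absurd (D.succ_inj t ht1.2.2 q hqP hpos hqn h) ht1.1
    · simp only [h1, h2, h1', hne, if_true, if_false] at h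
      exact absurd (D.succ_inj t ht1.2.2 p hp hpos hpn h) ht1.2.1
    · simp only [h1, h2, h1', h2', if_false] at h
      exact D.succ_inj t ht1.2.2 t' ht1'.2.2 hpos hpos' h
  · intro t ht hpos
    have ht1 := (hmem t).1 ht
    have h0 := D.succ_tau t ht1.2.2 hpos
    rcases key t ht hpos with ⟨h1, h2⟩ | ⟨h1, h2, h3⟩ | ⟨h1, h2⟩
    · simp only [h1, if_true]
      rw [D.succ_tau q hqP hqn, hqp, ← h0, h1]
    · simp only [h1, hne, if_false, if_true]
      rw [D.succ_tau p hp hpn, hq, ← h0, h1]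
    · simp only [h1, h2, if_false]
      exact h0
  · intro z hz hs
    obtain ⟨y', hy1, hyy, hy2⟩ := removeH1 D.P D.mu D.tau
      (fun y => (∀ p ∈ D.P, D.pos p ≠ none → y (D.succ p) = y p) ∧
        (∀ p ∈ D.P, D.pos p = none → y p = 0)) p q hp hq D.mu_mu
      (fun z hz hs => by
        obtain ⟨y, h1, h2, h3⟩ := D.H1 z hz hs
        exact ⟨y, ⟨h1, h2⟩, h3⟩) z hz hs
    have hpq : y' p = y' q := by
      have := CharTwo.add_self_eq_zero (y' q)
      calc y' p = y' p + (y' q + y' q) := by rw [this, add_zero]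
        _ = (y' p + y' q) + y' q := by ring
        _ = y' q := by rw [hyy, zero_add]
    refine ⟨y', ?_, fun r hr => hy1.2 r ((hmem r).1 hr).2.2, hy2⟩
    intro t ht hpos
    have ht1 := (hmem t).1 ht
    have h0 := hy1.1 t ht1.2.2 hpos
    rcases key t ht hpos with ⟨h1, h2⟩ | ⟨h1, h2, h3⟩ | ⟨h1, h2⟩
    · simp only [h1, if_true]
      rw [hy1.1 q hqP hqn, ← hpq, ← h0, h1]
    · simp only [h1, hne, if_false, if_true]
      rw [hy1.1 p hp hpn, hpq, ← h0, h1]
    · simp only [h1, h2, if_false]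
      exact h0
  · have h1 : ((D.P.erase p).erase q).card < (D.P.erase p).card :=
      Finset.card_erase_lt_of_mem (Finset.mem_erase.2 ⟨hne, hqP⟩)
    have h2 : (D.P.erase p).card < D.P.card := Finset.card_erase_lt_of_mem hp
    exact h1.trans h2

end Vale.Agent.P089.GL
end
end

section

section

/-!
# From the diagram form of Greendlinger's lemma to `GLStatement` (helper205)
-/

namespace Vale.Agent.P089.GL

/-- The diagram form (theorem `greendlinger` of the skeleton). -/
def Greendlinger : Prop :=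
  ∀ (L : Type) (A : LG L) (G : Type) (_ : Group G) (lab : L → G),
    (∀ s, lab (A.inv s) = (lab s)⁻¹) →
    (∀ x r, A.run x r = some x → (r.map lab).prod = 1) →
    (∀ w : List L, (w.map lab).prod = 1 → A.Eqv w []) →
    ∀ (g : A.Om → ℕ) (N : ℕ), 13 ≤ N → SC A g N →
    ∀ w : List L, w ≠ [] → A.Red w → (w.map lab).prod = 1 →
    ∃ u a v x y b, w = u ++ a ++ v ∧ A.run x a = some y ∧ A.run y b = some x ∧
      g x ≤ a.length + b.length ∧ N * b.length ≤ 3 * (a.length + b.length)

namespace Final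

variable {S : Type} {inv : S → S}

open Classical in
/-- the partial action of a labelled graph -/
noncomputable def ofLGraph (hinv : ∀ a, inv (inv a) = a) (L : LGraph S inv)
    (hloop : ∀ x a, ¬ L.E x a x) : LG S where
  inv := inv
  inv_inv := hinv
  Om := L.Ω
  step := fun x s => if h : ∃ y, L.E x s y then some h.choose else none
  step_inv := by
    intro x s y h
    split_ifs at h with h1
    · have h2 := h1.choose_spec
      rw [Option.some.injEq] at h
      rw [h] at h2
      have h3 : ∃ z, L.E y (inv s) z := ⟨x, L.symm h2⟩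
      rw [dif_pos h3, Option.some.injEq]
      exact L.det h3.choose_spec (L.symm h2)
  step_ne := by
    intro x s h
    split_ifs at h with h1
    · have h2 := h1.choose_spec
      rw [Option.some.injEq] at h
      rw [h] at h2
      exact hloop x s h2

variable (hinv : ∀ a, inv (inv a) = a) (L : LGraph S inv) (hloop : ∀ x a, ¬ L.E x a x)

theorem step_iff (x : L.Ω) (s : S) (y : L.Ω) :
    (ofLGraph hinv L hloop).step x s = some y ↔ L.E x s y := by
  simp only [ofLGraph]
  constructor
  · intro h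
    split_ifs at h with h1
    · have h2 := h1.choose_spec
      rw [Option.some.injEq] at h
      rwa [h] at h2
  · intro h
    have h1 : ∃ y, L.E x s y := ⟨y, h⟩
    rw [dif_pos h1, Option.some.injEq]
    exact L.det h1.choose_spec h

theorem run_iff (x : L.Ω) (w : List S) (y : L.Ω) :
    (ofLGraph hinv L hloop).run x w = some y ↔ L.Reads x w y := by
  induction w generalizing x with
  | nil => exact Option.some_inj
  | cons s w ih =>
    constructor
    · intro h
      obtain ⟨z, h1, h2⟩ := Option.bind_eq_some_iff.1 h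
      exact ⟨z, (step_iff hinv L hloop x s z).1 h1, (ih z).1 h2⟩
    · rintro ⟨z, h1, h2⟩
      exact Option.bind_eq_some_iff.2 ⟨z, (step_iff hinv L hloop x s z).2 h1, (ih z).2 h2⟩

theorem eqv_congr (A : LG S) {a b : List S} (h : A.Eqv a b) (u v : List S) :
    A.Eqv (u ++ a ++ v) (u ++ b ++ v) := by
  induction h with
  | refl w => exact LG.Eqv.refl _
  | symm _ ih => exact ih.symm
  | trans _ _ ih1 ih2 => exact ih1.trans ih2
  | spur u' v' s =>
    have := LG.Eqv.spur (A := A) (u ++ u') (v' ++ v) s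
    simpa using this
  | rel u' v' r x hx =>
    have := LG.Eqv.rel (A := A) (u ++ u') (v' ++ v) r x hx
    simpa using this

/-- the congruence on words -/
def con (A : LG S) : Con (FreeMonoid S) where
  r a b := A.Eqv (FreeMonoid.toList a) (FreeMonoid.toList b)
  iseqv := ⟨fun _ => LG.Eqv.refl _, fun h => h.symm, fun h1 h2 => h1.trans h2⟩
  mul' := by
    intro w x y z h1 h2
    have e1 := eqv_congr A h1 [] (FreeMonoid.toList y)
    have e2 := eqv_congr A h2 (FreeMonoid.toList x) []
    simp only [List.nil_append, List.append_nil] at e1 e2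
    exact e1.trans e2

/-- the unit given by a letter -/
def unitOf (A : LG S) (s : S) : ((con A).Quotient)ˣ where
  val := ((FreeMonoid.of s : FreeMonoid S) : (con A).Quotient)
  inv := ((FreeMonoid.of (A.inv s) : FreeMonoid S) : (con A).Quotient)
  val_inv := by
    rw [← Con.coe_mul]
    refine (Con.eq (con A)).2 ?_
    exact (LG.Eqv.spur (A := A) [] [] s).symm
  inv_val := by
    rw [← Con.coe_mul]
    refine (Con.eq (con A)).2 ?_
    have := (LG.Eqv.spur (A := A) [] [] (A.inv s)).symm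
    rw [A.inv_inv] at this
    exact this

theorem prod_unitOf (A : LG S) (w : List S) :
    (((w.map (unitOf A)).prod : ((con A).Quotient)ˣ) : (con A).Quotient) =
      ((FreeMonoid.ofList w : FreeMonoid S) : (con A).Quotient) := by
  induction w with
  | nil => rfl
  | cons s w ih =>
    rw [List.map_cons, List.prod_cons, Units.val_mul, ih]
    rfl

theorem huniv (w : List S) (h : L.val w = 1) : (ofLGraph hinv L hloop).Eqv w [] := by
  set A := ofLGraph hinv L hloop with hA
  have hr : ∀ r ∈ L.rels, FreeGroup.lift (unitOf A) r = 1 := by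
    rintro r (⟨a, rfl⟩ | ⟨x, w, hw, rfl⟩)
    · rw [map_mul, FreeGroup.lift_apply_of, FreeGroup.lift_apply_of]
      apply Units.ext
      rw [Units.val_mul, Units.val_one]
      exact (unitOf A a).val_inv
    · rw [map_list_prod, List.map_map]
      apply Units.ext
      have : ((FreeGroup.lift (unitOf A)) ∘ FreeGroup.of) = unitOf A := by
        funext s; simp
      rw [this, prod_unitOf, Units.val_one]
      refine (Con.eq (con A)).2 ?_
      have h2 := (run_iff hinv L hloop x w x).2 hw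
      have h3 := (LG.Eqv.rel (A := A) [] [] w x h2).symm
      simp only [List.nil_append, List.append_nil] at h3
      exact h3
  have h1 : (w.map (unitOf A)).prod = 1 := by
    have h2 : PresentedGroup.toGroup hr (L.val w) = 1 := by rw [h, map_one]
    rw [LGraph.val, map_list_prod, List.map_map] at h2
    rw [← h2]
    congr 1
  have h3 := prod_unitOf A w
  rw [h1] at h3
  exact (Con.eq (con A)).1 h3.symm

end Final

open Final in
/-- passage from the diagram form to the block statement -/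
theorem glStatement_of (H : Greendlinger) : GLStatement := by
  intro S inv hinv L g K hK hSC w hw hred hval
  set A := ofLGraph hinv L hSC.loop with hA
  have run_iff' := run_iff hinv L hSC.loop
  obtain ⟨u, a, v, x, y, b, h1, h2, h3, h4, h5⟩ := H S A L.Grp inferInstance
    (fun a => (PresentedGroup.of a : L.Grp)) (by
      intro s
      have h1 : (PresentedGroup.of s : L.Grp) * PresentedGroup.of (inv s) = 1 := by
        have : (PresentedGroup.mk L.rels) (FreeGroup.of s * FreeGroup.of (inv s)) = 1 :=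
          PresentedGroup.one_of_mem (Or.inl ⟨s, rfl⟩)
        rwa [map_mul] at this
      exact (inv_eq_of_mul_eq_one_right h1).symm) (by
      intro x r hr
      have h2 : L.Reads x r x := (run_iff' x r x).1 hr
      have : (PresentedGroup.mk L.rels) ((r.map FreeGroup.of).prod) = 1 :=
        PresentedGroup.one_of_mem (Or.inr ⟨x, r, h2, rfl⟩)
      rw [map_list_prod, List.map_map] at this
      exact this) (by
      intro w hw
      exact huniv hinv L hSC.loop w hw) g K hK ⟨by
      intro x s y h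
      exact (hSC.g_const ((step_iff hinv L hSC.loop x s y).1 h)).symm, by
      intro x w h1 h2 h3
      exact hSC.cyc h1 h2 ((run_iff' x w x).1 h3), by
      intro x y w h1 h2 h3 h4
      obtain ⟨x', hx'⟩ := Option.isSome_iff_exists.1 h3
      obtain ⟨y', hy'⟩ := Option.isSome_iff_exists.1 h4
      have h5 := (run_iff' x w x').1 hx'
      have h6 := (run_iff' y w y').1 hy'
      exact ⟨hSC.piece h1 h2 h5 h6, hSC.piece (Ne.symm h1) h2 h6 h5⟩⟩ w hw hred hval
  exact ⟨u, a, v, x, y, b, h1, (run_iff' x a y).1 h2, (run_iff' y b x).1 h3, h5, h4⟩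

end Vale.Agent.P089.GL
end
end

section

section

/-!
# Greendlinger's lemma (BLOCK A), assembled
-/

namespace Vale.Agent.P089.GL

theorem greendlinger : Greendlinger := by
  intro L A G _ lab hinv hrel huniv g N hN hSC w hw hred h1
  obtain ⟨s₀, -, -⟩ := List.exists_cons_of_ne_nil hw
  have : Nonempty L := ⟨s₀⟩
  exact greendlinger_of
    (fun w hw => exists_reduced_of hinv hrel
      (fun w D p hp x hx hm => delete_mirror D p hp x hx hm) hw)
    (fun w D h => simple_of_min D h) huniv g N hN hSC w hw hred h1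

end Vale.Agent.P089.GL

namespace Vale.Agent.P089

/-- BLOCK A is proved. -/
theorem glStatement : GLStatement := GL.glStatement_of GL.greendlinger

end Vale.Agent.P089
end
end

section

section

/-! # E1: large girth expanders with sparse small sets -/

open Finset

namespace Vale.Agent.P089.E1

variable {n k : ℕ}

/-- The simple graph of a family of permutations. -/
def G0 (π : Fin k → Equiv.Perm (Fin n)) : SimpleGraph (Fin n) where
  Adj x y := x ≠ y ∧ ∃ i, π i x = y ∨ π i y = x
  symm := by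
    constructor
    rintro x y ⟨h, i, hi⟩
    exact ⟨h.symm, i, hi.symm⟩
  loopless := by
    constructor
    rintro x ⟨h, -⟩
    exact h rfl

theorem walk_support_le {V : Type*} [DecidableEq V] {G : SimpleGraph V} {u v : V} (p : G.Walk u v) :
    p.support.toFinset.card ≤ p.edges.toFinset.card + 1 := by
  induction p with
  | nil => simp
  | @cons u v w h p ih =>
    rw [SimpleGraph.Walk.support_cons, SimpleGraph.Walk.edges_cons, List.toFinset_cons,
      List.toFinset_cons]
    by_cases hu : u ∈ p.support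
    · rw [insert_eq_of_mem (List.mem_toFinset.mpr hu)]
      refine ih.trans (Nat.add_le_add_right (card_le_card (subset_insert _ _)) 1)
    · have he : s(u, v) ∉ p.edges := fun he => hu (SimpleGraph.Walk.fst_mem_support_of_mem_edges _ he)
      rw [card_insert_of_notMem (by rwa [List.mem_toFinset]),
        card_insert_of_notMem (by rwa [List.mem_toFinset])]
      omega

theorem walk_split {V : Type*} {G : SimpleGraph V} {u v : V} (p : G.Walk u v) {d : G.Dart}
    (hd : d ∈ p.darts) : ∃ (p₁ : G.Walk u d.fst) (p₂ : G.Walk d.snd v),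
      p = p₁.append (SimpleGraph.Walk.cons d.adj p₂) := by
  induction p with
  | nil => simp at hd
  | @cons u v w h p ih =>
    rw [SimpleGraph.Walk.darts_cons, List.mem_cons] at hd
    rcases hd with rfl | hd
    · exact ⟨SimpleGraph.Walk.nil, p, rfl⟩
    · obtain ⟨p₁, p₂, hp⟩ := ih hd
      exact ⟨SimpleGraph.Walk.cons h p₁, p₂, by rw [SimpleGraph.Walk.cons_append, ← hp]⟩

/-- A maximal subgraph without short cycles: removed edges are bridged by short walks. -/
theorem exists_max_subgraph (G : SimpleGraph (Fin n)) (g : ℕ) :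
    ∃ H : SimpleGraph (Fin n), H ≤ G ∧
      (∀ (a : Fin n) (w : H.Walk a a), w.IsCycle → g < w.length) ∧
      ∀ a b, G.Adj a b → ¬ H.Adj a b → ∃ w : H.Walk a b, w.length < g := by
  classical
  set P : Set (SimpleGraph (Fin n)) := {H | H ≤ G ∧
      (∀ (a : Fin n) (w : H.Walk a a), w.IsCycle → g < w.length)} with hP
  have hne : P.Nonempty := by
    refine ⟨⊥, bot_le, ?_⟩
    intro a w hw
    exfalso
    cases w with
    | nil => exact hw.ne_nil rfl
    | cons h p => exact h
  obtain ⟨H, hHmax⟩ := (Set.toFinite P).exists_maximal hne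
  obtain ⟨⟨hHG, hHg⟩, hmax⟩ := hHmax
  refine ⟨H, hHG, hHg, ?_⟩
  intro a b hab hHab
  set H' : SimpleGraph (Fin n) := H ⊔ SimpleGraph.edge a b with hH'
  have hne' : a ≠ b := hab.ne
  have hH'G : H' ≤ G := by
    apply sup_le hHG
    rw [SimpleGraph.edge_le_iff]
    right; exact hab
  have hadj : H'.Adj a b := by
    rw [hH', SimpleGraph.sup_adj]
    right
    rw [SimpleGraph.edge_adj]
    exact ⟨Or.inl ⟨rfl, rfl⟩, hne'⟩
  have hnot : ¬ (∀ (a : Fin n) (w : H'.Walk a a), w.IsCycle → g < w.length) := by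
    intro hcon
    have h1 : H' ≤ H := hmax ⟨hH'G, hcon⟩ le_sup_left
    exact hHab (h1 hadj)
  push Not at hnot
  obtain ⟨c, w, hw, hlen⟩ := hnot
  have hH'H : ∀ x y, H'.Adj x y → s(x, y) ≠ s(a, b) → H.Adj x y := by
    intro x y hxy hne
    rw [hH', SimpleGraph.sup_adj] at hxy
    rcases hxy with h | h
    · exact h
    · rw [SimpleGraph.edge_adj] at h
      exfalso
      apply hne
      rcases h.1 with ⟨rfl, rfl⟩ | ⟨rfl, rfl⟩
      · rfl
      · exact Sym2.eq_swap
  have hedge : ∀ {x y : Fin n} (q : H'.Walk x y), s(a, b) ∉ q.edges →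
      ∀ e ∈ q.edges, e ∈ H.edgeSet := by
    intro x y q hq e he
    induction e using Sym2.ind with
    | _ x' y' =>
      rw [SimpleGraph.mem_edgeSet]
      exact hH'H x' y' (q.adj_of_mem_edges he) (fun h => hq (h ▸ he))
  by_cases hmem : s(a, b) ∈ w.edges
  · rw [SimpleGraph.Walk.edges, List.mem_map] at hmem
    obtain ⟨d, hd, hde⟩ := hmem
    obtain ⟨p₁, p₂, hp⟩ := walk_split w hd
    have hnd := hw.isTrail.edges_nodup
    rw [hp, SimpleGraph.Walk.edges_append, SimpleGraph.Walk.edges_cons] at hnd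
    have hdm : s(d.fst, d.snd) = s(a, b) := hde
    rw [hdm] at hnd
    have h1 : s(a, b) ∉ (p₂.append p₁).edges := by
      rw [SimpleGraph.Walk.edges_append, List.mem_append]
      rw [List.nodup_append] at hnd
      obtain ⟨-, h2, h3⟩ := hnd
      rw [List.nodup_cons] at h2
      rintro (h | h)
      · exact h2.1 h
      · exact h3 _ h _ (List.mem_cons_self ..) rfl
    have hlen2 : (p₂.append p₁).length < g := by
      have : w.length = p₁.length + (p₂.length + 1) := by
        rw [hp, SimpleGraph.Walk.length_append, SimpleGraph.Walk.length_cons]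
      rw [SimpleGraph.Walk.length_append]
      omega
    set q := (p₂.append p₁).transfer H (hedge _ h1) with hq
    have hqlen : q.length < g := by rw [hq, SimpleGraph.Walk.length_transfer]; exact hlen2
    rw [Sym2.eq_iff] at hdm
    rcases hdm with ⟨e1, e2⟩ | ⟨e1, e2⟩
    · refine ⟨(q.reverse).copy e1 e2, ?_⟩
      rw [SimpleGraph.Walk.length_copy, SimpleGraph.Walk.length_reverse]
      exact hqlen
    · refine ⟨q.copy e2 e1, ?_⟩
      rw [SimpleGraph.Walk.length_copy]
      exact hqlen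
  · exfalso
    have h1 := hHg c (w.transfer H (hedge w hmem)) (hw.transfer _)
    rw [SimpleGraph.Walk.length_transfer] at h1
    omega

/-- Edges of the simple graph inside `R` are counted by `eS`. -/
theorem edges_le_eS (π : Fin k → Equiv.Perm (Fin n)) (R : Finset (Fin n))
    (T : Finset (Sym2 (Fin n))) (hT : ∀ x y, s(x, y) ∈ T → x ∈ R ∧ y ∈ R ∧ (G0 π).Adj x y) :
    T.card ≤ (eS π R).card := by
  classical
  have h1 : T ⊆ (eS π R).image (fun p => s(p.2, π p.1 p.2)) := by
    intro e he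
    induction e using Sym2.ind with
    | _ x y =>
      obtain ⟨hx, hy, -, i, hi⟩ := hT x y he
      rw [mem_image]
      rcases hi with hi | hi
      · exact ⟨(i, x), mem_eS.mpr ⟨hx, by simpa [hi] using hy⟩, by simp [hi]⟩
      · exact ⟨(i, y), mem_eS.mpr ⟨hy, by simpa [hi] using hx⟩, by simp [hi, Sym2.eq_swap]⟩
  exact (card_le_card h1).trans card_image_le

theorem eIn_le (π : Fin k → Equiv.Perm (Fin n)) {H : SimpleGraph (Fin n)} (hH : H ≤ G0 π)
    (R : Finset (Fin n)) : eIn H R ≤ 2 * (eS π R).card := by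
  classical
  have h1 : eIn H R = ((univ : Finset (Fin n × Fin n)).filter
      fun p => p.1 ∈ R ∧ p.2 ∈ R ∧ H.Adj p.1 p.2).card := by
    rw [eIn, Nat.card_eq_fintype_card, Fintype.card_subtype]
  rw [h1]
  have h2 : ((univ : Finset (Fin n × Fin n)).filter
      fun p => p.1 ∈ R ∧ p.2 ∈ R ∧ H.Adj p.1 p.2) ⊆
      (eS π R).image (fun p => (p.2, π p.1 p.2)) ∪ (eS π R).image (fun p => (π p.1 p.2, p.2)) := by
    rintro ⟨x, y⟩ hp
    simp only [mem_filter, mem_univ, true_and] at hp
    obtain ⟨hx, hy, hadj⟩ := hp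
    obtain ⟨-, i, hi⟩ := hH hadj
    rw [mem_union, mem_image, mem_image]
    rcases hi with hi | hi
    · left; exact ⟨(i, x), mem_eS.mpr ⟨hx, by simpa [hi] using hy⟩, by simp [hi]⟩
    · right; exact ⟨(i, y), mem_eS.mpr ⟨hy, by simpa [hi] using hx⟩, by simp [hi]⟩
  refine (card_le_card h2).trans ((card_union_le _ _).trans ?_)
  have := card_image_le (s := eS π R) (f := fun p => (p.2, π p.1 p.2))
  have := card_image_le (s := eS π R) (f := fun p => (π p.1 p.2, p.2))
  omega

open Classical in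
/-- The neighbours. -/
noncomputable def nb (H : SimpleGraph (Fin n)) (x : Fin n) : Finset (Fin n) :=
  univ.filter fun y => H.Adj x y

theorem mem_nb {H : SimpleGraph (Fin n)} {x y : Fin n} : y ∈ nb H x ↔ H.Adj x y := by
  simp only [nb, mem_filter, mem_univ, true_and]

theorem nb_card_le (π : Fin k → Equiv.Perm (Fin n)) {H : SimpleGraph (Fin n)} (hH : H ≤ G0 π)
    (x : Fin n) : (nb H x).card ≤ 2 * k := by
  classical
  have h1 : nb H x ⊆ (univ : Finset (Fin k)).image (fun i => π i x) ∪
      (univ : Finset (Fin k)).image (fun i => (π i).symm x) := by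
    intro y hy
    rw [mem_nb] at hy
    obtain ⟨-, i, hi⟩ := hH hy
    rw [mem_union, mem_image, mem_image]
    rcases hi with hi | hi
    · left; exact ⟨i, mem_univ _, hi⟩
    · right; exact ⟨i, mem_univ _, by rw [← hi, Equiv.symm_apply_apply]⟩
  refine (card_le_card h1).trans ((card_union_le _ _).trans ?_)
  have h2 := card_image_le (s := (univ : Finset (Fin k))) (f := fun i => π i x)
  have h3 := card_image_le (s := (univ : Finset (Fin k))) (f := fun i => (π i).symm x)
  rw [card_univ, Fintype.card_fin] at h2 h3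
  omega

theorem nb_card_ge (π : Fin k → Equiv.Perm (Fin n)) {s₀ : ℕ} (hs : 2 * k ≤ s₀) (hk : 0 < k)
    (hC : ∀ R : Finset (Fin n), 0 < R.card → R.card ≤ s₀ → (eS π R).card ≤ R.card) (x : Fin n) :
    2 * k ≤ (nb (G0 π) x).card + 2 := by
  classical
  by_contra hcon
  push Not at hcon
  set R : Finset (Fin n) := insert x (nb (G0 π) x) with hR
  have hxn : x ∉ nb (G0 π) x := by
    rw [mem_nb]; exact fun h => h.ne rfl
  have hRc : R.card = (nb (G0 π) x).card + 1 := by rw [hR, card_insert_of_notMem hxn]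
  have h1 := hC R (by omega) (by omega)
  have h2 := hC {x} (by simp) (by rw [card_singleton]; omega)
  rw [card_singleton] at h2
  set A : Finset (Fin k × Fin n) := (univ : Finset (Fin k)).image (fun i => (i, x)) with hA
  set B : Finset (Fin k × Fin n) := (univ : Finset (Fin k)).image (fun i => (i, (π i).symm x)) with hB
  have hmemR : ∀ i, π i x ∈ R := by
    intro i
    rw [hR, mem_insert, mem_nb]
    by_cases h : π i x = x
    · left; exact h
    · right; exact ⟨fun h' => h h'.symm, i, Or.inl rfl⟩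
  have hmemR' : ∀ i, (π i).symm x ∈ R := by
    intro i
    rw [hR, mem_insert, mem_nb]
    by_cases h : (π i).symm x = x
    · left; exact h
    · right; exact ⟨fun h' => h h'.symm, i, Or.inr (by rw [Equiv.apply_symm_apply])⟩
  have hA1 : A ⊆ eS π R := by
    intro p hp
    rw [hA, mem_image] at hp
    obtain ⟨i, -, rfl⟩ := hp
    exact mem_eS.mpr ⟨mem_insert_self _ _, hmemR i⟩
  have hB1 : B ⊆ eS π R := by
    intro p hp
    rw [hB, mem_image] at hp
    obtain ⟨i, -, rfl⟩ := hp
    refine mem_eS.mpr ⟨hmemR' i, ?_⟩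
    simp only [Equiv.apply_symm_apply]
    exact mem_insert_self _ _
  have hAB : A ∩ B ⊆ eS π {x} := by
    intro p hp
    rw [mem_inter, hA, hB, mem_image, mem_image] at hp
    obtain ⟨⟨i, -, rfl⟩, ⟨j, -, hj⟩⟩ := hp
    rw [Prod.mk.injEq] at hj
    obtain ⟨rfl, hj⟩ := hj
    refine mem_eS.mpr ⟨mem_singleton_self _, ?_⟩
    simp only [mem_singleton]
    conv_lhs => rw [← hj]
    rw [Equiv.apply_symm_apply]
  have hAc : A.card = k := by
    rw [hA, card_image_of_injective _ (fun i j h => (Prod.mk.injEq _ _ _ _ ▸ h : _ ∧ _).1)]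
    simp only [card_univ, Fintype.card_fin]
  have hBc : B.card = k := by
    rw [hB, card_image_of_injective _ (fun i j h => (Prod.mk.injEq _ _ _ _ ▸ h : _ ∧ _).1)]
    simp only [card_univ, Fintype.card_fin]
  have h3 : (A ∪ B).card ≤ (eS π R).card := card_le_card (union_subset hA1 hB1)
  have h4 := card_union_add_card_inter A B
  have h5 := card_le_card hAB
  omega

theorem matching (π : Fin k → Equiv.Perm (Fin n)) {g s₀ : ℕ} (hs : 2 * g ≤ s₀)
    (hC : ∀ R : Finset (Fin n), 0 < R.card → R.card ≤ s₀ → (eS π R).card ≤ R.card)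
    {H : SimpleGraph (Fin n)} (hH : H ≤ G0 π)
    (hbr : ∀ a b, (G0 π).Adj a b → ¬ H.Adj a b → ∃ w : H.Walk a b, w.length < g)
    {v b b' : Fin n} (h1 : (G0 π).Adj v b) (h1' : ¬ H.Adj v b) (h2 : (G0 π).Adj v b')
    (h2' : ¬ H.Adj v b') : b = b' := by
  classical
  by_contra hne
  obtain ⟨p, hp⟩ := hbr v b h1 h1'
  obtain ⟨p', hp'⟩ := hbr v b' h2 h2'
  set q : H.Walk b b' := p.reverse.append p' with hq
  have hqlen : q.length + 2 ≤ 2 * g := by
    rw [hq, SimpleGraph.Walk.length_append, SimpleGraph.Walk.length_reverse]; omega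
  set R : Finset (Fin n) := q.support.toFinset with hR
  have hvR : v ∈ R := by
    rw [hR, List.mem_toFinset, hq, SimpleGraph.Walk.mem_support_append_iff]
    right; exact p'.start_mem_support
  have hbR : b ∈ R := by rw [hR, List.mem_toFinset]; exact q.start_mem_support
  have hbR' : b' ∈ R := by rw [hR, List.mem_toFinset]; exact q.end_mem_support
  have hRle : R.card ≤ 2 * g := by
    have := List.toFinset_card_le q.support
    rw [SimpleGraph.Walk.length_support, ← hR] at this
    omega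
  have hRpos : 0 < R.card := card_pos.mpr ⟨v, hvR⟩
  set T : Finset (Sym2 (Fin n)) := insert s(v, b) (insert s(v, b') q.edges.toFinset) with hT
  have hb1 : s(v, b') ∉ q.edges.toFinset := by
    rw [List.mem_toFinset]
    exact fun h => h2' (q.adj_of_mem_edges h)
  have hb2 : s(v, b) ∉ insert s(v, b') q.edges.toFinset := by
    rw [mem_insert, List.mem_toFinset]
    rintro (h | h)
    · rw [Sym2.eq_iff] at h
      rcases h with ⟨-, h⟩ | ⟨h, h'⟩
      · exact hne h
      · exact h1.ne h'.symm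
    · exact h1' (q.adj_of_mem_edges h)
  have hTc : T.card = q.edges.toFinset.card + 2 := by
    rw [hT, card_insert_of_notMem hb2, card_insert_of_notMem hb1]
  have h3 := edges_le_eS π R T (by
    intro x y hxy
    rw [hT, mem_insert, mem_insert, List.mem_toFinset] at hxy
    rcases hxy with h | h | h
    · rw [Sym2.eq_iff] at h
      rcases h with ⟨rfl, rfl⟩ | ⟨rfl, rfl⟩
      · exact ⟨hvR, hbR, h1⟩
      · exact ⟨hbR, hvR, h1.symm⟩
    · rw [Sym2.eq_iff] at h
      rcases h with ⟨rfl, rfl⟩ | ⟨rfl, rfl⟩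
      · exact ⟨hvR, hbR', h2⟩
      · exact ⟨hbR', hvR, h2.symm⟩
    · refine ⟨?_, ?_, hH (q.adj_of_mem_edges h)⟩
      · rw [hR, List.mem_toFinset]; exact SimpleGraph.Walk.fst_mem_support_of_mem_edges _ h
      · rw [hR, List.mem_toFinset]; exact SimpleGraph.Walk.snd_mem_support_of_mem_edges _ h)
  have h4 := hC R hRpos (by omega)
  have h5 := walk_support_le q
  rw [← hR] at h5
  omega

theorem eOut_add_eIn (H : SimpleGraph (Fin n)) (R : Finset (Fin n)) :
    eOut H R + eIn H R = ∑ x ∈ R, (nb H x).card := by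
  classical
  have h1 : eIn H R = ((univ : Finset (Fin n × Fin n)).filter
      fun p => p.1 ∈ R ∧ p.2 ∈ R ∧ H.Adj p.1 p.2).card := by
    rw [eIn, Nat.card_eq_fintype_card, Fintype.card_subtype]
  have h2 : eOut H R = ((univ : Finset (Fin n × Fin n)).filter
      fun p => p.1 ∈ R ∧ p.2 ∉ R ∧ H.Adj p.1 p.2).card := by
    rw [eOut, Nat.card_eq_fintype_card, Fintype.card_subtype]
  have h3 : (R.sigma fun x => nb H x).card = ∑ x ∈ R, (nb H x).card := card_sigma _ _
  rw [← h3, h1, h2, ← card_union_of_disjoint]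
  · apply card_bij (fun p _ => (⟨p.1, p.2⟩ : Σ _ : Fin n, Fin n))
    · rintro ⟨x, y⟩ hp
      simp only [mem_union, mem_filter, mem_univ, true_and, mem_sigma, mem_nb] at hp ⊢
      tauto
    · rintro ⟨x, y⟩ _ ⟨x', y'⟩ _ h
      simpa using h
    · rintro ⟨x, y⟩ hp
      simp only [mem_sigma, mem_nb] at hp
      refine ⟨(x, y), ?_, rfl⟩
      simp only [mem_union, mem_filter, mem_univ, true_and]
      by_cases hy : y ∈ R <;> tauto
  · rw [disjoint_left]
    rintro ⟨x, y⟩ h h'
    simp only [mem_filter, mem_univ, true_and] at h h'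
    exact h.2.1 h'.2.1

theorem connected_of_expand {H : SimpleGraph (Fin n)} (hn : 0 < n)
    (hexp : ∀ R : Finset (Fin n), 2 * R.card ≤ n → 6 * R.card ≤ eOut H R) : H.Connected := by
  classical
  have : Nonempty (Fin n) := ⟨⟨0, hn⟩⟩
  have hout : ∀ R : Finset (Fin n), R.Nonempty → 2 * R.card ≤ n → ∃ x ∈ R, ∃ y, y ∉ R ∧ H.Adj x y := by
    intro R hR hc
    have h1 := hexp R hc
    have h2 : 0 < R.card := hR.card_pos
    have h3 : 0 < eOut H R := by omega
    rw [eOut, Nat.card_pos_iff] at h3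
    obtain ⟨⟨⟨x, y⟩, hx, hy, hxy⟩⟩ := h3.1
    exact ⟨x, hx, y, hy, hxy⟩
  refine SimpleGraph.Connected.mk ?_
  intro x z
  by_contra hxz
  set R : Finset (Fin n) := univ.filter fun y => H.Reachable x y with hR
  have hxR : x ∈ R := by rw [hR, mem_filter]; exact ⟨mem_univ _, SimpleGraph.Reachable.refl x⟩
  have hzR : z ∈ Rᶜ := by
    rw [mem_compl, hR, mem_filter]
    exact fun h => hxz h.2
  have hcc : R.card + Rᶜ.card = n := by
    rw [card_add_card_compl, Fintype.card_fin]
  rcases le_or_gt (2 * R.card) n with h | h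
  · obtain ⟨a, ha, b, hb, hab⟩ := hout R ⟨x, hxR⟩ h
    apply hb
    rw [hR, mem_filter] at ha ⊢
    exact ⟨mem_univ _, ha.2.trans hab.reachable⟩
  · obtain ⟨a, ha, b, hb, hab⟩ := hout Rᶜ ⟨z, hzR⟩ (by (clear * - hcc h; omega))
    rw [mem_compl, not_not] at hb
    rw [mem_compl] at ha
    apply ha
    rw [hR, mem_filter] at hb ⊢
    exact ⟨mem_univ _, hb.2.trans hab.symm.reachable⟩

theorem size_bound {g : ℕ} (hg : 1 ≤ g) :
    8 * (2 * g + 80) ^ 2 * 360 ^ (2 * g + 81) ≤ 2 ^ (800 * g) := by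
  have h1 : 2 * g + 80 ≤ 2 ^ (7 + g) := by
    have : g < 2 ^ g := Nat.lt_two_pow_self
    have h2 : 2 * g + 80 ≤ 82 * g := by omega
    calc 2 * g + 80 ≤ 82 * g := h2
      _ ≤ 128 * 2 ^ g := by (clear * - hg this; nlinarith)
      _ = 2 ^ (7 + g) := by rw [pow_add]; norm_num
  calc 8 * (2 * g + 80) ^ 2 * 360 ^ (2 * g + 81)
      ≤ 2 ^ 3 * (2 ^ (7 + g)) ^ 2 * (2 ^ 9) ^ (2 * g + 81) := by
        gcongr
        · norm_num
        · norm_num
    _ = 2 ^ (3 + (7 + g) * 2 + 9 * (2 * g + 81)) := by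
        rw [← pow_mul, ← pow_mul, ← pow_add, ← pow_add]
    _ ≤ 2 ^ (800 * g) := Nat.pow_le_pow_right (by norm_num) (by (clear * - hg; omega))

end E1

open E1 in
/-- BLOCK E. -/
theorem expanderStatement : ExpanderStatement := by
  classical
  refine ⟨80, 800, 294912000, by norm_num, by norm_num, by norm_num, ?_⟩
  intro N
  set g : ℕ := max N 1 with hg
  have hg1 : 1 ≤ g := le_max_right _ _
  have hgN : N ≤ g := le_max_left _ _
  set n : ℕ := 2 ^ (800 * g) with hn
  have hgn : g ≤ n := by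
    calc g ≤ 2 ^ g := Nat.lt_two_pow_self.le
      _ ≤ n := Nat.pow_le_pow_right (by norm_num) (by omega)
  have hn0 : 0 < n := by omega
  obtain ⟨π, hA, hB, hC⟩ := exists_good (n := n) (g := g) (size_bound hg1)
  obtain ⟨H, hHG, hgirth, hbr⟩ := exists_max_subgraph (G0 π) g
  have hdeg : ∀ x, 77 ≤ (nb H x).card := by
    intro x
    have h1 := nb_card_ge π (s₀ := 2 * g + 80) (by omega) (by norm_num) hC x
    have h2 : (nb (G0 π) x).card ≤ (nb H x).card + 1 := by
      have h3 : nb (G0 π) x ⊆ nb H x ∪ (nb (G0 π) x \ nb H x) := by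
        intro y hy
        rw [mem_union, mem_sdiff]
        (clear * - hy; tauto)
      have h4 : (nb (G0 π) x \ nb H x).card ≤ 1 := by
        rw [card_le_one]
        intro b hb b' hb'
        rw [mem_sdiff, mem_nb, mem_nb] at hb hb'
        exact matching π (s₀ := 2 * g + 80) (by omega) hC hHG hbr hb.1 hb.2 hb'.1 hb'.2
      exact (card_le_card h3).trans ((card_union_le _ _).trans (by omega))
    omega
  have hexp : ∀ R : Finset (Fin n), 2 * R.card ≤ n → 6 * R.card ≤ eOut H R := by
    intro R hR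
    rcases Nat.eq_zero_or_pos R.card with h0 | hpos
    · rw [h0]; simp
    have h1 := eOut_add_eIn H R
    have h2 : 77 * R.card ≤ ∑ x ∈ R, (nb H x).card := by
      calc 77 * R.card = ∑ _x ∈ R, 77 := by rw [sum_const, smul_eq_mul, mul_comm]
        _ ≤ _ := sum_le_sum fun x _ => hdeg x
    have h3 := eIn_le π hHG R
    have h4 := hA R hpos hR
    omega
  refine ⟨n, hgN.trans hgn, H, connected_of_expand hn0 hexp, ?_, ⟨g, hgN, ?_, le_refl _⟩, hexp, ?_⟩
  · intro x
    have h1 : Nat.card {y // H.Adj x y} = (nb H x).card := by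
      rw [Nat.card_eq_fintype_card, Fintype.card_subtype]
      rfl
    rw [h1]
    exact nb_card_le π hHG x
  · rw [SimpleGraph.le_egirth]
    intro a w hw
    exact_mod_cast (hgirth a w hw).le
  · intro R hR
    rcases Nat.eq_zero_or_pos R.card with h0 | hpos
    · have h1 := eIn_le π hHG R
      have h2 : (eS π R).card = 0 := by
        rw [card_eq_zero] at h0 ⊢
        subst h0
        ext p
        simp [mem_eS]
      omega
    have h1 := eIn_le π hHG R
    have h2 := hB R hpos hR
    omega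

end Vale.Agent.P089
end
end

section

section

/-!
# P089: Rosenfeld's counting lemma for colourings avoiding finitely many bad events

`T e` is the support of the event `e`; for `v ∈ T e` the set `R e v ⊆ T e` contains `v` and in a
bad colouring the colours on `R e v` are determined by the colours on the rest of `T e`.
-/

namespace Vale.Agent.P089.Ros

open Finset Function

variable {V C ι : Type} [Fintype V] [DecidableEq V] [Fintype C] [DecidableEq C] [Fintype ι]

open Classical in
/-- the colourings which are `c₀` off `S` and avoid the events supported in `S`. -/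
noncomputable def Nset (T : ι → Finset V) (bad : ι → (V → C) → Prop) (c₀ : C) (S : Finset V) :
    Finset (V → C) :=
  Finset.univ.filter fun f => (∀ v, v ∉ S → f v = c₀) ∧ ∀ e, T e ⊆ S → ¬ bad e f

theorem mem_Nset {T : ι → Finset V} {bad : ι → (V → C) → Prop} {c₀ : C} {S : Finset V}
    {f : V → C} : f ∈ Nset T bad c₀ S ↔ (∀ v, v ∉ S → f v = c₀) ∧ ∀ e, T e ⊆ S → ¬ bad e f := by
  simp only [Nset, mem_filter, mem_univ, true_and]

open Classical in
theorem step (T : ι → Finset V) (bad : ι → (V → C) → Prop) (R : ι → V → Finset V)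
    (hbad : ∀ e f g, (∀ v ∈ T e, f v = g v) → bad e f → bad e g)
    (hvR : ∀ e v, v ∈ T e → v ∈ R e v)
    (hdet : ∀ e v, v ∈ T e → ∀ f g, bad e f → bad e g → (∀ u ∈ T e, u ∉ R e v → f u = g u) →
      ∀ u ∈ R e v, f u = g u)
    (c₀ : C) (S : Finset V) (v : V) (hv : v ∉ S) :
    Fintype.card C * (Nset T bad c₀ S).card ≤ (Nset T bad c₀ (insert v S)).card +
      ∑ e ∈ Finset.univ.filter (fun e => v ∈ T e ∧ T e ⊆ insert v S),
        (Nset T bad c₀ (S \ R e v)).card := by
  classical
  set A : Finset (V → C) := ((Nset T bad c₀ S) ×ˢ (Finset.univ : Finset C)).image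
    (fun x => Function.update x.1 v x.2) with hA
  have hinj : Set.InjOn (fun x : (V → C) × C => Function.update x.1 v x.2)
      ((Nset T bad c₀ S) ×ˢ (Finset.univ : Finset C) : Finset ((V → C) × C)) := by
    rintro ⟨f, c⟩ hf ⟨g, d⟩ hg h
    simp only [Finset.coe_product, Finset.coe_univ, Set.mem_prod, Finset.mem_coe, Set.mem_univ,
      and_true] at hf hg
    have hcd : c = d := by
      have := congrFun h v
      simpa using this
    have hfg : f = g := by
      funext u
      by_cases hu : u = v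
      · subst hu
        rw [(mem_Nset.1 hf).1 u hv, (mem_Nset.1 hg).1 u hv]
      · have := congrFun h u
        simpa [Function.update_of_ne hu] using this
    rw [hcd, hfg]
  have hAcard : A.card = Fintype.card C * (Nset T bad c₀ S).card := by
    rw [hA, Finset.card_image_of_injOn hinj, Finset.card_product, Finset.card_univ, mul_comm]
  rw [← hAcard]
  set E : Finset ι := Finset.univ.filter (fun e => v ∈ T e ∧ T e ⊆ insert v S) with hE
  have hcover : A ⊆ Nset T bad c₀ (insert v S) ∪ E.biUnion (fun e => A.filter (bad e)) := by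
    intro h hh
    rw [hA, Finset.mem_image] at hh
    obtain ⟨⟨f, c⟩, hfc, rfl⟩ := hh
    have hf : f ∈ Nset T bad c₀ S := (Finset.mem_product.1 hfc).1
    by_cases hex : ∃ e, v ∈ T e ∧ T e ⊆ insert v S ∧ bad e (Function.update f v c)
    · obtain ⟨e, he1, he2, he3⟩ := hex
      refine Finset.mem_union_right _ (Finset.mem_biUnion.2 ⟨e, ?_, ?_⟩)
      · rw [hE, Finset.mem_filter]
        exact ⟨Finset.mem_univ _, he1, he2⟩
      · rw [Finset.mem_filter]
        refine ⟨?_, he3⟩
        rw [hA, Finset.mem_image]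
        exact ⟨⟨f, c⟩, hfc, rfl⟩
    · refine Finset.mem_union_left _ (mem_Nset.2 ⟨?_, ?_⟩)
      · intro u hu
        rw [Finset.mem_insert, not_or] at hu
        simp only [Function.update_of_ne hu.1]
        exact (mem_Nset.1 hf).1 u hu.2
      · intro e he hb
        by_cases hve : v ∈ T e
        · exact hex ⟨e, hve, he, hb⟩
        · have hTS : T e ⊆ S := by
            intro u hu
            rcases Finset.mem_insert.1 (he hu) with h | h
            · exact absurd (h ▸ hu) hve
            · exact h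
          refine (mem_Nset.1 hf).2 e hTS (hbad e _ _ ?_ hb)
          intro u hu
          have : u ≠ v := fun h => hve (h ▸ hu)
          simp [Function.update_of_ne this]
  have hcard1 : A.card ≤ (Nset T bad c₀ (insert v S)).card +
      ∑ e ∈ E, (A.filter (bad e)).card := by
    refine (Finset.card_le_card hcover).trans ((Finset.card_union_le _ _).trans ?_)
    exact Nat.add_le_add_left Finset.card_biUnion_le _
  refine hcard1.trans (Nat.add_le_add_left (Finset.sum_le_sum ?_) _)
  intro e he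
  rw [hE, Finset.mem_filter] at he
  obtain ⟨-, hve, hTe⟩ := he
  refine Finset.card_le_card_of_injOn (fun h u => if u ∈ S \ R e v then h u else c₀) ?_ ?_
  · intro h hh
    simp only [Finset.mem_coe] at hh ⊢
    rw [Finset.mem_filter, hA, Finset.mem_image] at hh
    obtain ⟨⟨⟨f, c⟩, hfc, rfl⟩, hb⟩ := hh
    have hf : f ∈ Nset T bad c₀ S := (Finset.mem_product.1 hfc).1
    refine mem_Nset.2 ⟨?_, ?_⟩
    · intro u hu
      simp only [if_neg hu]
    · intro e' he' hb'
      refine (mem_Nset.1 hf).2 e' (he'.trans Finset.sdiff_subset) (hbad e' _ _ ?_ hb')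
      intro u hu
      have hu' := he' hu
      have : u ≠ v := by
        rintro rfl
        exact hv (Finset.mem_sdiff.1 hu').1
      simp only [if_pos hu', Function.update_of_ne this]
  · intro h hh k hk hhk
    simp only [Finset.mem_coe] at hh hk
    rw [Finset.mem_filter, hA, Finset.mem_image] at hh hk
    obtain ⟨⟨⟨f, c⟩, hfc, hf'⟩, hb⟩ := hh
    obtain ⟨⟨⟨g, d⟩, hgd, hg'⟩, hb'⟩ := hk
    have hf : f ∈ Nset T bad c₀ S := (Finset.mem_product.1 hfc).1
    have hg : g ∈ Nset T bad c₀ S := (Finset.mem_product.1 hgd).1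
    have hag : ∀ u ∈ S \ R e v, h u = k u := by
      intro u hu
      have := congrFun hhk u
      simpa only [if_pos hu] using this
    have hag2 : ∀ u ∈ T e, u ∉ R e v → h u = k u := by
      intro u hu hu2
      have huv : u ≠ v := by
        rintro rfl
        exact hu2 (hvR e u hve)
      refine hag u (Finset.mem_sdiff.2 ⟨?_, hu2⟩)
      rcases Finset.mem_insert.1 (hTe hu) with h | h
      · exact absurd h huv
      · exact h
    have hag3 := hdet e v hve h k hb hb' hag2
    funext u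
    by_cases hu : u ∈ R e v
    · exact hag3 u hu
    · by_cases huS : u ∈ S
      · exact hag u (Finset.mem_sdiff.2 ⟨huS, hu⟩)
      · have huv : u ≠ v := by
          rintro rfl
          exact hu (hvR e u hve)
        rw [← hf', ← hg']
        simp only [Function.update_of_ne huv]
        rw [(mem_Nset.1 hf).1 u huS, (mem_Nset.1 hg).1 u huS]

open Classical in
/-- **Rosenfeld's counting lemma.** -/
theorem exists_colouring (T : ι → Finset V) (bad : ι → (V → C) → Prop) (R : ι → V → Finset V)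
    (hT : ∀ e, (T e).Nonempty)
    (hbad : ∀ e f g, (∀ v ∈ T e, f v = g v) → bad e f → bad e g)
    (hRT : ∀ e v, v ∈ T e → R e v ⊆ T e) (hvR : ∀ e v, v ∈ T e → v ∈ R e v)
    (hdet : ∀ e v, v ∈ T e → ∀ f g, bad e f → bad e g → (∀ u ∈ T e, u ∉ R e v → f u = g u) →
      ∀ u ∈ R e v, f u = g u)
    (β : ℝ) (hβ : 1 ≤ β)
    (hsum : ∀ v, ∑ e ∈ Finset.univ.filter (fun e => v ∈ T e), (β⁻¹) ^ ((R e v).card - 1) ≤
      (Fintype.card C : ℝ) - β) [Nonempty C] :
    ∃ f : V → C, ∀ e, ¬ bad e f := by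
  classical
  obtain ⟨c₀⟩ := ‹Nonempty C›
  have hβ0 : 0 < β := by linarith
  set N : Finset V → ℝ := fun S => ((Nset T bad c₀ S).card : ℝ) with hN
  have hN0 : ∀ S, 0 ≤ N S := fun S => Nat.cast_nonneg _
  -- the main induction
  have main : ∀ n : ℕ, ∀ S : Finset V, S.card = n → ∀ v, v ∉ S → β * N S ≤ N (insert v S) := by
    intro n
    induction n using Nat.strong_induction_on with
    | _ n ih =>
      intro S hS v hv
      -- monotonicity below S
      have mono : ∀ k : ℕ, ∀ U : Finset V, U ⊆ S → (S \ U).card = k → β ^ k * N U ≤ N S := by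
        intro k
        induction k with
        | zero =>
          intro U hU hk
          have : S ⊆ U := by
            rw [Finset.card_eq_zero] at hk
            exact Finset.sdiff_eq_empty_iff_subset.1 hk
          rw [Finset.Subset.antisymm hU this]
          simp
        | succ k ihk =>
          intro U hU hk
          have hne : (S \ U).Nonempty := by
            rw [← Finset.card_pos]; omega
          obtain ⟨w, hw⟩ := hne
          have hwS := (Finset.mem_sdiff.1 hw).1
          have hwU := (Finset.mem_sdiff.1 hw).2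
          have hUlt : U.card < n := by
            have h1 : (S \ U).card + U.card = S.card := Finset.card_sdiff_add_card_eq_card hU
            omega
          have h1 := ih U.card hUlt U rfl w hwU
          have h2 : insert w U ⊆ S := Finset.insert_subset hwS hU
          have h3 : (S \ insert w U).card = k := by
            have h4 : (S \ insert w U).card + (insert w U).card = S.card :=
              Finset.card_sdiff_add_card_eq_card h2
            have h5 : (S \ U).card + U.card = S.card := Finset.card_sdiff_add_card_eq_card hU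
            rw [Finset.card_insert_of_notMem hwU] at h4
            omega
          have h4 := ihk (insert w U) h2 h3
          calc β ^ (k + 1) * N U = β ^ k * (β * N U) := by ring
            _ ≤ β ^ k * N (insert w U) := mul_le_mul_of_nonneg_left h1 (by positivity)
            _ ≤ N S := h4
      have hstep := step T bad R hbad hvR hdet c₀ S v hv
      have hstep' : (Fintype.card C : ℝ) * N S ≤ N (insert v S) +
          ∑ e ∈ Finset.univ.filter (fun e => v ∈ T e ∧ T e ⊆ insert v S), N (S \ R e v) := by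
        simp only [hN]
        exact_mod_cast hstep
      have hbound : ∑ e ∈ Finset.univ.filter (fun e => v ∈ T e ∧ T e ⊆ insert v S),
          N (S \ R e v) ≤ ((Fintype.card C : ℝ) - β) * N S := by
        calc ∑ e ∈ Finset.univ.filter (fun e => v ∈ T e ∧ T e ⊆ insert v S), N (S \ R e v)
            ≤ ∑ e ∈ Finset.univ.filter (fun e => v ∈ T e ∧ T e ⊆ insert v S),
              (β⁻¹) ^ ((R e v).card - 1) * N S := by
              refine Finset.sum_le_sum ?_
              intro e he
              rw [Finset.mem_filter] at he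
              obtain ⟨-, hve, hTe⟩ := he
              have hsub : (R e v).erase v ⊆ S := by
                intro u hu
                have h1 := Finset.ne_of_mem_erase hu
                have h2 := hTe (hRT e v hve (Finset.mem_of_mem_erase hu))
                rcases Finset.mem_insert.1 h2 with h | h
                · exact absurd h h1
                · exact h
              have hk : (S \ (S \ R e v)).card = (R e v).card - 1 := by
                have : S \ (S \ R e v) = (R e v).erase v := by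
                  ext u
                  simp only [Finset.mem_sdiff, Finset.mem_erase, not_and, not_not]
                  constructor
                  · rintro ⟨h1, h2⟩
                    refine ⟨?_, h2 h1⟩
                    rintro rfl
                    exact hv h1
                  · rintro ⟨h1, h2⟩
                    exact ⟨hsub (Finset.mem_erase.2 ⟨h1, h2⟩), fun _ => h2⟩
                rw [this, Finset.card_erase_of_mem (hvR e v hve)]
              have h1 := mono _ (S \ R e v) Finset.sdiff_subset hk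
              rw [inv_pow]
              rw [inv_mul_eq_div, le_div_iff₀ (by positivity), mul_comm]
              exact h1
          _ = (∑ e ∈ Finset.univ.filter (fun e => v ∈ T e ∧ T e ⊆ insert v S),
              (β⁻¹) ^ ((R e v).card - 1)) * N S := by rw [Finset.sum_mul]
          _ ≤ ((Fintype.card C : ℝ) - β) * N S := by
              refine mul_le_mul_of_nonneg_right ?_ (hN0 S)
              refine le_trans ?_ (hsum v)
              refine Finset.sum_le_sum_of_subset_of_nonneg ?_ ?_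
              · intro e he
                rw [Finset.mem_filter] at he ⊢
                exact ⟨he.1, he.2.1⟩
              · intro e _ _
                positivity
      nlinarith only [hstep', hbound]
  have hpos : ∀ S : Finset V, 0 < N S := by
    intro S
    induction S using Finset.induction_on with
    | empty =>
      have : (fun _ => c₀) ∈ Nset T bad c₀ ∅ := by
        refine mem_Nset.2 ⟨fun _ _ => rfl, ?_⟩
        intro e he
        exact absurd (Finset.subset_empty.1 he) (hT e).ne_empty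
      simp only [hN]
      exact_mod_cast Finset.card_pos.2 ⟨_, this⟩
    | insert v S hv ih =>
      have := main S.card S rfl v hv
      nlinarith only [ih, this, hβ]
  have h := hpos Finset.univ
  simp only [hN] at h
  have h' : 0 < (Nset T bad c₀ Finset.univ).card := by exact_mod_cast h
  obtain ⟨f, hf⟩ := Finset.card_pos.1 h'
  exact ⟨f, fun e => (mem_Nset.1 hf).2 e (Finset.subset_univ _)⟩

end Vale.Agent.P089.Ros
end
end

section

section

/-!
# P089: the three kinds of bad events for colourings of large girth graphs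
-/

namespace Vale.Agent.P089.Ros

open Finset Function

/-- A bad event for colourings `V → C`. -/
structure Ev (V C : Type) [DecidableEq V] where
  T : Finset V
  bad : (V → C) → Prop
  R : V → Finset V
  ne : T.Nonempty
  hbad : ∀ f g, (∀ v ∈ T, f v = g v) → bad f → bad g
  hRT : ∀ v ∈ T, R v ⊆ T
  hvR : ∀ v ∈ T, v ∈ R v
  hdet : ∀ v ∈ T, ∀ f g, bad f → bad g → (∀ u ∈ T, u ∉ R v → f u = g u) → ∀ u ∈ R v, f u = g u

variable {V C : Type} [DecidableEq V]

open Classical in
/-- the weight of the event at the vertex `v`. -/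
noncomputable def Ev.wt (E : Ev V C) (β : ℝ) (v : V) : ℝ :=
  if v ∈ E.T then (β⁻¹) ^ ((E.R v).card - 1) else 0

open Classical in
theorem exists_colouring_ev [Fintype V] [Fintype C] [Nonempty C] {ι : Type} [Fintype ι]
    (ev : ι → Ev V C) (β : ℝ) (hβ : 1 ≤ β)
    (hsum : ∀ v, ∑ e, (ev e).wt β v ≤ (Fintype.card C : ℝ) - β) :
    ∃ f : V → C, ∀ e, ¬ (ev e).bad f := by
  classical
  refine exists_colouring (fun e => (ev e).T) (fun e => (ev e).bad) (fun e => (ev e).R)
    (fun e => (ev e).ne) (fun e => (ev e).hbad) (fun e => (ev e).hRT) (fun e => (ev e).hvR)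
    (fun e => (ev e).hdet) β hβ ?_
  intro v
  refine le_trans (le_of_eq ?_) (hsum v)
  rw [Finset.sum_filter]
  rfl

/-- Two distinct vertices get the same colour. -/
def evPair (x y : V) (hxy : x ≠ y) : Ev V C where
  T := {x, y}
  bad f := f x = f y
  R v := {v}
  ne := ⟨x, by simp⟩
  hbad f g h hf := by
    rw [← h x (by simp), ← h y (by simp)]
    exact hf
  hRT v hv := by simpa using hv
  hvR v _ := by simp
  hdet v hv f g hf hg h u hu := by
    rw [Finset.mem_singleton] at hu
    subst hu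
    rw [Finset.mem_insert, Finset.mem_singleton] at hv
    rcases hv with rfl | rfl
    · rw [hf, hg]
      exact h y (by simp) (by simpa using hxy.symm)
    · rw [← hf, ← hg]
      exact h x (by simp) (by simpa using hxy)

/-- The colours along `p` are given by `a`. -/
def evPath {l : ℕ} (p : Fin (l + 1) → V) (a : Fin (l + 1) → C) : Ev V C where
  T := Finset.univ.image p
  bad f := ∀ i, f (p i) = a i
  R _ := Finset.univ.image p
  ne := ⟨p 0, Finset.mem_image_of_mem _ (Finset.mem_univ _)⟩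
  hbad f g h hf i := by
    rw [← h (p i) (Finset.mem_image_of_mem _ (Finset.mem_univ _))]
    exact hf i
  hRT _ _ := Finset.Subset.refl _
  hvR _ hv := hv
  hdet v hv f g hf hg _ u hu := by
    obtain ⟨i, -, rfl⟩ := Finset.mem_image.1 hu
    rw [hf i, hg i]

open Classical in
theorem exists_indep (C : Type) {l : ℕ} (p r : Fin (l + 1) → V) (hp : Injective p)
    (hr : Injective r) (hne : ∀ i, p i ≠ r i) (v : V)
    (hv : v ∈ Finset.univ.image p ∪ Finset.univ.image r) :
    ∃ R : Finset V, R ⊆ Finset.univ.image p ∪ Finset.univ.image r ∧ v ∈ R ∧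
      l + 1 ≤ 2 * R.card ∧ ∀ f g : V → C, (∀ i, f (p i) = f (r i)) → (∀ i, g (p i) = g (r i)) →
      (∀ u ∈ Finset.univ.image p ∪ Finset.univ.image r, u ∉ R → f u = g u) →
      ∀ u ∈ R, f u = g u := by
  classical
  set T : Finset V := Finset.univ.image p ∪ Finset.univ.image r with hT
  let H : V → V → Prop := fun u w => ∃ i, (u = p i ∧ w = r i) ∨ (u = r i ∧ w = p i)
  have Hsymm : ∀ u w, H u w → H w u := by
    rintro u w ⟨i, h⟩
    exact ⟨i, h.symm.imp And.symm And.symm⟩
  have Hirr : ∀ u w, H u w → u ≠ w := by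
    rintro u w ⟨i, h | h⟩ huw
    · exact hne i (h.1 ▸ h.2 ▸ huw)
    · exact hne i (h.1 ▸ h.2 ▸ huw.symm)
  have hpT : ∀ i, p i ∈ T := fun i =>
    Finset.mem_union_left _ (Finset.mem_image_of_mem _ (Finset.mem_univ _))
  have hrT : ∀ i, r i ∈ T := fun i =>
    Finset.mem_union_right _ (Finset.mem_image_of_mem _ (Finset.mem_univ _))
  obtain ⟨v', hv'T, hvv'⟩ : ∃ v' ∈ T, H v v' := by
    rcases Finset.mem_union.1 hv with h | h
    · obtain ⟨i, -, hi⟩ := Finset.mem_image.1 h
      exact ⟨r i, hrT i, i, Or.inl ⟨hi.symm, rfl⟩⟩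
    · obtain ⟨i, -, hi⟩ := Finset.mem_image.1 h
      exact ⟨p i, hpT i, i, Or.inr ⟨hi.symm, rfl⟩⟩
  let 𝒮 : Finset (Finset V) := T.powerset.filter
    (fun I => v' ∈ I ∧ ∀ a ∈ I, ∀ b ∈ I, ¬ H a b)
  have hne𝒮 : 𝒮.Nonempty := by
    refine ⟨{v'}, Finset.mem_filter.2 ⟨?_, by simp, ?_⟩⟩
    · rw [Finset.mem_powerset, Finset.singleton_subset_iff]
      exact hv'T
    · intro a ha b hb hab
      rw [Finset.mem_singleton] at ha hb
      exact Hirr a b hab (ha.trans hb.symm)
  obtain ⟨I, hI, hmax⟩ := Finset.exists_max_image 𝒮 Finset.card hne𝒮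
  obtain ⟨hIT, hv'I, hind⟩ := Finset.mem_filter.1 hI
  rw [Finset.mem_powerset] at hIT
  refine ⟨T \ I, Finset.sdiff_subset, ?_, ?_, ?_⟩
  · exact Finset.mem_sdiff.2 ⟨hv, fun h => hind v h v' hv'I hvv'⟩
  · have hφ : ∀ i ∈ (Finset.univ : Finset (Fin (l + 1))),
        (if p i ∈ I then r i else p i) ∈ T \ I := by
      intro i _
      by_cases h : p i ∈ I
      · rw [if_pos h]
        exact Finset.mem_sdiff.2 ⟨hrT i, fun h' => hind _ h _ h' ⟨i, Or.inl ⟨rfl, rfl⟩⟩⟩
      · rw [if_neg h]
        exact Finset.mem_sdiff.2 ⟨hpT i, h⟩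
    have := Finset.card_le_mul_card_image_of_maps_to hφ 2 ?_
    · simpa only [Order.add_one_le_iff, gt_iff_lt, card_univ, Fintype.card_fin] using this
    · intro u _
      have hsub : Finset.univ.filter (fun i => (if p i ∈ I then r i else p i) = u) ⊆
          Finset.univ.filter (fun i => p i = u) ∪ Finset.univ.filter (fun i => r i = u) := by
        intro i hi
        rw [Finset.mem_filter] at hi
        rw [Finset.mem_union, Finset.mem_filter, Finset.mem_filter]
        by_cases h : p i ∈ I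
        · rw [if_pos h] at hi
          exact Or.inr hi
        · rw [if_neg h] at hi
          exact Or.inl hi
      have h1 : (Finset.univ.filter (fun i => p i = u)).card ≤ 1 := by
        rw [Finset.card_le_one]
        intro a ha b hb
        rw [Finset.mem_filter] at ha hb
        exact hp (ha.2.trans hb.2.symm)
      have h2 : (Finset.univ.filter (fun i => r i = u)).card ≤ 1 := by
        rw [Finset.card_le_one]
        intro a ha b hb
        rw [Finset.mem_filter] at ha hb
        exact hr (ha.2.trans hb.2.symm)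
      have h3 := (Finset.card_le_card hsub).trans (Finset.card_union_le _ _)
      omega
  · intro f g hf hg hfg u hu
    obtain ⟨huT, huI⟩ := Finset.mem_sdiff.1 hu
    have hHf : ∀ a b, H a b → f a = f b := by
      rintro a b ⟨i, ⟨rfl, rfl⟩ | ⟨rfl, rfl⟩⟩
      · exact hf i
      · exact (hf i).symm
    have hHg : ∀ a b, H a b → g a = g b := by
      rintro a b ⟨i, ⟨rfl, rfl⟩ | ⟨rfl, rfl⟩⟩
      · exact hg i
      · exact (hg i).symm
    have hex : ∃ w ∈ I, H u w := by
      by_contra hcon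
      push Not at hcon
      have hmem : insert u I ∈ 𝒮 := by
        refine Finset.mem_filter.2 ⟨?_, Finset.mem_insert_of_mem hv'I, ?_⟩
        · rw [Finset.mem_powerset]
          exact Finset.insert_subset huT hIT
        · intro a ha b hb hab
          rcases Finset.mem_insert.1 ha with ha' | ha' <;> rcases Finset.mem_insert.1 hb with hb' | hb'
          · exact Hirr a b hab (ha'.trans hb'.symm)
          · exact hcon b hb' (ha' ▸ hab)
          · exact hcon a ha' (Hsymm _ _ (hb' ▸ hab))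
          · exact hind a ha' b hb' hab
      have := hmax _ hmem
      rw [Finset.card_insert_of_notMem huI] at this
      omega
    obtain ⟨w, hwI, huw⟩ := hex
    have hw : f w = g w := hfg w (hIT hwI) (fun h => (Finset.mem_sdiff.1 h).2 hwI)
    rw [hHf u w huw, hHg u w huw, hw]

open Classical in
/-- The colours along `p` and `r` agree. -/
noncomputable def evTwo {l : ℕ} (p r : Fin (l + 1) → V) (hp : Injective p) (hr : Injective r)
    (hne : ∀ i, p i ≠ r i) : Ev V C where
  T := Finset.univ.image p ∪ Finset.univ.image r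
  bad f := ∀ i, f (p i) = f (r i)
  R v := if hv : v ∈ Finset.univ.image p ∪ Finset.univ.image r then
    (exists_indep C p r hp hr hne v hv).choose else ∅
  ne := ⟨p 0, Finset.mem_union_left _ (Finset.mem_image_of_mem _ (Finset.mem_univ _))⟩
  hbad f g h hf i := by
    rw [← h (p i) (Finset.mem_union_left _ (Finset.mem_image_of_mem _ (Finset.mem_univ _))),
      ← h (r i) (Finset.mem_union_right _ (Finset.mem_image_of_mem _ (Finset.mem_univ _)))]
    exact hf i
  hRT v hv := by
    simp only [dif_pos hv]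
    exact (exists_indep C p r hp hr hne v hv).choose_spec.1
  hvR v hv := by
    simp only [dif_pos hv]
    exact (exists_indep C p r hp hr hne v hv).choose_spec.2.1
  hdet v hv f g hf hg h := by
    simp only [dif_pos hv] at h ⊢
    exact (exists_indep C p r hp hr hne v hv).choose_spec.2.2.2 f g hf hg h

theorem evTwo_card {l : ℕ} (p r : Fin (l + 1) → V) (hp : Injective p) (hr : Injective r)
    (hne : ∀ i, p i ≠ r i) (v : V) (hv : v ∈ (evTwo (C := C) p r hp hr hne).T) :
    l + 1 ≤ 2 * ((evTwo (C := C) p r hp hr hne).R v).card := by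
  have hv' : v ∈ Finset.univ.image p ∪ Finset.univ.image r := hv
  have : (evTwo (C := C) p r hp hr hne).R v = (exists_indep C p r hp hr hne v hv').choose :=
    dif_pos hv'
  rw [this]
  exact (exists_indep C p r hp hr hne v hv').choose_spec.2.2.1

end Vale.Agent.P089.Ros
end
end

section

section

/-!
# P089: existence of colourings with short pieces (Rosenfeld counting)
-/

namespace Vale.Agent.P089.Ros

open Finset Function

/-! ### Counting injective walks -/

section Count

variable {V : Type} [Fintype V]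

/-- injective walks of length `l`. -/
abbrev Pth (X : SimpleGraph V) (l : ℕ) : Type :=
  {p : Fin (l + 1) → V // WkP X l p ∧ Injective p}

noncomputable instance instFintypePth (X : SimpleGraph V) (l : ℕ) : Fintype (Pth X l) :=
  Fintype.ofFinite _

theorem card_Pth {X : SimpleGraph V} {D : ℕ} (hD : ∀ x, Nat.card {y // X.Adj x y} ≤ D) (l : ℕ) :
    Fintype.card (Pth X l) ≤ Fintype.card V * D ^ l := by
  refine le_trans ?_ (card_walks X D hD l)
  rw [← Nat.card_eq_fintype_card]
  exact Nat.card_le_card_of_injective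
    (fun p : Pth X l => (⟨p.1, p.2.1⟩ : {p : Fin (l + 1) → V // WkP X l p}))
    (fun p r h => by
      have h' := congrArg Subtype.val h
      exact Subtype.ext h')

theorem card_Pth_mem [DecidableEq V] {X : SimpleGraph V} {D : ℕ} (hD : ∀ x, Nat.card {y // X.Adj x y} ≤ D) (l : ℕ)
    (v : V) : (Finset.univ.filter fun p : Pth X l => v ∈ Finset.univ.image p.1).card ≤
      (l + 1) * D ^ l := by
  classical
  have hsub : (Finset.univ.filter fun p : Pth X l => v ∈ Finset.univ.image p.1) ⊆
      Finset.univ.biUnion (fun j : Fin (l + 1) => Finset.univ.filter fun p : Pth X l => p.1 j = v) := by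
    intro p hp
    obtain ⟨j, -, hj⟩ := Finset.mem_image.1 (Finset.mem_filter.1 hp).2
    exact Finset.mem_biUnion.2 ⟨j, Finset.mem_univ _, Finset.mem_filter.2 ⟨Finset.mem_univ _, hj⟩⟩
  refine (Finset.card_le_card hsub).trans (Finset.card_biUnion_le.trans ?_)
  refine (Finset.sum_le_card_nsmul _ _ (D ^ l) ?_).trans ?_
  · intro j _
    refine le_trans ?_ (card_through X D hD l j v)
    rw [← Fintype.card_subtype, ← Nat.card_eq_fintype_card]
    exact Nat.card_le_card_of_injective
      (fun p : {p : Pth X l // p.1 j = v} =>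
        (⟨p.1.1, p.1.2.1, p.2⟩ : {p : Fin (l + 1) → V // WkP X l p ∧ p j = v}))
      (fun p r h => by
        have h' := congrArg Subtype.val h
        exact Subtype.ext (Subtype.ext h'))
  · simp

end Count

/-! ### Sums of weights -/

section Sums

variable {V C : Type} [Fintype V] [DecidableEq V]

omit [Fintype V] in
open Classical in
theorem sum_wt_le {ι : Type} [Fintype ι] (ev : ι → Ev V C) (β : ℝ) (v : V) (w : ℝ)
    (hw : ∀ e, v ∈ (ev e).T → (β⁻¹) ^ (((ev e).R v).card - 1) ≤ w) (hw0 : 0 ≤ w) (N : ℕ)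
    (hN : (Finset.univ.filter fun e => v ∈ (ev e).T).card ≤ N) :
    ∑ e, (ev e).wt β v ≤ N * w := by
  classical
  have h1 : ∑ e, (ev e).wt β v ≤ ∑ e, (if v ∈ (ev e).T then w else 0) := by
    refine Finset.sum_le_sum fun e _ => ?_
    unfold Ev.wt
    split_ifs with h
    · exact hw e h
    · exact le_refl _
  refine h1.trans ?_
  rw [← Finset.sum_filter, Finset.sum_const, nsmul_eq_mul]
  exact mul_le_mul_of_nonneg_right (by exact_mod_cast hN) hw0

/-- events of type 0 -/
def ev0 (C : Type) {X : SimpleGraph V} {l : ℕ} (hl : 0 < l) (p : Pth X l) : Ev V C :=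
  evPair (p.1 0) (p.1 (Fin.last l)) (fun h => by
    have := p.2.2 h
    rw [Fin.ext_iff, Fin.val_last, Fin.val_zero] at this
    omega)

theorem sum0 {X : SimpleGraph V} {D : ℕ} (hD : ∀ x, Nat.card {y // X.Adj x y} ≤ D) {l : ℕ}
    (hl : 0 < l) (β : ℝ) (v : V) :
    ∑ p : Pth X l, (ev0 C hl p).wt β v ≤ (((l + 1) * D ^ l : ℕ) : ℝ) := by
  classical
  have := sum_wt_le (fun p : Pth X l => ev0 C hl p) β v 1 ?_ zero_le_one ((l + 1) * D ^ l) ?_
  · rwa [mul_one] at this
  · intro p _
    have : ((ev0 C hl p).R v).card = 1 := Finset.card_singleton v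
    rw [this]
    simp
  · refine le_trans (Finset.card_le_card ?_) (card_Pth_mem hD l v)
    intro p hp
    rw [Finset.mem_filter] at hp ⊢
    refine ⟨hp.1, ?_⟩
    have h : v ∈ ({p.1 0, p.1 (Fin.last l)} : Finset V) := hp.2
    rw [Finset.mem_insert, Finset.mem_singleton] at h
    rcases h with h | h
    · exact Finset.mem_image.2 ⟨0, Finset.mem_univ _, h.symm⟩
    · exact Finset.mem_image.2 ⟨Fin.last l, Finset.mem_univ _, h.symm⟩

/-- events of type 1 -/
def ev1 {W : Type} [Fintype W] [DecidableEq W] {X : SimpleGraph V} {Y : SimpleGraph W} {l : ℕ}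
    (a : W → C) (pr : Pth X l × Pth Y l) : Ev V C :=
  evPath pr.1.1 (fun i => a (pr.2.1 i))

theorem sum1 {W : Type} [Fintype W] [DecidableEq W] {X : SimpleGraph V} {Y : SimpleGraph W}
    {D : ℕ} (hD : ∀ x, Nat.card {y // X.Adj x y} ≤ D) (hD' : ∀ x, Nat.card {y // Y.Adj x y} ≤ D)
    {l : ℕ} (a : W → C) (β : ℝ) (hβ : 1 ≤ β) (v : V) :
    ∑ pr : Pth X l × Pth Y l, (ev1 a pr).wt β v ≤
      ((((l + 1) * D ^ l) * (Fintype.card W * D ^ l) : ℕ) : ℝ) * (β⁻¹) ^ l := by
  classical
  refine sum_wt_le (fun pr : Pth X l × Pth Y l => ev1 a pr) β v ((β⁻¹) ^ l) ?_ (by positivity) _ ?_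
  · intro pr _
    have h1 : ((ev1 a pr).R v).card = l + 1 := by
      have : (ev1 a pr).R v = Finset.univ.image pr.1.1 := rfl
      rw [this, Finset.card_image_of_injective _ pr.1.2.2]
      simp
    rw [h1]
    simp only [add_tsub_cancel_right, inv_pow, Std.le_refl]
  · have hsub : (Finset.univ.filter fun pr : Pth X l × Pth Y l => v ∈ (ev1 a pr).T) ⊆
        (Finset.univ.filter fun p : Pth X l => v ∈ Finset.univ.image p.1) ×ˢ Finset.univ := by
      intro pr hpr
      rw [Finset.mem_filter] at hpr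
      rw [Finset.mem_product, Finset.mem_filter]
      exact ⟨⟨Finset.mem_univ _, hpr.2⟩, Finset.mem_univ _⟩
    refine (Finset.card_le_card hsub).trans ?_
    rw [Finset.card_product, Finset.card_univ]
    exact Nat.mul_le_mul (card_Pth_mem hD l v) (card_Pth hD' l)

/-- pairs of injective walks without coincidence -/
abbrev Pr2 (X : SimpleGraph V) (l : ℕ) : Type :=
  {pr : Pth X l × Pth X l // ∀ i, pr.1.1 i ≠ pr.2.1 i}

noncomputable instance instFintypePr2 (X : SimpleGraph V) (l : ℕ) : Fintype (Pr2 X l) :=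
  Fintype.ofFinite _

/-- events of type 2 -/
noncomputable def ev2 (C : Type) {X : SimpleGraph V} {l : ℕ} (pr : Pr2 X l) : Ev V C :=
  evTwo pr.1.1.1 pr.1.2.1 pr.1.1.2.2 pr.1.2.2.2 pr.2

theorem sum2 {X : SimpleGraph V}
    {D : ℕ} (hD : ∀ x, Nat.card {y // X.Adj x y} ≤ D)
    {l : ℕ} (β : ℝ) (v : V) (w : ℝ) (hw : ∀ k : ℕ, l + 1 ≤ 2 * k → (β⁻¹) ^ (k - 1) ≤ w)
    (hw0 : 0 ≤ w) :
    ∑ pr : Pr2 X l, (ev2 C pr).wt β v ≤
      ((2 * (((l + 1) * D ^ l) * (Fintype.card V * D ^ l)) : ℕ) : ℝ) * w := by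
  classical
  refine sum_wt_le (fun pr : Pr2 X l => ev2 C pr) β v w ?_ hw0 _ ?_
  · intro pr hpr
    exact hw _ (evTwo_card pr.1.1.1 pr.1.2.1 pr.1.1.2.2 pr.1.2.2.2 pr.2 v hpr)
  · have h1 : (Finset.univ.filter fun pr : Pr2 X l => v ∈ (ev2 C pr).T).card ≤
        (((Finset.univ.filter fun p : Pth X l => v ∈ Finset.univ.image p.1) ×ˢ
          (Finset.univ : Finset (Pth X l))) ∪
        ((Finset.univ : Finset (Pth X l)) ×ˢ
          (Finset.univ.filter fun p : Pth X l => v ∈ Finset.univ.image p.1))).card := by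
      refine Finset.card_le_card_of_injOn (fun pr => pr.1) ?_ ?_
      · intro pr hpr
        simp only [Finset.mem_coe] at hpr ⊢
        rw [Finset.mem_filter] at hpr
        have h : v ∈ Finset.univ.image pr.1.1.1 ∪ Finset.univ.image pr.1.2.1 := hpr.2
        rw [Finset.mem_union, Finset.mem_product, Finset.mem_product]
        rcases Finset.mem_union.1 h with h | h
        · exact Or.inl ⟨Finset.mem_filter.2 ⟨Finset.mem_univ _, h⟩, Finset.mem_univ _⟩
        · exact Or.inr ⟨Finset.mem_univ _, Finset.mem_filter.2 ⟨Finset.mem_univ _, h⟩⟩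
      · intro a _ b _ hab
        exact Subtype.ext hab
    refine h1.trans ((Finset.card_union_le _ _).trans ?_)
    rw [Finset.card_product, Finset.card_product, Finset.card_univ]
    have h2 := Nat.mul_le_mul (card_Pth_mem hD l v) (card_Pth hD l)
    have h3 := Nat.mul_le_mul (card_Pth hD l) (card_Pth_mem hD l v)
    calc _ ≤ (l + 1) * D ^ l * (Fintype.card V * D ^ l) +
          (Fintype.card V * D ^ l) * ((l + 1) * D ^ l) := Nat.add_le_add h2 h3
      _ = _ := by ring

end Sums

/-! ### Numerical bounds -/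

section Num

theorem num_count {g l c D n : ℕ} (hD : 1 ≤ D) (hl : l + 1 ≤ g) (hn : n ≤ 2 ^ (c * g)) :
    ((((l + 1) * D ^ l) * (n * D ^ l) : ℕ) : ℝ) ≤ ((2 : ℝ) ^ (c + 1) * (D : ℝ) ^ 2) ^ g := by
  have h1 : l + 1 ≤ 2 ^ g := hl.trans (Nat.lt_two_pow_self).le
  have h2 : D ^ l ≤ D ^ g := Nat.pow_le_pow_right hD (by omega)
  have h3 : ((l + 1) * D ^ l) * (n * D ^ l) ≤ (2 ^ g * D ^ g) * (2 ^ (c * g) * D ^ g) :=
    Nat.mul_le_mul (Nat.mul_le_mul h1 h2) (Nat.mul_le_mul hn h2)
  have h4 : ((((l + 1) * D ^ l) * (n * D ^ l) : ℕ) : ℝ) ≤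
      (((2 ^ g * D ^ g) * (2 ^ (c * g) * D ^ g) : ℕ) : ℝ) := by exact_mod_cast h3
  refine h4.trans (le_of_eq ?_)
  push_cast
  rw [mul_pow, ← pow_mul, ← pow_mul]
  have : (c + 1) * g = c * g + g := by ring
  rw [this, pow_add]
  ring

/-- the base -/
noncomputable def bb (c D : ℕ) : ℕ := 2 ^ (c + 2) * D ^ 2

theorem bb_pos {c D : ℕ} (hD : 1 ≤ D) : 1 ≤ bb c D :=
  Nat.one_le_iff_ne_zero.2 (by unfold bb; positivity)

theorem bb_half {c D g : ℕ} (hD : 1 ≤ D) :
    ((2 : ℝ) ^ (c + 1) * (D : ℝ) ^ 2) ^ g * (((bb c D : ℕ) : ℝ)⁻¹) ^ g = (1 / 2) ^ g := by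
  rw [← mul_pow]
  congr 1
  unfold bb
  have hD' : (D : ℝ) ≠ 0 := by
    have : (0 : ℝ) < D := by exact_mod_cast hD
    exact this.ne'
  push_cast
  rw [pow_succ (2 : ℝ) (c + 1)]
  field_simp

theorem inv_pow_le {b : ℝ} (hb : 1 ≤ b) {i j : ℕ} (h : i ≤ j) : (b⁻¹) ^ j ≤ (b⁻¹) ^ i :=
  pow_le_pow_of_le_one (by positivity) (inv_le_one_of_one_le₀ hb) h

theorem inv_pow_add_mul {x : ℝ} (hx : 0 < x) (a K : ℕ) :
    (x⁻¹) ^ (a + K) * x ^ K = (x⁻¹) ^ a := by
  rw [pow_add, mul_assoc, ← mul_pow, inv_mul_cancel₀ hx.ne', one_pow, mul_one]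

theorem num1 {g l c D n K : ℕ} (hD : 1 ≤ D) (hl : l + 1 ≤ g) (hg : g ≤ K * l)
    (hn : n ≤ 2 ^ (c * g)) :
    ((((l + 1) * D ^ l) * (n * D ^ l) : ℕ) : ℝ) * ((((bb c D : ℕ) : ℝ) ^ (2 * K))⁻¹) ^ l ≤
      (1 / 2) ^ g := by
  have hb : (1 : ℝ) ≤ ((bb c D : ℕ) : ℝ) := by exact_mod_cast bb_pos hD
  rw [← bb_half (c := c) hD]
  refine mul_le_mul (num_count hD hl hn) ?_ (by positivity) (by positivity)
  rw [← inv_pow, ← pow_mul]
  refine inv_pow_le hb ?_
  nlinarith only [hg]

theorem num2 {g l c D K : ℕ} (hD : 1 ≤ D) (hg : g ≤ K * l) (k : ℕ) (hk : l + 1 ≤ 2 * k) :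
    ((((bb c D : ℕ) : ℝ) ^ (2 * K))⁻¹) ^ (k - 1) ≤
      (((bb c D : ℕ) : ℝ)⁻¹) ^ g * ((bb c D : ℕ) : ℝ) ^ K := by
  have hb : (1 : ℝ) ≤ ((bb c D : ℕ) : ℝ) := by exact_mod_cast bb_pos hD
  have hb0 : (0 : ℝ) < ((bb c D : ℕ) : ℝ) := by linarith only [hb]
  rw [← inv_pow, ← pow_mul]
  rw [← inv_pow_add_mul hb0 (2 * K * (k - 1)) K]
  refine mul_le_mul_of_nonneg_right (inv_pow_le hb ?_) (by positivity)
  obtain ⟨k, rfl⟩ : ∃ k', k = k' + 1 := ⟨k - 1, by omega⟩
  have : l ≤ 2 * k + 1 := by omega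
  calc g ≤ K * l := hg
    _ ≤ K * (2 * k + 1) := Nat.mul_le_mul_left _ this
    _ = 2 * K * (k + 1 - 1) + K := by rw [Nat.add_sub_cancel]; ring

theorem sum_half (g : ℕ → ℕ) (hg : StrictMono g) (h0 : 1 ≤ g 0) (m : ℕ) :
    ∑ j : Fin m, ((1 : ℝ) / 2) ^ g j ≤ 1 := by
  have h1 : ∀ j, j + 1 ≤ g j := by
    intro j
    induction j with
    | zero => exact h0
    | succ j ih =>
      have := hg (Nat.lt_add_one j)
      omega
  have h2 : ∀ m : ℕ, ∑ j ∈ Finset.range m, ((1 : ℝ) / 2) ^ g j ≤ 1 - (1 / 2) ^ m := by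
    intro m
    induction m with
    | zero => simp
    | succ m ih =>
      rw [Finset.sum_range_succ]
      have h3 : ((1 : ℝ) / 2) ^ g m ≤ (1 / 2) ^ (m + 1) :=
        pow_le_pow_of_le_one (by norm_num) (by norm_num) (h1 m)
      have h4 : ((1 : ℝ) / 2) ^ m = (1 / 2) ^ (m + 1) + (1 / 2) ^ (m + 1) := by
        rw [pow_succ]; ring
      linarith only [ih, h3, h4]
  have h5 := h2 m
  rw [Finset.sum_range] at h5
  have h6 : (0 : ℝ) < (1 / 2) ^ m := by positivity
  linarith only [h5, h6]

end Num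

/-! ### One step -/

section Step

open Classical in
theorem one_step (D c K : ℕ) (hD : 1 ≤ D) (n : ℕ → ℕ)
    (X : (m : ℕ) → SimpleGraph (Fin (n m))) (g l : ℕ → ℕ)
    (hdeg : ∀ m x, Nat.card {y // (X m).Adj x y} ≤ D) (hn : ∀ m, n m ≤ 2 ^ (c * g m))
    (hl : ∀ m, l m + 1 ≤ g m) (hgl : ∀ m, g m ≤ K * l m) (hg : StrictMono g) (q : ℕ)
    (hq : bb c D ^ (2 * K) + (2 * D + 3 * D ^ 2 + 1 + 2 * bb c D ^ K) ≤ q) (m : ℕ)
    (col : ∀ j, j < m → Fin (n j) → Fin q) :
    ∃ f : Fin (n m) → Fin q, (∀ p : Pth (X m) 1, f (p.1 0) ≠ f (p.1 (Fin.last 1))) ∧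
      (∀ p : Pth (X m) 2, f (p.1 0) ≠ f (p.1 (Fin.last 2))) ∧
      (∀ j (hj : j < m) (p : Pth (X m) (l j)) (r : Pth (X j) (l j)),
        ¬ ∀ i, f (p.1 i) = col j hj (r.1 i)) ∧
      (∀ (p r : Pth (X m) (l m)), (∀ i, p.1 i ≠ r.1 i) → ¬ ∀ i, f (p.1 i) = f (r.1 i)) := by
  classical
  have hb1 : 1 ≤ bb c D := bb_pos hD
  have hb : (1 : ℝ) ≤ ((bb c D : ℕ) : ℝ) := by exact_mod_cast hb1
  have : Nonempty (Fin q) := ⟨⟨0, by
    have : 0 < bb c D ^ (2 * K) := Nat.pow_pos (by omega)
    omega⟩⟩
  let ι : Type := (Pth (X m) 1 ⊕ Pth (X m) 2) ⊕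
    ((Σ j : Fin m, Pth (X m) (l j) × Pth (X j) (l j)) ⊕ Pr2 (X m) (l m))
  let ev : ι → Ev (Fin (n m)) (Fin q) :=
    Sum.elim (Sum.elim (fun p => ev0 (Fin q) Nat.one_pos p) (fun p => ev0 (Fin q) Nat.two_pos p))
      (Sum.elim (fun jp => ev1 (col jp.1 jp.1.2) jp.2) (fun pr => ev2 (Fin q) pr))
  have hsum : ∀ v, ∑ e, (ev e).wt (((bb c D : ℕ) : ℝ) ^ (2 * K)) v ≤
      (Fintype.card (Fin q) : ℝ) - ((bb c D : ℕ) : ℝ) ^ (2 * K) := by
    intro v
    rw [Fintype.sum_sum_type, Fintype.sum_sum_type, Fintype.sum_sum_type, Fintype.sum_sigma]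
    simp only [ev, Sum.elim_inl, Sum.elim_inr]
    have s0 := sum0 (C := Fin q) (hdeg m) Nat.one_pos (((bb c D : ℕ) : ℝ) ^ (2 * K)) v
    have s0' := sum0 (C := Fin q) (hdeg m) Nat.two_pos (((bb c D : ℕ) : ℝ) ^ (2 * K)) v
    have hβ : (1 : ℝ) ≤ ((bb c D : ℕ) : ℝ) ^ (2 * K) := one_le_pow₀ hb
    have s1 : ∑ j : Fin m, ∑ pr : Pth (X m) (l j) × Pth (X j) (l j),
        (ev1 (col j j.2) pr).wt (((bb c D : ℕ) : ℝ) ^ (2 * K)) v ≤ 1 := by
      refine le_trans (Finset.sum_le_sum fun j _ => ?_) (sum_half g hg ?_ m)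
      · refine (sum1 (hdeg m) (hdeg j) (col j j.2) _ hβ v).trans ?_
        rw [Fintype.card_fin]
        exact num1 hD (hl j) (hgl j) (hn j)
      · have := hl 0
        omega
    have s2 : ∑ pr : Pr2 (X m) (l m), (ev2 (Fin q) pr).wt (((bb c D : ℕ) : ℝ) ^ (2 * K)) v ≤
        2 * ((bb c D : ℕ) : ℝ) ^ K := by
      refine (sum2 (hdeg m) _ v ((((bb c D : ℕ) : ℝ)⁻¹) ^ (g m) * ((bb c D : ℕ) : ℝ) ^ K)
        (fun k hk => num2 hD (hgl m) k hk) (by positivity)).trans ?_
      rw [Fintype.card_fin]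
      have h1 := num_count hD (hl m) (hn m)
      have h2 := bb_half (c := c) (g := g m) hD
      have h3 : ((1 : ℝ) / 2) ^ g m ≤ 1 := pow_le_one₀ (by norm_num) (by norm_num)
      rw [Nat.cast_mul, Nat.cast_ofNat]
      calc 2 * ((((l m + 1) * D ^ l m) * (n m * D ^ l m) : ℕ) : ℝ) *
            ((((bb c D : ℕ) : ℝ)⁻¹) ^ (g m) * ((bb c D : ℕ) : ℝ) ^ K)
          ≤ 2 * (((2 : ℝ) ^ (c + 1) * (D : ℝ) ^ 2) ^ g m) *
            ((((bb c D : ℕ) : ℝ)⁻¹) ^ (g m) * ((bb c D : ℕ) : ℝ) ^ K) :=
            mul_le_mul_of_nonneg_right (mul_le_mul_of_nonneg_left h1 (by norm_num))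
              (by positivity)
        _ = 2 * ((((2 : ℝ) ^ (c + 1) * (D : ℝ) ^ 2) ^ g m * (((bb c D : ℕ) : ℝ)⁻¹) ^ (g m)) *
            ((bb c D : ℕ) : ℝ) ^ K) := by ring
        _ ≤ 2 * (1 * ((bb c D : ℕ) : ℝ) ^ K) := by
            rw [h2]
            exact mul_le_mul_of_nonneg_left (mul_le_mul_of_nonneg_right h3 (by positivity))
              (by norm_num)
        _ = _ := by ring
    rw [Fintype.card_fin]
    have hq' : ((bb c D ^ (2 * K) + (2 * D + 3 * D ^ 2 + 1 + 2 * bb c D ^ K) : ℕ) : ℝ) ≤ q := by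
      exact_mod_cast hq
    push_cast at hq' s0 s0'
    linarith only [s1, s2, hq', s0, s0']
  obtain ⟨f, hf⟩ := exists_colouring_ev ev _ (one_le_pow₀ hb) hsum
  refine ⟨f, fun p => ?_, fun p => ?_, fun j hj p r h => ?_, fun p r hpr h => ?_⟩
  · exact hf (Sum.inl (Sum.inl p))
  · exact hf (Sum.inl (Sum.inr p))
  · exact hf (Sum.inr (Sum.inl ⟨⟨j, hj⟩, p, r⟩)) h
  · exact hf (Sum.inr (Sum.inr ⟨(p, r), hpr⟩)) h

theorem exists_rec {α : ℕ → Type} (P : ∀ m, (∀ j, j < m → α j) → α m → Prop)
    (h : ∀ m c, ∃ a, P m c a) : ∃ f : ∀ m, α m, ∀ m, P m (fun j _ => f j) (f m) := by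
  classical
  choose F hF using h
  let f : ∀ m, α m := WellFounded.fix (C := α) Nat.lt_wfRel.wf F
  refine ⟨f, fun m => ?_⟩
  have : f m = F m (fun j _ => f j) := WellFounded.fix_eq _ _ _
  rw [this]
  exact hF m _

theorem pth1 {V : Type} {X : SimpleGraph V} {x y : V} (h : X.Adj x y) :
    WkP X 1 ![x, y] ∧ Injective ![x, y] := by
  refine ⟨fun i => ?_, fun i j hij => ?_⟩
  · fin_cases i
    exact h
  · have h1 : x ≠ y := h.ne
    fin_cases i <;> fin_cases j
    · rfl
    · exact absurd (show x = y from hij) h1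
    · exact absurd (show y = x from hij) h1.symm
    · rfl

theorem pth2 {V : Type} {X : SimpleGraph V} {x y z : V} (h : X.Adj x y) (h' : X.Adj x z)
    (hne : y ≠ z) : WkP X 2 ![y, x, z] ∧ Injective ![y, x, z] := by
  refine ⟨fun i => ?_, fun i j hij => ?_⟩
  · fin_cases i
    · exact h.symm
    · exact h'
  · have h1 : x ≠ y := h.ne
    have h2 : x ≠ z := h'.ne
    fin_cases i <;> fin_cases j
    · rfl
    · exact absurd (show y = x from hij) h1.symm
    · exact absurd (show y = z from hij) hne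
    · exact absurd (show x = y from hij) h1
    · rfl
    · exact absurd (show x = z from hij) h2
    · exact absurd (show z = y from hij) hne.symm
    · exact absurd (show z = x from hij) h2.symm
    · rfl

/-- the walk of length `l` given by a sequence -/
theorem mk_pth {V : Type} [Fintype V] {X : SimpleGraph V} {g : ℕ} (hg : (g : ℕ∞) ≤ X.egirth)
    {l L : ℕ} (hl : l < g) (hlL : l ≤ L) (p : ℕ → V) (adj : ∀ i, i < L → X.Adj (p i) (p (i + 1)))
    (nb : ∀ i, i + 2 ≤ L → p i ≠ p (i + 2)) :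
    WkP X l (fun i : Fin (l + 1) => p i.val) ∧ Injective (fun i : Fin (l + 1) => p i.val) := by
  refine ⟨fun i => ?_, fun i j hij => ?_⟩
  · have := adj i.val (by omega)
    simpa using this
  · have h := inj_of_nb X g hg l hl p (fun i hi => adj i (by omega)) (fun i hi => nb i (by omega))
      i.val j.val (by omega) (by omega) hij
    exact Fin.ext h

end Step

end Vale.Agent.P089.Ros

namespace Vale.Agent.P089

open Ros Function

/-- BLOCK D. -/
theorem colourStatement : ColourStatement := by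
  intro D₀ c K₀ hK₀
  set D : ℕ := D₀ + 1 with hDdef
  set K : ℕ := 2 * K₀ with hKdef
  have hK : 2 ≤ K := by omega
  refine ⟨bb c D ^ (2 * K) + (2 * D + 3 * D ^ 2 + 1 + 2 * bb c D ^ K), K + 3, ?_⟩
  intro n X g hdeg₀ hgirth hn hg0 hg
  have hdeg : ∀ m x, Nat.card {y // (X m).Adj x y} ≤ D := fun m x => (hdeg₀ m x).trans (by omega)
  have hgm : ∀ m, K + 3 ≤ g m := fun m => hg0.trans (hg.monotone (Nat.zero_le m))
  let l : ℕ → ℕ := fun m => g m / K + 1
  have hl : ∀ m, l m + 1 ≤ g m := by
    intro m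
    have h1 : g m / K ≤ g m / 2 := Nat.div_le_div_left hK (by norm_num)
    have h2 := hgm m
    simp only [l]
    omega
  have hgl : ∀ m, g m ≤ K * l m := by
    intro m
    exact (Nat.lt_mul_div_succ (g m) (by omega)).le
  have hlmono : ∀ i j, i ≤ j → l i ≤ l j := by
    intro i j hij
    exact Nat.add_le_add_right (Nat.div_le_div_right (hg.monotone hij)) 1
  obtain ⟨col, hcol⟩ := exists_rec (α := fun m => Fin (n m) →
    Fin (bb c D ^ (2 * K) + (2 * D + 3 * D ^ 2 + 1 + 2 * bb c D ^ K))) _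
    (fun m cc => one_step D c K (by omega) n X g l hdeg hn hl hgl hg _ le_rfl m cc)
  have hproper : ∀ m x y, (X m).Adj x y → col m x ≠ col m y := by
    intro m x y hxy
    exact (hcol m).1 ⟨![x, y], pth1 hxy⟩
  have hd2 : ∀ m x y z, (X m).Adj x y → (X m).Adj x z → col m y = col m z → y = z := by
    intro m x y z hxy hxz hyz
    by_contra hne
    exact (hcol m).2.1 ⟨![y, x, z], pth2 hxy hxz hne⟩ hyz
  refine ⟨col, ⟨?_, hproper, hd2, ?_⟩⟩
  · intro m
    have := hgm m
    simp only
    omega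
  · intro m x w x' m' y y' hred hx hy hne
    by_contra hlen
    rw [not_lt] at hlen
    simp only at hlen
    have hw : w ≠ [] := by
      rintro rfl
      have := hgm m
      simp at hlen
      omega
    obtain ⟨p, r, hp0, hr0, hpadj, hradj, hpnb, hrnb, hpr⟩ :=
      seq_of_reads (⟨n, X, col, g⟩ : Fam _) hproper hd2 m m' x x' y y' w hred hx hy hw
    simp only at hpadj hradj hpnb hrnb hpr
    have hlw : l m ≤ w.length := by
      have h1 : g m < K * w.length := by
        have := hgm m
        have h3 : K * w.length = 2 * (K₀ * w.length) := Nat.mul_assoc 2 K₀ w.length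
        omega
      have h2 : g m / K < w.length := (Nat.div_lt_iff_lt_mul (by omega)).2 (by rwa [mul_comm] at h1)
      exact h2
    rcases lt_trichotomy m m' with hmm | hmm | hmm
    · have hP := mk_pth (hgirth m) (Nat.lt_of_succ_le (hl m)) hlw p hpadj hpnb
      have hR := mk_pth (hgirth m') (l := l m) (by
        have := hl m'
        have := hlmono m m' hmm.le
        omega) hlw r hradj hrnb
      exact (hcol m').2.2.1 m hmm ⟨_, hR⟩ ⟨_, hP⟩ (fun i => (hpr i.val (by omega)).symm)
    · subst hmm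
      have hP := mk_pth (hgirth m) (Nat.lt_of_succ_le (hl m)) hlw p hpadj hpnb
      have hR := mk_pth (hgirth m) (Nat.lt_of_succ_le (hl m)) hlw r hradj hrnb
      have hdis : ∀ i, i ≤ w.length → p i ≠ r i := by
        intro i
        induction i with
        | zero =>
          intro _ h
          apply hne
          rw [← hp0, ← hr0, h]
        | succ i ih =>
          intro hi h
          refine ih (by omega) (hd2 m (p (i + 1)) (p i) (r i) (hpadj i (by omega)).symm ?_
            (hpr i (by omega)))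
          rw [h]
          exact (hradj i (by omega)).symm
      exact (hcol m).2.2.2 ⟨_, hP⟩ ⟨_, hR⟩ (fun i => hdis i.val (by omega))
        (fun i => hpr i.val (by omega))
    · have hP := mk_pth (hgirth m) (l := l m') (by
        have := hl m
        have := hlmono m' m hmm.le
        omega) ((hlmono m' m hmm.le).trans hlw) p hpadj hpnb
      have hR := mk_pth (hgirth m') (Nat.lt_of_succ_le (hl m')) ((hlmono m' m hmm.le).trans hlw)
        r hradj hrnb
      exact (hcol m).2.2.1 m' hmm ⟨_, hP⟩ ⟨_, hR⟩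
        (fun i => hpr i.val (by have := hlmono m' m hmm.le; omega))

end Vale.Agent.P089
end
end

section

section

/-!
# P089, block 2: existence of good orders (helper774)
-/

namespace Vale.Agent.P089

variable {q : ℕ} {F : Fam q} {K : ℕ}

theorem Monster.closedChain (M : Monster F K) (hK : 20 ≤ K) (hc : F.Coloured K) {D c e : ℕ}
    (he : F.Expander D c e) : M.ClosedChain := by
  classical
  intro x β w L hP hnd hcount
  refine M.closed_chain hK hc he hP hnd ?_
  intro m h
  have h1 := hcount m h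
    ((((β, w) :: L).filter (fun σ => decide (M.Touch m h σ.1))).map Prod.fst).toFinset (by
      intro β' hβ'
      rw [List.mem_toFinset, List.mem_map] at hβ'
      obtain ⟨σ, hσ, rfl⟩ := hβ'
      rw [List.mem_filter] at hσ
      exact ⟨List.mem_map_of_mem hσ.1, by simpa using hσ.2⟩)
  have hsub : ((((β, w) :: L).filter (fun σ => decide (M.Touch m h σ.1))).map Prod.fst).Nodup :=
    hnd.sublist (List.filter_sublist.map Prod.fst)
  rw [List.toFinset_card_of_nodup hsub, List.length_map] at h1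
  unfold Monster.ntouch
  convert h1

/-- the order of the blocks. -/
def Monster.ord (M : Monster F K) (o : M.G) (κ₀ : ℕ × M.G) (β β' : M.Block) : Prop :=
  M.level o β < M.level o β' ∨ (M.level o β = M.level o β' ∧
    ((β = Sum.inl κ₀ ∧ β' ≠ Sum.inl κ₀) ∨ (β ≠ Sum.inl κ₀ ∧ β' ≠ Sum.inl κ₀ ∧
      WellOrderingRel β β')))

theorem Monster.ord_wo (M : Monster F K) (o : M.G) (κ₀ : ℕ × M.G) :
    IsWellOrder M.Block (M.ord o κ₀) := by
  classical
  let Φ : M.Block → ℕ × (ℕ × M.Block) := fun β =>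
    (M.level o β, (if β = Sum.inl κ₀ then 0 else 1, β))
  have hinj : Function.Injective Φ := fun a b h => (Prod.ext_iff.1 (Prod.ext_iff.1 h).2).2
  have hlt : ∀ a b, M.ord o κ₀ a b ↔
      Prod.Lex (· < ·) (Prod.Lex (· < ·) WellOrderingRel) (Φ a) (Φ b) := by
    intro a b
    rw [Prod.lex_iff, Prod.lex_iff]
    unfold Monster.ord
    by_cases ha : a = Sum.inl κ₀ <;> by_cases hb : b = Sum.inl κ₀ <;> simp [Φ, ha, hb]
    · intro hh
      exact irrefl (r := WellOrderingRel) _ hh
  have : (M.ord o κ₀) = (Φ ⁻¹'o (Prod.Lex (· < ·) (Prod.Lex (· < ·) WellOrderingRel))) := by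
    funext a b
    exact propext (hlt a b)
  rw [this]
  exact (RelEmbedding.preimage ⟨Φ, hinj⟩ _).isWellOrder

section Main

variable {M : Monster F K} {o : M.G} {κ₀ : ℕ × M.G}

theorem Monster.ord_le {β β' : M.Block} (h : M.ord o κ₀ β β') :
    M.level o β ≤ M.level o β' := by
  rcases h with h | ⟨h, _⟩
  · exact h.le
  · exact h.le

theorem Monster.ord_ne {β β' : M.Block} (h : M.ord o κ₀ β β') : β ≠ β' := by
  rintro rfl
  have := M.ord_wo o κ₀
  exact irrefl (r := M.ord o κ₀) β h

/-- a vertex of a block in an earlier block: it has the generation of the level, or the earlier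
block has the same level. -/
theorem Monster.early_cases (H : M.LevelFacts o) {β κ : M.Block} {x : M.G}
    (h : M.ord o κ₀ β κ) (hβ : M.Mem β x) (hκ : M.Mem κ x) :
    M.gn o x = M.level o κ ∨ (M.level o β = M.level o κ ∧ M.gn o x = M.level o κ + 1) := by
  have h1 := Monster.ord_le h
  have h2 := H.gn_le β x hβ
  have h3 := H.level_le κ x hκ
  have h4 := H.gn_le κ x hκ
  rcases Nat.lt_or_ge (M.level o β) (M.level o κ) with h5 | h5
  · left; omega
  · by_cases h6 : M.gn o x = M.level o κ
    · exact Or.inl h6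
    · right; constructor <;> omega

/-- vertices of lowest generation are early, except in the first block. -/
theorem Monster.low_early (H : M.LevelFacts o) (hκ₀ : M.Mem (Sum.inl κ₀) o) {κ : M.Block}
    (hne : κ ≠ Sum.inl κ₀) {x : M.G} (hx : M.gn o x = M.level o κ) :
    ∃ β, M.ord o κ₀ β κ ∧ M.Mem β x := by
  rcases Nat.eq_zero_or_pos (M.level o κ) with h0 | h0
  · have hxo : x = o := H.gn_eq_zero x (by omega)
    refine ⟨Sum.inl κ₀, ?_, hxo ▸ hκ₀⟩
    right
    refine ⟨?_, Or.inl ⟨rfl, hne⟩⟩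
    have := H.level_le _ _ hκ₀
    rw [H.gn_self] at this
    omega
  · obtain ⟨β, hβ, hl⟩ := H.exists_block x (M.level o κ - 1) (by omega)
    exact ⟨β, Or.inl (by omega), hβ⟩

/-- the connection of an early vertex of a copy to the lowest generation, inside one earlier
block. -/
theorem Monster.early_conn (H : M.LevelFacts o) (hmeet : M.Meet o) (hint : M.Inter)
    {m : ℕ} {h : M.G} {y : Fin (F.n m)} {β : M.Block}
    (hβ : M.ord o κ₀ β (Sum.inl (m, h))) (hy : M.Mem β (h * M.pos m y)) :
    ∃ z, M.gn o (h * M.pos m z) = M.level o (Sum.inl (m, h)) ∧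
      ∃ w : (F.X m).Walk y z, K * w.length ≤ F.g m ∧ ∀ u ∈ w.support, M.Mem β (h * M.pos m u) := by
  rcases Monster.early_cases H hβ hy ⟨y, rfl⟩ with h1 | ⟨h1, h2⟩
  · refine ⟨y, h1, SimpleGraph.Walk.nil, by simp, ?_⟩
    intro u hu
    rw [SimpleGraph.Walk.support_nil, List.mem_singleton] at hu
    rw [hu]; exact hy
  · obtain ⟨x, hx1, hx2, hx3⟩ := hmeet (Sum.inl (m, h)) β (h * M.pos m y)
      (Monster.ord_ne hβ).symm h1.symm ⟨y, rfl⟩ hy h2
    obtain ⟨z, rfl⟩ := hx1
    obtain ⟨w, hw1, hw2⟩ := hint m h β (Monster.ord_ne hβ) y z hy hx2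
    exact ⟨z, hx3, w, hw1, hw2⟩

/-- early vertices are connected by a short walk, with three pieces. -/
theorem Monster.small_walk (H : M.LevelFacts o) (hmeet : M.Meet o) (hint : M.Inter)
    (hlow : M.LowCopy o) {m : ℕ} {h : M.G} {y z : Fin (F.n m)} {β β' : M.Block}
    (hβ : M.ord o κ₀ β (Sum.inl (m, h))) (hy : M.Mem β (h * M.pos m y))
    (hβ' : M.ord o κ₀ β' (Sum.inl (m, h))) (hz : M.Mem β' (h * M.pos m z)) :
    ∃ (y' z' : Fin (F.n m)) (w₁ : (F.X m).Walk y y') (w₂ : (F.X m).Walk y' z')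
      (w₃ : (F.X m).Walk z' z), K * w₁.length ≤ F.g m ∧ K * w₂.length ≤ 2 * F.g m ∧
      K * w₃.length ≤ F.g m ∧ (∀ u ∈ w₁.support, M.Mem β (h * M.pos m u)) ∧
      (∀ u ∈ w₂.support, M.gn o (h * M.pos m u) = M.level o (Sum.inl (m, h))) ∧
      (∀ u ∈ w₃.support, M.Mem β' (h * M.pos m u)) := by
  obtain ⟨y', hy', w₁, h1, h2⟩ := Monster.early_conn H hmeet hint hβ hy
  obtain ⟨z', hz', w₃, h3, h4⟩ := Monster.early_conn H hmeet hint hβ' hz
  obtain ⟨w₂, h5, h6⟩ := hlow m h y' z' hy' hz'
  refine ⟨y', z', w₁, w₂, w₃.reverse, h1, h5, ?_, h2, h6, ?_⟩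
  · rwa [SimpleGraph.Walk.length_reverse]
  · intro u hu
    rw [SimpleGraph.Walk.support_reverse, List.mem_reverse] at hu
    exact h4 u hu

/-- an edge whose two ends lie on a common short early walk: it is an edge of the walk. -/
theorem Fam.edge_mem_of_girth {m : ℕ} (hg : (F.g m : ℕ∞) ≤ (F.X m).egirth) {y z : Fin (F.n m)}
    (hyz : (F.X m).Adj y z) (w : (F.X m).Walk y z) (hw : w.length + 1 < F.g m) :
    s(y, z) ∈ w.edges := by
  classical
  by_contra hcon
  have h1 : s(y, z) ∉ w.bypass.edges := fun h => hcon (SimpleGraph.Walk.edges_bypass_subset_edges w h)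
  have h2 : w.bypass.IsPath := SimpleGraph.Walk.bypass_isPath w
  have h3 : (SimpleGraph.Walk.cons hyz.symm w.bypass).IsCycle := by
    rw [SimpleGraph.Walk.cons_isCycle_iff]
    refine ⟨h2, ?_⟩
    rwa [Sym2.eq_swap]
  have h4 : (F.X m).egirth ≤ ((SimpleGraph.Walk.cons hyz.symm w.bypass).length : ℕ∞) :=
    SimpleGraph.egirth_le_length h3
  have h5 := hg.trans h4
  rw [SimpleGraph.Walk.length_cons] at h5
  have h6 := w.length_bypass_le_length
  have h7 : F.g m ≤ w.bypass.length + 1 := by exact_mod_cast h5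
  omega

/-- an edge of a walk has both ends in the support. -/
theorem support_of_edge {V : Type} {G : SimpleGraph V} {a b y z : V} {w : G.Walk a b}
    (h : s(y, z) ∈ w.edges) : y ∈ w.support ∧ z ∈ w.support :=
  ⟨w.fst_mem_support_of_mem_edges h, w.snd_mem_support_of_mem_edges h⟩

end Main

/-- BLOCK B2. -/
theorem orderStatement : OrderStatement := by
  classical
  intro q F K D c e M hK hc he κ₀
  have hn : ∀ m, 0 < F.n m := fun m => by have := he.two m; omega
  have hpos : ∀ m, Function.Injective (M.pos m) := fun m => M.pos_inj hK hc he m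
  have hs1 : ∀ a, M.s a ≠ 1 := M.s_ne_one hK hc
  have hcc := M.closedChain hK hc he
  have hint : M.Inter := M.inter hK hc he
  have hfull : M.Full := M.full hK hc he
  have hA1 : ∀ β y z, M.Mem β y → M.Mem β z → ∃ w, M.Geo β y w ∧ y * M.val w = z :=
    fun β y z hy hz => M.exists_geo hK hc he hy hz
  set o : M.G := κ₀.2 * M.pos κ₀.1 ⟨0, hn κ₀.1⟩ with ho
  have H := M.levelFacts hn o
  have hlow : M.LowCopy o := Monster.lowCopy H hpos hA1 hcc hint
  have hledge : M.LowEdge o := Monster.lowEdge H hA1 hcc hs1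
  have hmeet : M.Meet o := Monster.meet H hA1 hcc
  have hg := M.genFacts (fun m => ⟨⟨0, hn m⟩⟩) o
  have hF2 : M.F2 o := Monster.f2 (M.a1 hK hc he) (M.a4 hK hc he) hg
    (Monster.ladder (M.a1 hK hc he) hg)
  have hκ₀ : M.Mem (Sum.inl κ₀) o := ⟨⟨0, hn κ₀.1⟩, rfl⟩
  have hlev0 : M.level o (Sum.inl κ₀) = 0 := by
    have := H.level_le _ _ hκ₀
    rw [H.gn_self] at this
    omega
  have hgK : ∀ m, K ≤ F.g m := hc.g_large
  -- nothing is before the first block
  have hnot : ∀ β, ¬ M.ord o κ₀ β (Sum.inl κ₀) := by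
    intro β h
    rcases h with h | ⟨_, h⟩
    · omega
    · rcases h with h | h
      · exact h.2 rfl
      · exact h.2.1 rfl
  refine ⟨M.ord o κ₀, M.ord_wo o κ₀, ?_, ?_, ?_⟩
  · -- first
    intro β hβ
    rcases Nat.eq_zero_or_pos (M.level o β) with h0 | h0
    · exact Or.inr ⟨by omega, Or.inl ⟨rfl, hβ⟩⟩
    · exact Or.inl (by omega)
  · -- edge
    have half : ∀ β x a, M.Edge β x a → M.gn o x = M.level o β →
        (∃ β', M.ord o κ₀ β' β ∧ M.Mem β' (x * M.s a)) → ∃ β', M.ord o κ₀ β' β ∧ M.Edge β' x a := by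
      intro β x a hedge hgx ⟨β', hlt, hmem⟩
      obtain ⟨m1, m2⟩ := M.mem_of_edge hedge
      by_cases hgy : M.gn o (x * M.s a) = M.level o β
      · obtain ⟨β₁, h1, h2⟩ := hledge β x a hedge hgx hgy
        exact ⟨β₁, Or.inl h1, h2⟩
      · rcases Monster.early_cases H hlt hmem m2 with h1 | ⟨h1, h2⟩
        · exact absurd h1 hgy
        · refine ⟨β', hlt, ?_⟩
          exact hF2 β β' x (x * M.s a) [a] (Monster.ord_ne hlt).symm h1.symm m1 hgx m2 hmem h2
            (Monster.f_geo_single hs1 hedge) (by rw [M.val_cons, M.val_nil, mul_one])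
            (x, a) (by simp [Monster.edges]) (Or.inr h2)
    intro β x a hedge hx hy
    obtain ⟨m1, m2⟩ := M.mem_of_edge hedge
    have a1 := H.level_le β x m1
    have a2 := H.gn_le β x m1
    have a3 := H.level_le β _ m2
    have a4 := H.gn_le β _ m2
    by_cases hgx : M.gn o x = M.level o β
    · exact half β x a hedge hgx hy
    by_cases hgy : M.gn o (x * M.s a) = M.level o β
    · have hback : x * M.s a * M.s a.swap = x := by rw [mul_assoc, M.s_swap, mul_one]
      obtain ⟨β', h1, h2⟩ := half β (x * M.s a) a.swap (M.edge_einv hedge) hgy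
        (by rw [hback]; exact hx)
      refine ⟨β', h1, ?_⟩
      have h3 := M.edge_einv h2
      rwa [hback, Prod.swap_swap] at h3
    have hx1 : M.gn o x = M.level o β + 1 := by omega
    have hy1 : M.gn o (x * M.s a) = M.level o β + 1 := by omega
    rcases β with ⟨m, h⟩ | ⟨x₀, b⟩
    · obtain ⟨y, z, hyz, rfl, rfl⟩ := hedge
      have hz : h * M.pos m y * M.s (F.col m y, F.col m z) = h * M.pos m z := by
        rw [mul_assoc, ← M.pos_adj m y z hyz]
      rw [hz] at hy1 hy
      obtain ⟨β₁, hβ₁, hβy⟩ := hx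
      obtain ⟨β₂, hβ₂, hβz⟩ := hy
      obtain ⟨y', z', w₁, w₂, w₃, l1, l2, l3, s1, s2, s3⟩ :=
        Monster.small_walk H hmeet hint hlow hβ₁ hβy hβ₂ hβz
      have hlen : (w₁.append (w₂.append w₃)).length + 1 < F.g m := by
        rw [SimpleGraph.Walk.length_append, SimpleGraph.Walk.length_append]
        have h1 := hgK m
        have h2 : K * (w₁.length + (w₂.length + w₃.length)) ≤ 4 * F.g m := by
          rw [mul_add, mul_add]; omega
        have h3 : 20 * (w₁.length + (w₂.length + w₃.length)) ≤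
            K * (w₁.length + (w₂.length + w₃.length)) := Nat.mul_le_mul_right _ hK
        omega
      have hmem := Fam.edge_mem_of_girth (he.girth m) hyz _ hlen
      rw [SimpleGraph.Walk.edges_append, SimpleGraph.Walk.edges_append, List.mem_append,
        List.mem_append] at hmem
      rcases hmem with hmem | hmem | hmem
      · have h1 := support_of_edge hmem
        exact ⟨β₁, hβ₁, hfull β₁ _ _ (s1 y h1.1) (by rw [hz]; exact s1 z h1.2)⟩
      · have h1 := support_of_edge hmem
        exact absurd (s2 y h1.1) hgx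
      · have h1 := support_of_edge hmem
        exact ⟨β₂, hβ₂, hfull β₂ _ _ (s3 y h1.1) (by rw [hz]; exact s3 z h1.2)⟩
    · exfalso
      obtain ⟨v, hv, hgv⟩ := H.exists_level (Sum.inr (x₀, b))
      have hv' : v = x ∨ v = x * M.s a := by
        rcases hedge with ⟨rfl, rfl⟩ | ⟨rfl, rfl⟩
        · exact hv
        · rw [mul_assoc, M.s_swap, mul_one]
          exact hv.symm
      rcases hv' with rfl | rfl
      · exact hgx hgv
      · exact hgy hgv
  · -- small
    intro m h y z hy hz
    obtain ⟨β, hβ, hβy⟩ := hy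
    obtain ⟨β', hβ', hβz⟩ := hz
    have hne : (Sum.inl (m, h) : M.Block) ≠ Sum.inl κ₀ := fun hh => hnot β (hh ▸ hβ)
    obtain ⟨y', z', w₁, w₂, w₃, l1, l2, l3, s1, s2, s3⟩ :=
      Monster.small_walk H hmeet hint hlow hβ hβy hβ' hβz
    refine ⟨w₁.append (w₂.append w₃), ?_, ?_⟩
    · rw [SimpleGraph.Walk.length_append, SimpleGraph.Walk.length_append, mul_add, mul_add]
      omega
    · intro u hu
      rw [SimpleGraph.Walk.mem_support_append_iff, SimpleGraph.Walk.mem_support_append_iff] at hu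
      rcases hu with hu | hu | hu
      · exact ⟨β, hβ, s1 u hu⟩
      · obtain ⟨β₁, h1, h2⟩ := Monster.low_early H hκ₀ hne (s2 u hu)
        exact ⟨β₁, h1, h2⟩
      · exact ⟨β', hβ', s3 u hu⟩

end Vale.Agent.P089
end
end

section

section

/-!
The reduced C*-algebra `CstarR G` of the assembly layer in terms of `lam`, `lamA`, `CrG`.
-/

open scoped InnerProductSpace

namespace Vale.Agent.P089

open Vale.Agent.P086 Vale.Agent.P089.Op

variable {G : Type} [Group G]

theorem isLam_lam (g : G) : IsLam g (lam g) := fun _ _ => rfl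

theorem IsLam.eq_lam {g : G} {T : L2 G →L[ℂ] L2 G} (h : IsLam g T) : T = lam g := by
  ext ξ x
  exact h ξ x

theorem isLam_iff {g : G} {T : L2 G →L[ℂ] L2 G} : IsLam g T ↔ T = lam g :=
  ⟨IsLam.eq_lam, fun h => h ▸ isLam_lam g⟩

theorem setOf_isLam : {T : L2 G →L[ℂ] L2 G | ∃ g : G, IsLam g T} = Set.range (lam (G := G)) := by
  ext T
  constructor
  · rintro ⟨g, h⟩
    exact ⟨g, h.eq_lam.symm⟩
  · rintro ⟨g, rfl⟩
    exact ⟨g, isLam_lam g⟩

/-! ### The group ring -/

theorem lamA_single (g : G) (c : ℂ) : lamA (MonoidAlgebra.single g c) = c • lam g := by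
  rw [lamA, repAlg_single]
  rfl

theorem lamA_eq (f : MonoidAlgebra ℂ G) : lamA f = ∑ g ∈ f.coeff.support, f.coeff g • lam g :=
  repAlg_apply lamU f

theorem lamA_gstar (f : MonoidAlgebra ℂ G) : lamA (gstar f) = star (lamA f) :=
  repAlg_gstar lamU f

/-! ### The reduced C*-algebra -/

theorem span_lam_eq_range :
    (Submodule.span ℂ {T : L2 G →L[ℂ] L2 G | ∃ g : G, IsLam g T} : Set (L2 G →L[ℂ] L2 G)) =
      Set.range (lamA (Γ := G)) := by
  rw [setOf_isLam]
  apply Set.Subset.antisymm
  · have : Submodule.span ℂ (Set.range (lam (G := G))) ≤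
        LinearMap.range (lamA (Γ := G)).toLinearMap := by
      rw [Submodule.span_le]
      rintro _ ⟨g, rfl⟩
      refine ⟨MonoidAlgebra.single g 1, ?_⟩
      change lamA _ = _
      rw [lamA_single, one_smul]
    intro T hT
    obtain ⟨f, hf⟩ := this hT
    exact ⟨f, hf⟩
  · rintro _ ⟨f, rfl⟩
    rw [SetLike.mem_coe, lamA_eq]
    exact Submodule.sum_mem _ fun g _ => Submodule.smul_mem _ _ (Submodule.subset_span ⟨g, rfl⟩)

theorem cstarR_eq : CstarR G = closure (Set.range (lamA (Γ := G))) := by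
  rw [CstarR, span_lam_eq_range]

/-- The image of the group ring as a star subalgebra of `B(ℓ²(G))`. -/
noncomputable def lamAlg (G : Type) [Group G] : StarSubalgebra ℂ (L2 G →L[ℂ] L2 G) where
  toSubalgebra := (lamA (Γ := G)).range
  star_mem' := by
    rintro _ ⟨f, rfl⟩
    exact ⟨gstar f, lamA_gstar f⟩

theorem adjoin_lam : StarAlgebra.adjoin ℂ (Set.range (lam (G := G))) = lamAlg G := by
  apply le_antisymm
  · rw [StarAlgebra.adjoin_le_iff]
    rintro _ ⟨g, rfl⟩
    refine ⟨MonoidAlgebra.single g 1, ?_⟩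
    change lamA _ = _
    rw [lamA_single, one_smul]
  · rintro _ ⟨f, rfl⟩
    change lamA f ∈ _
    rw [lamA_eq]
    exact sum_mem fun g _ => (StarAlgebra.adjoin ℂ (Set.range (lam (G := G)))).smul_mem
      (StarAlgebra.subset_adjoin _ _ ⟨g, rfl⟩) _

theorem coe_CrG : (CrG G : Set (L2 G →L[ℂ] L2 G)) = CstarR G := by
  rw [cstarR_eq, CrG, adjoin_lam, StarSubalgebra.topologicalClosure_coe]
  rfl

theorem mem_CrG {T : L2 G →L[ℂ] L2 G} : T ∈ CrG G ↔ T ∈ CstarR G := by
  rw [← coe_CrG]
  rfl

theorem lamA_mem (f : MonoidAlgebra ℂ G) : lamA f ∈ CstarR G := by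
  rw [cstarR_eq]
  exact subset_closure ⟨f, rfl⟩

theorem lam_mem (g : G) : lam g ∈ CstarR G := by
  rw [← one_smul ℂ (lam g), ← lamA_single]
  exact lamA_mem _

end Vale.Agent.P089
end
end

section

section

/-!
Trace functionals `τ_N(λ(g)) = 1_N(g)` on `B(ℓ²(G))` for locally finite subgroups `N` of `G`.
-/

open scoped InnerProductSpace
open Filter

namespace Vale.Agent.P089

open Vale.Agent.P086 Vale.Agent.P089.Op

/-- Limits of bounded linear functionals along an ultrafilter. -/
theorem exists_ulim {ι : Type*} (U : Ultrafilter ι) {V : Type*} [NormedAddCommGroup V]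
    [NormedSpace ℂ V] (φ : ι → V →L[ℂ] ℂ) (C : ℝ) (hC : 0 ≤ C) (h : ∀ i, ‖φ i‖ ≤ C) :
    ∃ τ : V →L[ℂ] ℂ, ‖τ‖ ≤ C ∧ ∀ v, Tendsto (fun i => φ i v) U (nhds (τ v)) := by
  have hb : ∀ i v, ‖φ i v‖ ≤ C * ‖v‖ := fun i v =>
    ((φ i).le_opNorm v).trans (by gcongr; exact h i)
  have hex : ∀ v, ∃ z : ℂ, Tendsto (fun i => φ i v) U (nhds z) := by
    intro v
    obtain ⟨z, -, hz⟩ := (isCompact_closedBall (0 : ℂ) (C * ‖v‖)).ultrafilter_le_nhds
      (U.map fun i => φ i v) (by
        rw [Filter.le_principal_iff]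
        change ∀ᶠ i in (U : Filter ι), φ i v ∈ Metric.closedBall (0 : ℂ) (C * ‖v‖)
        refine Filter.Eventually.of_forall fun i => ?_
        rw [mem_closedBall_zero_iff]
        exact hb i v)
    exact ⟨z, hz⟩
  choose L hL using hex
  have hadd : ∀ v w, L (v + w) = L v + L w := fun v w =>
    tendsto_nhds_unique (hL (v + w)) (((hL v).add (hL w)).congr fun i => (map_add (φ i) v w).symm)
  have hsmul : ∀ (c : ℂ) v, L (c • v) = c • L v := fun c v =>
    tendsto_nhds_unique (hL (c • v)) (((hL v).const_smul c).congr fun i =>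
      (map_smul (φ i) c v).symm)
  have hnorm : ∀ v, ‖L v‖ ≤ C * ‖v‖ := fun v =>
    le_of_tendsto (hL v).norm (Filter.Eventually.of_forall fun i => hb i v)
  refine ⟨LinearMap.mkContinuous ⟨⟨L, hadd⟩, hsmul⟩ C hnorm, ?_, hL⟩
  exact LinearMap.mkContinuous_norm_le _ hC _

/-! ### Indicator vectors -/

/-- The indicator vector of a finite set. -/
noncomputable def fv {X : Type} (F : Finset X) : L2 X := ∑ n ∈ F, dl n

open Classical in
theorem fv_apply {X : Type} (F : Finset X) (g : X) : fv F g = if g ∈ F then 1 else 0 := by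
  rw [fv, lp.coeFn_sum, Finset.sum_apply]
  simp only [dl_apply]
  rw [Finset.sum_ite_eq]

theorem inner_fv {X : Type} (F : Finset X) (ξ : L2 X) : ⟪fv F, ξ⟫_ℂ = ∑ x ∈ F, ξ x := by
  rw [fv, sum_inner]
  simp only [inner_dl]

theorem fv_norm_sq {X : Type} (F : Finset X) : ‖fv F‖ ^ 2 = F.card := by
  classical
  have h : ⟪fv F, fv F⟫_ℂ = (F.card : ℂ) := by
    rw [inner_fv]
    simp only [fv_apply]
    rw [Finset.sum_congr rfl (fun x hx => if_pos hx)]
    simp
  rw [inner_self_eq_norm_sq_to_K] at h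
  apply Complex.ofReal_injective
  push_cast
  exact h

/-- The vector state of the normalized indicator vector of a finite set. -/
noncomputable def vst {X : Type} (F : Finset X) : (L2 X →L[ℂ] L2 X) →L[ℂ] ℂ :=
  ((F.card : ℂ)⁻¹) • ((innerSL ℂ (fv F)).comp (ContinuousLinearMap.apply ℂ (L2 X) (fv F)))

theorem vst_apply {X : Type} (F : Finset X) (T : L2 X →L[ℂ] L2 X) :
    vst F T = (F.card : ℂ)⁻¹ * ∑ x ∈ F, (T (fv F)) x := by
  rw [← inner_fv]
  rfl

theorem norm_vst_le {X : Type} (F : Finset X) : ‖vst F‖ ≤ 1 := by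
  refine ContinuousLinearMap.opNorm_le_bound _ zero_le_one fun T => ?_
  rw [vst_apply, ← inner_fv, norm_mul, norm_inv, Complex.norm_natCast, one_mul]
  rcases Nat.eq_zero_or_pos F.card with h | h
  · rw [h]
    simp
  · have h1 : (0 : ℝ) < F.card := by exact_mod_cast h
    rw [inv_mul_le_iff₀ h1]
    calc ‖⟪fv F, T (fv F)⟫_ℂ‖ ≤ ‖fv F‖ * ‖T (fv F)‖ := norm_inner_le_norm _ _
      _ ≤ ‖fv F‖ * (‖T‖ * ‖fv F‖) := by gcongr; exact T.le_opNorm _
      _ = ‖fv F‖ ^ 2 * ‖T‖ := by ring
      _ = F.card * ‖T‖ := by rw [fv_norm_sq]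

section Group

variable {G : Type} [Group G]

/-- `N` is locally finite: finitely generated subgroups of `N` are finite. -/
def LocFin (N : Subgroup G) : Prop :=
  ∀ s : Finset G, (∀ g ∈ s, g ∈ N) → (Subgroup.closure (s : Set G) : Set G).Finite

theorem vst_lam (F : Subgroup G) (E : Finset G) (hE : ∀ g, g ∈ E ↔ g ∈ F) (g : G)
    [Decidable (g ∈ F)] : vst E (lam g) = if g ∈ F then 1 else 0 := by
  classical
  have hone : (1 : G) ∈ E := (hE 1).2 F.one_mem
  have hcard : (E.card : ℂ) ≠ 0 := by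
    exact_mod_cast (Finset.card_pos.2 ⟨1, hone⟩).ne'
  rw [vst_apply]
  simp only [lam_apply, fv_apply, hE]
  split_ifs with hg
  · have : ∀ x ∈ E, (if g⁻¹ * x ∈ F then (1 : ℂ) else 0) = 1 := by
      intro x hx
      rw [if_pos (F.mul_mem (F.inv_mem hg) ((hE x).1 hx))]
    rw [Finset.sum_congr rfl this]
    simp [hcard]
  · rw [Finset.sum_eq_zero, mul_zero]
    intro x hx
    rw [if_neg]
    intro h
    apply hg
    have h2 := F.mul_mem ((hE x).1 hx) (F.inv_mem h)
    simpa using h2

/-- The functional `τ_N` with `τ_N(λ(g)) = 1_N(g)`, for a locally finite subgroup `N`. -/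
theorem exists_tau (N : Subgroup G) (hN : LocFin N) :
    ∃ τ : (L2 G →L[ℂ] L2 G) →L[ℂ] ℂ, ‖τ‖ ≤ 1 ∧ (∀ g ∈ N, τ (lam g) = 1) ∧
      (∀ g, g ∉ N → τ (lam g) = 0) := by
  classical
  have hfin : ∀ s : Finset N, (Subgroup.closure ((s.image (Subtype.val : N → G) : Finset G) :
      Set G) : Set G).Finite := by
    intro s
    refine hN _ fun g hg => ?_
    obtain ⟨x, -, rfl⟩ := Finset.mem_image.1 hg
    exact x.2
  let φ : Finset N → (L2 G →L[ℂ] L2 G) →L[ℂ] ℂ := fun s => vst (hfin s).toFinset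
  obtain ⟨τ, hτ, hlim⟩ := exists_ulim (Ultrafilter.of (atTop : Filter (Finset N))) φ 1 zero_le_one
    (fun s => norm_vst_le _)
  have hval : ∀ s g, φ s (lam g) =
      if g ∈ Subgroup.closure ((s.image (Subtype.val : N → G) : Finset G) : Set G) then 1 else 0 :=
    fun s g => vst_lam _ _ (fun x => by simp only [Finset.coe_image, Set.Finite.mem_toFinset, SetLike.mem_coe]) g
  refine ⟨τ, hτ, ?_, ?_⟩
  · intro g hg
    refine tendsto_nhds_unique (hlim (lam g)) ?_
    refine tendsto_const_nhds.congr' ?_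
    refine (Ultrafilter.of_le _ : _ ≤ (atTop : Filter (Finset N))) ?_
    filter_upwards [eventually_ge_atTop ({⟨g, hg⟩} : Finset N)] with s hs
    rw [hval, if_pos]
    apply Subgroup.subset_closure
    rw [Finset.mem_coe, Finset.mem_image]
    exact ⟨⟨g, hg⟩, hs (Finset.mem_singleton_self _), rfl⟩
  · intro g hg
    refine tendsto_nhds_unique (hlim (lam g)) ?_
    refine tendsto_const_nhds.congr' (Eventually.of_forall fun s => ?_)
    change 0 = φ s (lam g)
    rw [hval, if_neg]
    intro h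
    apply hg
    refine (Subgroup.closure_le N).2 ?_ h
    intro x hx
    obtain ⟨y, -, rfl⟩ := Finset.mem_image.1 (Finset.mem_coe.1 hx)
    exact y.2

/-- The canonical trace as a bounded functional on `B(ℓ²(G))`. -/
noncomputable def tau0 : (L2 G →L[ℂ] L2 G) →L[ℂ] ℂ := vst ({1} : Finset G)

theorem tau0_apply (T : L2 G →L[ℂ] L2 G) : tau0 T = (T (dl 1)) 1 := by
  rw [tau0, vst_apply]
  simp only [Finset.card_singleton, Nat.cast_one, inv_one, fv, Finset.sum_singleton, one_mul]

theorem tau0_lam (g : G) [Decidable (g = 1)] : tau0 (lam g) = if g = 1 then 1 else 0 := by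
  classical
  rw [tau0_apply, lam_dl, mul_one, dl_apply]
  by_cases h : g = 1
  · simp [h]
  · rw [if_neg h, if_neg (fun h' => h h'.symm)]

theorem norm_tau0_le : ‖(tau0 : (L2 G →L[ℂ] L2 G) →L[ℂ] ℂ)‖ ≤ 1 := norm_vst_le _

/-- The trace difference `t_N = τ_N - τ` of a locally finite normal subgroup. -/
theorem exists_trdiff (N : Subgroup G) [hNn : N.Normal] (hN : LocFin N) :
    ∃ t : (L2 G →L[ℂ] L2 G) →L[ℂ] ℂ, ‖t‖ ≤ 2 ∧ (∀ g ∈ N, g ≠ 1 → t (lam g) = 1) ∧
      (∀ g, (g ∉ N ∨ g = 1) → t (lam g) = 0) ∧ ∀ g h, t (lam (g * h)) = t (lam (h * g)) := by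
  classical
  obtain ⟨τ, hτ, h1, h2⟩ := exists_tau N hN
  set t : (L2 G →L[ℂ] L2 G) →L[ℂ] ℂ := τ - tau0 with ht
  have h3 : ∀ g ∈ N, g ≠ 1 → t (lam g) = 1 := by
    intro g hg hg1
    rw [ht, sub_apply, h1 g hg, tau0_lam, if_neg hg1, sub_zero]
  have h4 : ∀ g, (g ∉ N ∨ g = 1) → t (lam g) = 0 := by
    intro g hg
    rw [ht, sub_apply, tau0_lam]
    by_cases hg1 : g = 1
    · rw [if_pos hg1, hg1, h1 1 N.one_mem, sub_self]
    · rw [if_neg hg1, h2 g (hg.resolve_right hg1), sub_self]
  refine ⟨t, ?_, h3, h4, ?_⟩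
  · have h5 := norm_tau0_le (G := G)
    calc ‖t‖ ≤ ‖τ‖ + ‖(tau0 : (L2 G →L[ℂ] L2 G) →L[ℂ] ℂ)‖ := by
            rw [ht]
            exact norm_sub_le τ (tau0 (G := G))
      _ ≤ 1 + 1 := add_le_add hτ h5
      _ = 2 := by norm_num
  · intro g h
    have hmem : g * h ∈ N ↔ h * g ∈ N := hNn.mem_comm_iff
    have hone : g * h = 1 ↔ h * g = 1 := by
      rw [mul_eq_one_iff_eq_inv, mul_eq_one_iff_inv_eq, eq_comm]
    by_cases hm : g * h ∈ N
    · by_cases ho : g * h = 1
      · rw [h4 _ (Or.inr ho), h4 _ (Or.inr (hone.1 ho))]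
      · rw [h3 _ hm ho, h3 _ (hmem.1 hm) (fun e => ho (hone.2 e))]
    · rw [h4 _ (Or.inl hm), h4 _ (Or.inl (fun e => hm (hmem.2 e)))]

end Group

end Vale.Agent.P089
end
end

section

section

/-!
P089, operator layer: a length function on `Γ`, the locally finite normal subgroups, and the
numerical hypotheses of the assembly layer.
-/

namespace Vale.Agent.P089.Op

open Vale.Agent.P086

variable {q : ℕ} {F : Fam q} {K k : ℕ} (M : Monster F K) (C C' : Codes k F)

/-! ### Countability -/

theorem countable_G : Countable M.G := by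
  have : Function.Surjective (fun w : List (Letter q) => (w.map M.s).prod) := fun x => M.gen x
  exact this.countable

theorem countable_NN : Countable (NN M C) := by
  have := countable_G M
  have h1 : Countable (M.G →₀ Alph k q) := inferInstance
  exact (Submodule.Quotient.mk_surjective (M.Rel C)).countable

theorem countable_Gam : Countable (Gam M C) := by
  have h1 := countable_G M
  have h2 : Countable (Multiplicative (NN M C)) := countable_NN M C
  exact (SemidirectProduct.equivProd (φ := actN M C)).countable_iff.2 inferInstance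

/-! ### The length function -/

/-- The length of an element of `Γ`: the least size of the support of a representative of its
component in `N`. -/
noncomputable def lenG (γ : Gam M C) : ℕ :=
  sInf {n | ∃ f, mkN M C f = Multiplicative.toAdd γ.left ∧ f.support.card = n}

theorem exists_len (γ : Gam M C) :
    ∃ f, mkN M C f = Multiplicative.toAdd γ.left ∧ f.support.card = lenG M C γ := by
  obtain ⟨f, hf⟩ := mkN_surj M C (Multiplicative.toAdd γ.left)
  exact Nat.sInf_mem (s := {n | ∃ f, mkN M C f = Multiplicative.toAdd γ.left ∧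
    f.support.card = n}) ⟨_, f, hf, rfl⟩

theorem lenG_le {γ : Gam M C} {f : M.G →₀ Alph k q}
    (hf : mkN M C f = Multiplicative.toAdd γ.left) : lenG M C γ ≤ f.support.card :=
  Nat.sInf_le ⟨f, hf, rfl⟩

theorem lenG_one : lenG M C 1 = 0 := by
  have : lenG M C 1 ≤ (0 : M.G →₀ Alph k q).support.card := lenG_le M C rfl
  simpa using this

theorem lenG_mul (g h : Gam M C) : lenG M C (g * h) ≤ lenG M C g + lenG M C h := by
  classical
  obtain ⟨f, hf, hfc⟩ := exists_len M C g
  obtain ⟨f', hf', hfc'⟩ := exists_len M C h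
  have h1 : mkN M C (f + trF M g.right f') = Multiplicative.toAdd (g * h).left := by
    rw [mkN_add, ← trN_mk, hf, hf']
    rfl
  refine (lenG_le M C h1).trans ?_
  refine (Finset.card_le_card Finsupp.support_add).trans ((Finset.card_union_le _ _).trans ?_)
  rw [hfc, ← hfc']
  refine Nat.add_le_add_left ?_ _
  refine Finset.card_le_card_of_injOn (fun x => g.right⁻¹ * x) ?_ ?_
  · intro x hx
    rw [Finset.mem_coe, Finsupp.mem_support_iff] at hx ⊢
    rwa [trF_apply] at hx
  · intro x _ y _ hxy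
    exact mul_left_cancel hxy

/-! ### The normal subgroups -/

/-- The subgroup of the classes of the relations of the smaller codes. -/
def Nsub : Subgroup (Gam M C) where
  carrier := {γ | γ.right = 1 ∧ ∃ f ∈ M.Rel C', mkN M C f = Multiplicative.toAdd γ.left}
  one_mem' := ⟨rfl, 0, Submodule.zero_mem _, rfl⟩
  mul_mem' := by
    rintro g h ⟨hg, f, hf, hfg⟩ ⟨hh, f', hf', hfh⟩
    refine ⟨?_, f + trF M g.right f', Submodule.add_mem _ hf (trF_mem_Rel M C' _ hf'), ?_⟩
    · rw [SemidirectProduct.mul_right, hg, hh, one_mul]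
    · rw [mkN_add, ← trN_mk, hfg, hfh]
      rfl
  inv_mem' := by
    rintro g ⟨hg, f, hf, hfg⟩
    refine ⟨?_, trF M g.right⁻¹ (-f), trF_mem_Rel M C' _ (Submodule.neg_mem _ hf), ?_⟩
    · rw [SemidirectProduct.inv_right, hg, inv_one]
    · rw [← trN_mk, mkN_neg, hfg]
      rfl

theorem Nsub_normal : (Nsub M C C').Normal := by
  refine ⟨?_⟩
  rintro n ⟨hn, f, hf, hfn⟩ g
  refine ⟨?_, trF M g.right f, trF_mem_Rel M C' _ hf, ?_⟩
  · rw [SemidirectProduct.mul_right, SemidirectProduct.mul_right, hn, mul_one,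
      SemidirectProduct.inv_right, mul_inv_cancel]
  · rw [← trN_mk, hfn, SemidirectProduct.mul_left, SemidirectProduct.mul_left,
      SemidirectProduct.inv_left, SemidirectProduct.mul_right, hn, mul_one, ← MulAut.mul_apply,
      ← map_mul, mul_inv_cancel, map_one, MulAut.one_apply]
    show trN M C g.right (Multiplicative.toAdd n.left) = Multiplicative.toAdd g.left +
      trN M C g.right (Multiplicative.toAdd n.left) + - Multiplicative.toAdd g.left
    abel

theorem Nsub_locFin : LocFin (Nsub M C C') := by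
  classical
  intro s hs
  let W : Submodule (ZMod 2) (NN M C) :=
    Submodule.span (ZMod 2) (s.image (fun γ => Multiplicative.toAdd γ.left) : Finset (NN M C))
  have h1 : FiniteDimensional (ZMod 2) W := FiniteDimensional.span_finset (ZMod 2) _
  have h2 : Finite W := Module.finite_of_finite (ZMod 2)
  have h3 : ((W : Set (NN M C))).Finite := h2
  refine (h3.image (fun n => (SemidirectProduct.inl (Multiplicative.ofAdd n) : Gam M C))).subset ?_
  have h4 : Subgroup.closure (s : Set (Gam M C)) ≤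
      (W.toAddSubgroup.toSubgroup).map (SemidirectProduct.inl : Multiplicative (NN M C) →* Gam M C) := by
    rw [Subgroup.closure_le]
    intro γ hγ
    refine ⟨γ.left, ?_, ?_⟩
    · show Multiplicative.toAdd γ.left ∈ W
      exact Submodule.subset_span (Finset.mem_coe.2 (Finset.mem_image_of_mem _ hγ))
    · exact SemidirectProduct.ext rfl (hs γ hγ).1.symm
  intro γ hγ
  obtain ⟨n, hn, rfl⟩ := h4 hγ
  exact ⟨Multiplicative.toAdd n, hn, rfl⟩

variable {C C'}

theorem Rel_anti (hCC : ∀ m, C' m ≤ C m) : M.Rel C ≤ M.Rel C' := by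
  refine Submodule.span_mono ?_
  rintro _ ⟨m, h, ψ, hψ, rfl⟩
  exact ⟨m, h, ψ, fun v hv => hψ v (hCC m hv), rfl⟩

theorem le_lenG (hCC : ∀ m, C' m ≤ C m) (n d : ℕ)
    (hsup : ∀ f ∈ M.Rel C', f ∉ M.Rel C → n ≤ 2 * d * f.support.card) {γ : Gam M C}
    (hγ : γ ∈ Nsub M C C') (h1 : γ ≠ 1) : n ≤ 2 * d * lenG M C γ := by
  obtain ⟨hr, f', hf', hfγ⟩ := hγ
  obtain ⟨f, hf, hfc⟩ := exists_len M C γ
  rw [← hfc]
  have h2 : f - f' ∈ M.Rel C := by
    rw [← mkN_eq_zero, mkN_sub, hf, hfγ, sub_self]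
  have h3 : f ∈ M.Rel C' := by
    have := Submodule.add_mem _ (Rel_anti M hCC h2) hf'
    rwa [sub_add_cancel] at this
  refine hsup f h3 fun h4 => h1 ?_
  rw [← mkN_eq_zero, hf] at h4
  exact SemidirectProduct.ext h4 hr

/-! ### The numerical hypotheses -/

theorem t_lam_eq_zero (hCC : ∀ m, C' m ≤ C m) (n d : ℕ)
    (hsup : ∀ f ∈ M.Rel C', f ∉ M.Rel C → n ≤ 2 * d * f.support.card)
    (t : (L2 (Gam M C) →L[ℂ] L2 (Gam M C)) →L[ℂ] ℂ)
    (ht : ∀ g, (g ∉ Nsub M C C' ∨ g = 1) → t (lam g) = 0) (g : Gam M C)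
    (hg : lenG M C g < n / (2 * d)) : t (lam g) = 0 := by
  by_contra hne
  have h1 : g ∈ Nsub M C C' ∧ g ≠ 1 := by
    by_contra hcon
    rw [not_and_or, not_not] at hcon
    exact hne (ht g hcon)
  have h2 := le_lenG M hCC n d hsup h1.1 h1.2
  have h3 : n / (2 * d) ≤ lenG M C g := Nat.div_le_of_le_mul h2
  omega

theorem exp_le_norm_diff {k q n : ℕ} (C₁ C₁' : Submodule (ZMod 2) (Fin n → Alph k q)) (d : ℕ)
    (hd : 0 < d) (hn : 2 * d ≤ n)
    (hfin : Module.finrank (ZMod 2) C₁ = Module.finrank (ZMod 2) C₁' + 1) (z : ℂ)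
    (hz : z = ((2 : ℂ) ^ Module.finrank (ZMod 2) C₁')⁻¹ - ((2 : ℂ) ^ Module.finrank (ZMod 2) C₁)⁻¹) :
    Real.exp (-((4 * d * (k + q) : ℕ) : ℝ) * ((n / (2 * d) : ℕ) : ℝ)) ≤ ‖z‖ := by
  refine (exp_le_half_pow d (k + q) n _ hd hn (finrank_code_le C₁)).trans (le_of_eq ?_)
  have h1 : z = ((2 : ℂ) ^ Module.finrank (ZMod 2) C₁)⁻¹ := by
    rw [hz, hfin, pow_succ]
    field_simp
    norm_num
  rw [h1, norm_inv, norm_pow]
  simp

end Vale.Agent.P089.Op
end
end

section

section

/-!
P089, operator layer: the final statement.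
-/

open scoped InnerProductSpace ComplexOrder Topology

namespace Vale.Agent.P089

open Vale.Agent.P086 Filter Module Op

section

variable {q : ℕ} {F : Fam q} {K k : ℕ} {M : Monster F K} {C C' : Codes k F}

theorem Op.isTr_of_Nsub (τ : (L2 (Gam M C) →L[ℂ] L2 (Gam M C)) →L[ℂ] ℂ)
    (h1 : ∀ g ∈ Nsub M C C', τ (lam g) = 1) (h0 : ∀ g, g ∉ Nsub M C C' → τ (lam g) = 0) :
    IsTr (actN M C) (KK M C' C) τ := by
  constructor
  · intro γ hr hl
    refine h1 γ ⟨hr, ?_⟩
    exact (mem_KK M C' C _).1 hl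
  · intro γ hγ
    refine h0 γ fun h => hγ ⟨h.1, ?_⟩
    exact (mem_KK M C' C _).2 h.2

theorem Op.isTr_tau0 : IsTr (actN M C) ⊥ (tau0 : (L2 (Gam M C) →L[ℂ] L2 (Gam M C)) →L[ℂ] ℂ) := by
  classical
  constructor
  · intro γ h1 h2
    have h3 : γ = 1 := by
      refine SemidirectProduct.ext ?_ h1
      rw [Submodule.mem_bot] at h2
      exact h2
    rw [tau0_lam, if_pos h3]
  · intro γ h1
    have h3 : γ ≠ 1 := by
      rintro rfl
      exact h1 ⟨rfl, (Submodule.mem_bot _).2 rfl⟩
    rw [tau0_lam, if_neg h3]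

end

/-- What the operator layer delivers: a countable group `G`, a projection `P` in `C*_r(G)` with
irrational trace, and the trace differences needed by the assembly layer. -/
def OpConclusion : Prop :=
  ∃ (G : Type) (_ : Group G), Countable G ∧ ∃ P ∈ CstarR G, P * P = P ∧ IsSelfAdjoint P ∧
    (∃ x : ℝ, Irrational x ∧ ent P 1 1 = x) ∧
    ∃ (len : G → ℕ) (κ : ℝ), len 1 = 0 ∧ (∀ g h, len (g * h) ≤ len g + len h) ∧
      ∀ L₀ : ℕ, ∃ L ≥ L₀, ∃ t : (L2 G →L[ℂ] L2 G) →L[ℂ] ℂ, ‖t‖ ≤ 2 ∧
        (∀ g h, t (lam (g * h)) = t (lam (h * g))) ∧ (∀ g, len g < L → t (lam g) = 0) ∧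
        Real.exp (-κ * L) ≤ ‖t P‖

theorem opFinal (hFam : FamilyStatement) (hMon : MonsterStatement) (hInj : InjStatement)
    (hOrd : OrderStatement) (hKey : KeyStatement) (hGap : GapStatement)
    (hRes : RestrictStatement) (hSup : SupportStatement) (hAdm : AdmissibleStatement) :
    OpConclusion := by
  classical
  obtain ⟨q, k, D, c, e, d, K, F, C', C, hK, hqk, he, hd, hC, hE, hS, hle, hpat, hfin, honto,
    hdist, hub, hlb, hgr⟩ := hFam
  obtain ⟨M⟩ := hMon q F K D c e (by omega) hC hE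
  obtain ⟨hinj, hsinj, hsne, -⟩ := hInj q F K D c e M hK hC hE
  have hord := hOrd q F K D c e M hK hC hE
  have hn0 : ∀ m, 0 < F.n m := fun m => by have := hE.two m; omega
  have hmono : StrictMono F.n := strictMono_nat_of_lt_succ fun m => by
    have h1 := hgr m
    have h2 := hn0 m
    omega
  have hontoC : ∀ m, CodeOnto d (C m) := by
    intro m B hB f
    obtain ⟨v, hv, hvf⟩ := honto m B hB f
    exact ⟨v, hle m hv, hvf⟩
  have hpatC : ∀ m, F.pat k m ∈ C m := fun m => hle m (hpat m)
  obtain ⟨hs1, hs2⟩ := hRes q F K M k d C hd hinj hord hS hn0 hontoC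
  obtain ⟨ε, B, hfd⟩ := exists_fibData hKey hGap hAdm (D := D) he hqk
  obtain ⟨T, P, hD⟩ := hfd M C hK hC hE hdist hpatC hinj hsinj hsne
  obtain ⟨Q, hQmem, hQQ, hQs, hQlim⟩ := hD.exists_Q hs1
  have hr0 : Tendsto (fun j : ℕ => (1 - ε) ^ j) atTop (𝓝 0) :=
    tendsto_pow_atTop_nhds_zero_of_lt_one (by linarith only [hD.eps_le]) (by linarith only [hD.eps_pos])
  have hperf : ∀ (χ : NN M C →+ ZMod 2) m h,
      M.Perfect (fun x => decode (conf M C χ x)) m h ↔
        ∀ y, conf M C χ (h * M.pos m y) = F.pat k m y := by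
    intro χ m h
    exact forall_congr' fun y => decode_pat_iff hqk F m y _
  set w : (NN M C →+ ZMod 2) → ℂ := fun χ => P (conf M C χ) (dl 1) 1 with hw
  have hw1 : ∀ (χ : NN M C →+ ZMod 2) m h y, (1 : M.G) = h * M.pos m y →
      M.Perfect (fun x => decode (conf M C χ x)) m h → w χ = (F.n m : ℂ)⁻¹ := by
    intro χ m h y hy hp
    rw [hw, ← one_div]
    exact hD.perfect _ (hs1 _ (conf_mem M C χ)) m h y hy ((hperf χ m h).1 hp)
  have hw0 : ∀ χ : NN M C →+ ZMod 2, (∀ m h y, (1 : M.G) = h * M.pos m y →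
      ¬ M.Perfect (fun x => decode (conf M C χ x)) m h) → w χ = 0 := by
    intro χ hp
    exact hD.imperfect _ (hs1 _ (conf_mem M C χ)) fun m h y hy hp' =>
      hp m h y hy ((hperf χ m h).2 hp')
  have hst : ∀ (χ : NN M C →+ ZMod 2) (j : ℕ),
      ‖⟪dl (1 : M.G), fibA (actN M C) χ (elB M C B ^ j) (dl 1)⟫_ℂ - w χ‖ ≤ (1 - ε) ^ j :=
    fun χ j => hD.state_le hs1 χ j
  -- dimensions
  have hd1 : ∀ m, finrank (ZMod 2) (C m) + m + 1 ≤ finrank (ZMod 2) (C (m + 1)) := by
    intro m
    have h1 := hub m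
    have h2 := hlb (m + 1)
    have h3 := hfin (m + 1)
    have h4 := hgr m
    omega
  have hdm : ∀ m, m ≤ finrank (ZMod 2) (C m) := by
    intro m
    induction m with
    | zero => exact Nat.zero_le _
    | succ m ih =>
      have h1 := hd1 m
      omega
  refine ⟨Gam M C, inferInstance, countable_Gam M C, Q, mem_CrG.1 hQmem, hQQ, hQs,
    ⟨_, irrational_tsum_half_pow (fun m => finrank (ZMod 2) (C m)) hd1, ?_⟩,
    lenG M C, ((4 * d * (k + q) : ℕ) : ℝ), lenG_one M C, lenG_mul M C, ?_⟩
  · have h1 := trace_conf_real M hqk (by omega) hC hE hmono hpatC hs1 hs2 hdm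
      (fun j => elB M C B ^ j) Q hQlim w _ hr0 hst hw1 hw0
    rw [← h1, trc, inner_dl]
    rfl
  · intro L₀
    -- choose the type
    obtain ⟨m₁, hm₁⟩ : ∃ m₁, 2 * d * (L₀ + 1) ≤ F.n m₁ :=
      ⟨2 * d * (L₀ + 1), hmono.le_apply⟩
    have hL : L₀ ≤ F.n m₁ / (2 * d) := by
      rw [Nat.le_div_iff_mul_le (by omega)]
      nlinarith only [hm₁]
    have h2d : 2 * d ≤ F.n m₁ := by nlinarith only [hm₁]
    refine ⟨F.n m₁ / (2 * d), hL, ?_⟩
    set C₁ : Codes k F := fun m => if m = m₁ then C' m else C m with hC₁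
    have hC₁m : C₁ m₁ = C' m₁ := by simp [hC₁]
    have hC₁n : ∀ m, m ≠ m₁ → C₁ m = C m := fun m hm => by simp [hC₁, hm]
    have hC₁le : ∀ m, C₁ m ≤ C m := by
      intro m
      by_cases hm : m = m₁
      · rw [hm, hC₁m]; exact hle m₁
      · rw [hC₁n m hm]
    have hpat₁ : ∀ m, F.pat k m ∈ C₁ m := by
      intro m
      by_cases hm : m = m₁
      · rw [hm, hC₁m]; exact hpat m₁
      · rw [hC₁n m hm]; exact hpatC m
    have honto₁ : ∀ m, CodeOnto d (C₁ m) := by
      intro m
      by_cases hm : m = m₁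
      · rw [hm, hC₁m]; exact honto m₁
      · rw [hC₁n m hm]; exact hontoC m
    obtain ⟨hr1, hr2⟩ := hRes q F K M k d C₁ hd hinj hord hS hn0 honto₁
    have hsup := hSup q F K M k d C₁ C m₁ hd hinj hord hS hn0 honto₁ hC₁le hC₁n
    have hnorm := Nsub_normal M C C₁
    obtain ⟨τ, hτn, hτ1, hτ0⟩ := exists_tau (Nsub M C C₁) (Nsub_locFin M C C₁)
    obtain ⟨t, htn, ht1, ht0, htc⟩ := exists_trdiff (Nsub M C C₁) (Nsub_locFin M C C₁)
    refine ⟨t, htn, htc, fun g hg => t_lam_eq_zero M hC₁le (F.n m₁) d hsup t ht0 g hg, ?_⟩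
    have h1 := trdiff_conf M hqk (by omega) hC hE hmono hC₁le m₁ hC₁n hpat₁ hr1 hr2 hs1 hs2
      τ tau0 (isTr_of_Nsub τ hτ1 hτ0) isTr_tau0 (fun j => elB M C B ^ j) Q hQlim w _ hr0 hst
      hw1 hw0
    have h2 : t Q = τ Q - tau0 Q := by
      have h3 := eq_of_lam_eq t (τ - (tau0 : (L2 (Gam M C) →L[ℂ] L2 (Gam M C)) →L[ℂ] ℂ))
        (fun γ => ?_) (fun j => elB M C B ^ j) Q hQlim
      · rw [h3, sub_apply]
      rw [sub_apply, tau0_lam]
      by_cases hγ1 : γ = 1
      · rw [if_pos hγ1, ht0 γ (Or.inr hγ1), hγ1, hτ1 1 (Subgroup.one_mem _), sub_self]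
      · by_cases hγ : γ ∈ Nsub M C C₁
        · rw [if_neg hγ1, ht1 γ hγ hγ1, hτ1 γ hγ, sub_zero]
        · rw [if_neg hγ1, ht0 γ (Or.inl hγ), hτ0 γ hγ, sub_zero]
    rw [hC₁m] at h1
    exact exp_le_norm_diff (C m₁) (C' m₁) d hd h2d (hfin m₁) (t Q) (h2.trans h1)

end Vale.Agent.P089
end
end

section

section

/-!
# P089: all blocks together
-/

namespace Vale.Agent.P089

/-- A countable group with a projection in its reduced C*-algebra which has irrational trace, and
the trace differences needed for the assembly map. -/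
theorem opConclusion : OpConclusion :=
  opFinal (family expanderStatement colourStatement) (monster glStatement) injStatement
    orderStatement (keyStatement injStatement orderStatement) gapStatement
    Conf.restrictStatement Conf.supportStatement admissibleStatement

end Vale.Agent.P089
end
end

section

section

/-! The functional `t ⊗ Tr` on the corners of `B(ℓ²(G × ℕ))`. -/

namespace Vale.Agent.P089.Asm

open Vale.Agent.P086 Vale.Agent.P089.Op

section General

variable {P : Type}

theorem dl_eq {I : Type} [DecidableEq I] (i : I) : (dl i : L2 I) = lp.single 2 i (1 : ℂ) := by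
  apply lp.ext
  funext j
  rw [dl_apply, lp.coeFn_single, Pi.single_apply]

theorem clm_ext_dl {E : Type*} [NormedAddCommGroup E] [NormedSpace ℂ E]
    {I : Type} {T T' : L2 I →L[ℂ] E} (h : ∀ i, T (dl i) = T' (dl i)) : T = T' := by
  classical
  ext f
  have h1 := lp.hasSum_single (E := fun _ : I => ℂ) (p := 2) (by norm_num) f
  have h2 := T.hasSum h1
  have h3 := T'.hasSum h1
  have key : ∀ i : I, T (lp.single 2 i ((f : I → ℂ) i)) = T' (lp.single 2 i ((f : I → ℂ) i)) := by
    intro i
    have h4 : (lp.single 2 i ((f : I → ℂ) i) : L2 I) = ((f : I → ℂ) i) • dl i := by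
      rw [dl_eq, ← lp.single_smul, smul_eq_mul, mul_one]
    rw [h4, map_smul, map_smul, h]
  have h4 : HasSum (fun i : I => T (lp.single 2 i ((f : I → ℂ) i))) (T' f) := by
    simp only [key]
    exact h3
  exact h2.unique h4

theorem ent_dl {I : Type} (T : L2 I →L[ℂ] L2 I) (j k : I) : ent T j k = (T (dl k)) j := rfl

theorem Vi_dl (i : ℕ) (g : P) : Vi i (dl g) = dl (g, i) := by
  classical
  apply lp.ext
  funext j
  obtain ⟨h, m⟩ := j
  rw [dl_apply]
  by_cases hm : m = i
  · subst hm
    rw [Vi]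
    have h1 := pushL2_apply (Vi_inj (P := P) m) (dl g) h
    change (pushL2 (fun g => (g, m)) _ (dl g) : P × ℕ → ℂ) (h, m) = _
    rw [h1, dl_apply]
    simp only [Prod.mk.injEq, and_true]
  · rw [Vi, pushL2_apply_not_mem, if_neg]
    · intro h'
      exact hm (Prod.mk.inj h').2
    · rintro ⟨x, hx⟩
      exact hm (Prod.mk.inj hx).2.symm

theorem adj_Vi_apply (i : ℕ) (f : LP P) (g : P) :
    (ContinuousLinearMap.adjoint (Vi i) f : P → ℂ) g = (f : P × ℕ → ℂ) (g, i) :=
  adjoint_pushL2_apply (Vi_inj (P := P) i) f g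

theorem ent_cmp (i j : ℕ) (T : LP P →L[ℂ] LP P) (g h : P) :
    ent (cmp i j T) g h = ent T (g, i) (h, j) := by
  rw [ent_dl, ent_dl]
  change (ContinuousLinearMap.adjoint (Vi i) (T (Vi j (dl h))) : P → ℂ) g = _
  rw [adj_Vi_apply, Vi_dl]

theorem adj_Vi_dl_self (i : ℕ) (g : P) : ContinuousLinearMap.adjoint (Vi i) (dl (g, i)) = dl g := by
  classical
  apply lp.ext
  funext h
  rw [adj_Vi_apply, dl_apply, dl_apply]
  simp only [Prod.mk.injEq, and_true]

theorem adj_Vi_dl_ne {i m : ℕ} (hm : m ≠ i) (g : P) :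
    ContinuousLinearMap.adjoint (Vi i) (dl (g, m)) = 0 := by
  classical
  apply lp.ext
  funext h
  rw [adj_Vi_apply, dl_apply, if_neg]
  · rfl
  · intro h'
    exact hm (Prod.mk.inj h').2.symm

theorem adj_Vi_Vi_self (i : ℕ) : ContinuousLinearMap.adjoint (Vi (P := P) i) ∘L Vi i = 1 :=
  adjoint_pushL2_comp (Vi_inj (P := P) i)

theorem norm_Vi_le (i : ℕ) : ‖Vi (P := P) i‖ ≤ 1 := norm_pushL2_le _

theorem norm_adj_Vi_le (i : ℕ) : ‖ContinuousLinearMap.adjoint (Vi (P := P) i)‖ ≤ 1 := by
  rw [LinearIsometryEquiv.norm_map]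
  exact norm_Vi_le i

theorem norm_cmp_le (i j : ℕ) (T : LP P →L[ℂ] LP P) : ‖cmp i j T‖ ≤ ‖T‖ := by
  refine ContinuousLinearMap.opNorm_le_bound _ (norm_nonneg _) (fun f => ?_)
  change ‖ContinuousLinearMap.adjoint (Vi i) (T (Vi j f))‖ ≤ _
  have h1 := (ContinuousLinearMap.adjoint (Vi (P := P) i)).le_of_opNorm_le (norm_adj_Vi_le i)
    (T (Vi j f))
  have h2 := T.le_opNorm (Vi j f)
  have h3 : ‖Vi j f‖ = ‖f‖ := norm_pushL2_apply _ f
  rw [h3] at h2
  linarith

/-- The compression `cmp i j` as a bounded linear map. -/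
noncomputable def cmpL (i j : ℕ) : (LP P →L[ℂ] LP P) →L[ℂ] (L2 P →L[ℂ] L2 P) :=
  LinearMap.mkContinuous
    { toFun := fun T => cmp i j T
      map_add' := fun S T => by
        simp only [cmp, ContinuousLinearMap.add_comp, ContinuousLinearMap.comp_add]
      map_smul' := fun c T => by
        simp only [cmp, ContinuousLinearMap.smul_comp, ContinuousLinearMap.comp_smul,
          RingHom.id_apply] }
    1 (fun T => by rw [one_mul]; exact norm_cmp_le i j T)

theorem cmpL_apply (i j : ℕ) (T : LP P →L[ℂ] LP P) : cmpL i j T = cmp i j T := rfl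

/-- `pk k = ∑_{j < k} V_j V_j*`. -/
theorem pk_eq_sum (k : ℕ) : pk (P := P) k =
    ∑ j ∈ Finset.range k, Vi j ∘L ContinuousLinearMap.adjoint (Vi j) := by
  classical
  refine clm_ext_dl fun i => ?_
  obtain ⟨g, m⟩ := i
  rw [sum_apply]
  have h1 : ∀ j ∈ Finset.range k,
      (Vi j ∘L ContinuousLinearMap.adjoint (Vi j)) (dl (g, m) : LP P) =
        if m = j then dl (g, m) else 0 := by
    intro j _
    change Vi j (ContinuousLinearMap.adjoint (Vi j) (dl (g, m))) = _
    by_cases h : m = j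
    · subst h
      rw [adj_Vi_dl_self, Vi_dl, if_pos rfl]
    · rw [adj_Vi_dl_ne h, map_zero, if_neg h]
  rw [Finset.sum_congr rfl h1, Finset.sum_ite_eq]
  apply lp.ext
  funext j
  obtain ⟨h, n⟩ := j
  by_cases hn : n < k
  · have hmem : (h, n) ∈ {j : P × ℕ | j.2 < k} := hn
    rw [pk, proj_apply_mem _ hmem, dl_apply]
    by_cases hm : m ∈ Finset.range k
    · rw [if_pos hm, dl_apply]
    · rw [if_neg hm, if_neg]
      · rfl
      · intro h'
        rw [Finset.mem_range] at hm
        rw [← (Prod.mk.inj h').2] at hm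
        exact hm hn
  · have hmem : (h, n) ∉ {j : P × ℕ | j.2 < k} := hn
    rw [pk, proj_apply_not_mem _ hmem]
    by_cases hm : m ∈ Finset.range k
    · rw [if_pos hm, dl_apply, if_neg]
      intro h'
      rw [Finset.mem_range] at hm
      rw [← (Prod.mk.inj h').2] at hm
      exact hn hm
    · rw [if_neg hm]
      rfl

theorem adj_Vi_pk {i k : ℕ} (h : i < k) :
    ContinuousLinearMap.adjoint (Vi (P := P) i) ∘L pk k = ContinuousLinearMap.adjoint (Vi i) := by
  ext f g
  change (ContinuousLinearMap.adjoint (Vi i) (pk k f) : P → ℂ) g = _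
  rw [adj_Vi_apply, adj_Vi_apply, pk, proj_apply_mem]
  exact h

/-- Components of a product. -/
theorem cmp_mul {x y : LP P →L[ℂ] LP P} {k : ℕ} (hx : pk k * x = x * pk k) {i j : ℕ}
    (hi : i < k) : cmp i j (x * y) = ∑ l ∈ Finset.range k, cmp i l x * cmp l j y := by
  have h0 : pk k ∘L x = x ∘L pk k := hx
  have h1 : ContinuousLinearMap.adjoint (Vi (P := P) i) ∘L x =
      ∑ l ∈ Finset.range k, cmp i l x ∘L ContinuousLinearMap.adjoint (Vi l) := by
    rw [← adj_Vi_pk hi, ContinuousLinearMap.comp_assoc, h0, ← ContinuousLinearMap.comp_assoc,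
      pk_eq_sum, ContinuousLinearMap.comp_finsetSum]
    refine Finset.sum_congr rfl fun l _ => ?_
    rw [cmp, ContinuousLinearMap.comp_assoc, ContinuousLinearMap.comp_assoc,
      ContinuousLinearMap.comp_assoc]
  have h2 : cmp i j (x * y) = (ContinuousLinearMap.adjoint (Vi (P := P) i) ∘L x) ∘L (y ∘L Vi j) := by
    rw [cmp, ContinuousLinearMap.mul_def, ContinuousLinearMap.comp_assoc,
      ContinuousLinearMap.comp_assoc]
  rw [h2, h1, ContinuousLinearMap.finsetSum_comp]
  refine Finset.sum_congr rfl fun l _ => ?_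
  rw [ContinuousLinearMap.mul_def, cmp, cmp, ContinuousLinearMap.comp_assoc,
    ContinuousLinearMap.comp_assoc]

/-- The operator `T ⊗ e_ij` has the expected components. -/
theorem cmp_Ei_self (i j : ℕ) (T : L2 P →L[ℂ] L2 P) : cmp i j (Ei i j T) = T := by
  refine ent_ext fun g h => ?_
  rw [ent_cmp, ent_dl, ent_dl]
  change (Vi i (T (ContinuousLinearMap.adjoint (Vi j) (dl (h, j)))) : P × ℕ → ℂ) (g, i) = _
  rw [adj_Vi_dl_self]
  exact pushL2_apply (Vi_inj (P := P) i) _ g

theorem ent_Ei (i j : ℕ) (T : L2 P →L[ℂ] L2 P) (g h : P) (m n : ℕ) :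
    ent (Ei i j T) (g, m) (h, n) = if m = i ∧ n = j then ent T g h else 0 := by
  rw [ent_dl]
  change (Vi i (T (ContinuousLinearMap.adjoint (Vi j) (dl (h, n)))) : P × ℕ → ℂ) (g, m) = _
  by_cases hn : n = j
  · subst hn
    rw [adj_Vi_dl_self]
    by_cases hm : m = i
    · subst hm
      rw [if_pos ⟨rfl, rfl⟩]
      exact pushL2_apply (Vi_inj (P := P) m) _ g
    · rw [if_neg (fun h' => hm h'.1)]
      refine pushL2_apply_not_mem (Vi_inj (P := P) i) _ ?_
      rintro ⟨x, hx⟩
      exact hm (Prod.mk.inj hx).2.symm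
  · rw [adj_Vi_dl_ne hn, map_zero, map_zero, if_neg (fun h' => hn h'.2)]
    rfl

theorem cmp_Ei_ne {i j m n : ℕ} (h : ¬ (m = i ∧ n = j)) (T : L2 P →L[ℂ] L2 P) :
    cmp m n (Ei i j T) = 0 := by
  refine ent_ext fun g g' => ?_
  rw [ent_cmp, ent_Ei, if_neg h, ent_dl]
  rfl

theorem IsCorner.eq_Ei {T : L2 P →L[ℂ] L2 P} {S : L2 (P × ℕ) →L[ℂ] L2 (P × ℕ)}
    (h : IsCorner T S) : S = Ei 0 0 T := by
  refine ent_ext fun j k => ?_
  obtain ⟨g, m⟩ := j
  obtain ⟨g', n⟩ := k
  rw [ent_Ei]
  by_cases hmn : m = 0 ∧ n = 0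
  · rw [if_pos hmn, hmn.1, hmn.2]
    exact h.1 g g'
  · rw [if_neg hmn]
    exact h.2 (g, m) (g', n) hmn

theorem isCorner_Ei (T : L2 P →L[ℂ] L2 P) : IsCorner T (Ei 0 0 T) := by
  constructor
  · intro g h
    rw [ent_Ei, if_pos ⟨rfl, rfl⟩]
  · rintro ⟨g, m⟩ ⟨h, n⟩ hjk
    rw [ent_Ei, if_neg hjk]

/-- The functional `t ⊗ Tr_k`. -/
noncomputable def tauK (t : (L2 P →L[ℂ] L2 P) →L[ℂ] ℂ) (k : ℕ) :
    (L2 (P × ℕ) →L[ℂ] L2 (P × ℕ)) →L[ℂ] ℂ :=
  ∑ i ∈ Finset.range k, t.comp (cmpL i i)

theorem tauK_apply (t : (L2 P →L[ℂ] L2 P) →L[ℂ] ℂ) (k : ℕ) (T : L2 (P × ℕ) →L[ℂ] L2 (P × ℕ)) :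
    tauK t k T = ∑ i ∈ Finset.range k, t (cmp i i T) := by
  rw [tauK, sum_apply]
  rfl

theorem norm_tauK_apply_le (t : (L2 P →L[ℂ] L2 P) →L[ℂ] ℂ) (k : ℕ)
    (T : L2 (P × ℕ) →L[ℂ] L2 (P × ℕ)) : ‖tauK t k T‖ ≤ k * ‖t‖ * ‖T‖ := by
  rw [tauK_apply]
  have h1 : ∀ i ∈ Finset.range k, ‖t (cmp i i T)‖ ≤ ‖t‖ * ‖T‖ := by
    intro i _
    exact (t.le_opNorm _).trans (mul_le_mul_of_nonneg_left (norm_cmp_le i i T) (norm_nonneg _))
  calc ‖∑ i ∈ Finset.range k, t (cmp i i T)‖ ≤ ∑ i ∈ Finset.range k, ‖t (cmp i i T)‖ :=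
        norm_sum_le _ _
    _ ≤ ∑ i ∈ Finset.range k, ‖t‖ * ‖T‖ := Finset.sum_le_sum h1
    _ = k * ‖t‖ * ‖T‖ := by rw [Finset.sum_const, Finset.card_range, nsmul_eq_mul, mul_assoc]

theorem norm_tauK_le (t : (L2 P →L[ℂ] L2 P) →L[ℂ] ℂ) (k : ℕ) : ‖tauK t k‖ ≤ k * ‖t‖ :=
  ContinuousLinearMap.opNorm_le_bound _ (mul_nonneg (Nat.cast_nonneg k) (norm_nonneg t))
    (norm_tauK_apply_le t k)

theorem tauK_Ei (t : (L2 P →L[ℂ] L2 P) →L[ℂ] ℂ) {k : ℕ} (hk : 1 ≤ k) (T : L2 P →L[ℂ] L2 P) :
    tauK t k (Ei 0 0 T) = t T := by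
  rw [tauK_apply, Finset.sum_eq_single 0]
  · rw [cmp_Ei_self]
  · intro i _ hi
    rw [cmp_Ei_ne (fun h => hi h.1), map_zero]
  · intro h
    exact absurd (Finset.mem_range.2 hk) h

theorem tauK_trace (t : (L2 P →L[ℂ] L2 P) →L[ℂ] ℂ) (A : Set (L2 P →L[ℂ] L2 P))
    (ht : ∀ a ∈ A, ∀ b ∈ A, t (a * b) = t (b * a)) {k : ℕ}
    {x y : L2 (P × ℕ) →L[ℂ] L2 (P × ℕ)}
    (hx : ∀ i j, cmp i j x ∈ A) (hy : ∀ i j, cmp i j y ∈ A)
    (hxk : pk k * x = x * pk k) (hyk : pk k * y = y * pk k) :
    tauK t k (x * y) = tauK t k (y * x) := by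
  rw [tauK_apply, tauK_apply]
  have h1 : ∀ i ∈ Finset.range k, t (cmp i i (x * y)) =
      ∑ l ∈ Finset.range k, t (cmp i l x * cmp l i y) := by
    intro i hi
    rw [cmp_mul hxk (Finset.mem_range.1 hi), map_sum]
  have h2 : ∀ i ∈ Finset.range k, t (cmp i i (y * x)) =
      ∑ l ∈ Finset.range k, t (cmp i l y * cmp l i x) := by
    intro i hi
    rw [cmp_mul hyk (Finset.mem_range.1 hi), map_sum]
  rw [Finset.sum_congr rfl h1, Finset.sum_congr rfl h2, Finset.sum_comm]
  refine Finset.sum_congr rfl fun i _ => Finset.sum_congr rfl fun j _ => ?_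
  exact ht _ (hx _ _) _ (hy _ _)

end General

section Group

variable {G : Type} [Group G]

/-- The trace property on the reduced C*-algebra follows from the one on the group. -/
theorem trace_cstarR (t : (L2 G →L[ℂ] L2 G) →L[ℂ] ℂ)
    (ht : ∀ g h : G, t (lam (g * h)) = t (lam (h * g))) :
    ∀ a ∈ CstarR G, ∀ b ∈ CstarR G, t (a * b) = t (b * a) := by
  have h0 : ∀ f f' : MonoidAlgebra ℂ G, t (lamA f * lamA f') = t (lamA f' * lamA f) := by
    intro f f'
    have hS : ∀ f f' : MonoidAlgebra ℂ G, t (lamA f * lamA f') =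
        ∑ g ∈ f.coeff.support, ∑ h ∈ f'.coeff.support,
          f.coeff g * f'.coeff h * t (lam (g * h)) := by
      intro f f'
      rw [lamA_eq, lamA_eq, Finset.sum_mul, map_sum]
      refine Finset.sum_congr rfl fun g _ => ?_
      rw [Finset.mul_sum, map_sum]
      refine Finset.sum_congr rfl fun h _ => ?_
      rw [smul_mul_smul_comm, ← lam_mul, map_smul, smul_eq_mul]
    rw [hS, hS, Finset.sum_comm]
    refine Finset.sum_congr rfl fun g _ => Finset.sum_congr rfl fun h _ => ?_
    rw [ht]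
    ring
  intro a ha b hb
  rw [cstarR_eq] at ha hb
  have h1 : ∀ f : MonoidAlgebra ℂ G, ∀ b ∈ closure (Set.range (lamA (Γ := G))),
      t (lamA f * b) = t (b * lamA f) := by
    intro f
    have hc : IsClosed {b : L2 G →L[ℂ] L2 G | t (lamA f * b) = t (b * lamA f)} :=
      isClosed_eq (t.continuous.comp (continuous_const.mul continuous_id))
        (t.continuous.comp (continuous_id.mul continuous_const))
    refine hc.closure_subset_iff.2 ?_
    rintro _ ⟨f', rfl⟩
    exact h0 f f'
  have hc : IsClosed {a : L2 G →L[ℂ] L2 G | t (a * b) = t (b * a)} :=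
    isClosed_eq (t.continuous.comp (continuous_id.mul continuous_const))
      (t.continuous.comp (continuous_const.mul continuous_id))
  refine hc.closure_subset_iff.2 ?_ ha
  rintro _ ⟨f, rfl⟩
  exact h1 f b hb

/-- The components of an equivariant operator of finite propagation. -/
theorem cmp_eq_sum {x : L2 (G × ℕ) →L[ℂ] L2 (G × ℕ)}
    (hx : ∀ g h s m n, ent x (g * s, m) (h * s, n) = ent x (g, m) (h, n)) {E : Finset G}
    (hE : ∀ g h m n, ent x (g, m) (h, n) ≠ 0 → g * h⁻¹ ∈ E) (i j : ℕ) :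
    cmp i j x = ∑ s ∈ E, ent x (s, i) (1, j) • lam s := by
  classical
  refine ent_ext fun g h => ?_
  have h1 : ent x (g, i) (h, j) = ent x (g * h⁻¹, i) (1, j) := by
    have := hx (g * h⁻¹) 1 h i j
    rw [← this, one_mul, inv_mul_cancel_right]
  rw [ent_cmp, h1]
  have h2 : ent (∑ s ∈ E, ent x (s, i) (1, j) • lam s) g h =
      ∑ s ∈ E, if g * h⁻¹ = s then ent x (s, i) (1, j) else 0 := by
    rw [ent_dl, sum_apply, lp.coeFn_sum, Finset.sum_apply]
    refine Finset.sum_congr rfl fun s _ => ?_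
    change ent x (s, i) (1, j) * (lam s (dl h) : G → ℂ) g = _
    rw [lam_dl, dl_apply]
    by_cases hs : g = s * h
    · rw [if_pos hs, if_pos (mul_inv_eq_of_eq_mul hs), mul_one]
    · rw [if_neg hs, if_neg, mul_zero]
      intro h'
      exact hs (eq_mul_of_mul_inv_eq h')
  rw [h2, Finset.sum_ite_eq]
  split_ifs with hmem
  · rfl
  · by_contra hne
    have := hE (g * h⁻¹) 1 i j hne
    rw [inv_one, mul_one] at this
    exact hmem this

theorem cmp_mem_cstarR {x : L2 (G × ℕ) →L[ℂ] L2 (G × ℕ)}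
    (hx : ∀ g h s m n, ent x (g * s, m) (h * s, n) = ent x (g, m) (h, n)) {E : Finset G}
    (hE : ∀ g h m n, ent x (g, m) (h, n) ≠ 0 → g * h⁻¹ ∈ E) (i j : ℕ) :
    cmp i j x ∈ CstarR G := by
  rw [cmp_eq_sum hx hE, ← mem_CrG]
  exact sum_mem fun s _ => (CrG G).smul_mem (mem_CrG.2 (lam_mem s)) _

theorem isRoe_cmp_mem {x : L2 (G × ℕ) →L[ℂ] L2 (G × ℕ)} (hx : IsRoe x) (i j : ℕ) :
    cmp i j x ∈ CstarR G := by
  obtain ⟨E, hE⟩ := hx.propagation
  exact cmp_mem_cstarR hx.equivariant hE i j

theorem tauK_eq_zero (t : (L2 G →L[ℂ] L2 G) →L[ℂ] ℂ) (k : ℕ)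
    {x : L2 (G × ℕ) →L[ℂ] L2 (G × ℕ)}
    (hx : ∀ g h s m n, ent x (g * s, m) (h * s, n) = ent x (g, m) (h, n)) {E : Finset G}
    (hE : ∀ g h m n, ent x (g, m) (h, n) ≠ 0 → g * h⁻¹ ∈ E) (ht : ∀ s ∈ E, t (lam s) = 0) :
    tauK t k x = 0 := by
  rw [tauK_apply]
  refine Finset.sum_eq_zero fun i _ => ?_
  rw [cmp_eq_sum hx hE, map_sum]
  refine Finset.sum_eq_zero fun s hs => ?_
  rw [map_smul, ht s hs, smul_zero]

/-- The components of an element of the unitization of the equivariant Roe algebra. -/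
theorem isU_cmp_mem {x : L2 (G × ℕ) →L[ℂ] L2 (G × ℕ)} (hx : IsU x) (i j : ℕ) :
    cmp i j x ∈ CstarR G := by
  obtain ⟨c, S, hS, rfl⟩ := hx
  have h1 : cmp i j (c • (1 : L2 (G × ℕ) →L[ℂ] L2 (G × ℕ)) + S) =
      c • cmp i j (1 : L2 (G × ℕ) →L[ℂ] L2 (G × ℕ)) + cmp i j S := by
    rw [← cmpL_apply, ← cmpL_apply, ← cmpL_apply, map_add, map_smul]
  have h2 : cmp i j (1 : L2 (G × ℕ) →L[ℂ] L2 (G × ℕ)) ∈ CrG G := by
    refine mem_CrG.2 (cmp_mem_cstarR (E := {1}) ?_ ?_ i j)
    · intro g h s m n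
      classical
      rw [ent_dl, ent_dl]
      change (dl (h * s, n) : L2 (G × ℕ)) (g * s, m) = (dl (h, n) : L2 (G × ℕ)) (g, m)
      rw [dl_apply, dl_apply]
      simp only [Prod.mk.injEq, mul_left_inj]
    · intro g h m n hne
      classical
      rw [ent_dl] at hne
      change (dl (h, n) : L2 (G × ℕ)) (g, m) ≠ 0 at hne
      rw [dl_apply] at hne
      have h3 : (g, m) = (h, n) := by
        by_contra hc
        exact hne (if_neg hc)
      rw [(Prod.mk.inj h3).1, mul_inv_cancel, Finset.mem_singleton]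
  have h3 : cmp i j S ∈ CrG G := by
    rw [mem_CrG]
    have hc : IsClosed {S : L2 (G × ℕ) →L[ℂ] L2 (G × ℕ) | cmp i j S ∈ CstarR G} := by
      have h4 : IsClosed (CstarR G) := isClosed_closure
      exact h4.preimage (cmpL (P := G) i j).continuous
    exact hc.closure_subset_iff.2 (fun S hS => isRoe_cmp_mem hS i j) hS
  rw [h1, ← mem_CrG]
  exact add_mem ((CrG G).smul_mem h2 _) h3

end Group

end Vale.Agent.P089.Asm
end
end

section

section

/-! The criterion for non-surjectivity of the assembly map. -/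

namespace Vale.Agent.P089.Asm

set_option linter.unusedSectionVars false

open Matrix NNReal Vale.Agent.P086 Vale.Agent.P089.Op

variable {G : Type} [Group G]

theorem isClosed_CstarR : IsClosed (CstarR G) := isClosed_closure

theorem roeU_isU {x : L2 (G × ℕ) →L[ℂ] L2 (G × ℕ)} (hx : x ∈ roeU G) : IsU x := by
  obtain ⟨c, hc⟩ := hx
  exact ⟨c, _, subset_closure hc.isRoe, (add_sub_cancel _ _).symm⟩

theorem UU_cmp_mem {x : L2 (G × ℕ) →L[ℂ] L2 (G × ℕ)} (hx : x ∈ UU G) (i j : ℕ) :
    cmp i j x ∈ CstarR G := by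
  have h1 : IsClosed {x : L2 (G × ℕ) →L[ℂ] L2 (G × ℕ) | cmp i j x ∈ CstarR G} :=
    isClosed_CstarR.preimage (cmpL i j).continuous
  exact closure_minimal (fun y hy => isU_cmp_mem (roeU_isU hy) i j) h1 hx

theorem isCompactOperator_pN_one : IsCompactOperator (pN 1) := by
  have h : pN 1 = (lp.singleContinuousLinearMap ℂ (fun _ : ℕ => ℂ) 2 0) ∘L
        (lp.evalCLM ℂ (fun _ : ℕ => ℂ) 2 0) := by
    ext f i
    change (proj {n : ℕ | n < 1} f : ℕ → ℂ) i = (lp.single 2 0 ((f : ℕ → ℂ) 0) : L2 ℕ) i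
    by_cases hi : i = 0
    · subst hi
      rw [proj_apply_mem (S := {n : ℕ | n < 1}) _ (by simp), lp.single_apply_self]
    · rw [proj_apply_not_mem (S := {n : ℕ | n < 1}) _ (fun k => hi (by simpa using k)),
        lp.single_apply_ne _ _ _ hi]
  rw [h]
  have h2 : IsCompactOperator (lp.evalCLM ℂ (fun _ : ℕ => ℂ) 2 0) :=
    isCompactOperator_of_locallyCompactSpace_dom
      (lp.evalCLM ℂ (fun _ : ℕ => ℂ) 2 0 : L2 ℕ →L[ℂ] ℂ)
  exact h2.clm_comp (lp.singleContinuousLinearMap ℂ (fun _ : ℕ => ℂ) 2 0)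

theorem bl_Ei (T : L2 G →L[ℂ] L2 G) (g h : G) : bl (Ei 0 0 T) g h = ent T g h • pN 1 := by
  refine entx_ext fun m n => ?_
  rw [ent_bl, ent_Ei, ent_smul]
  by_cases hm : m = 0
  · by_cases hn : n = 0
    · subst hm; subst hn
      rw [if_pos ⟨rfl, rfl⟩]
      have h3 := ent_proj_mul_mem (S := {n : ℕ | n < 1}) (1 : L2 ℕ →L[ℂ] L2 ℕ) 0
        (show (0 : ℕ) ∈ {n : ℕ | n < 1} by simp)
      rw [mul_one, ent_one_self] at h3
      rw [pN, h3, mul_one]
    · subst hm
      rw [if_neg (fun h => hn h.2)]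
      have h3 := ent_mul_proj_not_mem (S := {n : ℕ | n < 1}) (1 : L2 ℕ →L[ℂ] L2 ℕ) 0
        (show n ∉ {n : ℕ | n < 1} by simpa using hn)
      rw [one_mul] at h3
      rw [pN, h3, mul_zero]
  · rw [if_neg (fun h => hm h.1)]
    have h3 := ent_proj_mul_not_mem (S := {n : ℕ | n < 1}) (1 : L2 ℕ →L[ℂ] L2 ℕ) n
        (show m ∉ {n : ℕ | n < 1} by simpa using hm)
    rw [mul_one] at h3
    rw [pN, h3, mul_zero]

theorem ent_lam_eq (s g h : G) : ent (lam s) (g : G) h = (dl h : L2 G) (s⁻¹ * g) := rfl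

theorem roeB_Ei_lam (s : G) : RoeB (Ei 0 0 (lam s)) where
  eqv g h r := by
    classical
    rw [bl_Ei, bl_Ei, ent_lam_eq, ent_lam_eq]
    congr 1
    rw [dl_apply, dl_apply]
    congr 1
    rw [← mul_assoc]
    exact propext (mul_left_inj r)
  prop := by
    classical
    refine ⟨{s}, fun g h hgh => ?_⟩
    rw [bl_Ei, ent_lam_eq, dl_apply, if_neg, zero_smul]
    intro heq
    apply hgh
    rw [Finset.mem_singleton, ← heq]
    group
  cpt g h := by
    rw [bl_Ei]
    have h1 : IsCompactOperator (ent (lam s) g h • (pN 1 : L2 ℕ → L2 ℕ)) :=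
      isCompactOperator_pN_one.smul _
    exact h1

/-- `T ↦ T ⊗ e₀₀` as a continuous linear map. -/
noncomputable def EiL : (L2 G →L[ℂ] L2 G) →L[ℂ] (L2 (G × ℕ) →L[ℂ] L2 (G × ℕ)) :=
  LinearMap.mkContinuous
    { toFun := fun T => Ei 0 0 T
      map_add' := fun S T => by
        simp only [Ei, ContinuousLinearMap.add_comp, ContinuousLinearMap.comp_add]
      map_smul' := fun c T => by
        simp only [Ei, ContinuousLinearMap.smul_comp, ContinuousLinearMap.comp_smul,
          RingHom.id_apply] } 1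
    (fun T => by
      rw [one_mul]
      refine ContinuousLinearMap.opNorm_le_bound _ (norm_nonneg _) (fun f => ?_)
      change ‖Vi 0 (T (ContinuousLinearMap.adjoint (Vi 0) f))‖ ≤ _
      have h3 : ‖Vi 0 (T (ContinuousLinearMap.adjoint (Vi 0) f))‖ =
          ‖T (ContinuousLinearMap.adjoint (Vi 0) f)‖ := norm_pushL2_apply _ _
      rw [h3]
      refine (T.le_opNorm _).trans ?_
      have h1 := (ContinuousLinearMap.adjoint (Vi (P := G) 0)).le_of_opNorm_le
        (norm_adj_Vi_le 0) f
      rw [one_mul] at h1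
      gcongr)

theorem Ei_mem_UU {P : L2 G →L[ℂ] L2 G} (hP : P ∈ CstarR G) : Ei 0 0 P ∈ UU G := by
  have h1 : IsClosed {T : L2 G →L[ℂ] L2 G | Ei 0 0 T ∈ UU G} :=
    (isClosed_UU G).preimage (EiL (G := G)).continuous
  refine closure_minimal (fun T hT => ?_) h1 hP
  have h2 : Submodule.span ℂ {T : L2 G →L[ℂ] L2 G | ∃ g, IsLam g T} ≤
      (Subalgebra.toSubmodule (UU G)).comap (EiL (G := G)).toLinearMap := by
    rw [Submodule.span_le]
    rintro T ⟨g, hg⟩
    rw [isLam_iff] at hg
    subst hg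
    exact roeU_le_UU (roeB_Ei_lam g).mem_roeU
  exact h2 hT

theorem Ei_mem_SkA (T : L2 G →L[ℂ] L2 G) : Ei 0 0 T ∈ SkA G 1 := by
  refine ⟨0, ?_, ?_⟩
  · rw [zero_smul, one_sub_pk]
    refine entx_ext fun j k => ?_
    by_cases hj : j ∈ ({j : G × ℕ | j.2 < 1}ᶜ : Set (G × ℕ))
    · rw [ent_proj_mul_mem _ _ hj, ent_zero, (isCorner_Ei T).2]
      rintro ⟨h1, -⟩
      apply hj
      simp [h1]
    · rw [ent_proj_mul_not_mem _ _ hj, ent_zero]
  · rw [zero_smul, one_sub_pk]
    refine entx_ext fun j k => ?_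
    by_cases hk : k ∈ ({j : G × ℕ | j.2 < 1}ᶜ : Set (G × ℕ))
    · rw [ent_mul_proj_mem _ _ hk, ent_zero, (isCorner_Ei T).2]
      rintro ⟨-, h1⟩
      apply hk
      simp [h1]
    · rw [ent_mul_proj_not_mem _ _ hk, ent_zero]

theorem Ei_mul_Ei (S T : L2 G →L[ℂ] L2 G) : Ei 0 0 S * Ei 0 0 T = Ei 0 0 (S * T) := by
  ext1 f
  change Vi 0 (S (ContinuousLinearMap.adjoint (Vi 0)
    (Vi 0 (T (ContinuousLinearMap.adjoint (Vi 0) f))))) =
      Vi 0 (S (T (ContinuousLinearMap.adjoint (Vi 0) f)))
  have h := congrArg (fun A : L2 G →L[ℂ] L2 G => A (T (ContinuousLinearMap.adjoint (Vi 0) f)))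
    (adj_Vi_Vi_self (P := G) 0)
  have h' : ContinuousLinearMap.adjoint (Vi (P := G) 0)
    (Vi 0 (T (ContinuousLinearMap.adjoint (Vi 0) f))) =
      T (ContinuousLinearMap.adjoint (Vi 0) f) := h
  rw [h']

theorem SuppIn.cut {E : Finset G} {x : L2 (G × ℕ) →L[ℂ] L2 (G × ℕ)} (hx : SuppIn E x) (k : ℕ) :
    SuppIn E (pk k * x * pk k) := by
  intro g h m n hne
  rw [← ent_bl, bl_mul_pk, bl_pk_mul] at hne
  by_contra hcon
  apply hne
  have h1 : bl x g h = 0 := entx_ext fun m n => by
    rw [ent_bl, ent_zero]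
    by_contra h2
    exact hcon (hx g h m n h2)
  rw [h1, mul_zero, zero_mul, ent_zero]

/-- The inclusion of `UU G`. -/
noncomputable def valL : UU G →L[ℂ] (L2 (G × ℕ) →L[ℂ] L2 (G × ℕ)) :=
  LinearMap.mkContinuous (UU G).val.toLinearMap 1 (fun x => by rw [one_mul]; rfl)

theorem norm_valL_le : ‖(valL : UU G →L[ℂ] _)‖ ≤ 1 := LinearMap.mkContinuous_norm_le _ zero_le_one _

theorem exists_approx {p : ℕ → G →₀ ℚ} (hp : IsPlacement p) {F : Finset G} (len : G → ℕ)
    (h1 : len 1 = 0) {n : ℕ}
    {e : Matrix (Fin n) (Fin n) (ℝ≥0 → L2 (G × ℕ) →L[ℂ] L2 (G × ℕ))}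
    (he : ∀ i j, IsLoc p F (e i j)) {R : ℕ} (hR : ∀ u ∈ F, ∀ v ∈ F, len (u⁻¹ * v) ≤ R)
    {ε : ℝ} (hε : 0 < ε) :
    ∃ (t : ℝ≥0) (k : ℕ), ∃ a : Matrix (Fin n) (Fin n) (UU G),
      ∀ i j, a i j ∈ Sk G k ∧ a i j ∈ fil len R ∧
        ‖(⟨e i j t, IsU.mem_UU (loc_mem (he i j) t)⟩ : UU G) - a i j‖ < ε := by
  classical
  choose c hc using fun i j => loc_approx hp (he i j)
  choose t₀ ht₀ using fun i j => hc i j (ε / 3) (by positivity)
  set t : ℝ≥0 := (Finset.univ : Finset (Fin n × Fin n)).sup fun a => t₀ a.1 a.2 with ht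
  have hle : ∀ i j, t₀ i j ≤ t := fun i j =>
    Finset.le_sup (f := fun a : Fin n × Fin n => t₀ a.1 a.2) (Finset.mem_univ (i, j))
  choose T hT hTF hTe using fun i j => ht₀ i j t (hle i j)
  choose k₀ hk₀ using fun i j => (RoeB.of_isRoe (hT i j)).exists_cut (show 0 < ε / 3 by positivity)
  set k : ℕ := (Finset.univ : Finset (Fin n × Fin n)).sup fun a => k₀ a.1 a.2 with hk
  have hkle : ∀ i j, k₀ i j ≤ k := fun i j =>
    Finset.le_sup (f := fun a : Fin n × Fin n => k₀ a.1 a.2) (Finset.mem_univ (i, j))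
  have hmem : ∀ i j, c i j • (1 : L2 (G × ℕ) →L[ℂ] L2 (G × ℕ)) + pk k * T i j * pk k ∈ UU G :=
    fun i j => (UU G).add_mem (smul_one_mem_UU _)
      (roeU_le_UU ((RoeB.of_isRoe (hT i j)).cut k).mem_roeU)
  refine ⟨t, k, fun i j => ⟨_, hmem i j⟩, fun i j => ⟨cut_mem_SkA k _ _, ?_, ?_⟩⟩
  · set E : Finset G := insert 1 ((F ×ˢ F).image fun a => a.1⁻¹ * a.2) with hE
    refine ⟨E, fun s hs => ?_, ?_⟩
    · rw [hE, Finset.mem_insert] at hs
      rcases hs with rfl | hs
      · rw [h1]
        exact Nat.zero_le _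
      · rw [Finset.mem_image] at hs
        obtain ⟨a, ha, rfl⟩ := hs
        rw [Finset.mem_product] at ha
        exact hR _ ha.1 _ ha.2
    · have h2 : SuppIn E (T i j) := by
        intro g h m n hne
        obtain ⟨u, hu, v, hv, huv⟩ := hTF i j g h m n hne
        rw [huv, hE]
        exact Finset.mem_insert_of_mem
          (Finset.mem_image.2 ⟨(u, v), Finset.mem_product.2 ⟨hu, hv⟩, rfl⟩)
      have h3 : SuppIn E (1 : L2 (G × ℕ) →L[ℂ] L2 (G × ℕ)) :=
        SuppIn.one.mono (by rw [Finset.singleton_subset_iff]; exact Finset.mem_insert_self _ _)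
      exact (h3.smul _).add (h2.cut k)
  · change ‖e i j t - (c i j • 1 + pk k * T i j * pk k)‖ < ε
    have h2 := hTe i j
    have h3 := hk₀ i j k (hkle i j)
    have h4 : e i j t - (c i j • 1 + pk k * T i j * pk k) =
        (e i j t - (c i j • 1 + T i j)) + (T i j - pk k * T i j * pk k) := by abel
    rw [h4]
    have := norm_add_le (e i j t - (c i j • 1 + T i j)) (T i j - pk k * T i j * pk k)
    linarith only [hε, h2, h3, this]

/-- The lift of a matrix of operators to `UU G`. -/
def liftM {κ : Type} (x : Matrix κ κ (L2 (G × ℕ) →L[ℂ] L2 (G × ℕ))) (hx : ∀ i j, x i j ∈ UU G) :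
    Matrix κ κ (UU G) := fun i j => ⟨x i j, hx i j⟩

theorem map_val_inj {κ : Type} {x y : Matrix κ κ (UU G)}
    (h : x.map (UU G).val = y.map (UU G).val) : x = y :=
  Matrix.map_injective Subtype.val_injective h

theorem liftM_map {κ : Type} (x : Matrix κ κ (L2 (G × ℕ) →L[ℂ] L2 (G × ℕ)))
    (hx : ∀ i j, x i j ∈ UU G) : (liftM x hx).map (UU G).val = x := rfl

/-- THE CRITERION. A class in `K_0(C*_r(G))` which is detected by traces of long elements with
at most exponentially small values is not in the image of the assembly map. -/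
theorem not_inImage {len : G → ℕ} (h1 : len 1 = 0)
    (hlen : ∀ g h, len (g * h) ≤ len g + len h)
    {P : L2 G →L[ℂ] L2 G} (hP : P ∈ CstarR G) (hPP : P * P = P) (K : ℝ)
    (H : ∀ L₀ : ℕ, ∃ L ≥ L₀, ∃ t : (L2 G →L[ℂ] L2 G) →L[ℂ] ℂ, ‖t‖ ≤ 2 ∧
      (∀ g h : G, t (lam (g * h)) = t (lam (h * g))) ∧
      (∀ g : G, len g < L → t (lam g) = 0) ∧ Real.exp (-K * L) ≤ ‖t P‖)
    {p : ℕ → G →₀ ℚ} (hp : IsPlacement p) :
    ¬ InImage p (fun _ _ : Fin 1 => P) := by
  classical
  rintro ⟨F, n, e, f, q', hloc, hee, hff, hq, m, x, y, hxy, hX, hY⟩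
  have hq' : q' = fun _ _ => Ei 0 0 P := by
    funext i j
    exact IsCorner.eq_Ei (hq i j)
  subst hq'
  set R : ℕ := (F ×ˢ F).sup fun a => len (a.1⁻¹ * a.2) with hRdef
  have hR : ∀ u ∈ F, ∀ v ∈ F, len (u⁻¹ * v) ≤ R := fun u hu v hv =>
    Finset.le_sup (f := fun a : G × G => len (a.1⁻¹ * a.2)) (Finset.mem_product.2 ⟨hu, hv⟩ :
      (u, v) ∈ F ×ˢ F)
  have hbd : ∃ M : ℝ, ∀ t i j, ‖e i j t‖ ≤ M ∧ ‖f i j t‖ ≤ M := by
    choose Me hMe using fun i j => loc_bounded (hloc i j).1
    choose Mf hMf using fun i j => loc_bounded (hloc i j).2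
    refine ⟨∑ i, ∑ j, (|Me i j| + |Mf i j|), fun t i j => ?_⟩
    have h2 : |Me i j| + |Mf i j| ≤ ∑ i, ∑ j, (|Me i j| + |Mf i j|) := by
      have h3 : ∀ i j, 0 ≤ |Me i j| + |Mf i j| := fun i j => by (clear * -; positivity)
      calc |Me i j| + |Mf i j| ≤ ∑ j, (|Me i j| + |Mf i j|) :=
            Finset.single_le_sum (f := fun j => |Me i j| + |Mf i j|) (fun j _ => h3 i j)
              (Finset.mem_univ j)
        _ ≤ _ := Finset.single_le_sum (f := fun i => ∑ j, (|Me i j| + |Mf i j|))
              (fun i _ => Finset.sum_nonneg fun j _ => h3 i j) (Finset.mem_univ i)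
    have h4 := (hMe i j t).trans (le_abs_self _)
    have h5 := (hMf i j t).trans (le_abs_self _)
    have h6 := abs_nonneg (Me i j)
    have h7 := abs_nonneg (Mf i j)
    constructor <;> linarith only [h2, h4, h7, h5, h6]
  refine abstract_trace_estimate (B := UU G) (Sk G) isClosed_Sk Sk_mono Sk_dense (fil len)
    (fil_mono len) (one_mem_fil h1) (fil_mul hlen) ⟨Ei 0 0 P, Ei_mem_UU hP⟩ 1 (Ei_mem_SkA P) ?_
    (n := n) (fun t => liftM (fun i j => e i j t) fun i j => IsU.mem_UU (loc_mem (hloc i j).1 t))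
    (fun t => liftM (fun i j => f i j t) fun i j => IsU.mem_UU (loc_mem (hloc i j).2 t))
    ?_ ?_ ?_ ?_ ?_ R ?_ ?_ ?_ (fun k => k * 2) (2 * |K|) ?_
  · apply Subtype.ext
    change Ei 0 0 P * Ei 0 0 P = Ei 0 0 P
    rw [Ei_mul_Ei, hPP]
  · intro t
    apply map_val_inj
    rw [Matrix.map_mul]
    have h2 := congrArg (fun M : Matrix (Fin n) (Fin n) (ℝ≥0 → L2 (G × ℕ) →L[ℂ] L2 (G × ℕ)) =>
      M.map (Pi.evalRingHom _ t)) hee
    rw [Matrix.map_mul] at h2
    exact h2
  · intro t
    apply map_val_inj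
    rw [Matrix.map_mul]
    have h2 := congrArg (fun M : Matrix (Fin n) (Fin n) (ℝ≥0 → L2 (G × ℕ) →L[ℂ] L2 (G × ℕ)) =>
      M.map (Pi.evalRingHom _ t)) hff
    rw [Matrix.map_mul] at h2
    exact h2
  · intro i j
    exact (loc_continuous (hloc i j).1).subtype_mk _
  · intro i j
    exact (loc_continuous (hloc i j).2).subtype_mk _
  · exact hbd
  · intro ε hε
    exact exists_approx hp len h1 (fun i j => (hloc i j).1) hR hε
  · intro ε hε
    exact exists_approx hp len h1 (fun i j => (hloc i j).2) hR hε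
  · refine ⟨m, liftM x fun i j => IsU.mem_UU (hxy i j).1, liftM y fun i j => IsU.mem_UU (hxy i j).2, ?_, ?_⟩
    · apply map_val_inj
      rw [Matrix.map_mul, liftM_map, liftM_map, hX, fromBlocks_map, fromBlocks_map]
      simp only [Subalgebra.coe_val, ZeroMemClass.coe_zero, Matrix.map_zero, OneMemClass.coe_one, Matrix.map_one, fromBlocks_inj, and_self, and_true]
      rfl
    · apply map_val_inj
      rw [Matrix.map_mul, liftM_map, liftM_map, hY, fromBlocks_map, fromBlocks_map]
      simp only [Subalgebra.coe_val, ZeroMemClass.coe_zero, Matrix.map_zero, OneMemClass.coe_one, Matrix.map_one, fromBlocks_inj, and_self, and_true]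
      rfl
  · intro L₀
    obtain ⟨L, hL, t, ht2, htr, hlow, hbig⟩ := H (L₀ + 2)
    refine ⟨L - 1, by omega, fun k => (tauK t k).comp valL, fun k => ?_, fun k x hx y hy => ?_,
      fun k x hx hxL => ?_, fun k hk => ?_⟩
    · refine (ContinuousLinearMap.opNorm_comp_le _ _).trans ?_
      have h2 := norm_tauK_le t k
      have h3 := norm_valL_le (G := G)
      have h4 : (0 : ℝ) ≤ k := Nat.cast_nonneg k
      calc ‖tauK t k‖ * ‖(valL : UU G →L[ℂ] _)‖ ≤ (k * ‖t‖) * 1 := by gcongr
        _ ≤ (k * 2) * 1 := by (clear * - ht2; gcongr)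
        _ = k * 2 := mul_one _
    · change tauK t k (x.1 * y.1) = tauK t k (y.1 * x.1)
      exact tauK_trace t (CstarR G) (trace_cstarR t htr) (UU_cmp_mem x.2) (UU_cmp_mem y.2)
        (SkA_comm hx) (SkA_comm hy)
    · obtain ⟨E, hE, hEx⟩ := hxL
      change tauK t k x.1 = 0
      refine tauK_eq_zero t k (fun g h s m n => UU_equivariant x.2 g h s m n) (E := E)
        (fun g h m n hne => hEx g h m n hne) (fun s hs => hlow s ?_)
      have := hE s hs
      omega
    · change Real.exp _ ≤ ‖tauK t k (Ei 0 0 P)‖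
      rw [tauK_Ei t hk]
      refine le_trans (Real.exp_le_exp.2 ?_) hbig
      have h2 : ((L - 1 : ℕ) : ℝ) = (L : ℝ) - 1 := by
        rw [Nat.cast_sub (by omega)]
        simp
      rw [h2]
      have h3 : (2 : ℝ) ≤ L := by exact_mod_cast (by omega : 2 ≤ L)
      have h4 := le_abs_self K
      have h5 := abs_nonneg K
      nlinarith only [h4, h3, h5]

end Vale.Agent.P089.Asm
end
end

section

section

/-!
# P089: the final theorem
-/

namespace Vale.Agent.P089.BC

/-- There is a countable group `G` for which the assembly map `μ_0` is not surjective and such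
that the reduced group C*-algebra of `G` contains a projection with irrational trace. -/
theorem final : ∃ (G : Type) (_ : Group G), Countable G ∧ (∃ p : ℕ → G →₀ ℚ, IsPlacement p) ∧
    ∀ (H : Type) [NormedAddCommGroup H] [InnerProductSpace ℂ H] [CompleteSpace H]
      (E : Type) [NormedAddCommGroup E] [InnerProductSpace ℂ E] [CompleteSpace E]
      (b : HilbertBasis G ℂ H) (c : HilbertBasis (G × ℕ) ℂ E),
      (∀ p : ℕ → G →₀ ℚ, IsPlacement p → ¬ AssemblySurjective b c p) ∧ IrrationalTrace b := by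
  obtain ⟨G, hG, hc, P, hP, hPP, hPs, hx, len, κ, h1, h2, h3⟩ := Vale.Agent.P089.opConclusion
  refine ⟨G, hG, hc, Vale.Agent.P089.exists_placement G, fun H _ _ _ E _ _ _ b c =>
    ⟨fun p hp hsurj => ?_, irrationalTrace_of b hP hPP hPs hx⟩⟩
  refine Vale.Agent.P089.Asm.not_inImage h1 h2 hP hPP κ h3 hp ?_
  have h4 : (Matrix.of fun _ _ : Fin 1 => toH b P) * (Matrix.of fun _ _ : Fin 1 => toH b P) =
      Matrix.of fun _ _ : Fin 1 => toH b P := by
    have h7 : toH b P * toH b P = toH b P := by rw [← map_mul, hPP]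
    ext1 i j
    rw [Matrix.mul_apply, Fin.sum_univ_one]
    exact h7
  have h5 : ((Matrix.of fun _ _ : Fin 1 => toH b P).map (frE b)) = fun _ _ => P := by
    funext i j
    show frE b (toH b P) = P
    ext1 v
    rw [frE_apply, toH_apply, LinearIsometryEquiv.apply_symm_apply,
      LinearIsometryEquiv.apply_symm_apply]
  have h6 := inImage_frE b c p (hsurj 1 (Matrix.of fun _ _ => toH b P)
    (fun _ _ => toH_mem b hP) h4)
  rwa [h5] at h6

end Vale.Agent.P089.BC
end
end
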